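import Vale.Agent.Lib.P154Q5.CkADefs

namespace Vale.Agent.Lib.P154Q5

set_option maxRecDepth 100000
set_option exponentiation.threshold 1000

open Tr

theorem okA0 : CKA ⟨0, 49152, 0, 4096⟩ ⟨0, 49152, 0, 4096⟩ :=
  ckA_sound (a (c (a (c (b z0 (d z0 z0)) (b (d (b z0 (d z0 z0)) (b z0 z0)) z0)) (c (b (d (b z0 z0) (c (b z0 z0) (b z0 z0))) (d (b (d z0 z0) (d z0 z0)) z0)) (b (d (b z0 (d z0 z0)) (b z0 z0)) (d (b (d z0 z0) (d z0 z0)) z0)))) (a (b (d z0 (b z0 (d (c (b z0 (d z0 (c z4 z0))) z0) (c (b z0 z4) (b z0 (d z0 z4)))))) (d z0 (a (b (d (c (b (d z0 z4) z4) z0) z4) z4) z4))) (b (d z0 (b z0 (d (c (a (b (d z0 (c z4 z0)) z4) z5) z0) (c (a (b (d (c z4 (b z0 z4)) (c z4 (b z0 z4))) z4) z5) (a (b (d z0 (c (b z0 z4) (b z0 (d z0 (a (b z4 z4) (b z5 (d z0 (c (a (b z5 (d z0 (c z5 (a z4 z5)))) z0) (a (b z5 (d z0 (c (a z4 z5) (a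 z4 z5)))) z0))))))))) z4) (b z0 z5)))))) (d z0 (b (d z4 (c z4 (a z4 (b (d z0 (c (b z5 (d z0 (a (c z5 (b z5 (d (a z4 z5) (a z4 z5)))) z5))) (b z5 (d z0 (a (b (d z0 (c z5 (a (b z5 (d z0 z5)) z5))) (d z0 (c (a z4 z5) (a z4 z5)))) z5))))) (d z0 (c (b (d z0 (a (c (b (d (a z4 z5) (a z4 z5)) z4) (b (d (a z4 z5) (a z4 z5)) z4)) z5)) (d z0 (a z4 z5))) (b (d z0 (a (b (d z0 (c (a z4 z5) (a z4 z5))) z4) z5)) (d z0 (a z4 z5))))))))) (d (c z4 z0) z4)))))) (c (c (b z0 (d (b (d z0 (a (b z0 (d z0 (a z1 z0))) z0)) (d z0 (a (b (d z0 z1) (d z0 z1)) (b z0 (d z0 z1))))) (c (b (d (a (b z0 (d z1 z1)) z0) z1) z1) z1))) (b z0 (d (b (d z0 (a (c (b z0 (d (a z1 z0) z1)) z5) z0)) (d z0 (a (c (b (d (a z1 (b z0 (d z0 z1))) z1) (d (a z1 (b (d z0 z1) (d z0 z1))) z1)) z5) (c (b z0 (d (a (b z0 (d z0 z1)) (b z0 (d z0 (c (b z0 (d z1 z1)) (b z0 (d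 z5 (a (c (b z0 (d z5 (a z5 (c z1 z5)))) z0) (c (b z0 (d z5 (a (c z1 z5) (c z1 z5)))) z0)))))))) z1)) (b z0 (d z0 z5)))))) (b (d z1 (a z1 z0)) (d (a z1 (c z1 (b z0 (d (a (b z0 (d z5 (c (a z5 (b (d z5 (c z1 z5)) (d z5 (c z1 z5)))) z5))) (b z0 (d z5 (c (b z0 (d (a z5 (c (b z0 z5) z5)) (a (c z1 z5) (c z1 z5)))) z5)))) (a (b z0 (d (c (a (b (d (c z1 z5) z1) (d (c z1 z5) z1)) (b (d (c z1 z5) z1) (d (c z1 z5) z1))) z5) (c z1 z5))) (b z0 (d (c (b z0 (d (a (c z1 z5) (c z1 z5)) z1)) z5) (c z1 z5)))))))) z1))))) (b z0 (d z0 (b (d z5 (c (a z5 z0) z5)) (d (a (c z5 z0) z5) z5)))))) _ _ (by decide +kernel)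

theorem okA1 : CKA ⟨0, 8193, 0, 4096⟩ ⟨0, 6144, 4096, 8192⟩ :=
  ckA_sound (a (b (d (c z0 (b z0 z0)) (b z0 z0)) (d z0 (a z0 (b z0 (d z0 z0))))) (b (d (c (b z0 z0) (b z0 z0)) (b z0 (d (a z0 (b z0 (d z1 (b z0 z1)))) z0))) (d (c (b z0 (d z0 z0)) z0) (b (d (a z0 (b (d z1 z1) (d z1 z1))) z0) (d (a z0 (b (d z0 z0) (d z0 z0))) z0))))) _ _ (by decide +kernel)

theorem okA2 : CKA ⟨0, 4097, 0, 4096⟩ ⟨6144, 12288, 4096, 8192⟩ :=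
  ckA_sound (b (d (b z0 (d (c (b z0 z0) (b z0 z12)) (c z8 (b z0 z8)))) (b z0 z8)) (d (a (b (d (c z0 z12) z8) z8) z8) z8)) _ _ (by decide +kernel)

theorem okA3 : CKA ⟨4097, 8193, 0, 2048⟩ ⟨6144, 12288, 4096, 8192⟩ :=
  ckA_sound (d (b z0 (d (c (a (b (d z0 z8) z0) z1) (a (b (d (b z0 z12) (b z0 z12)) z12) (b z0 z13))) (c (a z8 (b z0 z9)) (a (b (d (b z0 z12) (b z0 z8)) z8) (b z0 (d z13 (b z0 z9))))))) (b z0 (d (c (a (b (d (c z8 (b z0 z8)) (c z0 (b z0 z8))) z8) (b z0 (d (c z9 (b z0 z9)) (c (b z0 z1) (b z0 z9))))) (a (b (d (b z0 z8) (b z0 (d (c z8 (a z8 z9)) (c z8 (a z8 z9))))) z8) (b z0 (d (b z0 z9) (b z0 (d (c z9 (a z9 z0)) (c (a z9 z0) (a z9 z0)))))))) (a (b (d (c (b z0 (d (c z0 z8) (a z0 z1))) (b z0 (d (c (a z8 z9) (a z8 (b (d (c z9 (a z9 z0)) (c (a z9 z0) (a z9 z0))) z9))) (c (a z8 (b (d (c z9 (a z9 z0)) (c (a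 z1 z0) (a z9 z0))) z9)) (a z8 (b (d (c (a z9 z0) (a z9 z0)) (c (a z9 z0) (a z9 z0))) z9)))))) (b z0 (d (c (a z0 (b (d (c (a z1 z0) (a z1 z0)) (a z1 z0)) z1)) (a z8 (b (d (c (a z9 z0) (a z9 z0)) (c (a z9 z0) (a z9 z0))) z9))) (a z0 (b (d (c (a z1 z0) (a (b z0 z9) z0)) (a (b z0 z1) z0)) (d (c z1 (a z9 z0)) (a z1 z0))))))) (d (c z0 (a z8 (b (d z8 (c z8 (b (d z8 (a z8 z9)) z8))) z8))) (a z0 (b (d (c (b (d (a z0 z1) (a z0 z1)) z0) (b (d (a z8 z9) (a z8 z9)) z8)) (b (d (a z0 z1) (a z0 z1)) (d (a z0 z1) (a z0 z1)))) z0)))) (b z0 (d (c (b z0 (d (c (a z1 z0) (a z9 z0)) (a z1 z0))) (b z0 (d (a z9 z0) (a z9 z0)))) (b z0 (d (c (a (b (d z1 (a z1 z0)) z1) z0) (a (b (d z9 (a z9 z0)) z9) z0)) (a (b (d (a z1 z0) (a z1 z0)) (d z1 (a z1 z0))) z0))))))))) _ _ (by decide +kernel)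

theorem okA4 : CKA ⟨4097, 8193, 2048, 4096⟩ ⟨6144, 12288, 4096, 8192⟩ :=
  ckA_sound (d (b (d (c z0 z12) (c z8 (a z8 (b z9 (d (b (d (c z9 (a (b z13 z12) z13)) (c z9 (a (b z13 z12) z13))) (d (c (a z8 z9) (a z12 z13)) (c (a z8 z9) (a z12 z13)))) (b (d (c z9 (a (b z13 z12) z13)) (c z9 (a (b z13 z12) z13))) (d (c (a z8 z9) (a z12 z13)) (c (a z8 z9) (a z12 z13))))))))) z8) (b (d (c (a z8 (b z9 (d (c z9 (b z9 (d (a z8 z9) (a z8 z9)))) (c (b z1 (d (a z0 z1) z1)) (b z9 (d (a z8 z9) (a z8 z9))))))) (a z8 (b z9 (d (b (d (c z9 (a (b z9 z8) z9)) (c z9 (a (b z9 z8) z9))) (d (c (a z8 z9) (a z8 z9)) (c (a z8 z9) (a z8 z9)))) (b (d (c z9 (a (b z9 z8) z9)) (c z9 (a (b z9 z8) z9))) (d (c (a z8 z9) (a z8 z9)) (c (a z8 z9) (a z8 z9)))))))) (a z0 (b (d (c (b (d z1 (a z1 z0)) (d z1 z1)) (b (d z9 (a z9 z0)) z9)) (b (d (c (a z1 z0)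 (a z9 z0)) (a z1 z0)) (d (c (a z1 (b (d z1 z1) z1)) z9) (a z1 (b (d (c (a z1 z0) z9) (a z1 z0)) (d z1 z1)))))) (d (c (b (d (c z1 z9) z1) (d (c (a z0 z1) (a z8 z9)) (a z0 z1))) (b (d (a (c (b z9 z8) (b z9 z8)) z9) (a (c (b z9 z8) (b z9 z8)) z9)) (d (a z8 z9) (a z8 z9)))) (b (d (c (a (b z1 (d z0 (a z0 z1))) z1) (a (b (d z9 (a z8 z9)) (d z8 (a z8 z9))) z9)) (a (b (d (a z0 z1) (a z0 z1)) (d (a z0 z1) (a z0 z1))) z1)) (d (c (a z0 z1) (a z8 z9)) (a (b (d (a z0 z1) (a z0 z1)) (d z0 z0)) z1))))))) (d (c z8 (a z8 (b (d z8 (b (d (c z8 (a z8 z9)) (c (a z8 z9) (a z8 z9))) z8)) z8))) (a z0 (b (d (c (b (d (c (a z0 z1) (a z8 z9)) (a z0 z1)) (d z0 (a z0 z1))) (b (d (a z8 z9) (a z8 z9)) (d (a z8 z9) (a z8 z9)))) (b (d (c (a z0 z1) (a z8 z9)) (a z0 z1)) (d (c (a z0 z1) (a z8 z9)) (a z0 z1)))) (d z8 (b (d (c (a z0 (b z1 (d z0 (a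 z0 z1)))) (a z8 (b z9 z8))) (a z0 (b (d z1 (a z0 z1)) (d (c (a z0 z1) z8) (a z0 z1))))) (d (c (a z0 (b (d z0 z0) z0)) z8) (a z0 (b (d z0 (a z0 (b z1 z0))) (d z0 z0))))))))))) _ _ (by decide +kernel)

theorem okA5 : CKA ⟨0, 8193, 0, 4096⟩ ⟨0, 12288, 8192, 12288⟩ :=
  ckA_sound (a (b (d (b z0 z0) z0) (d z0 z0)) (b (d (b z0 (d (a (b (d (b z0 (d (a z0 (b (d (a (b z0 z1) z0) z0) (d (a z1 z0) z0))) z0)) z0) (d (a z0 (b (d (b (d (a z0 z1) z0) (d (a z0 z1) z0)) z0) (d (b (d (a z0 z1) z0) z0) z0))) z0)) (b z0 (d (b z0 (d (a (b (d (a z1 z0) z0) (d (a z1 z0) z0)) z0) z0)) z0))) z0)) z0) (d (b (d (a (b (d z0 z0) z0) (b (d (b (d (a (b (d z1 z0) z1) z0) z0) (d (a z1 (b (d (a z1 z0) z0) (d z1 z0))) z0)) z0) (d (b (d (a (b (d (a z0 z1) z0) (d (a z0 z1) z0)) (b (d z1 z0) z1)) z0) (d (a (b (d (a z0 z1) z0) (d (a z0 (b z1 z0)) z0))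 z1) z0)) z0))) z0) (d (a z0 (b (d (b (d (a (b (d z0 z0) z0) z1) z0) (d (a z0 (b z1 (d z1 z0))) z0)) z0) (d (b (d (a z0 (b (d (a z0 z1) z0) (d (a z0 z1) z0))) z0) (d (a z0 (b (d (a z0 (b z1 (d z0 z0))) z0) (d z0 z0))) z0)) z0))) z0)) z0))) _ _ (by decide +kernel)

theorem okA6 : CKA ⟨8193, 49152, 0, 4096⟩ ⟨0, 12288, 4096, 8192⟩ :=
  ckA_sound (c (b z0 (d (c (b (d z1 (a z1 z0)) (d z1 (a z1 (b z0 (d z1 z1))))) (b (d z1 (a z1 z0)) z1)) (b (d (a (b z0 (d z1 (a (b z0 (d z1 z1)) z0))) z0) z0) (d (a (b (d z1 (a (b (d z1 z1) z1) (b z0 (d z1 z1)))) (d z1 (a z1 (b (d z1 z1) (d z1 z1))))) (b z0 (d (c (a (b z0 (d z1 z1)) (b z0 (d z1 z1))) z1) (a (b z0 (d z1 z1)) (b z0 (d (c (b z0 z1) z1) (b z0 (d z1 z0)))))))) z0)))) (b z0 (d (b (d (c (a z1 z0) (a (b z0 z13) z0)) (c (a (b z0 z9) z0) (a (b z0 (d (a (b z0 (d z13 (c z9 z13)))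 z0) (a z9 z0))) z0))) (d (a z9 (c z1 (b z0 (d z13 (a z13 (b z0 (d z13 (c (b z0 (d z13 (c z9 z13))) z13)))))))) (a z9 (c (b z0 z9) (b z0 z9))))) (b (d (c (a (b z0 (d z9 (c (a z1 z0) (a z9 z0)))) z0) (a (b z0 (d (a z9 z0) (a z9 z0))) z0)) (a (b z0 (d (c (a (b z0 (d z1 (a z1 z0))) z0) (a (b z0 z9) z0)) (a (b z0 (d (c (a z1 z0) z9) (a (b (d z1 z1) z1) z0))) z0))) z0)) (d (a z9 (c (b z0 z9) (b z0 (d z9 (a z9 (b z0 z9)))))) (a (b (d (c (a (b (d z1 z1) (d z1 z1)) (b z0 (d (c (a z1 z0) z9) (a (b z0 z1) z0)))) (a z9 (b z0 z9))) (a (b (d (c (a z1 (b (d z1 z1) z1)) z9) (a z1 (b (d z1 z1) (d z1 z1)))) (d z1 z1)) (b z0 (d (c (a (b z0 (d z1 z1)) z0) z9) (a (b z0 (d z1 z1)) z0))))) (d z9 (a (b (d z1 z1) (d z1 z1)) (b (d (c (a z1 (b (d z1 z1) (d z1 z1))) z9) (a (b (d z1 z1) z1) (b (d z1 z1) (d z1 z1)))) (d z1 (a z1 (b (d z1 z1)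 z1))))))) (b z0 (d (c (a (b z0 (d (c (a z1 (b (d z1 z1) z1)) z9) (a (b (d z1 z1) z1) (b (d z1 z1) (d z1 z1))))) (b z0 (d (c (b z0 (d z1 (a z1 (c (b z0 z1) z1)))) z9) (b z0 (d (c (a z1 (b z0 (d z1 z1))) z1) (a z1 (c (b z0 (d z1 z1)) z1))))))) (a z9 (b z0 z9))) (a (b z0 (d (c (a (b (d z1 z1) (d z1 z1)) (b (d z1 (b z0 z1)) (d z1 z1))) z9) (a (b (d z1 z1) (d z1 z1)) (b (d (c (b z0 z1) z9) (b z0 (d z1 z1))) (d z1 z1))))) (b z0 (d (c (b z0 (d (a (c (b z0 z1) z1) (c (b z0 (d z1 z1)) z1)) (a (b z0 z1) (b z0 (d z1 z1))))) z9) (b z0 (d (a (c (b z0 (d z1 z1)) z9) (c (b z0 (d z1 (a z1 (b z0 z1)))) z9)) (a (b z0 (d z1 z1)) (b z0 (d (a z1 (c (b z0 z1) z1)) (a z1 (b z0 (d z1 z1))))))))))))))))))) _ _ (by decide +kernel)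

theorem okA7 : CKA ⟨8193, 49152, 0, 4096⟩ ⟨0, 12288, 8192, 12288⟩ :=
  ckA_sound (b z0 (d (b (d (a (b z0 (d (a (b z0 (d (a (b (d z1 z0) (d z1 z0)) z0) z0)) z0) z0)) z0) z0) (d (a (b (d (a (b (d (a z1 (b (d (a z1 z0) z0) (d z1 z0))) z0) (d (a z1 (b (d z1 z0) z1)) z0)) (b z0 (d (a (b z0 (d z1 z0)) z0) z0))) z0) (d (a (b (d z1 z0) (d (a (b z1 (d z1 z0)) z1) z0)) (b (d (a (b (d z1 z0) z1) (b (d z1 z0) (d z1 z0))) z0) (d (a z1 (b (d z1 z0) (d z1 z0))) z0))) z0)) (b z0 (d (a (b z0 (d (a (b (d z1 z0) (d z1 z0)) (b (d (b z0 (d z1 z0)) z0) (d z1 z0))) z0)) (b z0 (d (b z0 (d (a (b z0 (d z1 z0)) (b z0 (d (a z1 (b z0 (d z1 z0))) z0))) z0)) z0))) z0))) z0)) z0)) _ _ (by decide +kernel)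

theorem okA8 : CKA ⟨0, 4097, 0, 4096⟩ ⟨12288, 24576, 4096, 8192⟩ :=
  ckA_sound (b (d (b z0 (d (b z0 z12) (b z0 z12))) (b z0 (d (c (b z0 z12) (b z0 z12)) z12))) z12) _ _ (by decide +kernel)

theorem okA9 : CKA ⟨4097, 8193, 0, 1024⟩ ⟨12288, 24576, 4096, 6144⟩ :=
  ckA_sound z0 _ _ (by decide +kernel)

theorem okA10 : CKA ⟨4097, 8193, 1024, 2048⟩ ⟨12288, 24576, 4096, 5120⟩ :=
  ckA_sound (a (b (d (c (b z0 z12) (b z0 (d (a (b z12 z12) (b z13 (d (c (a (b z13 (d (c z13 (a z12 z13)) (c z13 (a z12 z13)))) z0) (a (b z13 (d (c (a z12 z13) (a z12 z13)) (c (a z12 z13) (a z12 z13)))) z0)) (c (a (b z13 (d (c z13 (a z12 z13)) (c z13 (a z12 z13)))) z0) (a (b z13 (d (c (a z12 z13) (a z12 z13)) (c (a z12 z13) (a z12 z13)))) z0))))) (a (c z12 (b z12 z12)) (c (b z13 (d (a (c z13 (b z13 (d (a z12 z13) (a z12 z13)))) z0) (a (c z13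 (b z13 (d (a z12 z13) (a z12 z13)))) z0))) (b z13 (d (a (b z13 (d (c (a z12 z13) (a z12 z13)) (c (a z12 z13) (a z12 z13)))) z0) (a (b z13 (d (c (a z12 z13) (a z12 z13)) (c (a z12 z13) (a z12 z13)))) z0)))))))) (c (b z0 z12) (b z0 (d (a z12 (b z13 (d (c (a (b z13 (d (c z13 (a z12 z13)) (c z13 (a z12 z13)))) z0) (a (b z13 (d (c (a z12 z13) (a z12 z13)) (c (a z12 z13) (a z12 z13)))) z0)) (c (a (c z13 (b z13 (d (a z12 z13) (a z12 z13)))) z0) (a (b z13 (d (c (a z12 z13) (a z12 z13)) (c (a z12 z13) (a z12 z13)))) z0))))) (a (c z12 (b (d z12 z12) z12)) (c (b z13 (d (c z13 (a (b z13 (d (a z12 z13) (a z12 z13))) z0)) (c z13 (a (b z13 (d (a z12 z13) (a z12 z13))) z0)))) (b (d (a z13 z0) (a (c z13 (b z0 z13)) z0)) (d (a (b z13 (d (c (a z12 z13) (a z12 z13)) (c (a z12 z13) (a z12 z13)))) z0) (a (c (b z13 (d (a z12 z13) (a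 z12 z13))) (b z13 (d (a z12 z13) (a z12 z13)))) z0))))))))) z12) (b z0 z13)) _ _ (by decide +kernel)

theorem okA11 : CKA ⟨4097, 6145, 1024, 1536⟩ ⟨12288, 24576, 5120, 5632⟩ :=
  ckA_sound (c (b z0 (d (c z12 (a z12 z13)) (c z12 (a z12 z13)))) (b z0 (d (a (c z12 (b (d z12 (c z12 (b z0 z12))) z12)) (c (b z13 (d (c z13 (a (b z13 (d (a z12 z13) (a z12 z13))) z0)) (c z13 (a (b z13 (d (a z12 z13) (a z12 z13))) z0)))) (b (d (a (b z0 z13) z0) (a (c z13 (b z0 z13)) z0)) (d (a (b z13 (d (c (a z12 z13) (a z12 z13)) (c (a z12 z13) (a z12 z13)))) z0) (a (c (b z13 (d (a z12 z13) (a z12 z13))) (b z13 (d (a z12 z13) (a z12 z13)))) z0))))) (c (a z12 (b (d (c z13 (a z13 z0)) (c z13 (a z13 z0))) (d (c z13 (a (b z13 (d (c (a z12 z13) (a z12 z13)) (c z13 (a z12 z13)))) z0)) (c z13 (a (b z13 (d (c z13 (a z12 z13)) (c z13 (a z12 z13))))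 z0))))) (a (b (d (c z12 (b z0 z12)) (c z12 (b z0 z12))) z12) (b (d (a (c (b z0 z13) (b z0 z13)) z0) (c (a (b z0 z13) z0) (a (b z0 z13) z0))) (d (a (c (b z13 (d (a z12 z13) (a z12 z13))) (b z13 (d (a z12 z13) (a z12 z13)))) z0) (c (a (b z13 (d (c (a z12 z13) (a z12 z13)) (c (a z12 z13) (a z12 z13)))) z0) (a (b z13 (d (a z12 z13) (c (a z12 z13) (a z12 z13)))) z0))))))))) _ _ (by decide +kernel)

theorem okA12 : CKA ⟨4097, 6145, 1024, 1536⟩ ⟨12288, 24576, 5632, 6144⟩ :=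
  ckA_sound (c (b z0 (d (c z12 (a z12 z13)) (c (a z12 z13) (a z12 (b (d z13 (c z13 (a z13 z0))) z13))))) (b z0 (d (c (a z12 (b (d (c (a z13 z0) (a (b z0 z13) z0)) (c (a z13 z0) (a (b z0 z13) z0))) (d (c z13 (a (b z13 (d (c (a z12 z13) (a z12 z13)) (c (a z12 z13) (a z12 z13)))) z0)) (c z13 (a (b z13 (d (c (a z12 z13) (a z12 z13)) (c z13 (a z12 z13)))) z0))))) (a (b (d (c z12 (b z0 z12)) (c z12 (b z0 z12))) z12) (b (d (a (c (b z0 z13) (b z0 z13)) z0) (c (a (b z0 z13) z0) (a (b z0 z13) z0))) (d (a (c (b z13 (d (a z12 z13) (a z12 z13))) (b z13 (d (a z12 z13) (a z12 z13)))) z0) (c (a (b z13 (d (c (a z12 z13) (a z12 z13)) (c (a z12 z13) (a z12 z13)))) z0) (a (b z13 (d (a z12 z13) (c (a z12 z13) (a z12 z13)))) z0)))))) (c (a z12 (b (d (c (a z13 z0) (a (b z0 z13) z0)) (c (a z13 z0) (a (b z0 z13) z0))) (d (c z13 (a (b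 z13 (d (c (a z12 z13) (a z12 z13)) (c z13 (a z12 z13)))) z0)) (c z13 (a (b z13 (d (c z13 (a z12 z13)) (c z13 (a z12 z13)))) z0))))) (a (b (d (c z12 (b z0 z12)) (c z12 (b z0 z12))) z12) (b (d (c (a (b z0 z13) z0) (a (b z0 z13) z0)) (c (a (b z0 z13) z0) (a (b z0 z13) z0))) (d (c (a (b z13 (d (c (a z12 z13) (a z12 z13)) (c (a z12 z13) (a z12 z13)))) z0) (a (b z13 (d (a z12 z13) (c (a z12 z13) (a z12 z13)))) z0)) (c (a (b z13 (d (c (a z12 z13) (a z12 z13)) (c (a z12 z13) (a z12 z13)))) z0) (a (b (d z13 z13) (d (a z12 z13) (c (a z12 z13) (a z12 z13)))) z0))))))))) _ _ (by decide +kernel)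

theorem okA13 : CKA ⟨4097, 6145, 1536, 2048⟩ ⟨12288, 24576, 5120, 6144⟩ :=
  ckA_sound (d (c z12 (a z12 (b (d (c z12 (b (d (a z12 z13) (a z12 z13)) z12)) (c z12 (b (d (a z12 z13) (a z12 z13)) z12))) z12))) (c z12 (a z12 (b (d (c (b (d (a z12 z13) (a z12 z13)) z12) (b (d (a z12 z13) (a z12 z13)) (d z12 (a z12 (c (b z13 (d (a z12 z13) (a z12 z13))) (b (d (a (b z13 (d (c (a z12 z13) (a z12 z13)) (c (a z12 z13) (a z12 z13)))) z13) (a (c (b z13 (d (a z12 z13) (a z12 z13))) (b z13 (d (a z12 z13) (a z12 z13)))) z13)) (d (a z12 z13) (a z12 z13)))))))) (c (b (d (a z12 z13) (a z12 z13)) z12) (b (d (a z12 z13) (a z12 z13)) (d (a z12 (c (b z13 (d (a z12 z13) (a z12 z13))) (b (d (a (b z13 (d (c (a z12 z13) (a z12 z13)) (c (a z12 z13) (a z12 z13)))) z13) (a (c (b z13 (d (a z12 z13) (a z12 z13))) (b z13 (d (a z12 z13) (a z12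 z13)))) z13)) (d (a z12 z13) (a z12 z13))))) (a z12 (c (b z13 (d (a z12 z13) (a z12 z13))) (b (d (a (c (b z13 (d (a z12 z13) (a z12 z13))) (b z13 (d (a z12 z13) (a z12 z13)))) z13) (a (c (b z13 (d (a z12 z13) (a z12 z13))) (b z13 (d (a z12 z13) (a z12 z13)))) z13)) (d (a z12 z13) (a z12 z13))))))))) z12)))) _ _ (by decide +kernel)

theorem okA14 : CKA ⟨6145, 8193, 1024, 2048⟩ ⟨12288, 24576, 5120, 6144⟩ :=
  ckA_sound (b z0 (d z13 (c z13 z13))) _ _ (by decide +kernel)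

end Vale.Agent.Lib.P154Q5
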