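import Vale.Agent.Lib.P154Q5.CkADefs

namespace Vale.Agent.Lib.P154Q5

set_option maxRecDepth 100000
set_option exponentiation.threshold 1000

open Tr

theorem okA15 : CKA ⟨4097, 8193, 0, 1024⟩ ⟨12288, 24576, 6144, 8192⟩ :=
  ckA_sound z0 _ _ (by decide +kernel)

theorem okA16 : CKA ⟨4097, 8193, 1024, 2048⟩ ⟨12288, 17067, 6144, 7168⟩ :=
  ckA_sound (a (b (d (c (b z0 (d (a z12 z13) (a z12 (c z13 (b (d z13 (a z13 z0)) z13))))) (b z0 (d (a z12 (c (b (d (a z13 z0) (a z13 z0)) z13) (b (d (a z13 z0) (a z13 z0)) z13))) (a z12 (c (b (d (a z13 z0) (a z13 z0)) z13) (b (d (a (b z0 z13) z0) (a (b z0 z13) z0)) z13)))))) (c (b z0 (d (a z12 (c z9 (b (d (a z13 z0) (a z13 z0)) z13))) (a z8 (c (b (d (c z9 (a z9 z0)) (c (a z9 z0) (a z9 z0))) z9) (b (d (a z13 z0) (a z9 z0)) z13))))) (b z0 (d (a z12 (c (b (d (a z13 z0) (a z13 z0)) z13) (b (d (a (b z0 z13) z0) (a (b z0 z13)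 z0)) z13))) (a z12 (c (b (d (a z13 z0) (a z13 z0)) z13) (b (d (a (b z0 z13) z0) (a (b z0 z13) z0)) z13))))))) (d (c z12 (a z12 (b (d (c z12 (b (d (a z12 z13) (a z12 z13)) z12)) (c z12 (b (d (a z12 z13) (a z12 z13)) z12))) z12))) (c z8 (a z12 (b (d (c (b (d z12 (a z12 z13)) z12) (b (d (a z12 z13) (a z12 z13)) z12)) (c (b (d (a z12 z13) (a z12 z13)) z12) (b (d (a z12 z13) (a z12 z13)) z12))) z12))))) (b z0 (d (c (b z0 (d z13 (a z13 z0))) (b z0 z13)) (c (b z0 (d (a z13 z0) (a z9 z0))) (b z0 (d (a z13 z0) (a z13 z0))))))) _ _ (by decide +kernel)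

theorem okA17 : CKA ⟨4097, 6145, 1024, 1536⟩ ⟨17067, 24576, 6144, 6656⟩ :=
  ckA_sound (b z0 (d (a (c z12 (b (d (b z0 z12) (c (b z0 z12) (b z0 z12))) z12)) (c (b (d (c (a (b z0 z13) z0) (a (b z0 z13) z0)) (c (a (b z0 z13) z0) (a (b z0 z13) z0))) (d (c (a (b z13 (d (c z13 (a z12 z13)) (c z13 (a z12 z13)))) z0) (a (b z13 (d (c (a z12 z13) (a z12 z13)) (c (a z12 z13) (a z12 z13)))) z0)) (c z13 (a (b z13 (d (c (a z12 z13) (a z12 z13)) (c (a z12 z13) (a z12 z13)))) z0)))) (b (d (a (b z0 z13) z0) (a (c (b z0 z13) (b z0 z13)) z0)) (d (a (b (d z13 z13) (d (c (a z12 z13) (a z12 z13)) (c (a z12 z13) (a z12 z13)))) z0) (a (c (b z13 (d (a z12 z13) (a z12 z13))) (b (d z13 z13) (d (a z12 z13) (a z12 z13)))) z0))))) (c (a z12 (b (d (c (a (b z0 z13) z0) (a (b z0 z13) z0)) (c (a (b z0 z13) z0) (a (b z0 z13) z0))) (d (c z13 (a (b z13 (d (c (a z12 z13) (a z12 z13)) (c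 (a z12 z13) (a z12 z13)))) z0)) (c z13 (a (b z13 (d (c (a z12 z13) (a z12 z13)) (c (a z12 z13) (a z12 z13)))) z0))))) (a (b (d (c (b z0 z12) (b z0 z12)) (c (b z0 z12) (b z0 z12))) z12) (b (d (a (c (b z0 z13) (b z0 (d z13 (a z13 z0)))) z0) (c (a (b z0 z13) z0) (a (b z0 (d (a z13 z0) (c z13 (a z13 z0)))) z0))) (d (a (c (b z13 (d (a z12 z13) (a z12 z13))) (b (d z13 z13) (d (a z12 z13) (a z12 z13)))) z0) (c (a (b z13 (d (c (a z12 z13) (a z12 z13)) (c (a z12 z13) (a z12 z13)))) z0) (a (b (d z13 z13) (d (a z12 z13) (c (a z12 z13) (a z12 z13)))) z0)))))))) _ _ (by decide +kernel)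

theorem okA18 : CKA ⟨4097, 6145, 1024, 1536⟩ ⟨17067, 24576, 6656, 7168⟩ :=
  ckA_sound (b z0 (d (c (a z12 (b (d (c (a (b z0 z13) z0) (a (b z0 z13) z0)) (c (a (b z0 z13) z0) (a (b z0 z13) z0))) (d (c z13 (a (b z13 (d (c (a z12 z13) (a z12 z13)) (c (a z12 z13) (a z12 z13)))) z0)) (c z13 (a (b z13 (d (c z13 (a z12 z13)) (c z13 (a z12 z13)))) z0))))) (a (b (d (c (b z0 z12) (b z0 z12)) (c (b z0 z12) (b z0 z12))) z12) (b (d (c (a (b z0 z13) z0) (a (b z0 (d (a z13 z0) (c (a z13 z0) (a z13 z0)))) z0)) (c (a (b z0 z13) z0) (a (b z0 (d (c (a z13 z0) (a z13 z0)) (c (a z13 z0) (a z13 z0)))) z0))) (d (c (a (b z13 (d (c (a z12 z13) (a z12 z13)) (c (a z12 z13) (a z12 z13)))) z0) (a (b (d z13 z13) (d (a z12 z13) (c (a z12 z13) (a z12 z13)))) z0)) (c (a (b z13 (d (c (a z12 z13) (a z12 z13)) (c (a z12 z13) (a z12 z13)))) z0) (a (b (d z13 z13) (d (c (a z12 z13) (a z12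 z13)) (c (a z12 z13) (a z12 z13)))) z0)))))) (c (a z12 (b (d (c (a (b z0 z13) z0) (a (b z0 z13) z0)) (c (a (b z0 z13) z0) (a (b z0 z13) z0))) (d (c z13 (a (b z13 (d (c z13 (a z12 z13)) (c z13 (a z12 z13)))) z0)) (c z13 (a (b z13 (d (c z13 (a z12 z13)) (c z13 (a z12 z13)))) z0))))) (a (b (d (c (b z0 z12) (b z0 z12)) (c (b z0 z12) (b z0 z12))) z12) (b (d (c (a (b z0 (d (c z13 (a z13 z0)) (c z13 (a z13 z0)))) z0) (a (b z0 (d (c (a z13 z0) (a z13 z0)) (c (a z13 z0) (a z13 z0)))) z0)) (c (a (b z0 (d (c z13 (a z13 z0)) (c (a z13 z0) (a z13 z0)))) z0) (a (b z0 (d (c (a z13 z0) (a z13 z0)) (c (a z13 z0) (a z13 z0)))) z0))) (d (c (a (b z13 (d (c (a z12 z13) (a z12 z13)) (c (a z12 z13) (a z12 z13)))) z0) (a (b z13 (d (c (a z12 z13) (a z12 z13)) (c (a z12 z13) (a z12 z13)))) z0)) (c (a (b z13 (d (c (a z12 z13) (a z12 z13)) (c (a z12 z13) (a z12 z13)))) z0) (a (b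 z13 (d (c (a z12 z13) (a z12 z13)) (c (a z12 z13) (a z12 z13)))) z0)))))))) _ _ (by decide +kernel)

theorem okA19 : CKA ⟨4097, 6145, 1536, 2048⟩ ⟨17067, 24576, 6144, 6656⟩ :=
  ckA_sound (a z12 (b (d (c (b (d (a z12 z13) (a z12 z13)) z12) (b (d (a z12 z13) (a z12 z13)) (d (a z12 (b (d (a (c z13 (b z13 (d (a z12 z13) (a z12 z13)))) z13) (c z13 (a (b z13 (d (a z12 z13) (c (a z12 z13) (a z12 z13)))) z13))) (d (a z12 z13) (c (a z12 z13) (a z12 z13))))) (a z12 (c (b z13 (d (a z12 z13) (a z12 z13))) (b (d (a (b z13 (d (a z12 z13) (c (a z12 z13) (a z12 z13)))) z13) (a (c (b z13 (d (a z12 z13) (a z12 z13))) (b z13 (d (a z12 z13) (a z12 z13)))) z13)) (d (a z12 z13) (a z12 z13)))))))) (c (b (d (a z12 z13) (a z12 z13)) (d (a z12 (c (b z13 (d (a z12 z13) (a z12 z13))) (b z13 (d (a z12 z13) (a z12 z13))))) (a z12 (c (b z13 (d (a z12 z13) (a z12 z13))) (b z13 (d (a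 z12 z13) (a z12 z13))))))) (b (d (a z12 z13) (a z12 z13)) (d (a z12 (c (b (d (a (c z13 (b z13 (d (a z12 z13) z13))) z13) z13) (d (a z12 z13) (a z12 z13))) (b (d (a (b z13 (d (a z12 z13) (c (a z12 z13) (a z12 z13)))) z13) (a (c (b z13 (d (a z12 z13) (a z12 z13))) (b z13 (d (a z12 z13) (a z12 z13)))) z13)) (d (a z12 z13) (a z12 z13))))) (a z12 (c (b z13 (d (a z12 z13) (a z12 z13))) (b (d (a (c (b z13 (d (a z12 z13) (a z12 z13))) (b z13 (d (a z12 z13) (a z12 z13)))) z13) (a (c (b z13 (d (a z12 z13) (a z12 z13))) (b z13 (d (a z12 z13) (a z12 z13)))) z13)) (d (a z12 z13) (a z12 z13))))))))) z12)) _ _ (by decide +kernel)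

theorem okA20 : CKA ⟨4097, 6145, 1536, 2048⟩ ⟨17067, 24576, 6656, 7168⟩ :=
  ckA_sound (a z12 (b (d (c (b (d (a z12 z13) (a z12 z13)) (d (a z12 (c (b z13 (d (a z12 z13) (a z12 z13))) (b z13 (d (a z12 z13) (a z12 z13))))) (a z12 (c z13 (b z13 (d (a z12 z13) (a z12 z13))))))) (b (d (a z12 z13) (a z12 z13)) (d (a z12 (c (b z13 (d (a z12 z13) (a z12 z13))) (b (d (a (c (b z13 (d (a z12 z13) (a z12 z13))) (b z13 (d (a z12 z13) (a z12 z13)))) z13) (a (c (b z13 (d (a z12 z13) (a z12 z13))) (b z13 (d (a z12 z13) (a z12 z13)))) z13)) (d (a z12 z13) (a z12 z13))))) (a z12 (c (b z13 (d (a z12 z13) (a z12 z13))) (b (d (a (c (b z13 (d (a z12 z13) (a z12 z13))) (b z13 (d (a z12 z13) (a z12 z13)))) z13) (a (c (b z13 (d (a z12 z13) (a z12 z13))) (b z13 (d (a z12 z13) (a z12 z13)))) z13)) (d (a z12 z13) (a z12 z13)))))))) (c (b (d (c (a z12 z13) (a z12 z13)) (c (a z12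 z13) (a z12 z13))) (d (c (a z12 z13) (a z12 (b z13 (d (c (a z12 z13) (a z12 z13)) (c (a z12 z13) (a z12 z13)))))) (c (a z12 z13) (a z12 (b z13 (d (c (a z12 z13) (a z12 z13)) (c (a z12 z13) (a z12 z13)))))))) (b (d (a z12 z13) (a z12 z13)) (d (a z12 (c (b z13 (d (a z12 z13) (a z12 z13))) (b (d (a (c (b z13 (d (a z12 z13) (a z12 z13))) (b z13 (d (a z12 z13) (a z12 z13)))) z13) (a (c (b z13 (d (a z12 z13) (a z12 z13))) (b z13 (d (a z12 z13) (a z12 z13)))) z13)) (d (a z12 z13) (a z12 z13))))) (a z12 (c (b z13 (d (a z12 z13) (a z12 z13))) (b (d (a (c (b z13 (d (a z12 z13) (a z12 z13))) (b z13 (d (a z12 z13) (a z12 z13)))) z13) (a (c (b z13 (d (a z12 z13) z13)) (b z13 (d (a z12 z13) (a z12 z13)))) z13)) (d (a z12 z13) (a z12 z13))))))))) (d (c z12 (b (d z12 (a z12 (c (b (d (a z12 z13) (a z12 z13)) (d (a z12 z13) (a z12 z13))) (b (d (a z12 z13) (a z12 z13))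 (d (a z12 z13) (a z12 z13)))))) z12)) (c z12 (b (d (a z12 (c (b (d (a z12 z13) (a z12 z13)) (d (a z12 z13) (a z12 z13))) (b (d (a z12 z13) (a z12 z13)) (d (a z12 z13) (a z12 z13))))) (a z12 (c (b (d (a z12 z13) (a z12 z13)) (d (a z12 z13) (a z12 z13))) (b (d (a z12 z13) (a z12 z13)) (d (a z12 z13) (a z12 z13)))))) z12))))) _ _ (by decide +kernel)

theorem okA21 : CKA ⟨6145, 8193, 1024, 2048⟩ ⟨17067, 24576, 6144, 7168⟩ :=
  ckA_sound (b z0 (d (b z0 z13) (b z0 (d z13 (c (a z13 z0) z13))))) _ _ (by decide +kernel)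

theorem okA22 : CKA ⟨4097, 6145, 1024, 1536⟩ ⟨12288, 18432, 7168, 7680⟩ :=
  ckA_sound (c (b z0 (d (c (a z8 (b (d (c (a z9 z0) (a z9 z0)) (c (a z9 z0) (a z9 z0))) z9)) (a z8 (b (d (c (a z9 z0) (a z13 z0)) (c (a z9 z0) (a (b z0 z13) z0))) z9))) (c (a z8 (b (d (c (a z9 z0) (a z9 z0)) (c (a z9 z0) (a z9 z0))) z9)) (a z8 (b (d (c (a z9 z0) (a (b z0 z9) z0)) (c (a (b z0 z9) z0) (a (b z0 z9) z0))) z9))))) (b z0 (d (c (a z12 (b (d (c (a (b z0 z13) z0) (a (b z0 z13) z0)) (c (a (b z0 z13) z0) (a (b z0 z13) z0))) z13)) (a z12 (b (d (c (a (b z0 z13) z0) (a (b z0 z13) z0)) (c (a (b z0 z13) z0) (a (b z0 z13) z0))) (d z13 (c z13 (a z13 z0)))))) (c (a z12 (b (d (c (a (b z0 z13) z0) (a (b z0 z13) z0)) (c (a (b z0 z9) z0) (a (b z0 z13) z0))) (d z13 (c (a z9 z0) (a z13 z0))))) (a z12 (b (d (c (a (b z0 z13) z0) (a (b z0 z13) z0)) (c (a (b z0 z13) z0) (a (b z0 z13) z0)))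 (d (c (a z13 z0) (a z13 z0)) (c (a z13 z0) (a z13 z0))))))))) _ _ (by decide +kernel)

theorem okA23 : CKA ⟨4097, 6145, 1024, 1536⟩ ⟨12288, 18432, 7680, 8192⟩ :=
  ckA_sound (c (b z0 (d (c (a z8 (b (d (c (a z9 z0) (a (b z0 z9) z0)) (c (a (b z0 z9) z0) (a (b z0 z9) z0))) (d z9 (c (a z9 z0) (a z9 z0))))) (a z8 (b (d (c (a (b z0 z9) z0) (a (b z0 z9) z0)) (c (a (b z0 z9) z0) (a (b z0 z9) z0))) (d (c (a z9 z0) (a z9 z0)) (c (a z9 z0) (a z9 z0)))))) (c (a z8 (b (d (c (a (b z0 z9) z0) (a (b z0 z9) z0)) (c (a (b z0 z9) z0) (a (b z0 z9) z0))) (d (c (a z9 z0) (a z9 z0)) (c (a z9 z0) (a z9 z0))))) (a z8 (b (d (c (a (b z0 z9) z0) (a (b z0 z9) z0)) (c (a (b z0 z9) z0) (a (b z0 (d z9 (c z9 (a z9 z0)))) z0))) (d (c (a z9 z0) (a z9 z0)) (c (a z9 z0) (a z9 z0)))))))) (b z0 (d (c (a z8 (b (d (c (a (b z0 z9) z0) (a (b z0 z13) z0)) (c (a (b z0 z9) z0) (a (b z0 z9) z0)))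 (d (c (a z9 z0) (a z13 z0)) (c (a z9 z0) (a z9 z0))))) (a z12 (b (d (c (a (b z0 z13) z0) (a (b z0 (d z13 (c z13 (a z13 z0)))) z0)) (c (a (b z0 (d z13 (c z13 (a z13 z0)))) z0) (a (b z0 (d (c (a z13 z0) (a z13 z0)) (c (a z13 z0) (a z13 z0)))) z0))) (d (c (a z13 z0) (a z13 z0)) (c (a z13 z0) (a z13 z0)))))) (c (a z8 (b (d (c (a (b z0 z9) z0) (a (b z0 (d z9 (c z9 (a z9 z0)))) z0)) (c (a (b z0 (d (c z9 (a z9 z0)) (c (a z9 z0) (a z9 z0)))) z0) (a (b z0 (d (c (a z9 z0) (a z9 z0)) (c (a z9 z0) (a z9 z0)))) z0))) (d (c (a z9 z0) (a z9 z0)) (c (a z9 z0) (a z9 z0))))) (a z12 (b (d (c (a (b z0 (d (c (a z13 z0) (a z13 z0)) (c (a z9 z0) (a z13 z0)))) z0) (a (b z0 (d (c (a z13 z0) (a z13 z0)) (c (a z13 z0) (a z13 z0)))) z0)) (c (a (b z0 (d (c (a z9 z0) (a z9 z0)) (c (a z9 z0) (a z9 z0)))) z0) (a (b z0 (d (c (a z13 z0) (a z13 z0)) (c (a z13 z0) (a z13 z0)))) z0))) (d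 (c (a z13 z0) (a z13 z0)) (c (a z9 z0) (a z13 z0))))))))) _ _ (by decide +kernel)

theorem okA24 : CKA ⟨4097, 6145, 1536, 2048⟩ ⟨12288, 18432, 7168, 8192⟩ :=
  ckA_sound (d (c (a z8 (b (d (c (b (d z8 (a z8 z9)) z8) (b (d (a z8 z9) (a z8 z9)) z8)) (c (b (d (a z8 z9) (a z8 z9)) z8) (b (d (a z8 z9) (a z8 z9)) (d z8 (a z8 z9))))) z8)) (a z12 (b (d (c (b (d (a z12 z13) (a z12 z13)) (d z12 (a z12 z13))) (b (d (a z12 z13) (a z12 z13)) (d (a z12 z13) (a z12 z13)))) (c (b (d (a z12 z13) (a z12 z13)) (d (a z12 z13) (a z12 z13))) (b (d (a z12 z13) (a z12 z13)) (d (a z12 z13) (a z12 z13))))) z12))) (c (a z8 (b (d (c (b (d (a z8 z9) (a z8 z9)) (d (a z8 z9) (a z8 z9))) (b (d (a z8 z9) (a z8 z9)) (d (a z8 z9) (a z8 z9)))) (c (b (d (a z8 z9) (a z8 z9)) (d (a z8 z9) (a z8 z9))) (b (d (a z8 z9) (a z8 z9)) (d (a z8 z9) (a z8 z9))))) (d z8 (c z8 (b (d z8 (a z8 z9)) z8)))))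 (a z8 (b (d (c (b (d (a z8 z9) (a z8 z9)) (d (a z8 z9) (a z8 z9))) (b (d (a z12 z13) (a z12 z13)) (d (a z12 z13) (a z12 z13)))) (c (b (d (a z8 z9) (a z8 z9)) (d (a z8 z9) (a z8 z9))) (b (d (a z12 z13) (a z12 z13)) (d (a z12 z13) (a z12 z13))))) (d (c z8 (b (d z12 (a z12 (c (b z13 (d (a z12 z13) (a z12 z13))) (b (d (a z12 z13) (a z12 z13)) (d (a z12 z13) (a z12 z13)))))) z12)) (c (b (d (a z8 (c (b z9 (d (a z8 z9) (a z8 z9))) (b z9 (d (a z8 z9) (a z8 z9))))) (a z8 (c (b z9 (d (a z8 z9) (a z8 z9))) (b z9 (d (a z8 z9) (a z8 z9)))))) z8) (b (d (a z12 (c (b z13 (d (a z12 z13) (a z12 z13))) (b (d (a z12 z13) (a z12 z13)) (d (a z12 z13) (a z12 z13))))) (a z12 (c (b z9 (d (a z8 z9) (a z8 z9))) (b (d (a z12 z13) (a z12 z13)) (d (a z12 z13) (a z12 z13)))))) z12))))))) _ _ (by decide +kernel)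

theorem okA25 : CKA ⟨6145, 8193, 1024, 2048⟩ ⟨12288, 18432, 7168, 8192⟩ :=
  ckA_sound (b z0 (d (c (b z0 (d (a z9 z0) (a z9 z0))) (b z0 (d (a z13 z0) (a z13 z0)))) (c (b z0 (d (a (c (b (d z9 (a z9 z0)) z9) (b (d z9 (a z9 z0)) z9)) z0) (a (c (b (d (a z9 z0) (a z9 z0)) z9) (b (d (a z9 z0) (a z9 z0)) z9)) z0))) (b z0 (d (a (c (b (d z9 (a z9 z0)) z9) (b (d z13 (a z13 z0)) z13)) z0) (a (c (b (d (a z9 z0) (a z9 z0)) z9) (b (d (a z13 z0) (a z13 z0)) z13)) z0)))))) _ _ (by decide +kernel)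

theorem okA26 : CKA ⟨4097, 6145, 1024, 1536⟩ ⟨18432, 24576, 7168, 7680⟩ :=
  ckA_sound (b z0 (d (c (a z12 (b (d (c (a (b z0 z13) z0) (a (b z0 (d (c (a z13 z0) (a z13 z0)) (c (a z13 z0) (a z13 z0)))) z0)) (c (a (b z0 z13) z0) (a (b z0 (d (c (a z13 z0) (a z13 z0)) (c (a z13 z0) (a z13 z0)))) z0))) (d (c (a z13 z0) (a (b z13 (d (c (a z12 z13) (a z12 z13)) (c (a z12 z13) (a z12 z13)))) z0)) (c (a z13 z0) (a (b z13 (d (c (a z12 z13) (a z12 z13)) (c z13 (a z12 z13)))) z0))))) (a (b (d (c (b z0 z12) (b z0 z12)) (c (b z0 z12) (b z0 z12))) z12) (b (d (a (c (b z0 (d (a z13 z0) (a z13 z0))) (b z0 (d (a z13 z0) (a z13 z0)))) z0) (c (a (b z0 (d (c (a z13 z0) (a z13 z0)) (c (a z13 z0) (a z13 z0)))) z0) (a (b z0 (d (a z13 z0) (c (a z13 z0) (a z13 z0)))) z0))) (d (a (c (b z13 (d (a z12 z13) (a z12 z13))) (b z13 (d (a z12 z13) (a z12 z13)))) z0) (c (a (b z13 (d (c (a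 z12 z13) (a z12 z13)) (c (a z12 z13) (a z12 z13)))) z0) (a (b z13 (d (a z12 z13) (c (a z12 z13) (a z12 z13)))) z0)))))) (c (a z12 (b (d (c (a (b z0 (d (c z13 (a z13 z0)) (c z13 (a z13 z0)))) z0) (a (b z0 (d (c (a z13 z0) (a z13 z0)) (c (a z13 z0) (a z13 z0)))) z0)) (c (a (b z0 (d (c z13 (a z13 z0)) (c (a z13 z0) (a z13 z0)))) z0) (a (b z0 (d (c (a z13 z0) (a z13 z0)) (c (a z13 z0) (a z13 z0)))) z0))) (d (c (a z13 z0) (a (b z13 (d (c z13 (a z12 z13)) (c z13 (a z12 z13)))) z0)) (c (a z13 z0) (a (b z13 (d (c z13 (a z12 z13)) z13)) z0))))) (a (b (d (c (b z0 z12) (b z0 z12)) (c (b z0 z12) (b z0 z12))) z12) (b (d (c (a (b z0 (d (c (a z13 z0) (a z13 z0)) (c (a z13 z0) (a z13 z0)))) z0) (a (b z0 (d (a z13 z0) (c (a z13 z0) (a z13 z0)))) z0)) (c (a (b z0 (d (c (a z13 z0) (a z13 z0)) (c (a z13 z0) (a z13 z0)))) z0) (a (b z0 (d (c (a z13 z0) (a z13 z0)) (c (a z13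 z0) (a z13 z0)))) z0))) (d (c (a (b z13 (d (c (a z12 z13) (a z12 z13)) (c (a z12 z13) (a z12 z13)))) z0) (a (b z13 (d (a z12 z13) (c (a z12 z13) (a z12 z13)))) z0)) (c (a (b z13 (d (c (a z12 z13) (a z12 z13)) (c (a z12 z13) (a z12 z13)))) z0) (a (b z13 (d (c (a z12 z13) (a z12 z13)) (c (a z12 z13) (a z12 z13)))) z0)))))))) _ _ (by decide +kernel)

theorem okA27 : CKA ⟨4097, 6145, 1024, 1536⟩ ⟨18432, 24576, 7680, 8192⟩ :=
  ckA_sound (c (b z0 (d (a z12 (c (b (d (a (c (b z0 (d (a z13 z0) (a z13 z0))) (b z0 (d (a z13 z0) (a z13 z0)))) z0) (a (c (b z0 (d (a z13 z0) (a z13 z0))) (b z0 (d (a z13 z0) (a z13 z0)))) z0)) (d (a z13 z0) (a z13 z0))) (b (d (a (c (b z0 (d (a z13 z0) (a z13 z0))) (b z0 (d (a z13 z0) (a z13 z0)))) z0) (a (c (b z0 (d (a z13 z0) (a z13 z0))) (b z0 (d (a z13 z0) (a z13 z0)))) z0)) (d (a (c z13 (b z13 (d (a z12 z13) (a z12 z13)))) z0) (a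 z13 z0))))) (a z12 (c (b (d (a (c (b z0 (d (a z13 z0) (a z13 z0))) (b z0 (d (a z13 z0) (a z13 z0)))) z0) (a (c (b z0 (d (a z13 z0) (a z13 z0))) (b z0 (d (a z13 z0) (a z13 z0)))) z0)) (d (a z13 z0) (a z13 z0))) (b (d (a (c (b z0 (d (a z13 z0) (a z13 z0))) (b z0 (d (a z13 z0) (a z13 z0)))) z0) (a (c (b z0 (d (a z13 z0) (a z13 z0))) (b z0 (d (a z13 z0) (a z13 z0)))) z0)) (d (a z13 z0) (a z13 z0))))))) (b z0 (d (a (b (d (c (b z0 z12) (b z0 z12)) (c (b z0 z12) (b z0 z12))) z12) (b (d (c (a (b z0 (d (c (a z13 z0) (a z13 z0)) (c (a z13 z0) (a z13 z0)))) z0) (a (b z0 (d (a z13 z0) (c (a z13 z0) (a z13 z0)))) z0)) (c (a (b z0 (d (c (a z13 z0) (a z13 z0)) (c (a z13 z0) (a z13 z0)))) z0) (a (b z0 (d (c (a z13 z0) (a z13 z0)) (c (a z13 z0) (a z13 z0)))) z0))) (d (c (a (b z13 (d (c (a z12 z13) (a z12 z13)) (c (a z12 z13) (a z12 z13)))) z0) (a (b z13 (d (a z12 z13)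 (c (a z12 z13) (a z12 z13)))) z0)) (c (a (b z13 (d (c (a z12 z13) (a z12 z13)) (c (a z12 z13) (a z12 z13)))) z0) (a (b z13 (d (c (a z12 z13) (a z12 z13)) (c (a z12 z13) (a z12 z13)))) z0))))) (a (b (d (c (b z0 z12) (b z0 z12)) (c (b z0 z12) (b z0 z12))) z12) (b (d (c (a (b z0 (d (c (a z13 z0) (a z13 z0)) (c (a z13 z0) (a z13 z0)))) z0) (a (b z0 (d (c (a z13 z0) (a z13 z0)) (c (a z13 z0) (a z13 z0)))) z0)) (c (a (b z0 (d (c (a z13 z0) (a z13 z0)) (c (a z13 z0) (a z13 z0)))) z0) (a (b z0 (d (c (a z13 z0) (a z13 z0)) (c (a z13 z0) (a z13 z0)))) z0))) (d (c (a (b z13 (d (c (a z12 z13) (a z12 z13)) (c z13 (a z12 z13)))) z0) (a (b z13 (d (c (a z12 z13) (a z12 z13)) (c (a z12 z13) (a z12 z13)))) z0)) (c (a (b z13 (d (c z13 (a z12 z13)) z13)) z0) (a (b z13 (d (c (a z12 z13) (a z12 z13)) (c (a z12 z13) (a z12 z13)))) z0)))))))) _ _ (by decide +kernel)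

theorem okA28 : CKA ⟨4097, 6145, 1536, 2048⟩ ⟨18432, 24576, 7168, 7680⟩ :=
  ckA_sound (a z12 (b (d (c (b (d (a z12 z13) (a z12 z13)) (d (a z12 (c (b z13 (d (a z12 z13) (a z12 z13))) (b z13 (d (a z12 z13) (a z12 z13))))) (a z12 (c (b z13 (d (a z12 z13) (a z12 z13))) (b z13 (d (a z12 z13) (a z12 z13))))))) (b (d (a z12 z13) (a z12 z13)) (d (a z12 (c (b z13 (d (a z12 z13) (a z12 z13))) (b (d (a (b z13 (d (a z12 z13) (c (a z12 z13) (a z12 z13)))) z13) (a (c (b z13 (d (a z12 z13) (a z12 z13))) (b z13 (d (a z12 z13) (a z12 z13)))) z13)) (d (a z12 z13) (a z12 z13))))) (a z12 (c (b z13 (d (a z12 z13) (a z12 z13))) (b (d (a (c (b z13 (d (a z12 z13) (a z12 z13))) (b z13 (d (a z12 z13) (a z12 z13)))) z13) (a (c (b z13 (d (a z12 z13) z13)) (b z13 (d (a z12 z13) (a z12 z13)))) z13)) (d (a z12 z13) (a z12 z13)))))))) (c (b (d (a z12 z13) (a z12 z13)) (d (a z12 (c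 (b z13 (d (a z12 z13) (a z12 z13))) (b z13 (d (a z12 z13) (a z12 z13))))) (a z12 (c z13 (b z13 (d (a z12 z13) (a z12 z13))))))) (b (d (a z12 z13) (a z12 z13)) (d (a z12 (c (b z13 (d (a z12 z13) (a z12 z13))) (b (d (a (c (b z13 (d (a z12 z13) z13)) (b z13 (d (a z12 z13) (a z12 z13)))) z13) (a (c z13 (b z13 (d (a z12 z13) (a z12 z13)))) z13)) (d (a z12 z13) (a z12 z13))))) (a z12 (c (b z13 (d (a z12 z13) (a z12 z13))) (b (d (a (c z13 (b z13 (d (a z12 z13) (a z12 z13)))) z13) (a (c z13 (b z13 (d (a z12 z13) (a z12 z13)))) z13)) (d (a z12 z13) (a z12 z13))))))))) (d (c z12 (b (d (a z12 (c (b (d (a z12 z13) (a z12 z13)) (d (a z12 z13) (a z12 z13))) (b (d (a z12 z13) (a z12 z13)) (d (a z12 z13) (a z12 z13))))) (a z12 (c (b (d (a z12 z13) (a z12 z13)) (d (a z12 z13) (a z12 z13))) (b (d (a z12 z13) (a z12 z13)) (d (a z12 z13) (a z12 z13)))))) z12)) (c (b (d (a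 z12 (c (b (d (a z12 z13) (a z12 z13)) (d (a z12 z13) (a z12 z13))) (b (d (a z12 z13) (a z12 z13)) (d (a z12 z13) (a z12 z13))))) (a z12 (c (b (d (a z12 z13) (a z12 z13)) (d (a z12 z13) (a z12 z13))) (b (d (a z12 z13) (a z12 z13)) (d (a z12 z13) (a z12 z13)))))) z12) (b (d (a z12 (c (b (d (a z12 z13) (a z12 z13)) (d (a z12 z13) (a z12 z13))) (b (d (a z12 z13) (a z12 z13)) (d (a z12 z13) (a z12 z13))))) (a z12 (c (b (d (a z12 z13) (a z12 z13)) (d (a z12 z13) (a z12 z13))) (b (d (a z12 z13) (a z12 z13)) (d (a z12 z13) (a z12 z13)))))) z12))))) _ _ (by decide +kernel)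

theorem okA29 : CKA ⟨4097, 6145, 1536, 2048⟩ ⟨18432, 21504, 7680, 8192⟩ :=
  ckA_sound (a z12 (b (d (c (b (d (a z12 z13) (a z12 z13)) (d (a z12 z13) (a z12 z13))) (b (d (a z12 z13) (a z12 z13)) (d (a z12 (c (b z13 (d (a z12 z13) (a z12 z13))) (b z13 (d (a z12 z13) (a z12 z13))))) (a z12 (c (b z13 (d (a z12 z13) (a z12 z13))) (b z13 (d (a z12 z13) (a z12 z13)))))))) (c (b (d (a z12 z13) (a z12 z13)) (d (a z12 z13) (a z12 z13))) (b (d (a z12 z13) (a z12 z13)) (d (a z12 (c z13 (b z13 (d (a z12 z13) (a z12 z13))))) (a z12 (c z13 (b z13 (d (a z12 z13) z13)))))))) (d (c (b (d (a z12 (c (b (d (a z12 z13) (a z12 z13)) (d (a z12 z13) (a z12 z13))) (b (d (a z12 z13) (a z12 z13)) (d (a z12 z13) (a z12 z13))))) (a z12 (c (b (d (a z12 z13) (a z12 z13)) (d (a z12 z13) (a z12 z13))) (b (d (a z12 z13) (a z12 z13)) (d (a z12 z13) (a z12 z13)))))) z12) (b (d (a z12 (c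 (b (d (a z12 z13) (a z12 z13)) (d (a z12 z13) (a z12 z13))) (b (d (a z12 z13) (a z12 z13)) (d (a z12 z13) (a z12 z13))))) (a z12 (c (b (d (a z12 z13) (a z12 z13)) (d (a z12 z13) (a z12 z13))) (b (d (a z12 z13) (a z12 z13)) (d (a z12 z13) (a z12 z13)))))) z12)) (c (b (d (a z12 (c (b (d (a z12 z13) (a z12 z13)) (d (a z12 z13) (a z12 z13))) (b (d (a z12 z13) (a z12 z13)) (d (a z12 z13) (a z12 z13))))) (a z12 (c (b (d (a z12 z13) (a z12 z13)) (d (a z12 z13) (a z12 z13))) (b (d (a z12 z13) (a z12 z13)) (d (a z12 z13) (a z12 z13)))))) z12) (b (d (a z12 (c (b (d (a z12 z13) (a z12 z13)) (d (a z12 z13) (a z12 z13))) (b (d (a z12 z13) (a z12 z13)) (d (a z12 z13) (a z12 z13))))) (a z12 (c (b (d (a z12 z13) (a z12 z13)) (d (a z12 z13) (a z12 z13))) (b (d (a z12 z13) (a z12 z13)) (d (a z12 z13) (a z12 z13)))))) z12))))) _ _ (by decide +kernel)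

end Vale.Agent.Lib.P154Q5
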