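import Vale.Agent.Lib.P154Q5.CkADefs

namespace Vale.Agent.Lib.P154Q5

set_option maxRecDepth 100000
set_option exponentiation.threshold 1000

open Tr

theorem okA150 : CKA ⟨12288, 17067, 6144, 7168⟩ ⟨4097, 8193, 2048, 3072⟩ :=
  ckA_sound (c z3 (b (d (a z7 (b (d z7 (c (a (b (d z7 (c z3 z7)) (d z7 (c z3 z7))) (b (d z7 (c z3 z7)) (d z7 (c z3 z7)))) z7)) (d z7 (c (a (b (d z7 (c z3 z7)) (d z7 (c z3 z7))) (b (d z7 (c z3 z7)) (d z7 (c z3 z7)))) z7)))) (a (b (d (c (a (b (d (c z3 z7) z3) (d (c z3 z7) z3)) (b (d (c z3 z7) z3) (d (c z3 z7) z3))) z7) (c z3 z7)) (d (c (a (b (d (c z3 z7) z3) (d (c z3 z7) z3)) (b (d (c z3 z7) z3) (d (c z3 z7) z3))) z7) (c z3 z7))) (b (d (c (a (b (d (c z3 z7) z3) (d (c z3 z7) z3)) (b (d (c z3 z7) z3) (d (c z3 z7) z3))) z7) (c z3 z7)) (d (c (a (b (d (c z3 z7) z3) (d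 (c z3 z7) z3)) (b (d (c z3 z7) z3) (d (c z3 z7) z3))) z7) (c z3 z7))))) (d (a z6 (b (d z7 (c (a z7 (b (d z7 (c z3 z7)) (d z7 (c z3 z7)))) z7)) (d z7 (c (a z7 (b (d z7 (c z3 z7)) (d z7 (c z3 z7)))) z7)))) (a (b (d (c (a (b (d (c z2 z6) z2) (d (c z2 z6) z2)) (b (d (c z3 z7) z3) (d (c z3 z7) z3))) z7) (c z3 z7)) (d (c (a (b (d (c z2 z6) z2) (d (c z2 z6) z2)) (b (d (c z3 z7) z3) (d (c z2 z6) z2))) z6) (c z2 z6))) (b (d (c (a (b (d (c z3 z7) z3) (d (c z3 z7) z3)) (b (d (c z3 z7) z3) (d (c z3 z7) z3))) z7) (c z3 z7)) (d (c (a (b (d (c z3 z7) z3) (d (c z3 z7) z3)) (b (d (c z3 z7) z3) (d (c z3 z7) z3))) z7) (c z3 z7))))))) _ _ (by decide +kernel)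

theorem okA151 : CKA ⟨17067, 24576, 6144, 7168⟩ ⟨4097, 8193, 2048, 3072⟩ :=
  ckA_sound (c z3 (b (d (b (d z7 (c (a (b (d z7 (c z3 z7)) (d z7 (c z3 z7))) (b (d (c (b (d z7 (a (c z3 z7) (c z3 z7))) (d z7 (a (c z3 z7) (c z3 z7)))) z7) (c z3 z7)) (d (c (a (b (d z7 (c z3 z7)) (d z7 (c z3 z7))) (b (d z7 (c z3 z7)) (d z7 (c z3 z7)))) z7) (c z3 z7)))) z7)) (d z7 (c (a (b (d z7 (c z3 z7)) (d z7 (c z3 z7))) (b (d (c (a (b (d z7 (c z3 z7)) (d z7 (c z3 z7))) (b (d z7 (c z3 z7)) (d z7 (c z3 z7)))) z7) (c z3 z7)) (d (c (a (b (d z7 (c z3 z7)) (d z7 (c z3 z7))) (b (d z7 (c z3 z7)) (d z7 (c z3 z7)))) z7) (c z3 z7)))) z7))) (b (d (c (a (b (d (c z3 z7) z3) (d (c z3 z7) z3)) (b (d (c z3 z7) z3) (d (c z3 z7) z3))) z7) (c z3 z7)) (d (c (a (b (d (c z3 z7) z3) (d (c z3 z7) z3)) (b (d (c z3 z7) z3) (d (c z3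 z7) z3))) z7) (c z3 z7)))) (d (b (d z7 (c (a (b (d z7 (c z3 z7)) (d z7 (c z3 z7))) (b (d (c (a (b (d z7 (c z3 z7)) (d z7 (c z3 z7))) (b (d z7 (c z3 z7)) (d z7 (c z3 z7)))) z7) (c z3 z7)) (d (c (a (b (d z7 (c z3 z7)) (d z7 (c z3 z7))) (b (d z7 (c z3 z7)) (d z7 (c z3 z7)))) z7) (c z3 z7)))) z7)) (d z7 (a (c (b (d z7 (a (c z3 z7) (c z3 z7))) (d z7 (a (c z3 z7) (c z3 z7)))) z7) (c (b (d (c (a (b (d z7 (c z3 z7)) (d z7 (c z3 z7))) (b (d z7 (c z3 z7)) (d z7 (c z3 z7)))) z7) (c z3 z7)) (d (a (c (b (d z7 (a z7 (c z3 z7))) (d z7 (a z7 (c z3 z7)))) z7) (c (b (d z7 (c z3 z7)) (d z7 (c z3 z7))) z7)) (a (c z3 z7) (c z3 z7)))) z7)))) (b (d (c (a (b (d (c z3 z7) z3) (d (c z3 z7) z3)) (b (d (c z3 z7) z3) (d (c z3 z7) z3))) z7) (c z3 z7)) (d (a (c (b (d (a (c z3 z7) (c z3 z7)) z3) (d (a (c z3 z7) (c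 z3 z7)) z3)) z7) (c (b (d (c z3 z7) z3) (d (a (c z3 z7) (c z3 z7)) z3)) z7)) (a (c z3 z7) (c z3 z7))))))) _ _ (by decide +kernel)

theorem okA152 : CKA ⟨12288, 24576, 6144, 7168⟩ ⟨4097, 8193, 3072, 4096⟩ :=
  ckA_sound (a (c z3 (b (d (a (b z3 (d (c z3 z7) z3)) (b z3 (d (c z3 z7) z3))) z3) (d (a (b (d (c z3 z7) (c z3 z7)) (d (c z2 z6) (c z2 z6))) (b (d (c z3 z7) z3) (d (c z3 z7) (c z3 z7)))) (a z2 z3)))) (c z3 (b (d (b (d (c z3 z7) z3) (d (c z3 z7) z3)) z3) (d (b (d (c z3 z7) (c z3 (a (b (d z7 (a z7 (c z3 z7))) (d z7 (a z7 (c z3 z7)))) (b (d z7 (c z3 z7)) (d z7 (c z3 z7)))))) (d (a (c z3 z7) (c z3 z7)) (a z3 (c z3 (b (d z7 (c z3 z7)) (d z7 (a (c z3 z7) (c z3 z7)))))))) z3)))) _ _ (by decide +kernel)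

theorem okA153 : CKA ⟨12288, 18432, 7168, 8192⟩ ⟨4097, 8193, 2048, 3072⟩ :=
  ckA_sound (c z2 (b (d (a (b z6 (d (c z6 z0) z6)) (b (d z7 (c (a (b (d z7 (c z3 z7)) (d z7 (c z3 z7))) (b (d z7 (c z3 z7)) (d z7 (c z3 z7)))) z7)) (d (c z7 z0) (c (a (b (d z7 (c z3 z7)) (d z7 (c z3 z7))) (b (d z7 (c z3 z7)) (d z7 (c z3 z7)))) z7)))) (a (b (d (c (a (b (d (c z2 z6) z2) (d (c z2 z6) z2)) (b (d (c z2 z6) z2) (d (c z2 z6) z2))) z6) (c z2 z6)) (d (c (a (b (d (c z2 z6) z2) (d (c z2 z6) z2)) (b (d (c z2 z6) z2) (d (c z2 z6) z2))) z6) (c z2 z6))) (b (d (c (a (b (d (c z3 z7) z3) (d (c z3 z7) z3)) (b (d (c z3 z7) z3) (d (c z3 z7) z3))) z7) (c z3 z7)) (d (c (a (b (d (c z3 z7) z3) (d (c z3 z7) z3)) (b (d (c z3 z7) z3) (d (c z3 z7) z3))) z7) (c z3 z7))))) (d (a (b (d (c z6 z0) z6) (d (c z6 z0) z6)) (b (d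 (c z7 z0) (c (a (b (d z6 (c z2 z6)) (d z6 (c z2 z6))) (b (d z7 (c z3 z7)) (d z7 (c z3 z7)))) (a z6 z7))) (d (c z6 z0) (c (a (b (d z6 (c z2 z6)) (d z6 (c z2 z6))) (b (d z7 (c z3 z7)) (d z7 (c z3 z7)))) z6)))) (a (b (d (c (a (b (d (c z2 z6) z2) (d (c z2 z6) (c z2 z6))) (b (d (c z2 z6) (c z2 z6)) (d (c z2 z6) (c z2 z6)))) z6) (c z2 z6)) (d (c (a (b (d (c z2 z6) (c z2 z6)) (d (c z2 z6) (c z2 z6))) (b (d (c z2 z6) (c z2 z6)) (d (c z2 z6) (c z2 z6)))) z6) (c (a (b z2 (d (c z2 z6) z2)) (b z2 (d (c z2 z6) z2))) z6))) (b (d (c (a (b (d (c z2 z6) (c z2 z6)) (d (c z2 z6) (c z2 z6))) (b (d (c z3 z7) (c z3 z7)) (d (c z3 z7) (c z3 z7)))) z7) (c z3 z7)) (d (c (a (b (d (c z2 z6) (c z2 z6)) (d (c z2 z6) (c z2 z6))) (b (d (c z3 z7) (c z3 z7)) (d (c z3 z7) (c z3 z7)))) z6) (c (a (b z2 (d (c z2 z6) z2))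 (b (d (c z3 z7) z3) (d (c z3 z7) z3))) z6))))))) _ _ (by decide +kernel)

theorem okA154 : CKA ⟨18432, 24576, 7168, 8192⟩ ⟨4097, 8193, 2048, 3072⟩ :=
  ckA_sound (c z3 (b (d (b (d z7 (c (a (b (d z7 (c z3 z7)) (d z7 (c z3 z7))) (b (d (c (a (b (d z7 (c z3 z7)) (d z7 (c z3 z7))) (b (d z7 (c z3 z7)) (d z7 (c z3 z7)))) z7) (c z3 z7)) (d (c (a (b (d z7 (c z3 z7)) (d z7 (c z3 z7))) (b (d z7 (c z3 z7)) (d z7 (c z3 z7)))) z7) (c z3 z7)))) z7)) (d z7 (a (c (b (d z7 (a (c z3 z7) (c z3 z7))) (d z7 (a (c z3 z7) (c z3 z7)))) z7) (c (b (d (c (a (b (d z7 (c z3 z7)) (d z7 (c z3 z7))) (b (d z7 (c z3 z7)) (d z7 (c z3 z7)))) z7) (c z3 z7)) (d (c (a (b (d z7 (c z3 z7)) (d z7 (c z3 z7))) (b (d z7 (c z3 z7)) (d z7 (c z3 z7)))) z7) (c z3 z7))) z7)))) (b (d (c (a (b (d (c z3 z7) z3) (d (c z3 z7) z3)) (b (d (c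 z3 z7) (c z3 z7)) (d (c z3 z7) (c z3 z7)))) z7) (c z3 z7)) (d (a (c (b (d (a (c z3 z7) (c z3 z7)) z3) (d (a (c z3 z7) (c z3 z7)) (a z3 (c z3 z7)))) z7) (c (b (d (c z3 z7) (c z3 z7)) (d (c z3 z7) (c z3 z7))) z7)) (a (c z3 z7) (c z3 z7))))) (d (a (b (d z7 (c (a (b (d z7 (c z3 z7)) (d z7 (c z3 z7))) (b (d z7 (c z3 z7)) (d z7 (c z3 z7)))) z7)) (d (c z7 z0) (c (a (b (d z7 (c z3 z7)) (d z7 (c z3 z7))) (b (d z7 (c z3 z7)) (d z7 (c z3 z7)))) z7))) (b (d z7 (c (b (d (c (a (b (d z7 (c z3 z7)) (d z7 (c z3 z7))) (b (d z7 (c z3 z7)) (d z7 (c z3 z7)))) z7) (c z3 z7)) (d (c (a (b (d z7 (c z3 z7)) (d z7 (c z3 z7))) (b (d z7 (c z3 z7)) (d z7 (c z3 z7)))) z7) (c z3 z7))) z7)) (d z7 (c (b (d (a z7 (c (b (d z7 (c z3 z7)) (d z7 (c z3 z7))) z7)) (a (c z3 z7) (c z3 z7))) (d (a z7 (c (b (d z7 (c z3 z7)) (d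 z7 (a z7 (c z3 z7)))) z7)) (a (c z3 z7) (c z3 z7)))) z7)))) (a (b (d (c (a (b (d (c z3 z7) (c z3 z7)) (d (c z3 z7) (c z3 z7))) (b (d (c z3 z7) (c z3 z7)) (d (c z3 z7) (c z3 z7)))) z7) (c z3 z7)) (d (c (a (b (d (c z3 z7) (c z3 z7)) (d (c z3 z7) (c z3 z7))) (b (d (c z3 z7) (c z3 z7)) (d (c z3 z7) (c z3 z7)))) z7) (c (a (b z3 (d (c z3 z7) z3)) z3) z7))) (b (d (c (b (d (c z3 z7) (c z3 z7)) (d (c z3 z7) (c z3 z7))) z7) (c z3 z7)) (d (c (b (d (a (c z3 z7) (c z3 z7)) (a (c z3 z7) (c z3 z7))) (d (a (c z3 z7) (c z3 z7)) (a (c z3 z7) (c z3 z7)))) z7) (c z3 z7))))))) _ _ (by decide +kernel)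

theorem okA155 : CKA ⟨12288, 24576, 7168, 8192⟩ ⟨4097, 8193, 3072, 4096⟩ :=
  ckA_sound (a (c z2 (b (d (a (b (d (c z2 z6) (c z2 z6)) (d (c z2 z6) (c z2 z6))) (b (d (c z3 z7) (c z3 z7)) (d (c z3 z7) (c z3 z7)))) (a (b z2 (d (c z2 (a z2 (b z2 (d z6 z2)))) z2)) (b z3 (d (c z3 (a (b (d (c z3 z7) z3) (d (c z3 z7) z3)) z3)) z3)))) (d (a (b (d (c z2 z6) (c z2 z6)) (d (c z2 z6) (c z2 z6))) (b (d (c z3 z7) (c z3 z7)) (d (c z2 z6) (c z2 z6)))) (a (b (d (c z2 (a (b z2 (d z6 z2)) (b (d z6 z2) (d z6 z2)))) z2) (d (c z2 (a (b (d z6 z2) (d (a (c z2 z6) (c z2 z6)) (a (c z2 z6) (c z2 z6)))) (b (d (c z2 z6) z2) (d (c z2 z6) (c z2 z6))))) z2)) (b (d (c z3 (a (b (d (c z2 z6) z2) (d (c z2 z6) z2)) (b (d (c z3 z7) z3) (d (c z3 z7) z3)))) (c z3 (a z2 z3))) (d (c z2 (a (b (d (c z2 z6) (c z2 z6)) (d (c z2 z6)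 (c z2 z6))) (b (d (c z3 z7) (c z3 z7)) (d (c z3 z7) (c z3 z7))))) z2)))))) (c z3 (b (d (b (d (c z3 z7) (c z3 (a (b (d z7 (c z3 z7)) (d z7 (c z3 z7))) (b (d z7 (c z3 z7)) (d z7 (c z3 z7)))))) (d (a (c z3 z7) (c z3 z7)) (a (c z3 (b (d z7 (a z7 (c z3 z7))) (d z7 (a z7 (c z3 z7))))) (c z3 (b (d z7 (c z3 z7)) (d z7 (a (c z3 z7) (c z3 z7)))))))) z3) (d (a (b (d (c z3 z7) (c z3 (a z7 (b (d z7 (c z3 z7)) (d z7 (c z3 z7)))))) (d (c z3 z7) (c z3 (a z7 (b (d z7 (c z3 z7)) (d z7 (c z3 z7))))))) (b (d (c z3 z7) (c z3 (b (d z7 (c z3 z7)) (d z7 (c z3 z7))))) (d (c z3 z7) (c z3 (b (d z7 (a (c z3 z7) (c z3 z7))) (d z7 (a (c z3 z7) (c z3 z7)))))))) (a (b (d (c z3 (a (b z3 (d (c z3 z7) z3)) z3)) z3) (d (c z3 (a (b (d (c z3 z7) z3) (d (c z3 z7) z3)) (b z3 (d (c z3 z7) z3)))) z3)) z3))))) _ _ (by decide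 +kernel)

theorem okA156 : CKA ⟨12288, 24576, 8192, 12288⟩ ⟨0, 4097, 0, 4096⟩ :=
  ckA_sound (b (d (b (d z0 z2) (d z0 (b z2 z0))) z0) z0) _ _ (by decide +kernel)

theorem okA157 : CKA ⟨12288, 24576, 8192, 9216⟩ ⟨4097, 8193, 0, 1024⟩ :=
  ckA_sound z0 _ _ (by decide +kernel)

theorem okA158 : CKA ⟨12288, 15360, 8192, 8704⟩ ⟨4097, 6145, 1024, 1536⟩ :=
  ckA_sound (b (d z0 (a (c z0 (b (d (a (c (b (d z0 z4) (d z0 z4)) z0) (c (b (d z0 z6) (d z0 (a (c z4 z0) (c z6 z0)))) z0)) (a (c z4 z0) (c z6 z0))) (d (c (b (d z0 (a z4 (c z4 z0))) (d z0 (c z4 z0))) z0) (c z4 z0)))) (c z2 (b (d (a (c (b (d z0 (a z6 (c z6 z0))) (d z0 (a (c z6 z0) (c z6 z0)))) z0) (c (b (d z0 (a (c z6 z0) (c z6 z0))) (d z0 (a (c z6 z0) (c z6 z0)))) z0)) (a (c z6 z0) (c z6 z0))) (d (a (c (b (d z0 (a (c z6 z0) (c z6 z0))) (d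 z0 (a (c z4 z0) (c z6 z0)))) z0) (c (b (d z0 (a (c z6 z0) (c z6 z0))) (d z0 (a (c z6 z0) (c z6 z0)))) z0)) (a (c z6 z0) (c z6 z0))))))) (d z0 (c (b (d (a z0 z2) z0) z0) (b (d (a (c (b (d z0 (a (c z4 z0) (c z4 z0))) (d z0 (c z4 z0))) z0) (c (b (d z0 (a (c z6 z0) (c z6 z0))) (d z0 (a (c z4 z0) (c z6 z0)))) z0)) (a (c z4 z0) (c z6 z0))) (d (c (b (d z0 (c z4 z0)) (d z0 (c z4 z0))) z0) (c z4 z0)))))) _ _ (by decide +kernel)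

theorem okA159 : CKA ⟨15360, 18432, 8192, 8704⟩ ⟨4097, 6145, 1024, 1536⟩ :=
  ckA_sound (b (d z0 (a (c z2 (b (d (a (c (b (d z0 (a (c z6 z0) (c z6 z0))) (d z0 (a (c z6 z0) (c z6 z0)))) z0) (c (b (d z0 (a (c z6 z0) (c z6 z0))) (d z0 (a (c z6 z0) (c z6 z0)))) z0)) (a (c z6 z0) (c z6 z0))) (d (a (c (b (d z0 (a (c z6 z0) (c z6 z0))) (d z0 (a (c z6 z0) (c z6 z0)))) z0) (c (b (d z0 (a (c z6 z0) (c z6 z0))) (d z0 (a (c z6 z0) (c z6 z0)))) z0)) (a (c z6 z0) (c z6 z0))))) (c z2 (b (d (a (c (b (d z0 (a (c z6 z0) (c z6 z0))) (d z0 (a (c z6 z0) (c z6 z0)))) z0) (c (b (d z0 (a (c z6 z0) (c z7 z0))) (d z0 (a (c z6 z0) (c z6 z0)))) z0)) (a (c z6 z0) (c z6 z0))) (d (a (c (b (d z0 (a (c z6 z0) (c z6 z0))) (d z0 (a (c z6 z0) (c z6 z0)))) z0) (c (b (d z0 (a (c z6 z0) (c z6 z0))) (d z0 (a (c z6 z0) (c z6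 z0)))) z0)) (a (c z6 z0) (c z6 z0))))))) (d z0 (a (c z2 (b (d (a (c (b (d z0 (a (c z6 z0) (c z6 z0))) (d z0 (a (c z6 z0) (c z6 z0)))) z0) (c (b (d z0 (a (c z6 z0) (c z6 z0))) (d z0 (a (c z6 z0) (c z6 z0)))) z0)) (a (c z6 z0) (c z6 z0))) (d (a (c (b (d z0 (a (c z6 z0) (c z6 z0))) (d z0 (a (c z4 z0) (c z6 z0)))) z0) (c (b (d z0 (a (c z6 z0) (c z6 z0))) (d z0 (a (c z6 z0) (c z6 z0)))) z0)) (a (c z6 z0) (c z6 z0))))) (c z2 (b (d (a (c (b (d z0 (a (c z6 z0) (c z6 z0))) (d z0 (a (c z6 z0) (c z6 z0)))) z0) (c (b (d z0 (a (c z6 z0) (c z6 z0))) (d z0 (a (c z6 z0) (c z6 z0)))) z0)) (a (c z6 z0) (c z6 z0))) (d (a (c (b (d z0 (a (c z6 z0) (c z6 z0))) (d z0 (a (c z6 z0) (c z6 z0)))) z0) (c (b (d z0 (a (c z6 z0) (c z6 z0))) (d z0 (a (c z6 z0) (c z6 z0)))) z0)) (a (c z6 z0) (c z6 z0)))))))) _ _ (by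 decide +kernel)

theorem okA160 : CKA ⟨12288, 18432, 8192, 8704⟩ ⟨4097, 6145, 1536, 2048⟩ :=
  ckA_sound (a (c z0 (b (d (a (b (d (c z0 z4) (c z0 z4)) (d (c z0 z4) (c z0 z4))) (b (d (c z2 z6) (c z2 z6)) (d (c z2 z6) (c z2 z6)))) (a (b (d (c z0 (a z4 z6)) z0) (d (c z0 z4) z0)) (b (d (c z2 z6) z2) (d (c z2 z6) z2)))) (d (b (d (c z0 (a (b z4 (d (c z4 z0) z4)) (b z6 (d (c z6 z0) z6)))) (c z0 (a z4 z6))) (d (c z0 (b (d (c z4 z0) z4) (d (c z4 z0) z4))) (c z0 z4))) (b (d (c z0 (a (b (d z4 (c z0 z4)) z4) z6)) (c z0 (a (b z0 z0) (b z2 (d (c z2 z6) z2))))) (d (c z0 (b (d z4 (c z0 z4)) z4)) (c z0 (b (d (c z0 z4) z0) (d (c z0 z4) z0)))))))) (c z2 (b (d (a (b (d (c z2 z6) (c z2 z6)) (d (c z2 z6) (c z2 z6))) (b (d (c z2 z6) (c z2 z6)) (d (c z2 z6) (c z2 z6)))) (a (b (d (c z2 (a (b (d z6 (c z2 z6))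 (d z6 (c z2 z6))) (b (d z6 (c z2 z6)) (d z6 (c z2 z6))))) z2) (d (c z2 (a (b (d z6 (c z2 z6)) (d z6 (c z2 z6))) (b (d z6 (c z2 z6)) (d z6 (c z2 z6))))) z2)) (b (d (c z2 (a (b (d z6 (c z2 z6)) (d z6 (c z2 z6))) (b (d z7 (c z3 z7)) (d z6 (c z2 z6))))) z2) (d (c z2 (a (b (d z6 (c z2 z6)) (d z6 (c z2 z6))) (b (d z6 (c z2 z6)) (d z6 (c z2 z6))))) z2)))) (d (a (b (d (c z2 (a (b z6 (d (c z6 z0) z6)) (b z6 (d (c z6 z0) z6)))) (c z2 z6)) (d (c z2 (a (b (d (c z6 z0) z6) (d (c z6 z0) z6)) (b (d (c z6 z0) z6) (d (c z6 z0) z6)))) (c z2 z6))) (b (d (c z2 z6) (c z2 z6)) (d (c z2 (a (b (d (c z6 z0) z6) (d (c z6 z0) z6)) (b (d (c z6 z0) z6) (d (c z6 z0) z6)))) (c z2 z6)))) (a (b (d (c z2 (a (b (d z6 (c z2 z6)) (d z6 (c z2 z6))) (b (d z6 (c z2 z6)) (d z6 (c z2 z6))))) (c z2 (a (b z2 (d (c z2 z6) z2))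 z2))) (d (c z2 (a (b (d z6 (c z2 z6)) (d z6 (c z2 z6))) (b (d z6 (c z2 z6)) (d z6 (c z2 z6))))) (c z2 (a (b (d (c z2 z6) z2) (d (c z2 z6) z2)) (b (d (c z2 z6) z2) (d (c z2 z6) z2)))))) (b (d (c z2 (a (b (d z6 (c z2 z6)) (d z6 (c z2 z6))) (b (d z6 (c z2 z6)) (d z6 (c z2 z6))))) z2) (d (c z2 (a (b (d z6 (c z2 z6)) (d z6 (c z2 z6))) (b (d z6 (c z2 z6)) (d z6 (c z2 z6))))) (c z2 (a (b (d (c z2 z6) z2) (d (c z2 z6) z2)) (b z2 (d (c z2 z6) z2))))))))))) _ _ (by decide +kernel)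

theorem okA161 : CKA ⟨12288, 18432, 8704, 9216⟩ ⟨4097, 6145, 1024, 1536⟩ :=
  ckA_sound (b (d z0 (c z2 (a (b (d (a (c (b (d z0 (a (c z4 z0) (c (b z6 z4) z0))) (d z0 (c z4 z0))) z0) (c (b (d z0 (a (c z6 z0) (c z6 z0))) (d z0 (a (c (b z6 z4) z0) (c z6 z0)))) z0)) (a (c (b (d (a z4 (c z4 z0)) z4) (d (c z4 z0) z4)) z0) (c (b (d (a (c z6 z0) (c z6 z0)) z6) (d (a (c z4 z0) (c z6 z0)) z6)) z0))) (d (c (b (d z0 (c (b (d (a z4 z6) z4) z4) z0)) (d z0 (c z4 z0))) z0) (c (b (d (c z4 z0) z4) (d (c z4 z0) z4)) z0))) (b (d (c (a (b (d z0 (c z6 z0)) (d z0 (c z6 z0))) (b (d z0 (c z6 z0)) (d z0 (c z6 z0)))) z0) (c (a (b (d (c z6 z0) z6) (d (c z6 z0) z6)) (b (d (c z6 z0) z6) (d (c z6 z0) z6))) z0)) (d (c (a (b (d z0 (c z6 z0)) (d z0 (c (a (b (d (c z4 z0) z4) z4) (b z6 (d (c z6 z0) z6))) z0))) (b (d z0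 (c z6 z0)) (d z0 (c (a (b z6 (d (c z6 z0) z6)) z6) z0)))) z0) (c (a (b (d (c z6 z0) z6) (d (c z4 z0) z4)) (b (d (c z6 z0) z6) (d (c z6 z0) z6))) z0)))))) (d z0 (c (b (d (b z2 (d z0 z0)) z0) z0) (b (d (c (b (d z0 (a (c (b (d (a (c z4 z0) (c z6 z0)) z4) (d (c z4 z0) z4)) z0) (c (b (d (a (c z6 z0) (c z6 z0)) z6) (d (a (c z6 z0) (c z6 z0)) z6)) z0))) (d z0 (c (b (d (a (c z4 z0) (c z6 z0)) z4) (d (a (c z4 z0) (c z4 z0)) z4)) z0))) z0) (c (b (d (a (c z4 z0) (c z6 z0)) z6) (d (c z4 z0) z4)) z0)) (d (c (b (d z0 (c (b (d (c z4 z0) z4) z0) z0)) z0) z0) (c (b (d (c z4 z0) z4) z0) z0)))))) _ _ (by decide +kernel)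

theorem okA162 : CKA ⟨12288, 18432, 8704, 9216⟩ ⟨4097, 6145, 1536, 2048⟩ :=
  ckA_sound (c z0 (b (d (a (b (d (c z0 (a (b (d (c z4 z0) z4) (d (c z4 z0) z4)) (b (d (c z6 z0) z6) (d (c z6 z0) z6)))) (c z0 (a z4 z6))) (d (c z0 (b (d (c z4 z0) z4) (d (c z4 z0) (c z4 z0)))) (c z0 z4))) (b (d (c z2 (a (b (d (c z6 z0) z6) (d (c z6 z0) z6)) (b (d (c z6 z0) z6) (d (c z6 z0) z6)))) (c z2 z6)) (d (c z2 (a (b (d (c z6 z0) z6) (d (c z4 z0) (c z4 z0))) (b (d (c z6 z0) z6) (d (c z6 z0) z6)))) (c z2 z6)))) (a (b (d (c z0 (a (b (d (c z0 z4) (c z0 z4)) (d z4 (c z0 z4))) (b (d z6 (c z2 z6)) (d z6 (c z2 z6))))) (c z0 (a (b (d (c z0 z4) z0) (d (c z0 z4) z0)) (b (d (c z2 z6) z2) (d (c z2 z6) (c z2 z6)))))) (d (c z0 (b (d (c z0 z4) (c z0 z4)) z4)) (c z0 (b (d (c z0 z4) (c z0 z4)) (d (c z0 z4) (c z0 z4))))))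 (b (d (c z2 (a (b (d z6 (c z2 z6)) (d z6 (c z2 z6))) (b (d z6 (c z2 z6)) (d z6 (c z2 z6))))) (c z2 (a (b (d (c z2 z6) z2) (d (c z2 z6) z2)) (b (d (c z2 z6) z2) (d (c z2 z6) z2))))) (d (c z2 (a (b (d z6 (c z2 z6)) (d (c z0 z4) (c z0 z4))) (b (d z6 (c z2 z6)) (d z6 (c z2 z6))))) (c z2 (a (b (d (c z2 z6) (c z2 z6)) (d (c z0 z4) (c z0 z4))) (b (d (c z2 z6) z2) (d (c z2 z6) (c z2 z6))))))))) (d (b (d (c z0 (b (d (c z6 z0) (c z6 z0)) (d (c z4 z0) (c z4 z0)))) (c z0 (b z6 z4))) (d (c z0 (b (d (c z4 z0) (c z4 z0)) z0)) (c z0 z4))) (b (d (c z0 (b (d z6 (c z2 z6)) (d (c z0 z4) (c z0 z4)))) (c z0 (b (d (c z2 z6) (c z2 z6)) (d (c z0 z4) (c z0 z4))))) (d (c z0 (b (d z4 (c z0 z4)) z0)) (c z0 (b (d (c z0 z4) (c z0 z4)) z0))))))) _ _ (by decide +kernel)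

theorem okA163 : CKA ⟨12288, 18432, 8192, 9216⟩ ⟨6145, 8193, 1024, 2048⟩ :=
  ckA_sound (b (d z0 (a (b (d z0 (c (a (b (d (c z4 z0) (c z4 z0)) (d (c z4 z0) (c z4 z0))) (b (d (c z6 z0) z6) (d (c z6 z0) (c z6 z0)))) z0)) (d z0 (c (b (d (c (a (b z4 z4) z6) z0) (c z4 z0)) (d (c (b (d (c z4 z0) z4) (d (c z4 z0) z4)) z0) (c z4 z0))) z0))) (b (d z0 (c (a (b (d (c z6 z0) z6) (d (c z6 z0) (c z6 z0))) (b (d (c z6 z0) z6) (d (c z6 z0) (c z6 z0)))) z0)) (d z0 (c (a (b (d (c z6 z0) (c z6 z0)) (d (c (a (b z6 (d (c z6 z0) z6)) z6) z0) (c z6 z0))) (b (d (c z6 z0) (c z6 z0)) (d (c z6 z0) (c z6 z0)))) z0))))) (d z0 (b (d z0 (c (a (b (d (c (a (b (d (c z4 z0) z4) (d (c z4 z0) z4)) (b (d (c z6 z0) z6) (d (c z6 z0) z6))) z0) (c z4 z0)) (d (c (b (d (c z4 z0) z4) (d (c z4 z0) z4)) z0) (c z4 z0))) (b (d (c (a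 (b z6 (d (c z6 z0) z6)) (b z6 (d (c z6 z0) z6))) z0) (c z6 z0)) (d (c (a (b (d (c z6 z0) z6) (d (c z4 z0) z4)) (b (d (c z6 z0) z6) (d (c z6 z0) z6))) z0) (c z6 z0)))) z0)) (d z0 (c (b (d (c (b (d (a (c z4 z0) (c z6 z0)) z6) (d (c z4 z0) (c z4 z0))) z0) (c z4 z0)) (d (c (b (d (c z4 z0) (c z4 z0)) z0) z0) (c z4 z0))) z0))))) _ _ (by decide +kernel)

theorem okA164 : CKA ⟨18432, 24576, 8192, 8704⟩ ⟨4097, 6145, 1024, 1536⟩ :=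
  ckA_sound (a (b (d z0 (c z3 (a (b (d (c (a (b (d z0 (c z7 z0)) (d z0 (c z7 z0))) (b (d z0 (c z7 z0)) (d z0 (c z7 z0)))) z0) (c z7 z0)) (d (c (a (b (d z0 (c z7 z0)) (d z0 (c z7 z0))) (b (d z0 (c z7 z0)) (d z0 (c z7 z0)))) z0) (c z7 z0))) (b (d (c (a (b (d z0 (c z7 z0)) (d z0 (c z7 z0))) (b (d z0 (c z7 z0)) (d z0 (c z7 z0)))) z0) (c z7 z0)) (d (c (a (b (d z0 (c z7 z0)) (d z0 (c z7 z0))) (b (d z0 (c z7 z0)) (d z0 (c z7 z0)))) z0) (c z7 z0)))))) (d z0 (c z3 (a (b (d (c (a (b (d z0 (c z6 z0)) (d z0 (c z6 z0))) (b (d z0 (c z7 z0)) (d z0 (c z7 z0)))) z0) (c z6 z0)) (d (c (a (b (d z0 (c z6 z0)) (d z0 (c z6 z0))) (b (d z0 (c z6 z0)) (d z0 (c z6 z0)))) z0) (c z6 z0))) (b (d (c (a (b (d z0 (c z7 z0)) (d z0 (c z7 z0))) (b (d z0 (c z7 z0)) (d z0 (c z7 z0)))) z0) (c z7 z0)) (d (c (a (b (d z0 (c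 z7 z0)) (d z0 (c z7 z0))) (b (d z0 (c z7 z0)) (d z0 (c z7 z0)))) z0) (c z7 z0))))))) (b (d z0 (c (b (d (a z3 (b (d z0 z3) (d z0 z3))) z3) z3) (b (d (a (c (b (d z0 (a (c z7 z0) (c z7 z0))) (d z0 (a (c z7 z0) (c z7 z0)))) z0) (c (b (d z0 (a (c z7 z0) (c z7 z0))) (d z0 (a (c z7 z0) (c z7 z0)))) z0)) (a (c z7 z0) (c (b (d z7 (a (c z3 z7) (c z3 z7))) (d z7 (a z7 (c z3 z7)))) z0))) (d (a (c (b (d z0 (a (c z7 z0) (c z7 z0))) (d z0 (a (c z7 z0) (c z7 z0)))) z0) (c (b (d z0 (a (c z7 z0) (c z7 z0))) (d z0 (a (c z7 z0) (c z7 z0)))) z0)) (a (c z7 z0) (c z7 z0)))))) (d z0 (c z3 (b (d (a (c (b (d z0 (a (c z7 z0) (c z7 z0))) (d z0 (a (c z7 z0) (c z7 z0)))) z0) (c (b (d z0 (a (c z7 z0) (c z7 z0))) (d z0 (a (c z7 z0) (c z7 z0)))) z0)) (a (c z7 z0) (c z7 z0))) (d (a (c (b (d z0 (a (c z7 z0) (c z7 z0)))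 (d z0 (a (c z7 z0) (c z7 z0)))) z0) (c (b (d z0 (a (c z7 z0) (c z7 z0))) (d z0 (a (c z7 z0) (c z7 z0)))) z0)) (a (c z7 z0) (c z7 z0)))))))) _ _ (by decide +kernel)

end Vale.Agent.Lib.P154Q5
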