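import Vale.Agent.Lib.P154Q5.CkADefs

namespace Vale.Agent.Lib.P154Q5

set_option maxRecDepth 100000
set_option exponentiation.threshold 1000

open Tr

theorem okA165 : CKA ⟨18432, 21504, 8192, 8704⟩ ⟨4097, 6145, 1536, 2048⟩ :=
  ckA_sound (c z3 (b (d (a (b (d (c z3 z7) (c z3 z7)) (d (c z3 z7) (c z3 z7))) (b (d (c z3 z7) (c z3 z7)) (d (c z3 z7) (c z3 z7)))) (a (b (d (c z3 (a (b (d (c z3 z7) (c z3 z7)) (d (c z3 z7) (c z3 z7))) (b (d (c z3 z7) (c z3 z7)) (d (c z3 z7) (c z3 z7))))) z3) (d (c z3 (a (b (d (c z3 z7) (c z3 z7)) (d (c z3 z7) (c z3 z7))) (b (d (c z3 z7) (c z3 z7)) (d (c z3 z7) (c z3 z7))))) z3)) (b (d (c z3 (a (b (d (c z3 z7) (c z3 z7)) (d (c z3 z7) (c z3 z7))) (b (d (c z3 z7) (c z3 z7)) (d (c z3 z7) (c z3 z7))))) z3) (d (c z3 (a (b (d (c z3 z7) (c z3 z7)) (d (c z3 z7) (c z3 z7)))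 (b (d (c z3 z7) (c z3 z7)) (d (c z3 z7) (c z3 z7))))) z3)))) (d (a (b (d (c z2 z6) (c z2 z6)) (d (c z2 (a (b z6 (d (c z6 z0) z6)) (b z6 (d (c z6 z0) z6)))) (c z2 z6))) (b (d (c z3 z7) (c z3 z7)) (d (c z3 z7) (c z3 z7)))) (a (b (d (c z2 (a (b (d z6 (c z2 z6)) (d z6 (c z2 z6))) (b (d (c z3 z7) (c z3 z7)) (d (c z3 z7) (c z3 z7))))) z2) (d (c z2 (a (b (d z6 (c z2 z6)) (d z6 (c z2 z6))) (b (d z6 (c z2 z6)) (d z6 (c z2 z6))))) (c z2 (a (b z2 (d (c z2 z6) z2)) z2)))) (b (d (c z3 (a (b (d (c z3 z7) (c z3 z7)) (d (c z3 z7) (c z3 z7))) (b (d (c z3 z7) (c z3 z7)) (d (c z3 z7) (c z3 z7))))) z3) (d (c z3 (a (b (d (c z3 z7) (c z3 z7)) (d z7 (c z3 z7))) (b (d (c z3 z7) (c z3 z7)) (d (c z3 z7) (c z3 z7))))) z3)))))) _ _ (by decide +kernel)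

theorem okA166 : CKA ⟨21504, 24576, 8192, 8704⟩ ⟨4097, 6145, 1536, 2048⟩ :=
  ckA_sound (c z3 (b (d (b (d (a (c z3 z7) (c z3 z7)) (a (c z3 (b (d z7 (a (c z3 z7) (c z3 z7))) (d z7 (a z7 (c z3 z7))))) (c z3 (b (d z7 (a (c z3 z7) (c z3 z7))) (d z7 (a (c z3 z7) (c z3 z7))))))) (d (a (c z3 z7) (c z3 z7)) (a (c z3 z7) (c z3 (b (d z7 (a (c z3 z7) (c z3 z7))) (d z7 (a (c z3 z7) (c z3 z7)))))))) (b (d (a (c z3 (b (d (a (c z3 z7) (c z3 z7)) (a (c z3 z7) (c z3 z7))) (d (a (c z3 z7) (c z3 z7)) (a (c z3 z7) (c z3 z7))))) (c z3 (b (d (a (c z3 z7) (c z3 z7)) (a (c z3 z7) (c z3 z7))) (d (a (c z3 z7) (c z3 z7)) (a (c z3 z7) (c z3 z7)))))) z3) (d (a (c z3 (b (d (a (c z3 z7) (c z3 z7)) (a (c z3 z7) (c z3 z7))) (d (a (c z3 z7) (c z3 z7)) (a (c z3 z7) (c z3 z7))))) (c z3 (b (d (a (c z3 z7) (c z3 z7)) (a (c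 z3 z7) (c z3 z7))) (d (a (c z3 z7) (c z3 z7)) (a (c z3 z7) (c z3 z7)))))) z3))) (d (b (d (a (c z3 z7) (c z3 z7)) (a (c z3 z7) (c z3 (b (d z7 (a z7 (c z3 z7))) z7)))) (d (a (c z3 z7) (c z3 z7)) (a (c z3 z7) (c z3 z7)))) (b (d (a (c z3 (b (d (a (c z3 z7) (c z3 z7)) (a (c z3 z7) (c z3 z7))) (d (a (c z3 z7) (c z3 z7)) (a (c z3 z7) (c z3 z7))))) (c z3 (b (d (a (c z3 z7) (c z3 z7)) (a (c z3 z7) (c z3 z7))) (d (a (c z3 z7) (c z3 z7)) (a (c z3 z7) (c z3 z7)))))) z3) (d (a (c z3 (b (d (a (c z3 z7) (c z3 z7)) (a (c z3 z7) (c z3 z7))) (d (a (c z3 z7) (c z3 z7)) (a (c z3 z7) (c z3 z7))))) (c z3 (b (d (a (c z3 z7) (c z3 z7)) (a (c z3 z7) (c z3 z7))) (d (a (c z3 z7) (c z3 z7)) (a (c z3 z7) (c z3 z7)))))) z3))))) _ _ (by decide +kernel)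

theorem okA167 : CKA ⟨18432, 21504, 8704, 9216⟩ ⟨4097, 6145, 1024, 1536⟩ :=
  ckA_sound (b (d z0 (c z2 (a (b (d (c (a (b (d z0 (c z6 z0)) (d z0 (c z6 z0))) (b (d z0 (c z6 z0)) (d z0 (c z6 z0)))) z0) (c (a (b z6 (d (c z6 z0) z6)) (b z6 (d (c z6 z0) z6))) z0)) (d (c (a (b (d z0 (c z6 z0)) (d z0 (c z6 z0))) (b (d z0 (c z6 z0)) (d z0 (c z6 z0)))) z0) (c (a (b (d (c z6 z0) z6) (d (c z6 z0) z6)) (b (d (c z6 z0) z6) (d (c z6 z0) z6))) z0))) (b (d (c (a (b (d z0 (c z7 z0)) (d z0 (c z6 z0))) (b (d z0 (c z7 z0)) (d z0 (c z7 z0)))) z0) (c z7 z0)) (d (c (a (b (d z0 (c z6 z0)) (d z0 (c z6 z0))) (b (d z0 (c z7 z0)) (d z0 (c z6 z0)))) z0) (c (a (b (d (c z6 z0) z6) (d (c z6 z0) z6)) (b z7 (d (c z6 z0) z6))) z0)))))) (d z0 (c z2 (a (b (d (c (a (b (d z0 (c (a (b (d (c z6 z0) z6) (d (c z6 z0) z6)) (b z6 (d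 (c z6 z0) z6))) z0)) (d z0 (c (a (b (d (c z6 z0) z6) (d (c z6 z0) z6)) (b (d (c z6 z0) z6) (d (c z6 z0) z6))) z0))) (b (d z0 (c z6 z0)) (d z0 (c (a (b (d (c z6 z0) z6) (d (c z6 z0) z6)) (b z6 (d (c z6 z0) z6))) z0)))) z0) (c (a (b (d (c z6 z0) z6) (d (c z6 z0) z6)) (b (d (c z6 z0) z6) (d (c z6 z0) z6))) z0)) (d (c (a (b (d z0 (c (a (b (d (c z6 z0) z6) (d (c z4 z0) z4)) (b (d (c z6 z0) z6) (d (c z6 z0) z6))) z0)) (d z0 (c (b (d (a (c z4 z0) (c z6 z0)) z4) (d (c z4 z0) z4)) z0))) (b (d z0 (c (a (b (d (c z6 z0) z6) (d (c z6 z0) z6)) (b (d (c z6 z0) z6) (d (c z6 z0) z6))) z0)) (d z0 (c (a (b (d (c z6 z0) z6) (d (c z6 z0) z6)) (b (d (c z6 z0) z6) (d (c z6 z0) z6))) z0)))) z0) (c (a (b (d (c z6 z0) z6) (d (c z4 z0) z4)) (b (d (c z6 z0) z6) (d (c z6 z0) z6))) z0))) (b (d (c (a (b (d z0 (c z6 z0))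 (d z0 (c z6 z0))) (b (d z0 (c z6 z0)) (d z0 (c z6 z0)))) z0) (c (a (b (d (c z6 z0) z6) (d (c z6 z0) z6)) (b (d (c z6 z0) z6) (d (c z6 z0) z6))) z0)) (d (c (a (b (d z0 (c (a (b (d (c z6 z0) z6) (d (c z6 z0) z6)) z6) z0)) (d z0 (c (a (b (d (c z6 z0) z6) (d (c z6 z0) z6)) (b (d (c z6 z0) z6) (d (c z6 z0) z6))) z0))) (b (d z0 (c z6 z0)) (d z0 (c (b z6 (d (a (c z6 z0) z6) z6)) z0)))) z0) (c (a (b (d (c z6 z0) z6) (d (c z6 z0) z6)) (b (d (c z6 z0) z6) (d (c z6 z0) z6))) z0))))))) _ _ (by decide +kernel)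

theorem okA168 : CKA ⟨21504, 24576, 8704, 9216⟩ ⟨4097, 6145, 1024, 1536⟩ :=
  ckA_sound (b (d z0 (c z3 (b (d (a (c (b (d z0 (a (c z7 z0) (c z7 z0))) (d z0 (a (c z7 z0) (c z7 z0)))) z0) (c (b (d z0 (a (c z7 z0) (c z7 z0))) (d z0 (a (c z7 z0) (c z7 z0)))) z0)) (a (c z7 z0) (c z7 z0))) (d (a (c (b (d z0 (a (c z7 z0) (c z7 z0))) (d z0 (a (c z7 z0) (c z7 z0)))) z0) (c (b (d z0 (a (c z7 z0) (c z7 z0))) (d z0 (a (c z7 z0) (c z7 z0)))) z0)) (a (c z7 z0) (c z7 z0)))))) (d z0 (c z3 (b (d (a (c (b (d z0 (a (c z7 z0) (c z7 z0))) (d z0 (a (c z7 z0) (c z7 z0)))) z0) (c (b (d z0 (a (c z7 z0) (c z7 z0))) (d z0 (a (c z7 z0) (c z7 z0)))) z0)) (a (c (b (d (a (c z7 z0) z7) z7) (d (a (c z7 z0) z7) z7)) z0) (c z7 z0))) (d (a (c (b (d z0 (a (c z6 z0) (c z7 z0))) (d z0 (a (c z6 z0) (c z7 z0)))) z0) (c (b (d z0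 (a (c z7 z0) (c z7 z0))) (d z0 (a (c z7 z0) (c z7 z0)))) z0)) (a (c (b (d (a (c z6 z0) (c z7 z0)) z7) (d (a (c z6 z0) (c z7 z0)) z6)) z0) (c z7 z0))))))) _ _ (by decide +kernel)

theorem okA169 : CKA ⟨18432, 21504, 8704, 9216⟩ ⟨4097, 5121, 1536, 2048⟩ :=
  ckA_sound z2 _ _ (by decide +kernel)

theorem okA170 : CKA ⟨18432, 21504, 8704, 8960⟩ ⟨5121, 6145, 1536, 2048⟩ :=
  ckA_sound (d (a (b (d (c z2 (a (b (d (c z6 z0) z6) (d (c z6 z0) z6)) (b (d (c z6 z0) z6) (d (c z6 z0) z6)))) (c z2 z6)) (d (c z2 (a (b (d (c z6 z0) z6) (d (c z6 z0) z6)) (b (d (c z6 z0) z6) (d (c z6 z0) z6)))) (c z2 z6))) (b (d (c z3 (a (b (d (c z7 z0) z7) (d (c z6 z0) z6)) (b z7 (d (c z7 z0) z7)))) (c z3 z7)) (d (c z2 (a (b (d (c z6 z0) z6) (d (c z6 z0) z6)) (b (d (c z7 z0) z7) (d (c z6 z0) z6)))) (c z2 z6)))) (a (b (d (c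 z2 (a (b (d z6 (c z2 z6)) (d z6 (c z2 z6))) (b (d z6 (c z2 z6)) (d z6 (c z2 z6))))) (c z2 (a (b (d (c z2 z6) z2) (d (c z2 z6) z2)) (b (d (c z2 z6) z2) (d (c z2 z6) z2))))) (d (c z2 (a (b (d z6 (c z2 z6)) (d z6 (c z2 z6))) (b (d z6 (c z2 z6)) (d z6 (c z2 z6))))) (c z2 (a (b (d (c z2 z6) z2) (d (c z2 z6) z2)) (b (d (c z2 z6) z2) (d (c z2 z6) z2)))))) (b (d (c z3 (a (b (d z7 (c z3 z7)) (d z6 (c z2 z6))) (b (d (c z3 z7) (c z3 z7)) (d z7 (c z3 z7))))) (c z3 (a (b z3 (d (c z2 z6) z2)) z3))) (d (c z2 (a (b (d z6 (c z2 z6)) (d z6 (c z2 z6))) (b (d z7 (c z3 z7)) (d z6 (c z2 z6))))) (c z2 (a (b (d (c z2 z6) z2) (d (c z2 z6) z2)) (b (d (c z3 z7) z3) (d (c z2 z6) z2)))))))) _ _ (by decide +kernel)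

theorem okA171 : CKA ⟨18432, 21504, 8960, 9216⟩ ⟨5121, 6145, 1536, 2048⟩ :=
  ckA_sound (d (a (b (d (c z2 (a (b (d (c z6 z0) z6) (d (c z6 z0) (c z6 z0))) (b (d (c z6 z0) z6) (d (c z6 z0) z6)))) (c z2 z6)) (d (c z2 (a (b (d (c z6 z0) (c z6 z0)) (d (c z4 z0) (c z4 z0))) (b (d (c z6 z0) (c z6 z0)) (d (c z6 z0) (c z6 z0))))) (c z2 z6))) (b (d (c z2 (a (b (d (c z6 z0) z6) (d (c z6 z0) z6)) (b (d (c z6 z0) z6) (d (c z6 z0) z6)))) (c z2 z6)) (d (c z2 (a (b (d (c z6 z0) z6) (d (c z6 z0) (c z6 z0))) (b (d (c z6 z0) z6) (d (c z6 z0) z6)))) (c z2 z6)))) (a (b (d (c z2 (a (b (d z6 (c z2 z6)) (d z6 (c z2 z6))) (b (d z6 (c z2 z6)) (d z6 (c z2 z6))))) (c z2 (a (b (d (c z2 z6) (c z2 z6)) (d (c z2 z6) (c z2 z6))) (b (d (c z2 z6) z2) (d (c z2 z6) (c z2 z6)))))) (d (c z2 (a (b (d z6 (c z2 z6)) (d z4 (c z0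 z4))) (b (d z6 (c z2 z6)) (d z6 (c z2 z6))))) (c z2 (a (b (d (c z2 z6) (c z2 z6)) (d (c z0 z4) (c z0 z4))) (b (d (c z2 z6) (c z2 z6)) (d (c z2 z6) (c z2 z6))))))) (b (d (c z2 (a (b (d z6 (c z2 z6)) (d z6 (c z2 z6))) (b (d z6 (c z2 z6)) (d z6 (c z2 z6))))) (c z2 (a (b (d (c z2 z6) z2) (d (c z2 z6) z2)) (b (d (c z2 z6) z2) (d (c z2 z6) z2))))) (d (c z2 (a (b (d z6 (c z2 z6)) (d z6 (c z2 z6))) (b (d z6 (c z2 z6)) (d z6 (c z2 z6))))) (c z2 (a (b (d (c z2 z6) z2) (d (c z2 z6) (c z2 z6))) (b (d (c z2 z6) z2) (d (c z2 z6) z2)))))))) _ _ (by decide +kernel)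

theorem okA172 : CKA ⟨21504, 24576, 8704, 9216⟩ ⟨4097, 6145, 1536, 2048⟩ :=
  ckA_sound (c z3 (b (d (b (d (a (c z3 z7) (c z3 z7)) (a (c z3 z7) (c z3 z7))) (d (a (c z3 (b (d (a (c z7 z0) z7) z7) (d (a (c z7 z0) z7) z7))) (c z3 z7)) (a (c z3 z7) (c z3 z7)))) (b (d (a (c z3 (b (d (a (c z3 z7) (c z3 z7)) (a (c z3 z7) (c z3 z7))) (d (a z7 (c z3 z7)) (a (c z3 z7) (c z3 z7))))) (c z3 (b (d (a (c z3 z7) (c z3 z7)) (a (c z3 z7) (c z3 z7))) (d (a (c z3 z7) (c z3 z7)) (a (c z3 z7) (c z3 z7)))))) z3) (d (a (c z3 (b (d z7 (a (c z3 z7) (c z3 z7))) (d z7 (a (c z3 z7) (c z3 z7))))) (c z3 (b (d (a (c z3 z7) (c z3 z7)) (a (c z3 z7) (c z3 z7))) (d z7 (a (c z3 z7) (c z3 z7)))))) z3))) (d (b (d (a (c z3 (b (d (a (c z7 z0) (c z7 z0)) z7) (d (a (c z7 z0) (c z7 z0)) z7))) (c z3 (b z7 (d (a (c z7 z0) z7) z7))))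 (a (c z3 z7) (c z3 z7))) (d (a (c z2 (b (d (a (c z6 z0) (c z7 z0)) z7) (d (a (c z6 z0) (c z7 z0)) z6))) (c z3 (b (d (a (c z7 z0) z7) z7) (d (a (c z7 z0) (c z7 z0)) z7)))) (a (c z2 z6) (c z3 z7)))) (b (d (a (c z3 (b (d z7 (a (c z3 z7) (c z3 z7))) (d z7 (a (c z3 z7) (c z3 z7))))) (c z3 (b (d z7 (a (c z3 z7) (c z3 z7))) (d z7 (a (c z3 z7) (c z3 z7)))))) (a (c z3 (b (d (a (c z3 z7) z3) z3) (d (a (c z3 z7) z3) z3))) z3)) (d (a (c z2 (b (d z7 (a (c z2 z6) (c z3 z7))) (d z6 (a (c z2 z6) (c z3 z7))))) (c z3 (b (d z7 (a (c z3 z7) (c z3 z7))) (d z7 (a (c z3 z7) (c z3 z7)))))) (a (c z2 (b (d (a (c z2 z6) (c z3 z7)) z3) (d (a (c z2 z6) (c z3 z7)) z2))) z3)))))) _ _ (by decide +kernel)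

theorem okA173 : CKA ⟨18432, 24576, 8192, 9216⟩ ⟨6145, 8193, 1024, 2048⟩ :=
  ckA_sound (b (d z0 (a (b (d z0 (c (a (b (d (c z7 z0) z7) (d (c z7 z0) (c z7 z0))) (b (d (c z7 z0) z7) (d (c z7 z0) z7))) z0)) (d z0 (c (a (b (d (c z6 z0) (c z6 z0)) (d (c z6 z0) (c z6 z0))) (b (d (c z7 z0) z7) (d (c z7 z0) (c z7 z0)))) z0))) (b (d z0 (c (b z7 (d (a (c z7 z0) z7) z7)) z0)) (d z0 (c (b (d (a (c z7 z0) (c z7 z0)) z7) (d (a (c z7 z0) (c z7 z0)) z7)) z0))))) (d z0 (a (b (d z0 (c (a (b (d (c z6 z0) (c z6 z0)) (d (c (a (b (d (c z6 z0) z6) (d (c z6 z0) z6)) (b z6 (d (c z6 z0) z6))) z0) (c z6 z0))) (b (d (c z7 z0) (c z7 z0)) (d (c z6 z0) (c z6 z0)))) z0)) (d z0 (c (a (b (d (c (a (b (d (c z6 z0) z6) (d (c z6 z0) z6)) (b (d (c z6 z0) z6) (d (c z6 z0) z6))) z0) (c z6 z0)) (d (c (a (b (d (c z6 z0) (c z6 z0))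 (d (c z4 z0) (c z4 z0))) (b (d (c z6 z0) z6) (d (c z6 z0) z6))) z0) (c z6 z0))) (b (d (c (a (b (d (c z6 z0) z6) (d (c z6 z0) z6)) (b z6 (d (c z6 z0) z6))) z0) (c z6 z0)) (d (c (a (b (d (c z6 z0) z6) (d (c z6 z0) z6)) (b (d (c z6 z0) z6) (d (c z6 z0) z6))) z0) (c z6 z0)))) z0))) (b (d z0 (c (b (d (a (c z7 z0) (c z7 z0)) z7) (d (a (c z7 z0) (c z7 z0)) (a (c z7 z0) z7))) z0)) (d z0 (c (b (d (a (c z7 z0) (c z7 z0)) (a (c z7 z0) (c z7 z0))) (d (a (c (b (d (a z6 z7) z7) (d (a (c z6 z0) z7) z6)) z0) (c z7 z0)) (a (c z6 z0) (c z7 z0)))) z0)))))) _ _ (by decide +kernel)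

theorem okA174 : CKA ⟨12288, 24576, 9216, 10240⟩ ⟨4097, 8193, 0, 1024⟩ :=
  ckA_sound z0 _ _ (by decide +kernel)

theorem okA175 : CKA ⟨12288, 24576, 9216, 9472⟩ ⟨4097, 6145, 1024, 1536⟩ :=
  ckA_sound (d z0 (a (c (b z2 z2) (b (d (a (c (b (d z0 (a (c (b (d (a (c z4 z0) (c z6 z0)) z6) (d (a (c z4 z0) (c z6 z0)) z4)) z0) (c (b (d (a (c z6 z0) (c z6 z0)) z6) (d (a (c z6 z0) (c z6 z0)) z6)) z0))) (d z0 (a (c (b (d (a (c z4 z0) (c z6 z0)) z4) (d (c z4 z0) z4)) z0) (c (b (d (a (c z6 z0) (c z6 z0)) z6) (d (a (c z4 z0) (c z6 z0)) z6)) z0)))) z0) (c (b (d z0 (a (c (b (d (a (c z6 z0) (c z6 z0)) z6) (d (a (c z6 z0) (c z6 z0)) z6)) z0) (c z6 z0))) (d z0 (a (c (b (d (a (c z6 z0) (c z6 z0)) z6) (d (a (c z6 z0) (c z6 z0)) z6)) z0) (c (b (d (a (c z6 z0) z6) z6) (d (a (c z6 z0) z6) z6)) z0)))) z0)) (a (c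 (b (d (a (c z4 z0) (c z6 z0)) z6) (d (a (c z4 z0) (c z6 z0)) z4)) z0) (c (b (d (a (c z6 z0) (c z6 z0)) z6) (d (a (c z6 z0) (c z6 z0)) z6)) z0))) (d (a (c (b (d z0 (a (c (b (d (a (c z4 z0) (c z6 z0)) z4) (d (c z4 z0) z4)) z0) (c (b (d (c z6 z0) z6) (d (c z6 z0) z6)) z0))) (d z0 (c (b (d (c z4 z0) z4) (d (c z4 z0) z4)) z0))) z0) (c (b (d z0 (c (a (b (d (c z6 z0) z6) (d (c z6 z0) z6)) (b (d (c z6 z0) z6) (d (c z6 z0) z6))) z0)) (d z0 (c (a (b (d (c z6 z0) z6) (d (c z6 z0) z6)) (b (d (c z6 z0) z6) (d (c z6 z0) z6))) z0))) z0)) (a (c (b (d (a (c z4 z0) (c z6 z0)) z6) (d (c z4 z0) z4)) z0) (c (b (d (c z6 z0) z6) (d (c z6 z0) z6)) z0))))) (c z2 (b (d (a (c (b (d z0 (a (c z6 z0) (c z7 z0))) (d z0 (a (c z6 z0) (c z6 z0)))) z0) (c (b (d z0 (a (c z7 z0) (c z7 z0))) (d z0 (a (c z7 z0) (c z7 z0)))) z0))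 (a (c (b (d (a (c z6 z0) (c z7 z0)) z6) (d (a (c z6 z0) (c z6 z0)) z6)) z0) (c z7 z0))) (d (a (c (b (d z0 (a (c z6 z0) (c z6 z0))) (d z0 (a (c (b z6 (d (a (c z6 z0) z6) z6)) z0) (c z6 z0)))) z0) (c (b (d z0 (a (c z7 z0) (c z7 z0))) (d z0 (a (c z6 z0) (c z7 z0)))) z0)) (a (c (b (d (a (c z6 z0) (c z6 z0)) z6) (d (a (c z6 z0) (c z6 z0)) z6)) z0) (c (b (d (a (c z7 z0) z7) z7) (d (a (c z6 z0) z7) z7)) z0))))))) _ _ (by decide +kernel)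

theorem okA176 : CKA ⟨12288, 24576, 9472, 9728⟩ ⟨4097, 6145, 1024, 1536⟩ :=
  ckA_sound (d z0 (c (a (b z2 z0) z2) (a (b (d (c (a (b (d z0 (c (a (b (d (c z4 z0) z4) (d (c z4 z0) z4)) (b (d (c z6 z0) z6) (d (c z6 z0) z6))) z0)) (d z0 (c (b (d (c z4 z0) z4) (d (c z4 z0) z4)) z0))) (b (d z0 (c (a (b (d (c z6 z0) z6) (d (c z6 z0) z6)) z6) z0)) (d z0 (c (a (b (d (c z6 z0) z6) (d (c z6 z0) z6)) z6) z0)))) z0) (c (a (b (d (c z6 z0) z6) (d (c z4 z0) z4)) (b (d (c z6 z0) z6) (d (c z6 z0) z6))) z0)) (d (c (b (d z0 (c (b (d (a (c z4 z0) z6) z6) (d (c z4 z0) z4)) z0)) (d z0 (c z4 z0))) z0) (c (b (d (c z4 z0) z4) (d (c z4 z0) z4)) z0))) (b (d (c (a (b (d z0 (c z6 z0)) (d z0 (c z6 z0))) (b (d z0 (c z6 z0)) (d z0 (c z6 z0)))) z0) (c (a (b (d (c z6 z0) z6) (d (c z6 z0) z6)) (b (d (c z6 z0) z6) (d (c z6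 z0) z6))) z0)) (d (c (a (b (d z0 (c z6 z0)) (d z0 (c z6 z0))) (b (d z0 (c z6 z0)) (d z0 (c z6 z0)))) z0) (c (a (b (d (c z6 z0) z6) (d (c z6 z0) z6)) (b (d (c z6 z0) z6) (d (c z6 z0) z6))) z0)))))) _ _ (by decide +kernel)

theorem okA177 : CKA ⟨12288, 24576, 9216, 9728⟩ ⟨4097, 6145, 1536, 2048⟩ :=
  ckA_sound (c z2 (b (d (a (b (d (a (c z0 (b (d (a (c z4 z0) (c z6 z0)) (a (c z4 z0) (c z6 z0))) (d (c z4 z0) (c z4 z0)))) (c z2 (b (d (a (c z6 z0) (c z6 z0)) (a (c z6 z0) z6)) (d (a (c z6 z0) (c z6 z0)) (a (c z6 z0) (c z6 z0)))))) (a (c z0 (b z6 z4)) (c z2 z6))) (d (c z2 (a (b (d (c z6 z0) (c z6 z0)) (d (c z4 z0) (c z4 z0))) (b (d (c z6 z0) (c z6 z0)) (d (c z6 z0) (c z6 z0))))) (c z2 z6))) (b (d (c z3 (a (b (d (c z6 z0) z6) (d (c z6 z0) z6)) (b (d (c z7 z0) z7) (d (c z7 z0) z7)))) (c z3 z7)) (d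 (c z2 (a (b (d (c z6 z0) z6) (d (c z6 z0) (c z6 z0))) (b (d (c z7 z0) z7) (d (c z7 z0) z7)))) (c z2 z6)))) (a (b (d (a (c z0 (b (d z6 (a (c z0 z4) (c z2 z6))) (d (c z0 z4) (c z0 z4)))) (c z2 (b (d z6 (a (c z2 z6) z6)) z6))) (a (c z0 (b (d (a (c z0 z4) (c z2 z6)) (a (c z0 z4) (c z2 z6))) (d (c z0 z4) (c z0 z4)))) (c z2 (b (d (a (c z2 z6) (c z2 z6)) (a (c z2 z6) z2)) (d (a (c z2 z6) (c z2 z6)) (a (c z2 z6) z2)))))) (d (c z2 z6) (c z2 (a (b (d (c z2 z6) (c z2 z6)) (d (c z0 z4) (c z0 z4))) (b (d (c z2 z6) (c z2 z6)) (d (c z2 z6) (c z2 z6))))))) (b (d (c z3 z7) (c z3 (a (b (d (c z2 z6) z2) (d (c z2 z6) z2)) z3))) (d (c z2 z6) (c z2 (a (b (d (c z2 z6) z2) (d (c z2 z6) z2)) (b (d (c z3 z7) z3) (d (c z3 z7) z3)))))))) (d (a (b (d (c z2 (a (b (d (c z6 z0) (c z6 z0)) (d (c z4 z0) (c z4 z0))) (b (d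 (c z6 z0) (c z6 z0)) (d (c z6 z0) (c z6 z0))))) (c z2 z6)) (d (c z0 (b (d (c z4 z0) (c z4 z0)) (d (c z4 z0) (c z4 z0)))) (c z0 z4))) (b (d (c z2 (a (b (d (c z6 z0) z6) (d (c z6 z0) (c z6 z0))) (b (d (c z6 z0) z6) (d (c z6 z0) z6)))) (c z2 z6)) (d (c z2 (a (b (d (c z6 z0) (c z6 z0)) (d (c z6 z0) (c z6 z0))) (b (d (c z6 z0) z6) (d (c z6 z0) z6)))) (c z2 z6)))) (a (b (d (c z2 z6) (c z2 (a (b (d (c z2 z6) (c z2 z6)) (d (c z0 z4) (c z0 z4))) (b (d (c z2 z6) z2) (d (c z2 z6) (c z2 z6)))))) (d (c z0 (b (d z4 (c z0 z4)) z4)) (c z0 (b (d (c z0 z4) (c z0 z4)) (d (c z0 z4) z0))))) (b (d (c z2 z6) (c z2 (a (b (d (c z2 z6) z2) (d (c z2 z6) z2)) (b (d (c z2 z6) z2) (d (c z2 z6) z2))))) (d (c z2 z6) (c z2 (a (b (d (c z2 z6) z2) (d (c z2 z6) z2)) (b (d (c z2 z6) z2) (d (c z2 z6) z2)))))))))) _ _ (by decide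 +kernel)

theorem okA178 : CKA ⟨12288, 24576, 9728, 10240⟩ ⟨4097, 6145, 1024, 2048⟩ :=
  ckA_sound (d (b (d z0 (c (b z2 z0) (b (d (c (b (d z0 (a (c (b z6 z4) z0) (c z6 z0))) (d z0 (c z6 z0))) z0) (c (b (d (a (c z4 z0) (c z6 z0)) z6) (d (c z6 z0) z6)) z0)) (d (c (b (d z0 (c z4 z0)) z0) z0) (c (b (d (c z4 z0) z4) z0) z0))))) z0) (c z0 (b (d (b (d (c z2 (b (d (c z6 z0) (c z6 z0)) (d (c z6 z0) (c z6 z0)))) (c z2 z6)) (d (c z0 (b (d (c z4 z0) (c z4 z0)) z0)) (c z0 z4))) (b (d (c z2 z6) (c z2 (b (d (c z2 z6) z2) (d (c z2 z6) z2)))) (d (c z0 z4) (c z0 (b (d (c z0 z4) z0) z0))))) z0))) _ _ (by decide +kernel)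

theorem okA179 : CKA ⟨12288, 24576, 9216, 10240⟩ ⟨6145, 8193, 1024, 2048⟩ :=
  ckA_sound (b (d z0 (b (d z0 (a (c (b (d (a (c (b (d (a (c z4 z0) (c z6 z0)) (a (c z4 z0) z6)) (d (c z4 z0) (c z4 z0))) z0) (c (b (d (a (c z6 z0) (c z6 z0)) z6) (d (a (c z6 z0) (c z6 z0)) z6)) z0)) (a (c z4 z0) (c z6 z0))) (d (c (a (b (d (c z6 z0) (c z6 z0)) (d (c z4 z0) (c z4 z0))) (b (d (c z6 z0) z6) (d (c z6 z0) (c z6 z0)))) z0) (c z6 z0))) z0) (c (b (d (a (c (b (d (a (c z6 z0) (c z7 z0)) z6) (d (a (c z6 z0) (c z6 z0)) z6)) z0) (c z7 z0)) (a (c z6 z0) (c z7 z0))) (d (a (c (b (d (a (c z6 z0) (c z6 z0)) z6) (d (a (c z6 z0) (c z6 z0)) z6)) z0) (c (b (d (c z7 z0) z7) (d (c z7 z0) z7)) z0)) (a (c z6 z0) (c z7 z0)))) z0))) (d z0 (c (a (b (d (c (a (b (d (c z6 z0) (c z6 z0)) (d (c z4 z0) (c z4 z0))) (b (d (c z6 z0)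 z6) (d (c z6 z0) (c z6 z0)))) z0) (c z6 z0)) (d (c (b (d (c z4 z0) (c z4 z0)) (d (c z4 z0) (c z4 z0))) z0) (c (b z4 z4) z0))) (b (d (c (a (b (d (c z6 z0) z6) (d (c z6 z0) z6)) (b (d (c z6 z0) z6) (d (c z6 z0) z6))) z0) (c z6 z0)) (d (c (a (b (d (c z6 z0) z6) (d (c z6 z0) (c z6 z0))) (b (d (c z6 z0) z6) (d (c z6 z0) z6))) z0) (c z6 z0)))) z0)))) (d z0 (b (d z0 (c (b (d (c (b (d (c z6 z0) (c z6 z0)) (d (c z6 z0) (c z6 z0))) z0) (c z6 z0)) (d (c (b (d (c z4 z0) (c z4 z0)) z0) z0) (c z4 z0))) z0)) z0))) _ _ (by decide +kernel)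

end Vale.Agent.Lib.P154Q5
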