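import Vale.Agent.Lib.P154Q5.CkADefs

namespace Vale.Agent.Lib.P154Q5

set_option maxRecDepth 100000
set_option exponentiation.threshold 1000

open Tr

theorem okA180 : CKA ⟨12288, 18432, 8192, 9216⟩ ⟨4097, 6145, 2048, 3072⟩ :=
  ckA_sound (b z2 (d (c z0 (b (d (a (b z0 z0) z2) z2) (d (b z0 z0) z0))) z0)) _ _ (by decide +kernel)

theorem okA181 : CKA ⟨12288, 18432, 8192, 8704⟩ ⟨6145, 8193, 2048, 3072⟩ :=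
  ckA_sound (d (a (b (d (c z6 z0) (c (a (b (d z4 (c z0 z4)) z4) (b z6 (d z6 (c (a (b z2 (d z6 z2)) (b z2 (d z6 z2))) z6)))) (a (b (d (a (c z4 z0) z6) z4) (d (c z4 z0) (c z4 z0))) (b z6 (d (c z6 z0) z6))))) (d (c (b (d (c z4 (a (b z4 z4) z6)) z4) (d (c z4 (b z4 z4)) z4)) z0) (c (b (d z4 (c (a (b (d z4 z0) (d z4 (c z0 z4))) (b (d z6 z2) (d z6 z2))) z4)) (d z4 (c (b (d z4 (c z0 z4)) (d z4 (c z0 z4))) z4))) (b (d (c z4 z0) (c z4 z0)) (d (c (b z4 z4) z0) (c z4 z0)))))) (b (d (c z6 z0) (c (a (b (d z6 (c z2 z6)) (d z6 (c z2 z6))) (b (d z6 (c z2 z6)) (d z6 (c z2 z6)))) z6)) (d (c z6 z0) (c (a (b (d z6 (c (a (b (d z6 z2) (d z6 z2)) (b (d z6 z2) (d z6 z2))) z6)) (d z6 (c (a (b (d z6 (c z2 z6)) (d z6 (c z2 z6))) (b (d z6 z2) (d z6 (c z2 z6)))) z6))) (b (d z6 (c (a (b z2 (d z6 z2)) z2) z6)) (d z6 (c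 (a (b (d z6 z2) (d z6 z2)) (b (d z6 z2) (d z6 z2))) z6)))) (a (b (d (c z6 z0) z6) (d (c z6 z0) z6)) (b (d (c z6 z0) z6) (d (c z6 z0) z6))))))) (a (b (d (c (a (b (d (c z0 z4) (c z0 z4)) (d (c z0 z4) (c z0 z4))) (b (d (c z2 z6) (c z2 z6)) (d (c z2 z6) (c z2 z6)))) z6) (c (a (b (d (c z0 z4) (c z0 (a (b z0 (d z4 z0)) z2))) (d (c z0 z4) (c z0 (b (d z4 z0) (d z4 z0))))) (b (d (c z2 z6) z2) (d (c z2 z6) (c z2 (a (b z2 (d z6 z2)) (b z2 (d z6 z2))))))) z6)) (d (c (b (d (c z0 z4) (c z0 z4)) (d (c z0 z4) (c z0 z4))) (b z4 z4)) (c (b (d (c z0 z4) (c z0 (a (b (d z4 (c z0 z4)) (d z4 (c z0 z4))) (b (d z6 z2) (d z6 z2))))) (d (c z0 z4) (c z0 (b (d z4 (c z0 z4)) (d z4 (c z0 z4)))))) z4))) (b (d (c (a (b (d (c z2 z6) (c z2 z6)) (d (c z2 z6) (c z2 z6))) (b (d (c z2 z6) (c z2 z6)) (d (c z2 z6) (c z2 z6))))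 z6) (c (a (b (d (c z2 z6) z2) (d (c z2 z6) z2)) (b (d (c z2 z6) z2) (d (c z2 z6) z2))) z6)) (d (c (a (b (d (c z2 z6) (c z2 z6)) (d (c z2 z6) (c z2 z6))) (b (d (c z2 z6) (c z2 z6)) (d (c z2 z6) (c z2 z6)))) z6) (c (a (b (d (c z2 z6) (c z2 (a (b (d z6 z2) (d z6 z2)) (b z2 (d z6 z2))))) (d (c z2 z6) (c z2 (a (b (d z6 z2) (d z6 (c z2 z6))) (b (d z6 z2) (d z6 z2)))))) (b (d (c z2 z6) z2) (d (c z2 z6) (c z2 (a (b (d z6 z2) (d z6 z2)) (b (d z6 z2) (d z6 z2))))))) z6))))) _ _ (by decide +kernel)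

theorem okA182 : CKA ⟨12288, 18432, 8704, 9216⟩ ⟨6145, 8193, 2048, 3072⟩ :=
  ckA_sound (d (b (d (c (a (b (d (c z4 (a (b (d z0 z4) (d z0 z4)) z6)) z4) (d (c z4 (b (d z0 z4) (d z0 z4))) z4)) (b z6 (d (c z6 (a (b z6 (d z0 z4)) z6)) z6))) z0) (c (a (b (d z4 (c (a (b (d (c z0 z4) (c z0 z4)) (d z4 (c z0 z4))) (b (d z6 (c z2 z6)) (d z6 (c z2 z6)))) z4)) (d z4 (c (b (d (c z0 z4) (c z0 z4)) (d z4 (c z0 z4))) z4))) (b (d z6 (c (a (b (d z6 (c z2 z6)) (d z6 (c z2 z6))) (b (d z6 z2) (d z6 (c z2 z6)))) z6)) (d z6 (c (a (b (d z6 (c z2 z6)) (d (c z0 z4) (c z0 z4))) (b (d z6 (c z2 z6)) (d z6 (c z2 z6)))) z6)))) (a (b (d (c (a (b z4 z4) z6) z0) (c z4 z0)) (d (c (b z4 z4) z0) (c z4 z0))) (b (d (c z6 z0) z6) (d (c z6 z0) z6))))) (d (c (b (d (c z4 (b (d z0 z6) (d z0 z4))) z4) (d (c z4 (b (d z0 z4) z0)) z4))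 z0) (c (b (d z4 (c (b (d (a (c z0 z4) z6) (a (c z0 z4) (c z2 z6))) (d (c z0 z4) (c z0 z4))) z4)) (d z4 (c (b (d z4 (c z0 z4)) z0) z4))) (b (d (c (b z6 (d z0 z4)) z0) (c z4 z0)) (d (c (b (d z0 z4) z0) z0) (c z4 z0)))))) (b (d (c (a (b (d (c (a (b z0 z0) z2) z4) (c z0 z4)) (d (c (b (d (c z0 z4) z0) (d (c z0 z4) z0)) z4) (c z0 z4))) (b (d (c z2 z6) (c z2 z6)) (d (c (a (b z2 (d (c z0 z4) z0)) z2) z6) (c z2 z6)))) z6) (c (a (b (d (c z0 z4) (c z0 (a (b (d z4 (c z0 z4)) (d z4 (c z0 z4))) (b (d z6 (c z2 z6)) (d z6 (c z2 z6)))))) (d (c z0 z4) (c z0 (b (d z4 (c z0 z4)) (d z4 (c z0 z4)))))) (b (d (c z2 z6) (c z2 (a (b (d z6 z2) (d z6 (c z2 z6))) (b (d z6 z2) (d z6 z2))))) (d (c z2 z6) (c z2 (a (b (d z6 (c z2 z6)) (d z4 (c z0 z4))) (b (d z6 (c z2 z6)) (d z6 (c z2 z6)))))))) z6)) (d (c (b (d (c (b (d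 (a (c z0 z4) z2) z2) (d (c z0 z4) z0)) z4) (c z0 z4)) (d (c (b (d (c z0 z4) z0) z0) z4) (c z0 z4))) (b (d (c z4 (b z6 z4)) z4) (d (c z4 (b z4 z0)) z4))) (c (b (d (c z0 z4) (c z0 (b (d z6 (a (c z0 z4) (c z2 z6))) (d z4 (c z0 z4))))) (d (c z0 z4) (c z0 (b (d z4 (c z0 z4)) z0)))) z4)))) _ _ (by decide +kernel)

theorem okA183 : CKA ⟨18432, 24576, 8192, 9216⟩ ⟨4097, 6145, 2048, 3072⟩ :=
  ckA_sound z3 _ _ (by decide +kernel)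

theorem okA184 : CKA ⟨18432, 24576, 8192, 8704⟩ ⟨6145, 8193, 2048, 3072⟩ :=
  ckA_sound (d (a (b (d (c z7 z0) (c (a (b (d z7 (c z3 z7)) (d z7 (c z3 z7))) (b (d z7 (c z3 z7)) (d z7 (c z3 z7)))) z7)) (d (c z7 z0) (c (a (b (d z6 (c z2 z6)) (d z6 (c (a (b (d z6 z2) (d z6 z2)) (b z2 (d z6 z2))) z6))) (b (d z7 (c z3 z7)) (d z7 (c z3 z7)))) (a (b z6 (d (c z6 z0) z6)) z7)))) (b (d (c z7 z0) (c (b (d z7 (a (c z3 z7) (c z3 z7))) (d z7 (a (c z3 z7) (c z3 z7)))) z7)) (d (c z7 z0) (c (b (d z7 (a (c z3 z7) (c z3 z7))) (d z7 (a (c z3 z7) (c z3 z7)))) z7)))) (a (b (d (c (a (b (d (c z3 z7) (c z3 z7)) (d (c z3 z7) (c z3 z7))) (b (d (c z3 z7) (c z3 z7)) (d (c z3 z7) (c z3 z7)))) z7) (c (a (b (d (c z3 z7) z3) (d (c z3 z7) z3)) (b (d (c z3 z7) z3) (d (c z3 z7) z3))) z7)) (d (c (a (b (d (c z2 z6) (c z2 z6))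 (d (c z2 z6) (c z2 z6))) (b (d (c z3 z7) (c z3 z7)) (d (c z3 z7) (c z3 z7)))) z7) (c (a (b (d (c z2 z6) z2) (d (c z2 z6) (c z2 (a (b z2 (d z6 z2)) z2)))) (b (d (c z3 z7) z3) (d (c z3 z7) z3))) z7))) (b (d (c (b (d (a (c z3 z7) (c z3 z7)) (a (c z3 z7) (c z3 z7))) (d (a (c z3 z7) (c z3 z7)) (a (c z3 z7) (c z3 z7)))) z7) (c (b z3 (d (a (c z3 z7) z3) z3)) z7)) (d (c (b (d (a (c z3 z7) (c z3 z7)) (a (c z3 z7) (c z3 z7))) (d (a (c z3 z7) (c z3 z7)) (a (c z3 z7) (c z3 z7)))) z7) (c (b (d (a (c z3 z7) z3) z3) (d (a (c z3 z7) (c z3 z7)) z3)) z7))))) _ _ (by decide +kernel)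

theorem okA185 : CKA ⟨18432, 24576, 8704, 9216⟩ ⟨6145, 8193, 2048, 2560⟩ :=
  ckA_sound (a (b (d (c z6 z0) (c (a (b (d z6 (c (a (b (d z6 z2) (d z6 z2)) (b (d z6 z2) (d z6 z2))) z6)) (d z6 (c (a (b (d z6 (c z2 z6)) (d z6 (c z2 z6))) (b (d z6 z2) (d z6 z2))) z6))) (b (d z7 (c (a (b (d z7 z3) (d z6 z2)) z3) z7)) (d z6 (c (a (b (d z6 z2) (d z6 z2)) (b (d z7 z3) (d z6 z2))) z6)))) (a (b (d (c z6 z0) z6) (d (c z6 z0) z6)) (b (d (c z7 z0) z7) (d (c z6 z0) z6))))) (d (c (a (b (d (c z6 (a (b z6 (d z0 z6)) z6)) z6) (d (c z6 (a (b (d z0 z6) (d z0 (c z4 z0))) (b (d z0 z6) (d z0 z6)))) z6)) (b z6 (d (c z6 (a (b z6 (d z0 z6)) z6)) z6))) z0) (c (a (b (d z6 (c (a (b (d z6 (c z2 z6)) (d z6 (c z2 z6))) (b (d z6 (c z2 z6)) (d z6 (c z2 z6)))) z6)) (d z6 (c (a (b (d z6 (c z2 z6)) (d z4 (c z0 z4))) (b (d z6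 (c z2 z6)) (d z6 (c z2 z6)))) z6))) (b (d z6 (c (a (b (d z6 z2) (d z6 (c z2 z6))) (b (d z6 z2) (d z6 z2))) z6)) (d z6 (c (a (b (d z6 (c z2 z6)) (d z6 (c z2 z6))) (b (d z6 z2) (d z6 (c z2 z6)))) z6)))) (a (b (d (c z6 z0) z6) (d (c z6 z0) (c z6 z0))) (b (d (c z6 z0) z6) (d (c z6 z0) z6)))))) (b (d (c z7 z0) (c (b (d z7 (a (c z3 z7) (c z3 z7))) (d z7 (a (c (b z3 (d z7 z3)) z7) (c z3 z7)))) (b z7 (d (a (c z7 z0) z7) z7)))) (d (c (b z7 (d (a z6 z7) z7)) z0) (c (b (d z7 (a (c (b (d z7 z3) (d z7 z3)) z7) (c z3 z7))) z7) (b (d (a (c z7 z0) z7) z7) (d (a (c z6 z0) (c z7 z0)) (a z6 z7))))))) _ _ (by decide +kernel)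

theorem okA186 : CKA ⟨18432, 24576, 8704, 9216⟩ ⟨6145, 8193, 2560, 3072⟩ :=
  ckA_sound (a (b (d (c (a (b (d (c z2 z6) (c z2 z6)) (d (c z2 z6) (c z2 z6))) (b (d (c z3 z7) (c z3 z7)) (d (c z2 z6) (c z2 z6)))) z6) (c (a (b (d (c z2 z6) (c z2 (a (b (d z6 z2) (d z6 z2)) (b (d z6 z2) (d z6 z2))))) (d (c z2 z6) (c z2 (a (b (d z6 z2) (d z6 z2)) (b (d z6 z2) (d z6 z2)))))) (b (d (c z3 z7) (c z3 (a (b (d z7 z3) (d z6 z2)) z3))) (d (c z2 z6) (c z2 (a (b (d z6 z2) (d z6 z2)) (b (d z7 z3) (d z6 z2))))))) z6)) (d (c (a (b (d (c z2 z6) (c z2 z6)) (d (c (a (b (d (c z2 z6) z2) (d (c z0 z4) z0)) z2) z6) (c z2 z6))) (b (d (c z2 z6) (c z2 z6)) (d (c z2 z6) (c z2 z6)))) z6) (c (a (b (d (c z2 z6) (c z2 (a (b (d z6 (c z2 z6)) (d z6 (c z2 z6))) (b (d z6 z2) (d z6 (c z2 z6)))))) (d (c z2 z6) (c z2 (a (b (d z6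 (c z2 z6)) (d z4 (c z0 z4))) (b (d z6 (c z2 z6)) (d z6 (c z2 z6))))))) (b (d (c z2 z6) (c z2 (a (b (d z6 z2) (d z6 z2)) (b (d z6 z2) (d z6 z2))))) (d (c z2 z6) (c z2 (a (b (d z6 z2) (d z6 (c z2 z6))) (b (d z6 z2) (d z6 z2))))))) z6))) (b (d (c (b (d (a (c z3 z7) (c z3 z7)) (a (c z3 z7) (c z3 z7))) (d (a (c z3 z7) (c z3 z7)) (a (c z3 z7) (c z3 z7)))) z7) (c (b (d (a (c z3 z7) (c z3 z7)) z3) (d (a (c z3 z7) (c z3 z7)) z3)) z7)) (d (c (b (d (a (c z3 z7) (c z3 z7)) (a (c z3 z7) (c z3 z7))) (d (a (c z2 z6) (c z3 z7)) (a (c z2 z6) (c z3 z7)))) z7) (c (b (d (a (c z3 z7) (c z3 z7)) (a (c z3 (b z3 (d z7 z3))) z3)) (d (a (c z2 z6) (c z3 z7)) (a (c z2 (b (d z7 z3) (d z6 z2))) z3))) z7)))) _ _ (by decide +kernel)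

theorem okA187 : CKA ⟨12288, 18432, 8192, 9216⟩ ⟨4097, 6145, 3072, 4096⟩ :=
  ckA_sound z0 _ _ (by decide +kernel)

theorem okA188 : CKA ⟨12288, 18432, 8192, 8704⟩ ⟨6145, 8193, 3072, 4096⟩ :=
  ckA_sound (d (a (b (d (c z2 z6) (c z2 (a (b z4 (d z4 (c (b z0 (d (c z0 z4) z0)) z4))) z6))) (d (c (b z0 (d (c z0 (b z0 z0)) z0)) z4) (c z0 (b (d z4 (c (a (b (d (c z0 z4) z0) (d (c z0 z4) z0)) z2) z4)) (d z4 (c (b (d (c z0 z4) z0) (d (c z0 z4) z0)) z4)))))) (b (d (c z2 z6) (c z2 z6)) (d (c z2 z6) (c z2 (a (b z6 (d z6 (c (a (b z2 (d (c z2 z6) z2)) z2) z6))) z6))))) (a (b (d (c z2 (a (b (d (a (c z0 z4) (c z2 z6)) (a (c z0 z4) (c z2 z6))) (d (c z0 z4) (c z0 z4))) (b (d (c z2 z6) (c z2 z6)) (d (c z2 z6) (c z2 z6))))) (c z2 (a (b (d (a (c z0 (b z0 (d z4 z0))) z2) z0) (d (c z0 (b (d z4 z0) (d z4 z0)))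 z0)) z2))) (d (c z0 (b (d (c z0 z4) (c z0 z4)) (d (c z0 z4) (c z0 z4)))) (c z0 (b (d (c z0 (a (b (d z4 z0) (d z4 z0)) z2)) (c z0 (a (b z0 z0) z2))) (d (c z0 (b (d z4 (c z0 z4)) (d z4 (c z0 z4)))) (c z0 (b z0 z0))))))) (b (d (c z2 (a (b (d (c z2 z6) (c z2 z6)) (d (c z2 z6) (c z2 z6))) (b (d (c z2 z6) (c z2 z6)) (d (c z2 z6) (c z2 z6))))) z2) (d (c z2 (a (b (d (c z2 z6) (c z2 z6)) (d (c z2 z6) (c z2 z6))) (b (d (c z2 z6) (c z2 z6)) (d (c z2 z6) (c z2 z6))))) (c z2 (a (b z2 (d (c z2 (a (b z2 (d z6 z2)) z2)) z2)) z2)))))) _ _ (by decide +kernel)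

theorem okA189 : CKA ⟨12288, 18432, 8704, 9216⟩ ⟨6145, 8193, 3072, 4096⟩ :=
  ckA_sound (d (b (d (c (a (b (d (c z0 (a (b z0 (d (c z0 z4) z0)) z2)) z0) (d (c z0 (b (d (c z0 z4) z0) (d (c z0 z4) z0))) z0)) z2) z6) (c z2 (a (b (d z4 (c (a (b (d (c z0 z4) (c z0 z4)) (d (c z0 z4) (c z0 z4))) (b z2 (d (c z2 z6) z2))) z4)) (d z4 (c (b (d (c z0 z4) (c z0 z4)) (d (c z0 z4) (c z0 z4))) z4))) (b z6 (d z6 (c (a (b (d (c z2 z6) z2) (d (c z0 z4) z0)) (b z2 (d (c z2 z6) z2))) z6)))))) (d (c (b (d (c z0 (b z2 (d (c z0 z4) z0))) z0) (d (c z0 (b (d (c z0 z4) z0) z0)) z0)) (b z4 z4)) (c z0 (b (d z4 (c (b (d (a (c z0 z4) (c z2 z6)) z2) (d (c z0 z4) (c z0 z4))) z4)) (d z4 (c (b (d (c z0 z4) (c z0 z4)) z0) z4)))))) (b (d (c z2 (a (b (d (c (a (b z0 z0) z2) z4) (c z0 z4)) (d (c (b z0 z0) z4) (c z0 z4))) (b (d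 (c z2 z6) (c z2 z6)) (d (c z2 z6) (c z2 z6))))) (c z2 (a (b (d (c z0 (a (b (d z4 (c z0 z4)) (d z4 (c z0 z4))) (b z2 (d z6 z2)))) (c z0 (a (b z0 z0) z2))) (d (c z0 (b (d z4 (c z0 z4)) (d z4 (c z0 z4)))) (c z0 (b z0 z0)))) (b z2 (d (c z2 (a (b (d z6 z2) (d z4 z0)) z2)) z2))))) (d (c z0 (b (d (c (b z2 z0) z4) (c z0 z4)) (d (c (b z0 z0) z4) (c z0 z4)))) (c z0 (b (d (c z0 (b (d z6 z2) (d z4 (c z0 z4)))) (c z0 (b z2 z0))) (d (c z0 (b (d z4 (c z0 z4)) z0)) (c z0 (b z0 z0)))))))) _ _ (by decide +kernel)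

theorem okA190 : CKA ⟨18432, 24576, 8192, 9216⟩ ⟨4097, 8193, 3072, 4096⟩ :=
  ckA_sound (c z3 (b (d (a (b (d (c z3 z7) (c z3 z7)) (d (c z3 z7) (c z3 z7))) (b (d (c z3 z7) (c z3 (b (d z7 (a (c z3 z7) (c z3 z7))) (d z7 (a (c z3 z7) (c z3 z7)))))) (d (c z3 z7) (c z3 (b (d z7 (a z7 (c z3 z7))) z7))))) (a (b (d (c z3 (a (b (d (c z3 z7) (c z3 z7)) (d (c z3 z7) (c z3 z7))) (b (d (c z3 z7) z3) (d (c z3 z7) z3)))) z3) (d (c z3 (a (b (d (c z2 z6) (c z2 z6)) (d (c z2 z6) (c z2 z6))) (b (d (c z3 z7) (c z3 z7)) (d (c z3 z7) (c z3 z7))))) (c z3 (a z2 z3)))) (b (d (c z3 (b (d (a (c z3 z7) (c z3 z7)) z3) (d (a (c z3 z7) (c z3 z7)) z3))) z3) (d (c z3 (b (d (a (c z3 z7) (c z3 z7)) z3) (d (a (c z3 z7) (c z3 z7)) z3))) z3)))) (d (a (b (d (c z2 z6) (c z2 z6)) (d (c z2 z6) (c z2 z6))) (b (d (c z3 z7) (c z3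 z7)) (d (c z3 z7) (c z3 z7)))) (a (b (d (c z2 (a (b (d (c z2 z6) (c z2 z6)) (d (c z2 z6) (c z2 z6))) (b (d (c z3 z7) (c z3 z7)) (d (c z2 z6) (c z2 z6))))) z2) (d (c z2 (a (b (d (c z2 z6) (c z2 z6)) (d (c z2 z6) (c z2 z6))) (b (d (c z2 z6) (c z2 z6)) (d (c z2 z6) (c z2 z6))))) (c z2 (a (b z2 (d (c z2 (a (b (d z6 z2) (d z4 (c z0 z4))) z2)) z2)) z2)))) (b (d (c z3 (b (d (a (c z3 z7) (c z3 z7)) (a (c z3 z7) z3)) (d (a (c z3 z7) (c z3 z7)) (a (c z3 z7) z3)))) z3) (d (c z3 (b (d (a (c z3 z7) (c z3 z7)) (a (c z3 z7) z3)) (d (a (c z2 z6) (c z3 z7)) (a (c z2 z6) (c z3 z7))))) (c z3 (b z3 (d (a z2 z3) z3))))))))) _ _ (by decide +kernel)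

theorem okA191 : CKA ⟨12288, 24576, 9216, 10240⟩ ⟨4097, 6145, 2048, 3072⟩ :=
  ckA_sound (b (d (c z2 (b (d (a (b z2 z2) z2) z2) (d (a (b z2 z0) z2) z2))) z2) (d (c z0 (b z0 z0)) z0)) _ _ (by decide +kernel)

theorem okA192 : CKA ⟨12288, 24576, 9216, 9728⟩ ⟨6145, 8193, 2048, 2560⟩ :=
  ckA_sound (b (d (a (c (b (d (a (c z4 (b (d z0 z6) (d z0 (c z4 z0)))) (c z6 (b (d z0 z6) (d z0 z6)))) z6) (d (c z6 (a (b (d z0 z6) (d z0 (c z4 z0))) (b (d z0 z6) (d z0 z6)))) z6)) z0) (c (b (d (a z6 z7) z7) (d (a (c z6 (b z6 (d z0 z6))) z7) z6)) z0)) (a (c (b (d z6 (a (c (b (d z6 (a (c z0 z4) (c z2 z6))) (d (c z0 z4) (c z0 z4))) z4) (c (b (d z6 (a (c z2 z6) (c z2 z6))) (d z6 (a (c z2 z6) (c z2 z6)))) z6))) (d z6 (c (a (b (d z6 (c z2 z6)) (d z4 (c z0 z4))) (b (d z6 (c z2 z6)) (d z6 (c z2 z6)))) z6))) (b (d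 (a (c (b z6 (d z0 z4)) z0) (c z6 z0)) (a (c z4 z0) z6)) (d (c z6 z0) (c z6 z0)))) (c z6 (b (d (a (c z6 z0) (c z7 z0)) (a z6 z7)) (d (a (c z6 z0) (c z7 z0)) z6))))) (d (c (a (b (d (c z6 (a (b (d z0 z6) (d z0 (c z4 z0))) (b (d z0 z6) (d z0 z6)))) z6) (d (c z4 (b (d z0 (c z4 z0)) (d z0 (c z4 z0)))) (c z4 (b z4 z4)))) (b (d (c z6 (a (b z6 (d z0 z6)) z6)) z6) (d (c z6 (a (b (d z0 z6) (d z0 z6)) (b z6 (d z0 z6)))) z6))) z0) (c z6 (a (b (d (c (a (b z6 (d z0 z4)) z6) z0) (c z6 z0)) (d (c (b (d z0 z4) (d z0 z4)) z0) (c z4 z0))) (b (d (c z6 z0) z6) (d (c z6 z0) (c z6 z0))))))) _ _ (by decide +kernel)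

theorem okA193 : CKA ⟨12288, 24576, 9216, 9728⟩ ⟨6145, 8193, 2560, 3072⟩ :=
  ckA_sound (b (d (a (c (b (d (a (c (b (d (a (c z0 z4) z2) z2) (d (c z0 z4) z0)) z4) (c z2 z6)) (a (c z0 z4) (c z2 z6))) (d (c (a (b (d (c z2 z6) z2) (d (c z0 z4) z0)) z2) z6) (c z2 z6))) z6) (c (b (d (a (c z2 z6) (c z3 z7)) (a (c z2 z6) (c z3 z7))) (d (a (c z2 z6) (c z3 z7)) (a (c z2 z6) (c z3 z7)))) z6)) (a (c (b (d (a (c z0 z4) (c z2 z6)) (a (c z0 (b (d z6 (a (c z0 z4) (c z2 z6))) (d z4 (c z0 z4)))) (c z2 (b (d z6 z2) (d z6 (a (c z2 z6) z2)))))) (d (c z2 z6) (c z2 (a (b (d z6 (c z2 z6)) (d z4 (c z0 z4))) (b (d z6 z2) (d z6 (c z2 z6))))))) z6) (c (b (d (a (c z2 z6) (c z3 z7)) (a (c z2 (b (d z6 z2) (d z6 z2))) z3)) (d (a (c z2 z6) (c z3 z7)) (a (c z2 (b (d z6 z2) (d z6 z2))) (c z3 (b z3 (d z7 z3)))))) z6))) (d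 (c (a (b (d (c (a (b z2 z0) z2) z6) (c z2 z6)) (d (c z0 z4) (c z0 z4))) (b (d (c z2 z6) (c z2 z6)) (d (c z2 z6) (c z2 z6)))) z6) (c (a (b (d (c z2 z6) (c z2 (a (b (d z6 (c z2 z6)) (d z4 (c z0 z4))) (b (d z6 z2) (d z6 z2))))) (d (c z0 z4) (c z0 (b (d z4 (c z0 z4)) (d z4 (c z0 z4)))))) (b (d (c z2 z6) (c z2 (a (b (d z6 z2) (d z6 z2)) z2))) (d (c z2 z6) (c z2 (a (b (d z6 z2) (d z6 z2)) z2))))) z6))) _ _ (by decide +kernel)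

theorem okA194 : CKA ⟨12288, 24576, 9728, 10240⟩ ⟨6145, 8193, 2048, 3072⟩ :=
  ckA_sound (d (b (d (c (b (d (c z6 (b (d z0 z6) (d z0 z6))) z6) (d (c z4 (b (d z0 (c z4 z0)) z0)) (c z4 (b z4 z0)))) z0) (c (b z6 z4) (b (d (c (b z6 z6) z0) (c z6 z0)) (d (c (b (d z0 z4) z0) z0) (c z4 z0))))) z0) (b (d (c (b (d z6 (c z2 z6)) z4) (b z6 (d (c z4 (b z4 z0)) z4))) (c (b (d (c z2 z6) (c z2 (b (d z6 z2) (d z6 z2)))) (d (c z0 z4) (c z0 (b (d z4 z0) z0)))) (b z6 z4))) z0)) _ _ (by decide +kernel)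

end Vale.Agent.Lib.P154Q5
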