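import Vale.Agent.Lib.P154Q5.CkADefs

namespace Vale.Agent.Lib.P154Q5

set_option maxRecDepth 100000
set_option exponentiation.threshold 1000

open Tr

theorem okA195 : CKA ⟨12288, 24576, 9216, 10240⟩ ⟨4097, 8193, 3072, 4096⟩ :=
  ckA_sound (c z0 (b (d (b (d (a (c (b z2 z2) z6) (c z2 z6)) (a (c z2 z6) (c z2 z6))) (d (c z2 z6) (c z2 z6))) (b (d (a (c z2 (b (d (a (c z0 z4) (c z2 z6)) (a (c z0 z4) (c z2 z6))) (d (c z2 z6) (c z2 z6)))) (c z2 (b (d (a (c z2 z6) z7) (a (c z2 z6) (c z3 z7))) (d z6 (a (c z2 z6) (c z3 z7)))))) (a (c z2 (b (d (a (c z0 (b z2 (d z4 z0))) z2) z2) z2)) z2)) (d (c z2 (a (b (d z6 (c z2 z6)) (d z4 (c z0 z4))) (b (d z6 (c z2 z6)) (d z6 (c z2 z6))))) z2))) (d (b (d (c (b z2 z0) (b z6 z4)) (c z0 z4)) z0) (b (d (c z0 (b (d z6 (c z2 z6)) (d z4 (c z0 z4)))) (c z0 (b z2 z0)))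 z0)))) _ _ (by decide +kernel)

theorem okA196 : CKA ⟨12288, 24576, 10240, 12288⟩ ⟨4097, 8193, 0, 4096⟩ :=
  ckA_sound z0 _ _ (by decide +kernel)

theorem okA197 : CKA ⟨12288, 24576, 4096, 8192⟩ ⟨8193, 49152, 0, 4096⟩ :=
  ckA_sound (b (d z0 (b z7 (d (c (b z7 (d z0 z7)) z0) (c z7 (b z7 (d z0 z7)))))) (d z0 (b (d (a (c (b (d z0 (a (c z7 z0) z7)) (d z0 (a (c z6 z0) (c z7 z0)))) z0) (c (b z7 (d z0 z7)) z0)) (c (a (b (d (c z7 (a (b z7 (d z0 z7)) z7)) z7) (d (c (a z6 z7) (a z6 z7)) (c z7 (a z6 z7)))) z7) (a (b (d z0 (a (c (b z7 (d z0 z7)) (b z7 (d z0 (a (b z7 (d z0 (c z7 (a z6 z7)))) z7)))) z7)) (d z0 (a (c z6 (b (d z0 (a z6 z7)) (d z0 z6))) z7))) z7))) (d (a (c (b (d z0 (a (c (b z6 (d z0 z6)) z0) (c (b z7 (d z0 z7)) z0))) (d z0 (a (c (b (d z0 z6) (d z0 z6)) z0) (c (b (d z0 (a z6 z7)) (d z0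 z6)) z0)))) z0) (c (b (d z0 z7) (d z0 (c (a (b z7 (d z0 z7)) z7) z0))) z0)) (a (c (b (d (a (c z6 (b z6 (d z0 z6))) (c z7 (b z7 (d z0 z7)))) z6) (d (a (c z6 (b (d z0 z6) (d z0 z6))) (c z6 (b (d z0 (a z6 z7)) (d z0 z6)))) z6)) (b (d z0 (a (c z6 (b (d z0 z6) (d z0 z6))) (c (b z7 (d z0 z7)) (b (d z0 z7) (d z0 (a (b z7 (d z0 (c z7 (a z6 z7)))) z7)))))) (d z0 (a (c (b z6 (d z0 z6)) (b (d z0 z6) (d z0 (a (b (d z0 z6) (d z0 z6)) (b z6 (d z0 z6)))))) (c z6 (b (d z0 (a z6 z7)) (d z0 (a (b z6 (d z0 z6)) (b (d z0 (c z7 (a (b z7 (d z0 z7)) z7))) (d z0 (c (a z6 z7) (a z6 z7)))))))))))) (c (b z7 (d (c z7 (a (b z7 (d z0 z7)) z7)) z7)) (b z7 (d z0 (a (c z7 (b z7 (d z0 z7))) z7))))))))) _ _ (by decide +kernel)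

theorem okA198 : CKA ⟨12288, 24576, 8192, 10240⟩ ⟨8193, 49152, 0, 2048⟩ :=
  ckA_sound z0 _ _ (by decide +kernel)

theorem okA199 : CKA ⟨12288, 24576, 8192, 9216⟩ ⟨8193, 49152, 2048, 3072⟩ :=
  ckA_sound (a (c (b (d z0 (a (c (b (d z0 (a (c (b z4 z4) z0) z6)) (d z0 (c (b z4 (d (c z4 z0) z4)) z0))) z0) (c (b (d z0 z6) (d z0 (a (c z6 z0) (c z6 z0)))) z0))) (d z0 (c (b (d z0 (a (c (b (d (a (c z4 z0) z6) z4) (d (c z4 z0) z4)) z0) (c z6 z0))) (d z0 (c (b (d (c z4 z0) z4) (d (c z4 z0) z4)) z0))) z0))) z0) (c (b (d z0 (c (a (b (d z0 (c z7 z0)) (d z0 (c z7 z0))) (b z7 (d z0 z7))) z0)) (d z0 (c (a (b (d z0 (c z6 z0)) (d z0 (c z6 z0))) (b (d z0 z7) (d z0 (c z7 z0)))) z0))) z0)) _ _ (by decide +kernel)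

theorem okA200 : CKA ⟨12288, 18432, 8192, 9216⟩ ⟨8193, 12289, 3072, 4096⟩ :=
  ckA_sound (b (d (a (c (b z6 (d (c (b z4 z4) (b (d (a (c z4 z0) z6) z4) (d (c z4 z0) z4))) (c z4 (b z4 z4)))) (b (d z0 (a (c (b (d z0 z4) (d z0 z4)) z0) z6)) (d z0 (c (b (d z0 z4) (d z0 z4)) z0)))) (c z6 (b (d z0 z6) (d z0 (a (c z6 z0) z6))))) z6) (d (c (b z6 (d (c (b z4 z4) (b (d (c (b z6 z4) z0) (c z4 z0)) (d (c (b z4 z0) z0) (c z4 z0)))) (c (b z4 z4) (b z4 z4)))) (b (d z0 (a (c (b (d z0 z4) (d z0 (c z4 z0))) z0) (c z6 z0))) (d z0 (c (b (d z0 (c z4 z0)) (d z0 (c z4 z0))) z0)))) (c (b z6 (d (c (b z4 z4) (b z4 z4)) (c (b z4 z4) (b z4 z4)))) (b z6 (d (c (b z4 z4) (b (d (c (b z6 z4) z0) z4) (d (c (b z4 z0) z0) (c z4 (b z4 z0))))) (c (b z4 z4) (b z4 z4))))))) _ _ (by decide +kernel)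

theorem okA201 : CKA ⟨12288, 18432, 8192, 9216⟩ ⟨12289, 49152, 3072, 4096⟩ :=
  ckA_sound (b (d z0 (a (c (b (d z0 z6) (d z0 (c (b z4 (d (c z4 (b z4 z4)) z4)) (b (d (a (b z4 z4) z6) (a (b z4 z4) z6)) (d (b (d z0 z4) (d z0 z4)) (b z4 z4)))))) (b (d z0 (a (b (d z0 (c (a (b z4 z4) z6) (a (b (d z0 (c z4 (a (b z4 z4) z4))) (d z0 (c z4 (b z4 z4)))) z6))) (d z0 (c (b z4 (d z0 z4)) (b (d z0 (c z4 (a (b z4 z4) z4))) (d z0 (c (b z4 z4) (b z4 z4))))))) (b (d z0 z6) (d z0 z6)))) (d z0 (b (d z0 (c (a (b (d z0 z4) (d z0 z4)) z6) (a (b (d z0 (c (a (b z4 z4) z4) (a (b z4 (d z0 z4)) z4))) (d z0 (c (b z4 z4) (b (d z0 z4) (d z0 z4))))) z6))) (d z0 (c (b (d z0 z4) (d z0 z4)) (b (d z0 (c (a (b z4 z4) z4) (a (b (d z0 z4) (d z0 z4)) z4))) (d z0 (c (b z4 z4) (b (d z0 z4) (d z0 z4))))))))))) (c (b (d z0 z6) (d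 z0 z6)) (b (d z0 (a (b (d z0 z6) (d z0 z6)) (b (d z0 z6) (d z0 z6)))) (d z0 (a (b (d z0 z6) (d z0 (c z6 (a (b z6 (d z0 z6)) z6)))) (b (d z0 z6) (d z0 z6)))))))) (d z0 (c (b (d z0 z6) (d z0 (c (b (d (c z4 (b z6 z4)) z4) (d (c z4 (b z4 z0)) z4)) (b (d (b z6 (d z0 z4)) (b z6 z4)) (d (b (d z0 z4) z0) (b z4 z0)))))) (b (d z0 (a (b (d z0 (c (a (b (d z0 z4) (d z0 z4)) z6) (a (b (d z0 (c (a (b z4 z4) z4) (a (b (d z0 z4) (d z0 z4)) z4))) (d z0 (c (b z4 z4) (b (d z0 (c z4 (b z4 z4))) (d z0 (c z4 (b z4 z0))))))) (b z6 (d z0 z6))))) (d z0 (c (b (d z0 z4) (d z0 (c z4 (b z4 z0)))) (b (d z0 (c (b z4 z4) (b (d z0 (a (c z4 (b z4 z4)) z6)) (d z0 (c z4 (a (b z4 z4) z4)))))) (d z0 (c (b z4 z0) (b (d z0 (c z4 (b z4 z4))) z0))))))) (b (d z0 z6) (d z0 (c z6 (a (b (d z0 z6) (d z0 (c (a (b z4 z4) z6) (a (b z4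 (d z0 (c z4 (b z4 z4)))) z6)))) (b z6 (d z0 z6)))))))) (d z0 (b (d z0 (c (b z6 (d z0 (c z4 (b z4 z4)))) (b (d z0 z6) (d z0 (c (b z4 z4) (b (d z0 (a (c z4 (b z4 z4)) z6)) (d z0 (c z4 (a (b z4 z4) z4))))))))) (d z0 (c (b (d z0 (c z4 (b z4 z0))) z0) (b (d z0 (c (b z4 z0) (b (d z0 (c z4 (b z4 z4))) z0))) z0))))))))) _ _ (by decide +kernel)

theorem okA202 : CKA ⟨18432, 24576, 8192, 9216⟩ ⟨8193, 49152, 3072, 4096⟩ :=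
  ckA_sound (c (b (d (c (a (b z7 (d (c z7 (a z6 z7)) z7)) z7) (a (b (d z0 (c z7 z0)) (d z0 (c (a z6 z7) z0))) z7)) (c z7 (a (b z7 (d (c z7 (a z6 z7)) z7)) z7))) (d (c z6 (a (b (d z0 (c z6 z0)) (d z0 (c z6 z0))) (b (d z0 z7) (d z0 (c z7 z0))))) z6)) (b (d z0 (a (c (b (d z0 z7) (d z0 (a z6 z7))) (b (d z0 (a (b z7 (d z0 (c z7 (a (b z7 (d z0 z7)) z7)))) z7)) (d z0 (a (b (d z0 z6) (d z0 z6)) (b z7 (d z0 z7)))))) z7)) (d z0 (a (c (b (d z0 z6) (d z0 z6)) (b (d z0 (a (b (d z0 z6) (d z0 z6)) (b (d z0 (c z7 (a z6 z7))) (d z0 z6)))) (d z0 (a (b (d z0 (c z6 (a (b (d z0 z6) (d z0 z6)) z6))) (d z0 (c z6 (a (b (d z0 z6) (d z0 (c (b z4 z4) (b (d z0 (c z4 (a (b z4 z4) z6))) (d z0 (c z4 (b z4 z4))))))) (b (d z0 z6) (d z0 z6)))))) (b (d z0 z6) (d z0 (c z6 (a (b z6 (d z0 z6)) z6)))))))) (c (b (d z0 z7) (d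 z0 (c z7 (b z7 (d (a z6 z7) z7))))) (b (d z0 (b z7 (d z0 z7))) (d z0 (b (d z0 (a (c z7 (b z7 (d z0 z7))) z7)) (d z0 (a z6 z7)))))))))) _ _ (by decide +kernel)

theorem okA203 : CKA ⟨12288, 24576, 9216, 10240⟩ ⟨8193, 49152, 2048, 3072⟩ :=
  ckA_sound (c (b (d z0 (c (b (d z0 (a (c z6 z0) (c z6 z0))) (d z0 (c z6 z0))) z0)) (d z0 (c (b (d z0 (c (b z6 (d (c z4 z0) (c z4 (b z4 z0)))) z0)) z0) z0))) z0) _ _ (by decide +kernel)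

theorem okA204 : CKA ⟨12288, 24576, 9216, 10240⟩ ⟨8193, 49152, 3072, 4096⟩ :=
  ckA_sound (c (b (d (c (b (d (a (c z6 (b z6 z6)) z6) z6) (d (c z6 (a (b z6 (d (c (b z4 z4) z0) (c z4 z0))) z6)) z6)) (b (d z0 (a (c z6 z0) (c z6 z0))) (d z0 (c (a (b z6 (d z0 (c z4 z0))) z6) z0)))) (c z6 (b z6 z6))) (d (c (b (d (c (b z6 z4) (b z6 (d (c (b z4 z0) z0) (c z4 z0)))) (c (b z6 z4) (b z6 z4))) z0) (b (d z0 (c (b z6 (d z0 (c z4 z0))) z0)) z0)) (c (b (d (c (b z6 z4) (b z6 z4)) (c (b z6 z4) (b z6 z4))) z0) (b (d (c (b z6 z4) (b z6 (d (c (b z4 z0) z0) (c z4 (b z4 z0))))) (c (b z6 z4) (b z6 z4))) z0)))) (b (d z0 (c (b (d z0 (a (c z6 (b z6 z6)) z6)) (d z0 (a (c (b z6 (d (c (b z4 z4) (b z4 z4)) z4)) (b z6 (d (b (d z0 (c z4 z0)) (d z0 (c z4 z0))) (b z4 z4)))) z6))) (b (d z0 (a (b (d z0 (a (c (b z6 (d z0 (c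 z4 (a (b z4 z4) z6)))) (b (d z0 z6) (d z0 (c (a (b (d z0 z4) (d z0 z4)) z6) (a (b (d z0 (c (a (b z4 z4) z6) (a (b z4 z4) z6))) (d z0 (c (b z4 z4) (b z4 z4)))) z6))))) (c z6 (b (d z0 z6) (d z0 z6))))) (d z0 (c z6 (a (b (d z0 z6) (d z0 (c (b (d z0 z4) (d z0 z4)) (b (d z0 (c (b z4 z4) (b z4 z4))) (d z0 (c (b z4 z0) (b z4 z0))))))) (b (d z0 z6) (d z0 z6)))))) (b (d z0 (c (a z6 z7) (a z6 z7))) (d z0 (c z6 (a (b z6 (d z0 z6)) (b (d z0 z7) (d z0 (c (a z6 z7) (a z6 z7)))))))))) (d z0 (a (b (d z0 (c z6 (a (b (d z0 z6) (d z0 (c (b (d z0 z4) (d z0 z4)) (b (d z0 (c (b z4 z4) (b z4 z4))) (d z0 (c (b z4 z0) (b z4 z0))))))) (b (d z0 z6) (d z0 z6))))) (d z0 (c (b (d z0 (c z4 (b z6 z4))) (d z0 (c z4 (b z4 z0)))) (b (d z0 (c (b z6 (d z0 z4)) (b z6 (d z0 (c (a (b z4 z4) z6) (a (b z4 z4) z6)))))) (d z0 (c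 (b (d z0 z4) z0) (b (d z0 (c (b z4 z4) (b z4 z4))) z0))))))) (b (d z0 (c z6 (a (b z6 (d z0 z6)) z6))) (d z0 (c z6 (a (b (d z0 z6) (d z0 z6)) (b (d z0 z6) (d z0 z6))))))))))) (d z0 (c (b (d z0 (c (b z6 (d (c (b z4 z0) (b z4 z0)) (c z4 (b z4 z0)))) (b z6 (d (b (d z0 (c z4 z0)) z0) (b z4 z0))))) z0) (b (d z0 (b (d z0 (c z6 (b (d z0 z6) (d z0 z6)))) (d z0 (c (b (d z0 (c z4 (b z4 z4))) z0) (b (d z0 (c (b (d z0 z4) (d z0 z4)) (b (d z0 (c (b z4 z4) (b z4 z4))) (d z0 (c (b z4 z0) (b z4 z0)))))) z0))))) z0))))) _ _ (by decide +kernel)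

theorem okA205 : CKA ⟨12288, 24576, 10240, 12288⟩ ⟨8193, 49152, 0, 4096⟩ :=
  ckA_sound z0 _ _ (by decide +kernel)

theorem okA206 : CKA ⟨24576, 49152, 4096, 8192⟩ ⟨0, 8193, 0, 4096⟩ :=
  ckA_sound (c (b z0 (d (b z0 (d z0 z3)) z3)) (b z0 (d (b z0 (d z0 (c (b z0 (d (b z0 (d z0 (c (b z0 (d (b z0 (d z0 z3)) z3)) (b z0 (d (c (b z0 (d z0 (c z7 z0))) z0) (c (b z0 (d z7 (c z3 z7))) z0)))))) (c z3 (b z0 (d (b z0 (d (c z3 z7) (c z3 (b z0 (d z7 (c z3 z7)))))) (b z0 (d (c z3 (b z0 (d (c z3 z7) (c z3 z7)))) z3))))))) (b z0 (d z0 (b z0 (d z0 (c z7 z0)))))))) (b z0 (d (c z3 (b z0 (d (b z0 (d z7 (c (b z0 (d (c (b z0 (d z7 (c z3 z7))) z7) (c z3 z7))) z7))) (b z0 (d (c (b z0 (d (c z3 z7) (c z3 z7))) z7) (c z3 z7)))))) (c z3 (b z0 (d (b z0 (d (c z3 z7) (c z3 (b z0 (d z7 (c z3 z7)))))) z3)))))))) _ _ (by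 decide +kernel)

theorem okA207 : CKA ⟨24576, 49152, 8192, 12288⟩ ⟨0, 4097, 0, 4096⟩ :=
  ckA_sound (b (d (b (d z0 z3) (d z0 z3)) z3) (d (b (d z0 z2) (d z0 z0)) z0)) _ _ (by decide +kernel)

theorem okA208 : CKA ⟨24576, 49152, 8192, 9216⟩ ⟨4097, 8193, 0, 1024⟩ :=
  ckA_sound z0 _ _ (by decide +kernel)

theorem okA209 : CKA ⟨24576, 49152, 8192, 8704⟩ ⟨4097, 6145, 1024, 2048⟩ :=
  ckA_sound (d (b (d z0 (c (b (d (b (d z0 z3) (d z0 z3)) z3) (d (b (d z0 z3) (d z0 z3)) z3)) (b (d (c (b (d z0 (c z7 z0)) (d z0 (c z7 z0))) z0) (c (b (d z7 (c z3 z7)) (d z7 (c z3 z7))) z0)) (d (c (b (d z0 (c z7 z0)) (d z0 (c z7 z0))) z0) (c (b (d z7 (c z3 z7)) z7) z0))))) (d z0 (c (b z3 z3) (b (d (c (b (d z0 (c z7 z0)) (d z0 (a (c z7 z0) (c z7 z0)))) z0) (c z7 z0)) (d (c (b (d z0 (a (c z7 z0) (c z7 z0))) (d z0 (a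 (c z7 z0) (c z7 z0)))) z0) (c z7 z0)))))) (c z3 (b (d (b (d (c z3 z7) (c z3 (b (d z7 (c z3 z7)) (d z7 (c z3 z7))))) (d (c z3 z7) (c z3 (b (d z7 (c z3 z7)) (d z7 (c z3 z7)))))) (b (d (c z3 (b (d (c z3 z7) (c z3 z7)) (d (c z3 z7) (c z3 z7)))) z3) (d (c z3 (b (d (c z3 z7) (c z3 z7)) (d (c z3 z7) (c z3 z7)))) z3))) (d (b (d (c z3 z7) (c z3 (b (d z7 (c z3 z7)) (d z7 (c z3 z7))))) (d (c z3 z7) (c z3 (b (d z7 (c z3 z7)) z7)))) (b (d (c z3 (b (d (c z3 z7) (c z3 z7)) (d (c z3 z7) (c z3 z7)))) z3) (d (c z3 (b (d (c z3 z7) (c z3 z7)) (d (a (c z3 z7) (c z3 z7)) (a (c z3 z7) (c z3 z7))))) z3)))))) _ _ (by decide +kernel)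

end Vale.Agent.Lib.P154Q5
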