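import Vale.Agent.Lib.P154Q5.CkADefs

namespace Vale.Agent.Lib.P154Q5

set_option maxRecDepth 100000
set_option exponentiation.threshold 1000

open Tr

theorem okA210 : CKA ⟨24576, 49152, 8704, 9216⟩ ⟨4097, 6145, 1024, 2048⟩ :=
  ckA_sound (d (b (d z0 (c z3 (b (d (a (c (b (d z0 (a (c z7 z0) (c z7 z0))) (d z0 (a (c z7 z0) (c z7 z0)))) z0) (c (b (d z0 (c z7 z0)) (d z0 (c z7 z0))) z0)) (a (c z7 z0) (c z7 z0))) (d (a (c (b (d z0 (a (c z7 z0) (c z7 z0))) (d z0 (a (c z7 z0) (c z7 z0)))) z0) (c (b (d z0 (c z7 z0)) (d z0 (a (c z7 z0) (c z7 z0)))) z0)) (a (c z7 z0) (c z7 z0)))))) (d z0 (c z3 (b (d (a (c (b (d z0 (a (c z7 z0) (c z7 z0))) (d z0 (a (c z7 z0) (c z7 z0)))) z0) (c (b (d z0 (a (c z7 z0) (c z7 z0))) (d z0 (a (c z7 z0) (c z7 z0)))) z0)) (a (c z7 z0) (c z7 z0))) (d (a (c (b (d z0 (a (c z7 z0)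 (c z7 z0))) (d z0 (a (c z7 z0) (c z7 z0)))) z0) (c (b (d z0 (a (c z7 z0) (c z7 z0))) (d z0 (a (c z7 z0) (c z7 z0)))) z0)) (a (c z7 z0) (c z7 z0))))))) (c z3 (b (d (b (d (c z3 z7) (c z3 z7)) (d (c z3 z7) (c z3 z7))) (b (d (c z3 (a (b (d (c z3 z7) (c z3 z7)) (d (c z3 z7) (c z3 z7))) (b (d (c z3 z7) (c z3 z7)) (d (c z3 z7) (c z3 z7))))) z3) (d (c z3 (a (b (d (c z3 z7) (c z3 z7)) (d (c z3 z7) (c z3 z7))) (b (d (c z3 z7) (c z3 z7)) (d (c z3 z7) (c z3 z7))))) z3))) (d (b (d (c z3 z7) (c z3 z7)) (d (a (c z3 z7) (c z3 z7)) (a (c z3 z7) (c z3 z7)))) (b (d (c z3 (a (b (d z7 (c z3 z7)) (d z7 (c z3 z7))) (b (d z7 (c z3 z7)) (d z7 (c z3 z7))))) z3) (d (a (c z3 (b (d z7 (a (c z3 z7) (c z3 z7))) (d z7 (a (c z3 z7) (c z3 z7))))) (c z3 (b (d z7 (c z3 z7)) (d z7 (a (c z3 z7) (c z3 z7)))))) z3)))))) _ _ (by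 decide +kernel)

theorem okA211 : CKA ⟨24576, 49152, 8192, 9216⟩ ⟨6145, 8193, 1024, 2048⟩ :=
  ckA_sound (b (d z0 (b (d z0 (c z7 z0)) (d z0 (c z7 z0)))) (d z0 (b (d z0 (c (b (d (c z7 z0) z7) (d (c z7 z0) z7)) z0)) (d z0 (c (b (d (a (c z7 z0) (c z7 z0)) z7) (d (a (c z7 z0) (c z7 z0)) z7)) z0))))) _ _ (by decide +kernel)

theorem okA212 : CKA ⟨24576, 49152, 9216, 10240⟩ ⟨4097, 8193, 0, 1024⟩ :=
  ckA_sound z0 _ _ (by decide +kernel)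

theorem okA213 : CKA ⟨24576, 49152, 9216, 9728⟩ ⟨4097, 6145, 1024, 2048⟩ :=
  ckA_sound (d (b (d z0 (a (c z3 (b (d (a (c (b (d z0 (a (c z7 z0) (c z7 z0))) (d z0 (a (c z7 z0) (c z7 z0)))) z0) (c (b (d z0 (a (c z7 z0) (c z7 z0))) (d z0 (a (c z7 z0) (c z7 z0)))) z0)) (a (c z7 z0) (c z7 z0))) (d (a (c (b (d z0 (a (c z7 z0) (c z7 z0))) (d z0 (a (c z7 z0) (c z7 z0)))) z0) (c (b (d z0 (a (c z7 z0) (c z7 z0))) (d z0 (a (c z7 z0) (c z7 z0)))) z0)) (a (c z7 z0) (c z7 z0))))) (c z3 (b (d (c (b (d z0 (a (c z7 z0) (c z7 z0))) (d z0 (a (c z7 z0) (c z7 z0)))) z0) (c z7 z0)) (d (a (c (b (d z0 (a (c z7 z0) (c z7 z0))) (d z0 (a (c z7 z0) (c z7 z0)))) z0) (c (b (d z0 (c z7 z0)) (d z0 (a (c z7 z0) (c z7 z0)))) z0)) (a (c z7 z0) (c z7 z0))))))) (d z0 (a (c z3 (b (d (a (c (b (d z0 (a (c z7 z0) (c z7 z0))) (d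 z0 (a (c z7 z0) (c z7 z0)))) z0) (c (b (d z0 (a (c z7 z0) (c z7 z0))) (d z0 (a (c z7 z0) (c z7 z0)))) z0)) (a (c z7 z0) (c z7 z0))) (d (a (c (b (d z0 (a (c z6 z0) (c z7 z0))) (d z0 (a (c z6 z0) (c z7 z0)))) z0) (c (b (d z0 (a (c z7 z0) (c z7 z0))) (d z0 (a (c z7 z0) (c z7 z0)))) z0)) (a (c z7 z0) (c z7 z0))))) (c z3 (b (d (a (c (b (d z0 (a (c z7 z0) (c z7 z0))) (d z0 (a (c z7 z0) (c z7 z0)))) z0) (c (b (d z0 z7) (d z0 z7)) z0)) (a (c z7 z0) (c z7 z0))) (d (a (c (b (d z0 (a (c z7 z0) z7)) (d z0 (a (c z7 z0) z7))) z0) (c (b (d z0 z7) (d z0 z7)) z0)) (a (c z7 z0) (c z7 z0)))))))) (c z3 (b (d (a (b (d (c z3 (a (b z7 (d (c z7 z0) z7)) z7)) (c z3 z7)) (d (c z3 (a (b (d (c z7 z0) z7) (d (c z7 z0) z7)) z7)) (c z3 z7))) (b (d (c z3 z7) (c z3 z7)) (d (c z3 z7) (c z3 z7)))) (a (b (d (c z3 z7) z3) (d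 (c z3 z7) z3)) (b (d (c z3 z7) z3) (d (c z3 z7) z3)))) (d (a (b (d (c z3 (a (b (d (c z7 z0) z7) (d (c z7 z0) z7)) z7)) (c z3 z7)) (d (c z3 (a (b (d (c z7 z0) z7) (d (c z6 z0) z6)) (b z7 (d (c z7 z0) z7)))) (c z3 z7))) (b (d (c z3 z7) (c z3 z7)) (d (c z3 z7) (c z3 z7)))) (a (b (d (c z3 z7) z3) (d (c z3 z7) z3)) (b (d (c z3 z7) z3) (d (c z3 z7) z3))))))) _ _ (by decide +kernel)

theorem okA214 : CKA ⟨24576, 49152, 9728, 10240⟩ ⟨4097, 6145, 1024, 1536⟩ :=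
  ckA_sound (a (b (d z0 (c z3 (a (b (d (a (c (b (d z0 (a (c z6 z0) (c z6 z0))) (d z0 (a (c z6 z0) (c z6 z0)))) z0) (c (b (d z0 (c z7 z0)) (d z0 (c z6 z0))) z0)) (a (c (b z6 (d (a (c z6 z0) z6) z6)) z0) (c z7 z0))) (d (a (c (b (d z0 (a (c z6 z0) (c z6 z0))) (d z0 (c z6 z0))) z0) (c (b (d z0 (c z6 z0)) (d z0 (c z6 z0))) z0)) (a (c (b (d (a (c z6 z0) z6) z6) (d (c z6 z0) z6)) z0) (c z6 z0)))) (b (d (c (a (b (d z0 (c z7 z0)) (d z0 (c z7 z0))) (b (d z0 (c z7 z0)) (d z0 (c z7 z0)))) z0) (c z7 z0)) (d (c (a (b (d z0 (c z7 z0)) (d z0 (c z7 z0))) (b (d z0 (c z7 z0)) (d z0 z7))) z0) (c z7 z0)))))) (d z0 (c z2 (b (d (a (c (b (d z0 (a (c z6 z0) (c z6 z0))) (d z0 (a (c z4 z0) (c z6 z0)))) z0) (c (b (d z0 (a (c z6 z0) z7)) (d z0 (a (c z6 z0) z7))) z0)) (a (c (b z6 z6) z0) (c z7 z0))) (d (a (c (b (d z0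 (a (c z4 z0) (c z6 z0))) (d z0 (c z4 z0))) z0) (c (b (d z0 z6) (d z0 z6)) z0)) (a (c z4 z0) (c z6 z0))))))) (b (d z0 (c z3 (b (d (c (a (b (d z0 z7) (d z0 z7)) (b (d z0 z7) (d z0 z7))) z0) (c z7 z0)) (d (a (c (b (d z0 z7) (d z0 z7)) z0) (c (b (d z0 z7) (d z0 z7)) z0)) (a (c z7 z0) (c z7 z0)))))) (d z0 (c z3 (a (b (d (c (a (b (d z0 z7) (d z0 z7)) (b (d z0 z7) (d z0 z7))) z0) (c z7 z0)) (d (c (a (b (d z0 z7) (d z0 z7)) (b (d z0 z7) (d z0 z7))) z0) (c z7 z0))) (b (d (c z7 z0) (c z7 z0)) (d (c z7 z0) (c z7 z0)))))))) _ _ (by decide +kernel)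

theorem okA215 : CKA ⟨24576, 49152, 9728, 10240⟩ ⟨4097, 6145, 1536, 2048⟩ :=
  ckA_sound (a (c z2 (b (d (a (b (d (c z2 (a (b (d (c z6 z0) z6) (d (c z6 z0) z6)) (b (d (c z7 z0) z7) (d (c z6 z0) z6)))) (c z2 z6)) (d (c z2 (a (b (d (c z6 z0) z6) (d (c z6 z0) (c z6 z0))) (b (d (c z6 z0) z6) (d (c z6 z0) z6)))) (c z2 z6))) (b (d (c z3 z7) (c z3 z7)) (d (c z3 (a (b (d (c z7 z0) z7) (d (c z7 z0) z7)) z7)) (c z3 z7)))) (a (b (d (c z2 z6) z2) (d (c z2 z6) (c z2 (a (b (d (c z2 z6) z2) z2) z2)))) (b (d (c z3 z7) z3) (d (c z3 z7) z3)))) (d (b (d (a (c z2 (b (d (a (c z6 z0) (c z6 z0)) z6) (d (c z6 z0) z6))) (c z3 (b (d (c z7 z0) z7) (d (c z6 z0) z6)))) (a (c z2 z6) (c z3 z7))) (d (c z2 (a (b (d (c z6 z0) z6) (d (c z4 z0) z4)) z6)) (c z2 z6))) (b (d (a (c z2 z6) (c z3 z7)) z2) (d (c z2 z6) z2))))) (c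 z3 (b (d (b (d (c z3 z7) (c z3 z7)) (d (c z3 z7) (c z3 z7))) z3) (d (a (b (d (c z3 z7) (c z3 z7)) (d (c z3 z7) (c z3 z7))) (b (d (c z3 z7) z3) (d (c z3 z7) z3))) z3)))) _ _ (by decide +kernel)

theorem okA216 : CKA ⟨24576, 49152, 9216, 10240⟩ ⟨6145, 8193, 1024, 2048⟩ :=
  ckA_sound (b (d z0 (b (d z0 (c (a (b (d (c z7 z0) (c z7 z0)) (d (c z7 z0) (c z7 z0))) (b (d (c z7 z0) z7) (d (c z7 z0) z7))) z0)) (d z0 (c (a (b (d (c (a (b z7 (d (c z7 z0) z7)) z7) z0) (c z7 z0)) (d (c (a (b (d (c z7 z0) z7) (d (c z6 z0) z6)) z7) z0) (c z7 z0))) (b (d (c z7 z0) z7) (d (c z7 z0) z7))) z0)))) (d z0 (a (b (d z0 (c (a (b (d (c (a (b (d (c z6 z0) z6) (d (c z6 z0) z6)) (b (d (c z7 z0) z7) (d (c z6 z0) z6))) z0) (c z6 z0)) (d (c (a (b (d (c z6 z0) z6) (d (c z6 z0) z6)) (b (d (c z6 z0) z6) (d (c z6 z0) z6))) z0)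 (c z6 z0))) (b (d (c z7 z0) (c z7 z0)) (d (c (a (b z7 (d (c z7 z0) z7)) z7) z0) (c z7 z0)))) z0)) (d z0 (c (b (d (a (c (b (d (a (c z6 z0) (c z6 z0)) z6) (d (c z6 z0) z6)) z0) (c (b z7 (d (a (c z6 z0) z7) z6)) z0)) (a (c z6 z0) (c z7 z0))) (d (c (a (b (d (c z6 z0) z6) (d (c z4 z0) z4)) (b z6 (d (c z6 z0) z6))) z0) (c z6 z0))) z0))) (b (d z0 (c (b (d (c z7 z0) z7) (d (c z7 z0) z7)) z0)) (d z0 (c (a (b (d (c z7 z0) (c z7 z0)) (d (c z7 z0) (c z7 z0))) (b (d (c z7 z0) z7) (d (c z7 z0) z7))) z0)))))) _ _ (by decide +kernel)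

theorem okA217 : CKA ⟨24576, 49152, 8192, 9216⟩ ⟨4097, 8193, 2048, 4096⟩ :=
  ckA_sound (d (c z3 (b (d (b (d z7 (c (b (d (c (b (d z7 (c z3 z7)) z7) z7) (c z3 z7)) (d z7 (c z3 z7))) z7)) (d z7 (c (b (d z7 (c z3 z7)) (d z7 (c z3 z7))) z7))) (b (d (c (b (d (c z3 z7) (c z3 z7)) (d (c z3 z7) (c z3 z7))) z7) (c z3 z7)) (d (c (b (d (c z3 z7) (c z3 z7)) (d (c z3 z7) (c z3 z7))) z7) (c z3 z7)))) (d (b (d (c z7 z0) (c (b (d z7 (c z3 z7)) (d z7 (c z3 z7))) z7)) (d (c z7 z0) (c (b (d z7 (a (c z3 z7) (c z3 z7))) (d z7 (a z7 (c z3 z7)))) z7))) (b (d (c (b (d (c z3 z7) (c z3 z7)) (d (c z3 z7) (c z3 z7))) z7) (c (b z3 (d (c z3 z7) z3)) z7)) (d (c (b (d (a (c z3 z7) (c z3 z7)) (a (c z3 z7) (c z3 z7))) (d (a (c z3 z7) (c z3 z7)) (a (c z3 z7) (c z3 z7)))) z7) (c (b (d (a (c z3 z7) z3) z3) (d (a (c z3 z7) z3)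 z3)) z7)))))) (c z3 (b (d (b (d (c z3 z7) (c z3 (b (d z7 (c z3 z7)) (d z7 (c z3 z7))))) (d (c z3 z7) (c z3 (b (d z7 (c z3 z7)) (d z7 (c z3 z7)))))) z3) (d (b (d (c z3 z7) (c z3 (b z7 z7))) (d (c z3 z7) (c z3 z7))) (b (d (c z3 (b z3 (d (c z3 z7) z3))) z3) (d (c z3 (b (d (a (c z3 z7) (c z3 z7)) z3) (d (a (c z3 z7) (c z3 z7)) z3))) z3)))))) _ _ (by decide +kernel)

theorem okA218 : CKA ⟨24576, 49152, 9216, 10240⟩ ⟨4097, 8193, 2048, 4096⟩ :=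
  ckA_sound (d (c z3 (b (d (b (d (c z7 z0) (c z7 (a (b z7 (d (c z7 z0) z7)) z7))) (d (c (a (b z7 (d (c z7 (a (b z7 z6) z7)) z7)) z7) z0) (c z7 (a (b (d (a (c z7 z0) z7) z7) (d (a (c z7 z0) (c z7 z0)) (a (c z7 z0) z7))) z7)))) (b (d (c (a (b (d (c z3 z7) (c z3 z7)) (d (c z3 z7) (c z3 z7))) (b (d (c z3 z7) (c z3 z7)) (d (c z3 z7) (c z3 z7)))) z7) (c (a (b (d (c z3 z7) z3) (d (c z3 z7) z3)) z3) z7)) (d (c (a (b (d (c z3 z7) (c z3 z7)) (d z7 (c z3 z7))) (b (d z7 (c z3 z7)) (d z7 (c z3 z7)))) z7) (c (a (b (d (c z3 z7) z3) (d (c z3 z7) z3)) z3) z7)))) (d (a (b (d (c (a (b (d (c z6 (a (b z6 (d z0 z6)) z7)) z6) (d (c z6 (a (b (d z0 z6) (d z0 z6)) (b z6 (d z0 z6)))) z6)) z7) z0) (c z7 (a (b (d (c z6 z0) z6) (d (c z6 z0) (c z6 z0))) (b (d (c z7 z0) z7) (d (c z7 z0) z7))))) (d (c (b (d (a (c z6 (b (d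 z0 z6) (d z0 z6))) (c z7 (b z7 z6))) z6) (d (c z6 (a (b (d z0 z6) (d z0 z4)) z6)) z6)) z0) (c z6 (b (d (a (c z6 z0) (c z7 z0)) (a (c z6 z0) (c z7 z0))) (d (c z6 z0) (c z6 z0)))))) (b (d (c z7 z0) z7) (d (c z7 z0) (c z7 (a (b (d (c z7 z0) z7) (d (c z7 z0) z7)) z7))))) (a (b (d (c (a (b (d z6 (c z2 z6)) z6) z7) (a z6 z7)) (c (a (b (d (c z2 z6) z2) (d (c z2 z6) z2)) (b (d (c z3 z7) z3) (d (c z3 z7) z3))) z7)) (d z6 (c (b (d (a (c z2 z6) (c z3 z7)) z2) (d (c z2 z6) z2)) z6))) (b (d z7 (c z3 z7)) (d z7 (c z3 z7))))))) (c z3 (b (d (b (d (c z3 z7) (c z3 z7)) (d (c z3 z7) (c z3 z7))) (b (d (c z3 (a (b (d z7 z3) (d z7 z3)) z3)) z3) (d (c z3 (a (b (d z7 (a (c z3 z7) z3)) (d z7 (a (c z3 z7) z3))) z3)) z3))) (d (a (b (d (c z3 z7) (c z3 z7)) (d (c z2 z6) (c z2 z6))) (b (d (c z3 z7) (c z3 z7)) (d (c z3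 z7) (c z3 z7)))) (a (b (d (c z3 (a (b (d z6 z2) (d z6 z2)) (b (d z7 z3) (d z7 z3)))) z3) (d (c z2 (b (d z6 z2) (d z6 z2))) z2)) z3))))) _ _ (by decide +kernel)

theorem okA219 : CKA ⟨24576, 49152, 10240, 12288⟩ ⟨4097, 8193, 0, 2048⟩ :=
  ckA_sound (b (d z0 (c (b (d (a (b (d z0 (c z2 (a (b (d (c (a (b (d z0 z6) (d z0 z4)) (b (d z0 z6) (d z0 z6))) z0) (c z6 z0)) (d (c (b (d z0 z6) (d z0 z4)) z0) (c z4 z0))) (b (d (c (b (d z0 z7) z7) z0) (c z7 z0)) (d (c z7 z0) (c z7 z0)))))) (d z0 (c z0 (b (d (c z6 z0) (c z6 z0)) (d (c z4 z0) z4))))) (b (d z0 (c z3 (b (d (c z7 z0) z7) (d (c z7 z0) z7)))) (d z0 (c z3 (b (d (a (c z7 z0) (c z7 z0)) z7) (d (a (c z7 z0) z7) z7)))))) (a (c z0 (b (d (a (b (d (c z2 (a (b (d (c z6 z0) z6) z4) z6)) (c z2 z6)) (d (c z0 z4) (c z0 z4))) (b (d (c z3 z7) (c z3 z7)) (d (c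 z3 z7) z3))) (a (b (d (c z2 z6) z2) z0) z3)) (d (b (d (c z2 z6) z2) z0) z0))) (c z3 (b (d (b (d (c z3 z7) z3) z3) z3) z3)))) (d (b (d z0 (c z3 (a (b (d (c z6 z0) z6) z4) z7))) (d z0 z3)) z3)) (b (d z0 (a (b (d z0 (c (a (b (d (c (a (b (d (c z6 z0) z6) (d (c z4 z0) z4)) z6) z0) (c z6 z0)) (d (c (b z6 z4) z0) (c z4 z0))) (b (d (c z7 z0) (c z7 z0)) (d (c z7 z0) (c z7 z0)))) z0)) (d z0 (c (b (d (c z6 z0) (c z6 z0)) (d (c z4 z0) (c z4 z0))) z0))) (b (d z0 (c (b (d (c z7 z0) z7) (d (c z7 z0) z7)) z0)) (d z0 (c (b (d (c z7 z0) z7) (d (a (c z7 z0) z7) (a (c z7 z0) z7))) z0))))) (d z0 (b (d z0 (c (a (b (d (c z6 z0) z6) (d (c z4 z0) z4)) z7) z0)) (d z0 (c z7 z0))))))) (d z0 (c (b z2 z0) (b (d z0 (b (d z0 (c z7 z0)) z7)) (d z0 (b (d z0 (c (b z7 z7) z0)) (d z0 (c z4 z0)))))))) _ _ (by decide +kernel)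

theorem okA220 : CKA ⟨24576, 49152, 10240, 12288⟩ ⟨4097, 8193, 2048, 4096⟩ :=
  ckA_sound (b (d (c z2 (b (d (a (b (d (c (a (b (d (c z6 (a (b z6 (d z0 z4)) z6)) z6) (d (c z4 (b z6 z4)) z4)) z7) z0) (c z6 (a (b (d (c z6 z0) (c z6 z0)) (d (c (b z6 z4) z0) (c z4 z0))) (b (d (c z7 z0) z7) (d (c z7 z0) z7))))) (d (c (b z6 z4) z0) (c z4 (b (d (c z6 z0) z6) (d (c (b z4 z0) z0) (c z4 z0)))))) (b (d (c z7 z0) z7) (d (c z7 z0) (c z7 (b (d (c z7 z0) z7) (d (a (c z7 z0) z7) z7)))))) (a (b z6 (d (c z4 (b z6 (d (c z4 (b z4 z0)) z4))) (c z0 (b z6 z4)))) z7)) (d (b (d (c z7 z0) (c z7 (a (b (d (c z6 z0) z6) (d (c z4 z0) (c z4 z0))) z7))) (d (c z7 z0) z7)) (b z7 z7)))) (c z2 (b (d (a (b (d (c z2 z6) (c z2 z6)) (d (c z0 z4) (c z0 z4))) (b (d (c z3 z7) z3) (d (c z3 z7) z3))) (a (b z2 (d (c z0 (b z2 z0)) z0))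 z3)) (d (b (d (c z3 z7) z3) z3) z3)))) (d (c (b z2 z0) (b z6 (d (b (d (c z5 z0) (c z5 (b z7 z7))) (d (c z4 z0) (c z4 (b z5 z4)))) (b (d (c z5 (b z7 z7)) z5) (d (c z4 (b z5 z4)) z4))))) (c (b z2 z0) (b z2 (d (b z1 z0) (b z1 z0)))))) _ _ (by decide +kernel)

theorem okA221 : CKA ⟨24576, 49152, 4096, 8192⟩ ⟨8193, 49152, 0, 4096⟩ :=
  ckA_sound (b z0 (d z0 (b z0 (d (c (b z0 (d z0 z7)) z0) z7)))) _ _ (by decide +kernel)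

theorem okA222 : CKA ⟨24576, 49152, 8192, 10240⟩ ⟨8193, 49152, 0, 4096⟩ :=
  ckA_sound (d z0 (b (d (c (b (d z0 (c z7 z0)) (d z0 (c (b z7 (d z0 z7)) z0))) z0) (c z7 (b z7 (d z0 z7)))) (d (c (b (d z0 (c (b (d z0 z7) (d z0 (a (c z7 z0) z7))) z0)) (d z0 (a (c (b (d z0 (a (c z6 z0) (c z7 z0))) (d z0 (c z6 z0))) z0) (c (b (d z0 z7) (d z0 (c z7 z0))) z0)))) z0) (c (b (d (c z7 (b (d z0 z7) (d z0 (a (c z7 z0) z7)))) z7) (d (c (a (b (d (c z7 (a z6 z7)) z7) (d (c z6 (b z6 z6)) z6)) z7) (a (b (d z0 (a (c z6 z0) (c z7 z0))) (d z0 (c (b z6 z6) z0))) (b (d z0 z7) (d z0 (c z7 z0))))) (c (a z6 z7) (a (b (d (a z6 z7) z7) z6) z7)))) (b (d z0 (c (b z7 (d z0 (a (c z7 (b z7 (d (a (b z7 z6) z7) z7))) z7))) (b (d z0 z7) (d z0 (a (b (d z0 (c z7 (a (b z7 (d z0 z7)) z7))) (d z0 (c (a (b z7 z6) z7) (a (b (d z0 (c z7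 (a z6 z7))) z6) z7)))) z7))))) (d z0 (a (c (b (d z0 (a z6 z7)) (d z0 (c z6 (b z6 z6)))) (b (d z0 (a (b (d z0 (c z6 (a (b (d z0 z6) (d z0 z6)) (b (d z0 z7) z6)))) (d z0 (c z6 (a (b (d z0 z6) (d z0 z6)) (b (d z0 z6) (d z0 z6)))))) (b (d z0 z7) (d z0 (c z7 (a (b (d z0 z7) (d z0 (c z7 (a z6 z7)))) z7)))))) (d z0 (b (d z0 (a (c z6 (b (d z0 z6) (d z0 z6))) (c (b z7 z6) (b (d z0 (a z6 z7)) z6)))) (d z0 (c z6 (a (b (d z0 z6) (d z0 (c (b z6 (d z0 z4)) (b z6 (d z0 (c (b z4 z4) (b z4 z4))))))) (b z6 (d z0 z6))))))))) (c (b z7 (d z0 z7)) (b (d z0 z7) (d z0 (a (b (d z0 z7) (d z0 (c z7 (a (b z7 (d z0 z7)) z7)))) z7))))))))))) _ _ (by decide +kernel)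

theorem okA223 : CKA ⟨24576, 49152, 10240, 12288⟩ ⟨8193, 49152, 0, 2048⟩ :=
  ckA_sound z0 _ _ (by decide +kernel)

theorem okA224 : CKA ⟨24576, 49152, 10240, 11264⟩ ⟨8193, 49152, 2048, 3072⟩ :=
  ckA_sound (c (b (d z0 (c (a (b (d z0 (c z6 z0)) (d z0 (c (b z6 (d (c z4 z0) z4)) z0))) (b (d z0 z7) (d z0 (c z7 z0)))) z0)) (d z0 (c (b (d z0 (c z7 z0)) (d z0 (c z7 z0))) z0))) z0) _ _ (by decide +kernel)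

end Vale.Agent.Lib.P154Q5
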