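import Vale.Agent.Lib.P154Q5.CkADefs

namespace Vale.Agent.Lib.P154Q5

set_option maxRecDepth 100000
set_option exponentiation.threshold 1000

open Tr

theorem okA225 : CKA ⟨24576, 49152, 10240, 11264⟩ ⟨8193, 49152, 3072, 4096⟩ :=
  ckA_sound (c (b (d (c (a (b (d (c z6 (a (b z6 (d (c (b z6 z4) z0) (c z4 z0))) z7)) z6) (d (c (b z6 z4) (b z6 (d (c (b z4 z0) z0) (c z4 z0)))) (c (b z6 z4) (b z6 z4)))) z7) (a (b (d z0 (c z6 z0)) (d z0 (c (b z6 (d z0 (c (b z4 z0) z0))) z0))) (b (d z0 z7) (d z0 (c z7 z0))))) (c (a (b z6 (d (c (b z6 z4) (b z6 z4)) (c z4 (b z6 z4)))) z7) (a (b z6 (d (c (b z6 (d (c z4 (b z4 z0)) z4)) (b z6 (d (c (b z4 z0) z0) (c (b z4 z0) (b z4 z0))))) (c (b z6 z4) (b z6 (d (c z4 (b z4 z0)) z4))))) z7))) (d (c (b (d (c z7 (a (b z6 (d (c (b z6 z4) z0) (c z4 z0))) z7)) z7) z7) (b (d z0 (c (a (b z6 (d z0 (c (b z6 z4) z0))) z7) z0))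 (d z0 (c z7 z0)))) (c z7 (b (d (c z7 (a (b z6 (d (c (b z6 z4) z0) (c (b z6 z4) (b z6 z4)))) z7)) z7) z7)))) (b (d z0 (a (c (b (d z0 (a (c (b z6 (d (c (b z6 z4) (b z6 z4)) (c (b z6 z4) (b z6 z4)))) (b z6 (d (b z6 (d z0 (c z4 z0))) (b z6 z4)))) (c z7 (b z7 (d (b z7 z6) z7))))) (d z0 (c (b z6 (d (c (b z4 z0) (b z4 z0)) (c (b z4 z0) (b z4 z0)))) (b z6 (d (b (d z0 (c z4 z0)) z0) (b z4 z0)))))) (b (d z0 (a (b (d z0 (c z6 (a (b (d z0 z6) (d z0 (c (b z6 (d z0 z4)) (b z6 (d z0 (c (b z4 z0) (b z4 z0))))))) z6))) (d z0 (c (b z6 (d z0 (c z4 (b z4 z0)))) (b (d z0 z6) (d z0 (c (b (d z0 z4) z0) (b (d z0 (c (b z6 z4) (b z6 z4))) z0))))))) (b (d z0 (c z7 (b z7 (d z0 z7)))) (d z0 (c (b z7 z6) (b (d z0 (a z6 z7)) z6)))))) (d z0 (b (d z0 (c z6 (b (d z0 z6) (d z0 z6)))) (d z0 (c (b (d z0 (c (b z6 z4) (b z6 z4))) z0) (b (d z0 (c (b z6 z4) (b z6 (d z0 (c z4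 (b z4 z4)))))) z0))))))) (c (b z7 (d z0 z7)) (b (d z0 z7) (d z0 (b (d z0 (c z7 (a (b z7 (d z0 z7)) z7))) (d z0 (a (c (b z7 z6) (b (d z0 (a z6 z7)) z6)) z7)))))))) (d z0 (c (b (d z0 (a (c (b z6 (d (c (b z6 z4) (b z6 z4)) (c (b z6 z4) (b z6 z4)))) (b z6 (d (b z6 (d z0 (c z4 z0))) (b z6 z4)))) z7)) (d z0 (c z7 (b z7 z7)))) (b (d z0 (a (b (d z0 (c z6 (a (b z6 (d z0 (c (b z6 z4) (b z6 (d z0 (c z4 (b z6 z4))))))) z7))) (d z0 (c (b z6 (d z0 (c z4 (b z6 z4)))) (b z6 (d z0 (c (b z6 z4) (b z6 (d z0 (c z4 (b z6 z4)))))))))) (b z7 (d z0 z7)))) (d z0 (b (d z0 (c z7 (a (b (d z0 z7) z6) z7))) (d z0 (c z7 (a z6 z7)))))))))) _ _ (by decide +kernel)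

theorem okA226 : CKA ⟨24576, 49152, 11264, 12288⟩ ⟨8193, 49152, 2048, 4096⟩ :=
  ckA_sound (d (c (b (d z0 (c (b (d z0 z7) z7) z0)) (d z0 (c (b (d z0 (c (b z7 z7) z0)) (d z0 (c (b z5 z4) z0))) z0))) z0) (c (b (d (c z6 (b (d z0 (c z7 z0)) (d z0 z7))) z6) (d (c (b (d (c (b z7 z7) (b z7 z7)) (c (b z7 z7) (b z7 z7))) (d (c (b z5 z4) (b (d (c z5 z0) (c z5 z0)) (d (c z4 z0) (c z4 z0)))) (c (b z5 z4) (b z5 z4)))) (b (d z0 (c (b z7 z7) z0)) (d z0 (c (b (d z0 (c (b z7 z7) z0)) (d z0 (c (b z5 z4) z0))) z0)))) (c (b (d (c (b z7 z7) (b z7 z7)) (c (b z7 z7) (b z7 z7))) (d (c (b z5 z4) (b z5 z4)) (c (b z5 z4) (b z5 z4)))) (b (d (c (b z7 z7) (b z7 z7)) (c (b z7 z7) (b z7 z7))) (d (c (b (d (c z5 (b z7 z7)) (c z5 (b z7 z7))) (d (c z4 (b z5 z4)) (c z4 (b z5 z4)))) (b (d (c (b z7 z7) z0) (c (b z7 z7) (b z7 z7))) (d (c (b z5 z4) z0) (c (b z5 z4) (b z5 z4)))))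 (c (b z5 (d (c z4 (b z5 z4)) (c z4 (b z5 z4)))) (b (d (c (b z7 z7) (b z7 z7)) (c (b z7 z7) (b z7 z7))) (d (c (b z5 z4) (b z5 z4)) (c (b z5 z4) (b z5 z4)))))))))) (b (d z0 (c (b (d z0 (c z7 (b z7 z7))) (d z0 z7)) (b (d z0 (b (d z0 (c z7 (a (b z7 (d z0 (c (b z6 z4) (b z6 z4)))) z7))) (d z0 z7))) (d z0 (b (d z0 z7) z7))))) (d z0 (c (b (d z0 (c (b z7 z7) (b z7 z7))) (d z0 (c (b (d (c (b z7 z7) (b z7 z7)) (c (b z7 z7) (b z7 z7))) (d (c (b z5 z4) (b z5 z4)) (c (b z5 z4) (b z5 z4)))) (b (d (b z7 z7) (b z7 z7)) (d (b z5 z4) (b z5 z4)))))) (b (d z0 (b z7 z7)) (d z0 (b (d z0 (c (b z7 z7) (b z7 z7))) (d z0 (c (b (d z0 (c z5 (b z7 z5))) (d z0 (c z4 (b z5 z4)))) (b (d z0 (c (b z7 z5) (b z7 z5))) (d z0 (c (b z5 z4) (b z5 z4)))))))))))))) _ _ (by decide +kernel)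

theorem okA227 : CKA ⟨0, 6144, 4096, 8192⟩ ⟨0, 12288, 4096, 8192⟩ :=
  ckA_sound (c (b (d (a (c z0 (b z0 z0)) (c (b (d z0 z0) (d z0 z0)) z0)) (a (b z0 (d z0 z0)) (b (d z0 z0) (d z0 z0)))) (d (c (b (d z0 z0) z0) (b z0 z0)) (b (d z0 z0) z0))) (b (d (a (b z8 z8) z8) (a (b z8 z8) z8)) (d (b (d (c (b z0 (d (c z0 (b z0 z0)) z8)) (b z12 (d (b z12 z12) (b z12 z12)))) (c (b z8 z8) (b z8 (d (b z12 z12) (b z8 (d (c z8 z12) z8)))))) z0) (b (d (c (b z8 z8) (b z8 (d (b z8 z8) z8))) (b z0 z0)) z0)))) _ _ (by decide +kernel)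

theorem okA228 : CKA ⟨6144, 12288, 4096, 8192⟩ ⟨0, 6144, 4096, 8192⟩ :=
  ckA_sound (b (d (c (b (d z2 z2) (d z2 z2)) z2) (b (d (a (b (d z0 (a z0 (b z1 z0))) (d z2 z2)) (b (d z3 (b (d z1 z1) (d z3 z3))) (d z3 (b (d z3 z3) (d z3 z3))))) z0) (d (a (b (d z2 z2) (d z2 z2)) (b (d z3 (b (d z3 z3) (d z3 z3))) (d z2 (b (d z2 (a z2 z3)) (d z2 z2))))) z0))) (d (c (b (d z2 z2) (d z0 z0)) z2) (b (d (a (b (d z2 z2) (d z2 z2)) (b (d z2 (b (d z2 z2) z2)) (d z2 z2))) z0) (d (b (d z2 z2) z0) z0)))) _ _ (by decide +kernel)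

theorem okA229 : CKA ⟨6144, 12288, 4096, 6144⟩ ⟨6144, 12288, 4096, 6144⟩ :=
  ckA_sound (b (d (a (c z0 z12) (c z3 z15)) (a z8 (c z11 (b z11 (d (b (d z15 (a z15 (c z11 z15))) (d z15 (a (c z11 z15) (c z11 z15)))) z11))))) (d (a (c z2 z14) (c z2 (b (d (b z15 (d (a z6 z7) (a z14 z15))) (b z15 (d (a z14 z15) (a z14 z15)))) z14))) (a z10 (c z10 (b (d (b (d z15 (a (c z10 z14) (c z11 z15))) (d (a z14 z15) (a (c z10 z14) (c z11 z15)))) (b (d (a (c z10 z14) z11) (a (c z10 (b z15 (d z14 z10))) z11)) (d (a z10 z11) (a z10 z11)))) (d (b (d (a z14 z15) (a (c z10 z14) (c z11 z15))) (d (a z14 (c (b (d z15 z11) z10) z15)) (a (c z10 z14) (c (b z11 z10) z15)))) (b (d (a z10 (c z11 z15)) (a z10 (c z11 (b z15 (d z15 z11))))) (d (a z10 (c z11 (b z15 z14))) (a z10 (c z11 (b (d (a z14 z15) (a z10 z11)) (d (a z14 z15) (a z10 z11))))))))))))) _ _ (by decide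 +kernel)

theorem okA230 : CKA ⟨6144, 12288, 4096, 6144⟩ ⟨6144, 12288, 6144, 8192⟩ :=
  ckA_sound (b (d (a z8 z11) (a (b (d (c (a z0 (b (d z1 (a z0 z1)) (d z0 (a z0 z1)))) (a z8 (b (d (c z9 (a z8 z9)) (c (a z8 z9) (a z8 z9))) z8))) (a z0 (b (d (c (a (b (d z0 z0) z0) z1) (a z8 z9)) (a (b (d z0 z0) (d z0 z0)) (b z1 (d z1 z1)))) (d (c (a z0 (b z1 (d z2 (b z1 z2)))) z8) (a z0 (b (d z1 z1) (d (c (b z1 (d z2 z2)) z10) (b z1 (d z2 z2))))))))) (d z10 (a z0 (b (d (c (a z2 (b (d z2 z2) z2)) z10) (a z2 (b (d z2 z2) (d z2 z2)))) (d z2 z2))))) (b (d z11 (b (d z1 z1) (d z3 z3))) (d z11 (b (d z3 (a (b z3 (d z3 z3)) z3)) (d (a (c (b (d z3 z3) (d z3 z3)) z11) z3) (a (b (d z3 z3) (d z3 z3)) z3))))))) (d (a z10 (c (b z11 z10) (b (d (b (d (a z10 z11) (a z10 z11)) (d (a z10 z11) (a z10 z11))) (b (d (a z10 z11) z11) (d (a z10 z11) (a z10 z11)))) (d (b (d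 (a z10 z11) (a z10 z11)) (d (a z10 (c z11 (b (d (a z10 z11) z11) z10))) z10)) (b (d (a z10 z11) (a z10 z11)) z10))))) (a (b (d z10 (a z2 (b (d z2 z2) (d z2 z2)))) (d z10 z2)) (b (d (c (b (d z3 (a (b z3 (d z2 z2)) z3)) (d (c (a z2 z3) z11) (a (b (d z2 z2) z2) z3))) (b z11 (d (a z10 z11) (a z10 z11)))) (b (d (a (c (b (d z3 z3) (d (a z2 z3) (a z2 z3))) (b z11 z10)) z3) (a (b (d (a z2 z3) (a z2 z3)) (d (a z2 z3) (a z2 z3))) z3)) (d (a (c (b (d z2 z2) (d z2 z2)) z10) z3) (a (b (d (a z2 z3) (a z2 z3)) (d z2 z2)) z3)))) (d (c (b (d (c (a z2 z3) z10) (a z2 z3)) (d (c (a z2 z3) z10) (a z2 z3))) (b (d (a z10 z11) (a z10 z11)) z10)) (b (d (a z2 z3) (a (b (d z2 z2) z2) (b z3 (d z3 z3)))) (d (a z2 (c (b z3 (d z2 z2)) z11)) (a z2 (b (d z3 z3) (d z2 (a z2 z3))))))))))) _ _ (by decide +kernel)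

theorem okA231 : CKA ⟨6144, 12288, 6144, 8192⟩ ⟨6144, 12288, 4096, 8192⟩ :=
  ckA_sound (d (b (d (a (c z2 z14) (c z2 z14)) (a (c z10 (b z10 (d z14 z10))) (c z10 (b (d (b (d (a z14 (c z10 z14)) (a (c z10 z14) (c z10 z14))) (d (a z14 (c z10 z14)) (a z14 (c z10 z14)))) (b (d (a z10 (c z10 z14)) (a z10 (c z10 (b (d (a z14 (c z11 z15)) z10) (d z14 z10))))) (d (a z10 (c z10 z14)) z10))) (d (b (d (a z14 (c z10 z14)) (a z14 (c z10 z14))) (d z14 (a z14 (c z10 z14)))) (b (d (a z10 (c z10 z14)) z10) (d (a z10 (c z10 z14)) z10))))))) (d (c (b (d (a (c z0 (b (d z4 z0) (d (c z0 z4) (c z0 z4)))) (c z2 (b (d (a z6 (c z2 z6)) z2) (d (a (c z2 z6) (c z2 z6)) z2)))) z10) (d (c z0 (b (d (a (c (b z0 z0) z4) (c z2 z6)) (a (c z0 (b z4 z4)) z2)) (d (c (b z0 z0) (b z4 z4)) (c z0 (b z4 z4))))) (c z0 (b (d (a (c z8 (b z8 z8)) z10) z8) (d (c z8 (b z8 z8)) z8)))))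 (b z14 (d (b z12 z12) (b (d z12 (c (a (b z12 z12) z14) z12)) (d (c (b z12 z12) z12) (c (b z12 z12) z12)))))) (c (b z10 (d (c z8 (b z8 z8)) z8)) (b (d (a (b (d z12 (a (c z8 z12) z14)) (d (c (b (d z12 z8) (d z12 z8)) z12) (c (b z8 z8) z12))) (b (d z14 (c z10 z14)) (d z14 (c z10 z14)))) (a (b (d (a (c z8 z12) z10) (a (c z8 z12) z10)) (d (c z8 z12) (c z8 z12))) (b (d (c z10 z14) z10) (d (c z10 z14) z10)))) (d (b (d (c (a (b (d z12 (c z8 z12)) (d z12 (c z8 z12))) (b z10 (d z14 z10))) z12) (c (a (b z8 z8) z10) z12)) (d (c (b (d (c z8 z12) (c z8 z12)) (d (c z8 z12) (c z8 z12))) z12) (c (b (d (c z8 z12) z8) (d (c z8 z12) z8)) z12))) (b (d (c z8 z12) (c z8 (a (b z12 z12) z14))) (d (c (b z8 z8) (b z12 z12)) (c z8 (b z12 z12))))))))) (b (d z10 (a (b (d z10 z2) (d z10 z2)) (b (d z10 (b (d (a z2 (c (b (d z2 z2) z2) z10)) (a z2 (b (d z2 z2) z2)))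 (d z2 z2))) (d z10 (b (d z2 z2) z2))))) (d (c (b z10 z8) (b z10 (d (b (d (c z8 (a (b z8 z8) z10)) z8) (d (c z8 (b z8 z8)) z8)) (b z8 z8)))) (b (d z10 z2) (d z8 z0))))) _ _ (by decide +kernel)

theorem okA232 : CKA ⟨0, 12288, 4096, 8192⟩ ⟨0, 12288, 8192, 12288⟩ :=
  ckA_sound (a (b (d (a z0 (b (d z0 z0) (d z0 z0))) z0) (d (b (d z0 z0) z0) z0)) (b (d (b (d (a (b (d (a (b (d z0 z0) z0) (b (d (a (b (d (a z0 (b z1 z0)) z0) (d z0 z0)) (b (d z1 z0) (d z1 z0))) z0) (d (a z0 (b (d z1 z0) (d (b z1 (d z2 z0)) z0))) z0))) z0) (d (a z0 (b (d (a z2 (b (d (b (d z2 z0) z2) z0) (d z2 z0))) z0) (d (a z2 (b (d z2 z0) z2)) z0))) z0)) (b (d (b (d (a z1 (b (d z1 z0) (d z3 z0))) z0) (d (a (b z3 (d z3 z0)) (b (d z3 z0) (d z3 z0))) z0)) z0) (d (b (d (a (b (d z3 z0) (d z3 z0)) z3) z0) (d (a (b (d z3 z0) (d z3 z0)) z3) z0)) z0))) z0) (d (a (b (d (a z2 (b (d z2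 z0) (d z2 z0))) z0) (d z2 z0)) (b (d (b (d (a (b (d (a z2 z3) z0) (d (a z2 z3) z0)) z3) z0) (d (a (b (d (a z2 z3) z0) (d z2 z0)) z3) z0)) z0) (d (b (d (a (b (d z2 z0) z2) (b (d z3 z0) (d z3 z0))) z0) (d (a z2 (b (d z3 z0) (d (a z2 z3) z0))) z0)) z0))) z0)) z0) (d (b (d (a (b (d z2 z0) (d z2 z0)) (b (d (b (d (a z2 (b (d z2 z0) (d z2 z0))) z0) (d z2 z0)) z0) (d (b (d z2 z0) z2) z0))) z0) (d (b (d z2 z0) (d z0 z0)) z0)) z0))) _ _ (by decide +kernel)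

theorem okA233 : CKA ⟨0, 12288, 8192, 12288⟩ ⟨0, 12288, 4096, 12288⟩ :=
  ckA_sound (d (c (b (d (c z0 (b z0 z0)) (b (d z0 z0) z0)) z0) (b (d (b (d (c (b (d (c (b z0 z0) (b (d (c (b (d (c z0 (b z0 z0)) z0) z0) (b z4 z0)) (c z0 (b (d z4 (b (d z4 z8) z0)) z0))) z0)) (c z0 (b (d (c z8 (b (d (b z8 z0) z8) z0)) (c z8 (b z8 z0))) z0))) z0) (b (d (b (d (c z4 (b z4 z0)) (c (b z12 z0) (b z12 z0))) z0) (b (d (c (b z12 z0) z12) (c (b z12 z0) z12)) z0)) z0)) (c (b (d (c z8 (b z8 z0)) z8) z0) (b (d (b (d (c (b (d (c z8 z12) (c z8 z12)) z0) z12) (c (b (d (c z8 z12) z8) z0) z12)) z0) (b (d (c (b z8 z0) (b z12 z0)) (c z8 (b z12 z0))) z0)) z0))) z0) (b (d (c (b z8 z0) (b (d (b (d (c z8 (b z8 z0)) z8) z0) (b z8 z0)) z0)) (b z0 z0)) z0)) z0)) (b (d (b (d (b z0 z0) z0) z0) z0) z0)) _ _ (by decide +kernel)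

theorem okA234 : CKA ⟨0, 6144, 4096, 8192⟩ ⟨12288, 24576, 4096, 8192⟩ :=
  ckA_sound (b (d (a (b z12 (d (b z12 z12) (b z12 z12))) z12) (a (b z12 (d (c z12 (b z12 z12)) z12)) z12)) (d (b (d (b (d (a (c z12 (b z12 z12)) z12) (a (c z12 (b z12 z12)) z12)) (d (c (b z12 z12) (b z12 (d (b z12 z0) (c z12 (b z12 z0))))) (c (b z12 z12) (b z12 (d (b z12 z0) (c z12 (b z12 z0))))))) (b (d (a (c z12 (b z12 z12)) z12) (c z12 (a (b z12 z12) z12))) (d (c (b z12 z12) (b z12 (d (c z12 (b z12 z0)) (c z12 (b z12 z0))))) (c (b z12 z12) (b z12 (d (c z12 (b z12 z0)) (c z12 (b z12 z0)))))))) z0) (b (d (c (b z12 (d (c (b z12 z12) (b z12 z12)) (c (b z8 z8) (b z12 z12)))) (b (d (a (b z12 z12) z12) (a (b z12 z12) z12)) (d (b z12 (d (c z12 (b z12 z0)) (c z12 (b z12 z0)))) (b z12 (d (c z12 (b z12 z0)) z12))))) (c (b z8 (d (c z8 (b z12 z12)) (c z8 (b z8 z8)))) (b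 (d (a (b z12 z12) z12) z12) (d (b z12 (d z12 z12)) (c (b z12 z12) (b z12 z12)))))) z0))) _ _ (by decide +kernel)

theorem okA235 : CKA ⟨6144, 12288, 4096, 6144⟩ ⟨12288, 24576, 4096, 6144⟩ :=
  ckA_sound (b (d (a z12 (b z15 (d (c z15 (b z15 (d (a (b z15 (d z15 z15)) z15) (a (c z15 (b z15 (d (a z14 z15) (a z14 z15)))) z15)))) (c z15 (b z15 (d (a (b z15 (d (a z14 z15) (c z15 (a z14 z15)))) z15) (a (c z15 (b z15 (d (a z14 z15) (a z14 z15)))) z15))))))) (a z12 (b z15 (d (c z15 (b z15 (d (a (c z15 (b z15 (d (a z14 z15) (a z14 z15)))) z15) (a (c z15 (b z15 (d (a z14 z15) (a z14 z15)))) z15)))) (c z15 (b z15 (d (a (c z15 (b z15 (d (a z14 z15) (a z14 z15)))) z15) (a (c z15 (b z15 (d (a z14 z15) (a z14 z15)))) z15)))))))) (d z14 (a z14 (b (d (c (b (d (a z14 z15) (a z14 z15)) (d (a z14 z15) (a z14 z15))) (b (d (a z14 z15) (a z14 z15)) (d (a z14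 z15) (a z14 z15)))) (c (b (d (a z14 z15) (a z14 z15)) (d (a z14 z15) (a z14 z15))) (b (d (a z14 z15) (a z14 z15)) (d (a z14 z15) (a z14 z15))))) z14)))) _ _ (by decide +kernel)

theorem okA236 : CKA ⟨6144, 12288, 4096, 5120⟩ ⟨12288, 24576, 6144, 8192⟩ :=
  ckA_sound (d (a (c (b (d (a z12 (c (b (d (c (a z12 z13) (a z12 z13)) (c (a z12 z13) (a z12 z13))) z12) z12)) (a z12 (c (b (d (c (a z8 z9) (a z12 z13)) (c (a z8 z9) (a z12 z13))) (d (c z8 z12) z8)) (b (d (a z12 z13) (a z12 z13)) z12)))) (d z14 (a z12 (c z10 z14)))) z12) (c (b (d z15 (c z11 z15)) (d z15 (c (b z11 (d (a (c z11 z15) z15) (a (c z11 (b z15 (d z15 (a z10 z11)))) z11))) z15))) (b z15 (d (b z15 (d (a (c z15 (b z15 (d (a z14 z15) (a z14 z15)))) z15) (a (c z15 (b z15 (d (a z14 z15) (a z14 z15)))) z15))) (b z15 (d (a (c z15 (b z15 (d (a z14 z15) (a z14 z15)))) z15) (a (c z15 (b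 z15 (d (a z14 z15) (a z14 z15)))) z15))))))) (c (a (b (d (c (a z8 (b (d (c (a z8 z9) (a z8 z9)) (c (a z8 z9) (a z8 z9))) (d (c z8 (a z8 z9)) (c z8 (a z8 z9))))) (a z12 (b (d (c (a z12 z13) (a z12 z13)) (c (a z12 z13) (a z12 z13))) (d z12 (c (a z12 (b z13 (d z14 (c z10 z14)))) z12))))) (c (a z8 (b (d (c (a z8 z9) (a z8 z9)) (c (a z8 z9) (a z8 z9))) (d (c z8 (a z8 z9)) (c (a z8 z9) (a z8 z9))))) (a z8 (b (d (c (a z8 z9) (a z12 z13)) (c (a z8 z9) (a z12 z13))) (d (c (a z8 (b z9 (d (c z10 (b z13 z14)) z10))) (a z12 z13)) (c (a z8 z9) (a z12 (b z13 (d (c (b z13 (d z14 (a z14 z15))) z14) (c (b z9 z10) (b z13 z14))))))))))) (d (c z10 z14) (c z10 (a z8 (b (d (c z10 z14) z10) z10))))) (b z11 (d (c (b z11 (d (a (c z11 (b z11 (d (a z10 z11) (a z10 z11)))) z11) z11)) (b z15 (d z15 (a (c (b z15 (d z15 (a (c z10 z14) z15))) z15) z15)))) (c z11 (b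 z11 (d (a (c (b z11 (d (a (c z10 z14) z11) (a z10 z11))) z15) z15) (a (c z11 (b z15 (d (a (c (b z15 z14) z14) z15) (a (c z10 z14) z15)))) z11))))))) (a (b (d (a z12 (b (d (c (a z12 z13) (a z12 z13)) (c (a z12 z13) (a z12 z13))) z12)) (a z12 (c (b (d (c (a z12 z13) (a z12 z13)) (c (a z12 z13) (a z12 z13))) (d z12 (c (a z12 z13) z12))) (b (d (a z12 z13) (a z12 z13)) z12)))) z14) (b z15 (d (b z15 (d (a (c z15 (b z15 (d (a z14 z15) (a z14 z15)))) z15) (a (c z15 (b z15 (d (a z14 z15) (a z14 z15)))) z15))) (c z15 (b z15 (d (a (b z15 (d (a z14 z15) (a z14 z15))) z15) (a (b z15 (d (a z14 z15) (c z15 (a z14 z15)))) z15))))))))) _ _ (by decide +kernel)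

theorem okA237 : CKA ⟨6144, 12288, 5120, 6144⟩ ⟨12288, 24576, 6144, 7168⟩ :=
  ckA_sound (a z14 (c (b (d (c (b (d (a z14 z15) (a (c (b (d z15 (a z14 z15)) (d z14 (a z14 z15))) z14) z15)) (d (a z14 z15) (a (c (b (d z14 (a z14 z15)) z14) z14) z15))) (b (d (a z14 z15) (a z14 z15)) (d (a z14 z15) (a z14 z15)))) (c (b (d (a (c (b (d (a z10 z11) (a z10 z11)) z10) (b (d z15 (a z14 z15)) z14)) z15) (a (c (b (d (a z10 z11) z11) z10) (b (d (a z14 z15) (a z10 z11)) (d (a z14 z15) (a z10 z11)))) z11)) (d (a (c z10 z14) (c z11 z15)) (a (c z10 (b (d (a z14 z15) z10) (d z14 z10))) z11))) (b (d (a z14 z15) (a (c (b (d (a z14 z15) (a z14 z15)) z14) z14) z15)) (d (a z14 z15) (a z14 z15))))) (d (c (b (d (a z14 z15) (a z14 z15)) (d z14 (a z14 (c (b (d (a z14 z15) (a z14 z15)) (d (a z14 z15) (a z14 z15))) (b z15 z14))))) z14) (c (b (d (a (c z10 z14) (c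 z11 z15)) (a z10 (c z11 (b z15 (d z15 (a (c z11 z15) z11)))))) (d (a z14 (c (b (d (a z10 z11) (a z10 z11)) (d (a z10 z11) z10)) (b (d z15 (a z14 z15)) (d z14 (a z14 z15))))) (a z10 (c (b z11 z10) (b (d (a z14 z15) (a z10 z11)) (d (a z14 z15) (a z10 z11))))))) (b (d (a z14 z15) (a z14 z15)) (d z14 (a z14 (c (b z15 z14) (b z15 z14)))))))) (b (d (b (d (a z14 z15) (a z14 z15)) (d (a z14 z15) (a z14 z15))) (b (d (a z14 z15) (a z14 z15)) (d (a z14 z15) (a z14 z15)))) (d z14 z14)))) _ _ (by decide +kernel)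

theorem okA238 : CKA ⟨6144, 12288, 5120, 6144⟩ ⟨12288, 18432, 7168, 8192⟩ :=
  ckA_sound (a z10 (b (d (c (b (d (a (c (b (d (a z10 z11) z11) z10) (b (d (a z10 z11) (a z10 z11)) (d (a z10 z11) (a z10 z11)))) z11) (a (c (b z11 z10) (b (d (a z10 z11) (a z10 z11)) (d (a z10 z11) (a z10 z11)))) z11)) (d (a (c z10 (b (d (a z10 (c z11 z15)) (a z10 z11)) z10)) z11) (a z10 z11))) (b (d (a (c (b (d (a z14 z15) (a z14 z15)) (d z14 (a z14 z15))) z14) z15) (a (c (b (d (a z14 z15) (a z14 z15)) (d (a z14 z15) (a z14 z15))) (b (d (a z14 z15) (a z14 z15)) z14)) z15)) (d (a z14 z15) (a (c (b (d z14 (a z14 (c z11 z15))) z14) z14) z15)))) (c (b (d (a (c (b z11 z10) (b (d (a z10 z11) (a z10 z11)) (d (a z10 z11) (a z10 z11)))) z11) (a (c (b z11 z10) (b z11 z10)) z11)) (d (a z10 z11) (a z10 z11))) (b (d (a (c (b (d (a z10 z11) (a z10 z11)) (d (a z10 z11) (a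 z10 z11))) (b (d (a z14 z15) (a z14 z15)) (d (a z14 z15) (a z14 z15)))) z15) (a (c (b (d (a z10 z11) (a z10 z11)) (d (a z10 z11) (a z10 z11))) (b (d (a z14 z15) (a z14 z15)) (d (a z14 z15) (a z14 z15)))) z11)) (d (a (c (b (d (a z10 (c z11 z15)) (a z10 z11)) z10) z14) (c z11 z15)) (a (c z10 (b (d (a z14 z15) (a z14 (c z11 z15))) (d z14 (a z14 (c z10 z14))))) z11))))) (d (c (b (d (a z10 (c z11 (b z11 (d (a (c z11 z15) z11) (a (c z11 (b z15 (d z15 z11))) z11))))) (a z10 z11)) (d (a z10 (c (b z11 z10) (b (d (a z10 z11) (a z10 z11)) (d (a z10 z11) (a z10 z11))))) (a z10 (c z11 (b (d (a z10 z11) z11) (d (a z10 z11) (a z10 z11))))))) (b (d (a z14 z15) (a z14 (c (b z15 (d z15 (a (c z11 z15) z15))) z15))) (d (a z14 (c (b z15 z14) (b z15 z14))) (a z14 (c (b (d (a z14 z15) (a z14 z15)) (d (a z14 z15) (a z14 z15))) (b z15 z14)))))) (c (b (d (a z10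 z11) (a z10 z11)) (d (a z10 (c z11 (b z11 z10))) (a z10 z11))) (b (d (a (c z10 z14) (c (b z11 (d (a (c z11 z15) z11) z11)) z15)) (a z10 (c z11 (b z15 (d z15 (a (c z11 z15) z15)))))) (d (a z14 (c (b (d (a z10 z11) (a z10 z11)) (d (a z10 z11) (a z10 z11))) (b (d z15 (a z14 z15)) (d z14 (a z14 z15))))) (a z10 (c (b (d (a z10 z11) z11) (d (a z10 z11) z10)) (b (d (a z14 z15) (a (c z10 z14) z15)) (d (a z14 z15) (a z14 z15))))))))))) _ _ (by decide +kernel)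

theorem okA239 : CKA ⟨6144, 12288, 5120, 6144⟩ ⟨18432, 24576, 7168, 8192⟩ :=
  ckA_sound (a z14 (b (d (b (d (a z14 z15) (a z14 z15)) (d (a z14 z15) (a z14 z15))) (c (b (d (a (c (b (d (a z14 z15) (a z14 z15)) z14) z14) z15) (a (c (b (d (a z14 z15) (a z14 z15)) (d z14 (a z14 z15))) z14) z15)) (d (a z14 z15) (a z14 z15))) (b (d (a z14 z15) (a z14 z15)) (d (a z14 z15) (a z14 z15))))) (d (b (d z14 (a z14 z15)) z14) (c (b (d (a z14 z15) (a z14 z15)) (d z14 (a z14 (c (b z15 z14) (b z15 z14))))) (b (d (a z14 z15) (a z14 z15)) z14))))) _ _ (by decide +kernel)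

end Vale.Agent.Lib.P154Q5
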