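import Vale.Agent.Lib.P154Q5.CkADefs

namespace Vale.Agent.Lib.P154Q5

set_option maxRecDepth 100000
set_option exponentiation.threshold 1000

open Tr

theorem okA240 : CKA ⟨6144, 12288, 6144, 7168⟩ ⟨12288, 24576, 4096, 6144⟩ :=
  ckA_sound (d z14 z14) _ _ (by decide +kernel)

theorem okA241 : CKA ⟨6144, 12288, 7168, 8192⟩ ⟨12288, 24576, 4096, 5120⟩ :=
  ckA_sound (b z14 (d (c (b (d (a (c (b z12 z12) (b z12 z12)) z14) (a (c (b z12 z12) (b z12 z12)) z14)) (d (c (b z12 z12) (b z12 z12)) (c (b z12 z12) (b z12 z12)))) (b (d (a (b (d (a (c z12 (b z12 z12)) z12) (c z12 (a (b z12 z12) z12))) (d (c z12 (b z12 z12)) (c z12 (b z12 z12)))) z14) (a (c (b z12 z12) (b (d (a (b z12 z12) z12) (a (b z12 z12) z12)) (d (b z12 z12) (b z12 z12)))) z14)) (d (b (d (a (c (b z12 z12) (b z12 z12)) z14) (c z12 (a (b z12 z12) z14))) (d (c (b z12 z12) (b z12 z12)) (c (b z12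 z12) (b z12 z12)))) (c (b (d (a (c z12 (b z12 z12)) z14) z12) (d (c z12 (b z12 z12)) (c z12 (b z12 z12)))) (b (d (a (b z12 z12) z14) (a (b z12 z12) z14)) (d (b z12 z12) (b z12 z12))))))) (c (b (d (a (c z12 (b z12 z12)) z14) (a (c z12 (b z12 z12)) z14)) (d (c (b z12 z12) (b z12 z12)) (c (b z12 z12) (b z12 z12)))) (b (d (a (b (d (c z12 (a (b z12 z12) z12)) (c z12 (a (b z12 z12) z12))) (d (c z12 (b z12 z12)) (c z12 (b z12 z12)))) z14) (a (c (b z12 z12) (b (d (a (b z12 z12) z12) (a (c z12 (b z12 z12)) z12)) (d (b z12 z12) (c (b z12 z12) (b z12 z12))))) z14)) (d (b (d (c z12 (a (b z12 z12) z14)) (c z12 (a (b z12 z12) z14))) (d (c (b z12 z12) (b z12 z12)) (c (c z12 (b z12 z12)) (b z12 z12)))) (c (b z12 (d (c z12 (b z12 z12)) z12)) (b (d (a (b z12 z12) z14) (a (c (b z12 z12) (b z12 z12)) z14)) (d (b z12 z12) (c (b z12 z12) (b z12 z12)))))))))) _ _ (by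 decide +kernel)

theorem okA242 : CKA ⟨6144, 12288, 7168, 8192⟩ ⟨12288, 24576, 5120, 6144⟩ :=
  ckA_sound (b (d z14 z14) (d (c (b (d (a (c z12 (b z12 z12)) z14) (a (c z12 (b z12 z12)) z14)) (d (c z12 (b z12 z12)) (c z12 (b z12 z12)))) (b (d (a (c (b z12 z12) (b (d (a (b z12 z12) z12) (a (c z12 (b z12 z12)) z12)) (d (b z12 z12) (c (b z12 z12) (b z12 z12))))) z14) (a (c (b z12 z12) (b (d (a (c z12 (b z12 z12)) z12) (a (c z12 (b z12 z12)) z12)) (d (c z12 (b z12 z12)) (c z12 (b z12 z12))))) z14)) (d (c (b z12 z12) (b (d (a (b z12 z12) z14) (a (c (b z12 z12) (b z12 z12)) z14)) (d (b z12 z12) (c (b z12 z12) (b z12 z12))))) (c (b z12 z12) (b (d (a (c (b z12 z12) (b z12 z12)) z14) (a (c (b z12 z12) (b z12 z12)) z14)) (d (c (b z12 z12) (b z12 z12)) (c (b z12 z12) (b z12 z12)))))))) (c (b (d (c z12 (a (b z12 z12) z14)) z12) (d (c z12 (b z12 z12)) (c z12 (b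 z12 z12)))) (b (d (a (c (b z12 z12) (b (d (a (c z12 (b z12 z12)) z12) (a (c z12 (b z12 z12)) z12)) (d (c z12 (b z12 z12)) (c z12 (b z12 z12))))) z14) (a (c (b z12 z12) (b (d (a (c z12 (b z12 z12)) z12) (a (c z12 (b z12 z12)) z12)) (d (c z12 (b z12 z12)) (c z12 (b z12 z12))))) z14)) (d (c (b z12 z12) (b (d (a (c (b z12 z12) (b z12 z12)) z14) (a (c z12 (b z12 z12)) z14)) (d (c (b z12 z12) (b z12 z12)) (c (b z12 z12) (b z12 z12))))) (c (b z12 z12) (b (d (a (c z12 (b z12 z12)) z14) (a (c z12 (b z12 z12)) z14)) (d (c (b z12 z12) (b z12 z12)) (c z12 (b z12 z12)))))))))) _ _ (by decide +kernel)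

theorem okA243 : CKA ⟨6144, 12288, 6144, 8192⟩ ⟨12288, 24576, 6144, 8192⟩ :=
  ckA_sound (b (d (a z14 (c (b (d (c (b (d z14 (a z14 (c (b (d z14 (a z14 (c z11 z15))) z14) z14))) z14) z14) (c (b (d (a z14 (c z10 z14)) (a z10 (c z10 (b (d (a z14 (c (b z11 z10) z15)) (a z10 (c z11 z15))) (d z14 z10))))) (d (a z14 (c z10 z14)) z10)) z14)) (d z14 (c (b (d (a z14 (c z10 z14)) z10) z10) z14))) z14)) (c (a z10 (b (d (c (b (d (a z10 (c z10 (b (d (a z10 (c z11 z15)) (a z10 (c z11 (b z15 z14)))) z10))) z10) z10) (b (d z14 (a z14 (c (b (d z14 (a z14 (c (b z11 z10) z15))) z14) z14))) z14)) (c z10 (b (d (a z14 (c (b (d (a z10 (c z11 z15)) z10) z10) z14)) (a z10 (c z10 (b (d z14 (a z14 z15)) z14)))) (d (a z14 (c z10 z14)) z10)))) (d (c z10 z14) z10))) z14)) (d (c (b z14 (d (c (b z12 z12) (b (d (a (c z12 (b z12 z12)) z14) z12) (d (c z12 (b z12 z12)) z12))) (c (b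 (d z12 z8) (d z12 (c z8 z12))) (b z12 z12)))) (b (d z14 z14) (d (b (d (a (c (b z12 z12) (b (d (a (b z12 z12) z12) (a (c z12 (b z12 z12)) z12)) (d (b z12 z12) (c z12 (b z12 z12))))) z14) (a (c (b z12 z12) (b (d z12 z12) (d (c z12 (b z12 z12)) (c z12 (b z12 z12))))) z14)) (d (c (b z12 z12) (b (d (a (b z12 z12) z14) (a (c z12 (b z12 z12)) z14)) (d (b z12 z12) (c z12 (b z12 z12))))) (c (b z12 z12) (b (d (a (c z12 (b z12 z12)) z14) (a (c z12 (b z12 z12)) z14)) (d (c z12 (b z12 z12)) (c z12 (b z12 z12))))))) (b (d (a (c (b z12 z12) (b (d z12 z12) (d z12 z12))) z14) (c z12 (a (b z12 (d z12 z12)) z14))) (d (c (b z12 z12) (b (d (a (c z12 (b z12 z12)) z14) (a (c z12 (b z12 z12)) z14)) (d (c z12 (b z12 z12)) (c z12 (b z12 z12))))) (c (b z12 z12) (b (d z12 z12) (d (c z12 (b z12 z12)) (c z12 (b z12 z12)))))))))) (c (b (d (a (c (b z8 z8) (b z12 z12)) (c z10 z14))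 z10) (d (c (b z8 z8) (b z12 z12)) (c z8 (b (d z12 z8) (d z12 z8))))) (b (d z14 z14) (d (b (d (a (c z12 (b z12 z12)) z14) (a (c z12 (b z12 z12)) z14)) (d (c (b z12 z12) (b (d z12 z12) (d z12 z12))) (c z12 (b z12 z12)))) (c (b z12 z12) (b (d (a (b z12 z12) z14) (a (b z12 z12) z14)) (d (b z12 z12) (b z12 z12))))))))) _ _ (by decide +kernel)

theorem okA244 : CKA ⟨0, 6144, 4096, 8192⟩ ⟨12288, 24576, 8192, 12288⟩ :=
  ckA_sound (b (d (a (b z0 z0) (b (d z8 z0) (d z8 z0))) z0) (d (b (d (c (b z0 z0) (b z12 (d (c z12 (b z12 z12)) (c z8 z12)))) z0) z0) z0)) _ _ (by decide +kernel)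

theorem okA245 : CKA ⟨6144, 12288, 4096, 5120⟩ ⟨12288, 18432, 8192, 9216⟩ :=
  ckA_sound (a (b (d (c (a (b (d z8 z0) z0) (b (d (c (a (b (d (c (a z0 (b z1 z0)) z8) (a z0 (b z1 z0))) (d z0 z0)) (b (d z1 z1) (d z1 z1))) (a z8 z9)) (a (b (d (c (a z0 (b z1 (d z0 z0))) z8) (a z0 (b z1 (d z0 z0)))) (d z0 z0)) (b (d z1 z1) (d z1 z1)))) (d (c (a z0 (b (d z1 z1) (d (c (b z1 (d z2 z2)) z10) (b (d z1 z1) (d (a z2 z3) (a z2 z3)))))) (a z8 z9)) (a (b (d z0 z0) z0) (b (d z1 z1) (d (c (b (d z1 z1) (d (a z2 z3) (a z2 z3))) (b z9 z10)) (b (d z1 z1) (d (a z2 z3) (a z2 z3))))))))) (a z8 (b (d (c (a z8 z9) (a z8 z9)) (c (a z8 z9) (a z8 z9))) (d (c (a z8 z9) (a z8 (b z9 (d (c z10 (b z9 z10)) (c z10 (b z9 z10)))))) (c (a z8 z9) (a z8 z9)))))) (a (b (d z8 z0) z0) (b (d (c (a (b (d (c (a z0 (b z1 (d z0 z0))) z8) (a z0 (b z1 (d z0 z0)))) (d z0 z0)) (b (d z1 z1) (d z1 z1)))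 (a z8 z9)) (a (b (d (a z0 (b z1 (d z8 z0))) (a z0 (b z1 (d z0 z0)))) (d z0 z0)) (b (d z1 z1) (d z1 z1)))) (d (c (a (b (d z0 z0) z0) (b (d z1 z1) (d (c (b (d z1 z1) (d (a z2 z3) (a z2 z3))) (b z9 z10)) (b (d z1 z1) (d (a z2 z3) (a z2 z3)))))) (a z8 z9)) (a (b (d z0 z0) z0) (b (d z1 z1) (d (b z1 (d z10 (a z2 z3))) (b z1 (d (a z2 z3) z0))))))))) (d (c (a z0 (b (d z10 (a z2 (b (d (c (b (d z2 z2) z2) z10) (b (d z2 z2) (d z2 z2))) (d z2 z2)))) (d z10 (a z2 (b (d z2 z2) z2))))) z10) (a z0 (b (d z10 (a z2 (b (d (b (d z10 z2) z2) (b (d z2 z0) z2)) (d z2 z2)))) (d z10 (a z2 (b (d z2 z2) z2))))))) (b (d z11 (b (d z9 (a (b (d z1 z1) (d z1 z1)) (b (d z1 z1) (d z3 z3)))) (d z11 (a (b (d z3 z3) (d z3 z3)) (b (d z3 z3) (d z3 z3)))))) (d (c (b (d z11 (a (b (d z3 z3) (d z3 z3)) (b (d z3 z3) (d z3 z3)))) (d z11 (a (b (d z3 z3) (d (a (c (b z3 (d z2 z2)) z10) z3) (a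 (b z3 (d z2 z2)) z3))) z3))) (b z11 (d (a (c z11 (b z11 (d (a z10 z11) z11))) z11) z11))) (b (d z11 (a (b (d z3 z3) (d z3 z3)) (b (d z3 z3) (d z3 z3)))) (d z11 (a (b (d z3 z3) (d z3 z3)) (b (d z3 z3) (d z3 z3)))))))) _ _ (by decide +kernel)

theorem okA246 : CKA ⟨6144, 12288, 4096, 5120⟩ ⟨18432, 24576, 8192, 9216⟩ :=
  ckA_sound (a (b (d (a z12 (c (b (d (c (a z12 z13) (a z12 z13)) (c (a z8 z9) (a z12 z13))) (d (c (a z12 (b z13 (d (c (b z13 z14) z14) (c (b z13 (d z14 (a z14 z15))) z14)))) (a z12 z13)) (c (a z8 (b z9 (d (c (b z9 z10) (b z13 z14)) (c (b z9 z10) (b z9 z10))))) (a z12 z13)))) (b (d (a z12 z13) (a z12 z13)) (d z12 (a z12 z13))))) (a z8 (c (b (d (c (a z8 z9) (a (b (d z12 z8) z12) z13)) (c (a z8 z9) (a z8 z9))) (d (c (a z8 z9) (a z12 (b z13 (d (c (b z9 z10) z14) (c (b z9 z10) (b z13 z14)))))) (c (a z8 z9) (a z8 z9)))) (b (d (a z12 z13)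 (a z12 z13)) (d (a z12 z13) (a z12 z13)))))) (d (a z12 (c (b (d z14 (c z10 z14)) z14) z14)) (a z8 (c z10 z14)))) (b (d z15 z11) (d (c (b z15 (d (a (c (b z15 (d z15 (a (c (b z15 z14) z14) z15))) z15) z15) (a (c (b z11 (d (a (c z10 z14) z11) z11)) z15) z15))) z15) (c (b z11 (d (a (c z11 z15) z11) z11)) z15)))) _ _ (by decide +kernel)

theorem okA247 : CKA ⟨6144, 12288, 4096, 5120⟩ ⟨12288, 24576, 9216, 10240⟩ :=
  ckA_sound (a (b (d (a z8 (b (d (c (a z8 z9) (a z8 z9)) (c (a (b (d z8 z0) (d z8 z0)) (b (d z9 z1) (d z9 z1))) (a z8 z9))) (d (c (a z8 z9) (a z8 z9)) (c (a z0 (b (d z9 z1) (d z10 (b z1 (d z2 z2))))) (a z8 z9))))) (a z0 (b (d (a (b (d z8 z0) z0) z1) z0) (d (a z0 z1) z0)))) (d z10 (a z0 (b (d (a z2 (b (d z10 z2) z2)) z0) (d z2 z0))))) (b (d z11 (b (d (a (b (d z9 z1) (d z9 z1)) (b (d z9 z1) (d z11 z3))) z0) (d (a (b (d z11 z3) (d z11 z3)) (b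 (d z11 z3) (d z11 z3))) z0))) (d z11 (b (d (a (b (d z11 z3) z3) (b (d z11 z3) (d z11 z3))) z0) (d (a z3 (b (d z11 z3) (d z11 z3))) z0))))) _ _ (by decide +kernel)

theorem okA248 : CKA ⟨6144, 12288, 5120, 6144⟩ ⟨12288, 18432, 8192, 9216⟩ :=
  ckA_sound (a (b (d z10 (a z2 (b (d z10 z2) z2))) (d z10 z2)) (b (d (c (b (d (a (c (b (d (a z2 z3) (a z2 z3)) (d (a z2 z3) (a z2 z3))) (b z11 z10)) z11) (a (b (d (a z2 z3) (a z2 z3)) (d (a z2 z3) (a z2 z3))) z3)) (d (a z10 z11) (a (b (d (a z2 z3) (a z2 z3)) (d z2 z2)) (b z3 (d z3 z3))))) (b (d (a (c (b (d (a z10 z11) z11) (d (a z10 z11) (a z10 z11))) (b (d (a z10 z11) (a z10 z11)) (d (a z10 z11) (a z10 z11)))) z11) (a (c (b z11 (d (a z10 z11) (a z10 z11))) (b (d (a z10 z11) z11) (d (a z10 z11) (a z10 z11)))) z11)) (d (a (c z10 (b (d (a z10 z11) z10) z10)) z11) (a z10 z11)))) (b (d (a (c (b (d (a z2 z3) (a z2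 z3)) (d (a z2 z3) (a z2 z3))) (b z11 (d (a z10 z11) z10))) z11) (a (b (d (a z2 z3) z3) (d (a z2 z3) (a z2 z3))) (b (d z3 z3) z3))) (d (a z10 z11) (a (b (d (a z2 z3) (a z2 z3)) (d z2 z2)) z3)))) (d (c (b (d (a z10 z11) (a (b (d z2 z2) z2) (b (d z3 z3) (d z3 z3)))) (d z10 (a z2 (b (d z3 z3) (d (a z2 z3) (a z2 z3)))))) (b (d (a z10 z11) (a z10 z11)) (d (a z10 (c z11 (b (d (a z10 z11) z11) (d (a z10 z11) (a z10 z11))))) (a z10 z11)))) (b (d (a z10 z11) (a (b (d z2 z2) z2) (b z3 (d z3 z3)))) (d (a z10 z11) (a z2 (b (d z3 z3) (d (a z2 z3) (a z2 z3))))))))) _ _ (by decide +kernel)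

theorem okA249 : CKA ⟨6144, 12288, 5120, 6144⟩ ⟨18432, 24576, 8192, 9216⟩ :=
  ckA_sound (a z14 (b (d (c (b (d (a (c (b (d (a z14 z15) (a z14 z15)) (d (a z14 z15) (a z14 z15))) (b (d (a z14 z15) (a z14 z15)) z14)) z15) (a (c (b (d (a z10 z11) (a z10 z11)) (d (a z10 z11) (a z10 z11))) (b (d (a z14 z15) (a z14 z15)) (d (a z14 z15) (a z14 z15)))) z15)) (d (a (c (b (d z14 (a z14 z15)) z14) z14) z15) (a (c (b (d (a z10 z11) z10) z10) z14) z15))) (b (d (a z14 z15) (a (b (d (c (a z14 z15) (a z14 z15)) (c z15 (a z14 z15))) z14) z15)) (d (a z14 z15) (a z14 z15)))) (c (b (d (a (c (b (d (a z10 z11) z11) (d (a z10 z11) (a z10 z11))) (b (d (a z14 z15) (a z10 z11)) (d (a z14 z15) (a z10 z11)))) z11) (a (c (b z11 (d (a z10 z11) z10)) (b z11 (d (a z10 z11) (a z10 z11)))) z11)) (d (a (c z10 (b (d (a z14 z15) z10) z14)) z11) (a z10 z11))) (b (d (a (b z15 (d z14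 (c (a z14 z15) z14))) z15) (a (b z15 (d (c (a z14 z15) z14) (c (a z10 z11) z14))) z15)) (d (a z14 z15) (a z14 z15))))) (d (c (b (d (a z14 z15) (a z14 z15)) (d (a z14 (c (b z15 (d (a z14 z15) (a z14 z15))) (b z15 z14))) (a z14 (c (b (d (a z10 z11) z11) (d (a z10 z11) (a z10 z11))) z15)))) (b (d (a z14 z15) (a z14 z15)) z14)) (c (b (d (a z10 z11) (a z10 z11)) (d (a z10 (c z11 z15)) (a z10 z11))) (b (d (a z14 z15) (a z14 z15)) (d (a z14 z15) (a z14 z15))))))) _ _ (by decide +kernel)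

theorem okA250 : CKA ⟨6144, 12288, 5120, 6144⟩ ⟨12288, 24576, 9216, 10240⟩ :=
  ckA_sound (a (b (d z10 (a z2 (b (d z2 z0) z2))) (d z10 z2)) (b (d (b (d (a (c (b z11 z10) (b (d z15 z11) (d (a z14 z15) (a z10 z11)))) z11) z11) (d (a z10 z11) (a z10 z11))) (b (d (a (b z3 (d z10 (a z2 z3))) (b (d z11 z3) z3)) z0) (d (a (b (d z10 z2) (d z10 z2)) z3) z0))) (d (b (d (a z10 z11) (a z10 z11)) (d (a z10 (c z11 (b z11 (d (a z14 z15) z10)))) z10)) (b (d (a z2 z3) z0) (d (a z2 z3) z0))))) _ _ (by decide +kernel)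

theorem okA251 : CKA ⟨6144, 12288, 4096, 6144⟩ ⟨12288, 24576, 10240, 12288⟩ :=
  ckA_sound z0 _ _ (by decide +kernel)

theorem okA252 : CKA ⟨6144, 12288, 6144, 8192⟩ ⟨12288, 24576, 8192, 12288⟩ :=
  ckA_sound (d (b (d (c (a (b (d z10 z2) (d z10 z2)) (b (d z10 (b (d z10 (a z2 (b (d z2 z2) z2))) (d z10 z2))) (d z10 (b (d z10 z2) z2)))) (a z14 (b (d (c (b (d z14 (a z14 (c z10 z14))) z14) z14) (c z10 z14)) z14))) (a (b (d z10 z2) z2) (b (d z10 (b (d (a z2 (b (d z10 z2) z2)) z0) (d z2 z0))) (d z10 (b (d z2 z0) z2))))) (d (c (b (d z10 z2) (d z8 z0)) (b z14 (d (c (b z12 z12) (b z12 z12)) (c z8 z12)))) (b (d z10 z2) (d z8 z0)))) z0) _ _ (by decide +kernel)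

theorem okA253 : CKA ⟨0, 12288, 8192, 12288⟩ ⟨12288, 24576, 4096, 12288⟩ :=
  ckA_sound (d (b (d (b (d (b (d (c (b (d (c (b z12 z0) (b z12 z0)) (c (b z12 z0) (b z12 z0))) z0) (b (d (b (d (c (b z12 z0) (b (d z12 z12) z0)) (c (b z12 z0) (b (d z12 z12) z0))) z0) (c (b (d (c z12 (b z12 z0)) (c z12 (b z12 z0))) z0) (b (d (b (d z12 z12) z0) (b (d z12 z12) z0)) z0))) z0)) (c (b (d (c (b z12 z0) (b z12 z0)) (c (b z12 z0) (b z12 z0))) z0) (b (d (b (d (c (b z12 z0) (b (d z12 z12) z0)) (c (c z12 (b z12 z0)) (b (d z12 z12) z0))) z0) (c (b (d (c z12 (b z12 z0)) z12) z0) (b (d (b (d z12 z12) z0) (c (b z12 z0) (b (d z12 z12) z0))) z0))) z0))) z0) (b (d (c (b (d (c (b z12 z0) (b z12 z0)) (c z12 (b z12 z0))) z0) (b (d (c (b (d (c z12 (b z12 z0)) z12) z0) (b (d (b z12 z0) (c (b z12 z0) (b z12 z0))) z0)) (c (b z12 z0) (b (d (c (b z12 z0) (b z12 z0)) (c (b z12 z0)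 (b z12 z0))) z0))) z0)) (c (b (d (c z12 (b z12 z0)) (c z12 (b z12 z0))) z0) (b (d (c (b z12 z0) (b (d (c (b z12 z0) (b z12 z0)) (c (b z12 z0) (b z12 z0))) z0)) (c (b z12 z0) (b (d (c (b z12 z0) (b z12 z0)) (c (b z12 z0) (b z12 z0))) z0))) z0))) z0)) z0) (b (d (c (b (d (c (b z12 z0) (b (d (c z12 (b z12 z0)) (c z12 (b z12 z0))) z0)) (c (b (d z12 (c z8 z12)) z0) (b z12 z0))) z0) (b (d (b (d (c (b z12 z0) (b (d (b z12 z0) (c (b z12 z0) (b z12 z0))) z0)) (c (b z12 z0) (b (d (c z12 (b z12 z0)) (c z12 (b z12 z0))) z0))) z0) (b (d (c (b z12 z0) (b (d (c z12 (b z12 z0)) (c z12 (b z12 z0))) z0)) (c (b z12 z0) (b (d (c z12 (b z12 z0)) (c z12 (b z12 z0))) z0))) z0)) z0)) (c (b (d (c (b z8 z0) (b z12 z0)) (c z8 (b (d z12 z8) z0))) z0) (b (d (b (d (c (b z12 z0) (b (d (c z12 (b z12 z0)) z12) z0)) (c z12 (b (d z12 z12) z0))) z0) (c (b z12 z0) (b (d (b z12 z0) (b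 z12 z0)) z0))) z0))) z0)) z0) (b (d (b (d (c (b (d (c z0 (b z8 z0)) z0) z0) (b (d (c (b z12 z0) (b (d (b z12 z0) z12) z0)) (c (b z8 z0) (b z12 z0))) z0)) (b (d z8 z0) z0)) z0) z0) z0)) _ _ (by decide +kernel)

theorem okA254 : CKA ⟨12288, 24576, 4096, 8192⟩ ⟨0, 6144, 4096, 8192⟩ :=
  ckA_sound (b (d (c (b (d z3 (b (d z3 z3) (d z3 z3))) (d z3 (b (d z3 z3) (d z3 z3)))) z3) (b (d (b (d (c (a z3 (b (d z3 z3) (d z3 z3))) z3) (a (b (d z3 z3) (d z3 z3)) (b (d z3 (b (d z3 z0) (d z3 z0))) (d z3 (a z3 (b (d z3 z0) (d z3 z0))))))) (d (c (a z3 (b (d z3 z3) (d z3 z3))) z3) (a (b (d z3 z3) (d z3 z3)) (b (d z3 (b (d z3 z0) (d z3 z0))) (d z3 (a z3 (b (d z3 z0) (d z3 z0)))))))) z0) (d (b (d (c (a z3 (b (d z3 z3) (d z3 z3))) z3) (a (b (d z3 z3) (d z3 z3)) (b (d z3 (a z3 (b (d z3 z0) (d z3 z0)))) (d z3 (a z3 (b (d z3 z0) (d z3 z0))))))) (d (a z3 (c (b (d z3 z3) (d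 z3 z3)) z3)) (a (b (d z3 z3) (d z3 z3)) (b (d z3 (a z3 (b (d z3 z0) (d z3 z0)))) (d z3 (a z3 (b (d z3 z0) (d z3 z0)))))))) z0))) (d (c (b (d z3 (a z3 (b (d z3 z3) z3))) (d z3 z3)) z3) (b (d (a (b (d z3 (a (b (d z3 z3) (d z3 z3)) (b (d z3 z3) (d z3 z3)))) (d z3 (a (b z3 (d z2 z2)) (b (d z3 z3) (d z3 z3))))) (b (d (c (b (d z3 z3) (d z3 z3)) z3) (b (d z3 (a z3 (b (d z3 z0) (d z3 z0)))) (d z3 (a z3 (b (d z3 z0) (d z3 z0)))))) (d (c (b (d z3 z3) (d z3 z3)) z3) (b (d z3 (a z3 (b z3 z3))) (d z3 z3))))) z0) (d (a (b (d z2 (a z2 (b (d z3 z3) z3))) (d z2 (a z2 (b z3 z2)))) (b (d (c (b (d z3 z3) z3) z3) (b (d z3 z3) (d z3 z3))) (d z3 (a (b (d z3 z3) z3) (b (d z3 z3) (d z3 z3)))))) z0)))) _ _ (by decide +kernel)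

end Vale.Agent.Lib.P154Q5
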