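import Vale.Agent.Lib.P154Q5.CkADefs

namespace Vale.Agent.Lib.P154Q5

set_option maxRecDepth 100000
set_option exponentiation.threshold 1000

open Tr

theorem okA255 : CKA ⟨12288, 24576, 4096, 6144⟩ ⟨6144, 12288, 4096, 6144⟩ :=
  ckA_sound (b (d (c z3 (b (d z15 (a z15 (b (d z15 (c (b z15 z15) z15)) (d z15 (c (a z15 (b (d z15 (c z11 z15)) (d z15 (c z11 z15)))) z15))))) (d z15 (a z15 (b (d z15 (c (b (d z15 (c z11 z15)) (d z15 (a z15 (c z11 z15)))) z15)) (d z15 (c (a z15 (b (d z15 (c z11 z15)) (d z15 (c z11 z15)))) z15))))))) z11) (d (c z3 (b (d z15 (a z15 (b (d z15 (c (a z15 (b (d z15 (c z11 z15)) (d z15 (c z11 z15)))) z15)) (d z15 (c (a z15 (b (d z15 (c z11 z15)) (d z15 (c z11 z15)))) z15))))) (d z15 (a z15 (b (d z15 (c (a z15 (b (d z15 (c z11 z15)) (d z15 (c z11 z15)))) z15)) (d z15 (c (a z15 (b (d z15 (c z11 z15)) (d z15 (c z11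 z15)))) z15))))))) (c z11 (b z11 (d (a (b (d (c z11 z15) (c z11 z15)) (d (c z11 z15) (c z11 z15))) (b (d (c z11 z15) (c z11 z15)) (d (c z11 z15) (c z11 z15)))) z11))))) _ _ (by decide +kernel)

theorem okA256 : CKA ⟨12288, 24576, 4096, 5120⟩ ⟨6144, 12288, 6144, 8192⟩ :=
  ckA_sound (d z11 (b (d z11 (a (b (d (c (a (b (d z1 z1) (d z3 z3)) (b (d z3 z3) (d z3 z3))) z11) (a (b (d z1 z1) (d z3 z3)) (b (d z3 z3) (d z3 z3)))) (d (c (a (b (d z3 z3) z3) (b (d z3 z3) (d z3 z3))) z11) (a (b (d z3 z3) (d z3 z3)) (b (d z3 z3) (d z3 z3))))) (b (d (c (b (d (c (a z3 (b (d z3 z3) (d z3 z3))) z3) (a z3 (b (d z3 z3) (d z3 z3)))) (d (a z3 (c (b (d z3 z3) (d z3 z3)) z3)) (a z3 (b (d z3 z3) (d z3 z3))))) z11) (b (d (c (a (b (d z3 z3) z3) (b (d z3 z3) (d z3 z3))) z11) (a (b (d z3 z3) (d z3 z3)) (b (d z3 z3) (d z3 z3)))) (d (a z3 (c (b (d z3 z3) (d z3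 z3)) z11)) (a (b (d z3 z3) (d z3 z3)) (b (d z3 z3) (d z3 z3)))))) (d (c (a (b (d z3 z3) (d z3 z3)) (b (d (c (b (d z3 z3) (d z3 z3)) z3) (b (d z3 z3) (d z3 z3))) (d (c (b (d z3 z3) (d z3 z3)) z3) (b (d z3 z3) (d z3 z3))))) z11) (a (b (d (c (a z3 (b (d z3 z3) z3)) z11) (a z3 (b (d z3 z3) (d z3 z3)))) (d z3 (a z3 (b (d z3 z3) z3)))) (b (d (c (b (d z3 z3) (d z3 z3)) z11) (b (d z3 z3) (d z3 z3))) (d (c (b (d z3 z3) (d z3 z3)) z11) (b (d z3 z3) (d z3 z3))))))))) (d z11 (a (b (d (c (a z3 (b (d z3 z3) (d z3 z3))) z11) (a (b (d z3 z3) (d z3 z3)) (b (d z3 z3) (d z3 z3)))) (d (c (a z3 (b (d z3 z3) (d z3 z3))) z11) (a (b (d z3 z3) (d z3 z3)) (b (d z3 z3) (d z3 z3))))) (b (d (c (b (d (a z3 (c (b (d z3 z3) (d z3 z3)) z3)) (a z3 (b (d z3 z3) (d z3 z3)))) (d (a z3 (c (b (d z3 z3) (d z3 z3)) z3)) (a z3 (b (d z3 z3) (d z3 z3))))) z11) (b (d (a z3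 (c (b (d z3 z3) (d z3 z3)) z11)) (a (b (d z3 z3) (d z3 z3)) (b (d z3 z3) (d z3 z3)))) (d (a z3 (c (b (d z3 z3) (d z3 z3)) z11)) (a (a z3 (b (d z3 z3) z3)) (b (d z3 z3) (d z3 z3)))))) (d (c (a (b (d z3 z3) (d z3 z3)) (b (d (c (b (d z3 z3) (d z3 z3)) z3) (b (d z3 z3) (d z3 z3))) (d (c (a z3 (b (d z3 z3) (d z3 z3))) z3) (a (b (d z3 z3) z3) (b (d z3 z3) (d z3 z3)))))) z11) (a (b (d z3 (a z3 (b (d z3 z3) z3))) (d z3 z3)) (b (d (c (b (d z3 z3) (d z3 z3)) z11) (b (d z3 z3) (d z3 z3))) (d (c (a (b (d z3 z3) (d z3 z3)) (b (d z3 z3) (d z3 z3))) z11) (a (b (d z3 z3) (d z3 z3)) (b (d z3 z3) (d z3 z3)))))))))))) _ _ (by decide +kernel)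

theorem okA257 : CKA ⟨12288, 24576, 5120, 6144⟩ ⟨6144, 12288, 6144, 8192⟩ :=
  ckA_sound (d z11 (b (d z11 (a (b (d (c (a z3 (b (d z3 z3) (d z3 z3))) z11) (a z3 (b (d z3 z3) (d z3 z3)))) (d (c (a z3 (b (d z3 z3) (d z3 z3))) z11) (a z3 (b (d z3 z3) (d z3 z3))))) (b (d (c (a (b (d z3 z3) (d z3 z3)) (b (d (c (b (d z3 z3) (d z3 z3)) z3) (b (d z3 z3) (d z3 z3))) (d (c (a z3 (b (d z3 z3) (d z3 z3))) z3) (a (b (d z3 z3) z3) (b (d z3 z3) (d z3 z3)))))) z11) (a (b (d z3 z3) (d z3 z3)) (b (d (c (b (d z3 z3) (d z3 z3)) z11) (b (d z3 z3) (d z3 z3))) (d (c (a (b (d z3 z3) (d z3 z3)) (b (d z3 z3) (d z3 z3))) z11) (a (b (d z3 z3) (d z3 z3)) (b (d z3 z3) (d z3 z3))))))) (d (c (a (b (d z3 z3) (d z3 z3)) (b (d (c (a z3 (b (d z3 z3) (d z3 z3))) z3) (a z3 (b (d z3 z3) (d z3 z3)))) (d (c (a z3 (b (d z3 z3) (d z3 z3))) z3) (a z3 (b (d z3 z3) (d z3 z3))))))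 z11) (a (b (d z3 z3) (d z3 z3)) (b (d (c (a (b (d z3 z3) (d z3 z3)) (b (d z3 z3) (d z3 z3))) z11) (a (b (d z3 z3) (d z3 z3)) (b (d z3 z3) (d z3 z3)))) (d (c (a (b (d z3 z3) z3) (b (d z3 z3) (d z3 z3))) z11) (a (b (d z3 z3) (d z3 z3)) (b (d z3 z3) (d z3 z3)))))))))) (d z11 (a (b (d (a z3 (c (b (d z3 z3) (d z3 z3)) z11)) (a z3 (b (d z3 z3) (d z3 z3)))) (d z3 (a z3 (b (d z3 z3) z3)))) (b (d (c (a (b (d z3 z3) (d z3 z3)) (b (d (c (a z3 (b (d z3 z3) (d z3 z3))) z3) (a z3 (b (d z3 z3) (d z3 z3)))) (d (c (a z3 (b (d z3 z3) (d z3 z3))) z3) (a z3 (b (d z3 z3) (d z3 z3)))))) z11) (a (b (d z3 z3) (d z3 z3)) (b (d (c (a (b (d z3 z3) z3) (b (d z3 z3) (d z3 z3))) z11) (a (b (d z3 z3) (d z3 z3)) (b (d z3 z3) (d z3 z3)))) (d (c (a z3 (b (d z3 z3) (d z3 z3))) z11) (a (b (d z3 z3) z3) (b (d z3 z3) (d z3 z3))))))) (d (c (a (b (d z3 z3) (d z3 z3))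 (b (d (c (a z3 (b (d z3 z3) (d z3 z3))) z3) (a z3 (b (d z3 z3) (d z3 z3)))) (d (c (a z3 (b (d z3 z3) (d z3 z3))) z3) (a z3 (b (d z3 z3) (d z3 z3)))))) z11) (a (b (d z3 z3) (d z3 z3)) (b (d (c (a z3 (b (d z3 z3) (d z3 z3))) z11) (a (b (d z3 z3) z3) (b (d z3 z3) (d z3 z3)))) (d (c (a z3 (b (d z3 z3) (d z3 z3))) z11) (a z3 (b (d z3 z3) (d z3 z3)))))))))))) _ _ (by decide +kernel)

theorem okA258 : CKA ⟨12288, 24576, 6144, 7168⟩ ⟨6144, 12288, 4096, 6144⟩ :=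
  ckA_sound (d (c (a (b (d (c z3 (a (b z3 (d (a (c z3 z7) (c z3 z7)) z3)) z3)) z11) (d (c z3 (a (b (d (a (c z2 z6) (c z3 z7)) (a z2 z3)) (d (a (c z2 z6) (c z3 z7)) z2)) (b z3 (d (c z3 z7) z3)))) (c z3 (a z10 z11)))) z3) (a (b z15 (d (a z14 z15) (a (b (d z15 (c (a z14 z15) z15)) (d z14 (c (a z14 (b z15 (d z14 (c z10 z14)))) z14))) z15))) (b (d z15 (b (d z15 (c (a z15 (b (d z15 (c z11 z15)) (d z15 (c z11 z15)))) z15)) (d z15 (c (a z15 (b (d z15 (c z11 z15)) (d z15 (c z11 z15)))) z15)))) (d z15 (b (d z15 (c (a z15 (b (d z15 (c z11 z15)) (d z15 (c z11 z15)))) z15)) (d z15 (c (a z15 (b (d z15 (c z11 z15)) (d z15 (c z11 z15)))) z15))))))) (c z11 (a (b (d (a (b (d (c z11 z15) (c z11 z15)) (d (c (a (b (d z15 z11) (d (c z11 z15) (c z11 z15))) z11) z15) (c (a (b z11 (d (c z11 z15) z11)) z11) z15))) (b (d (c z11 z15) (c z11 z15)) (d (c z11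 z15) (c z11 z15)))) (a (b (d (c z11 z15) z11) (d (c z11 z15) (c z11 (a (b (d (c z11 z15) (c z11 z15)) (d (c z11 z15) (c z11 z15))) (b (d z15 z11) (d z15 z11)))))) z11)) (d (a (b (d (c (a (b (d (c z10 z14) z10) (d (c z10 z14) z10)) (b z11 (d (c z11 z15) z11))) z15) (c (a z10 z11) (a z14 z15))) (d (c (a (b (d (c z10 z14) z10) (d z14 z10)) (b (d (c z11 z15) (c z11 z15)) (d (c z10 z14) (c z10 z14)))) z14) (c (a z10 (b (d (c z11 z15) z11) z10)) z14))) (b (d (c z11 z15) (c z11 z15)) (d (c (a (b z11 (d (c z11 z15) z11)) z11) z15) (c z11 z15)))) (a (b (d (c (a z10 z11) (a z14 z15)) (c z11 (a (b (d (c z10 z14) (c z10 z14)) (d (c z10 z14) z10)) (b (d z15 z11) (d (c z11 z15) (c z11 z15)))))) (d (c z10 (a z14 (b z15 (d z14 (c (a z14 z15) z14))))) (c z10 (a (b (d z14 z10) (d z14 z10)) (b (d (c z11 z15) (c z11 z15)) (d (c z10 z14) (c z10 z14)))))))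 (b (d (c z11 z15) z11) (d (c z11 z15) (c z11 (a (b (d z15 z11) (d z15 z11)) (b (d z15 z11) (d z15 z11))))))))) (b (d (b (d (c z11 z15) (c z11 z15)) (d (c z11 z15) (c z11 z15))) z11) (d (b (d (c z11 z15) (c z11 z15)) (d (c z11 z15) (c z11 z15))) z11))))) _ _ (by decide +kernel)

theorem okA259 : CKA ⟨12288, 24576, 7168, 8192⟩ ⟨6144, 12288, 4096, 5120⟩ :=
  ckA_sound (a (c (b (d (a (c z2 (b (d (a (c z2 z6) (c z2 z6)) (a z2 (c z2 z6))) (d (a (c z2 z6) (c z2 z6)) (a z2 (c z2 z6))))) (c z3 (b (d (a (c z3 z7) (c z3 z7)) z3) (d (a (c z3 z7) (c z3 z7)) (a (c z3 (b z7 (d z7 (a z10 z11)))) z3))))) (a z10 z11)) (d (a (c z2 (b (d (a (c z2 z6) (c z2 z6)) (a z2 (c z2 z6))) (d (a (c z2 z6) (c z2 z6)) (a (c z2 z6) (c z2 z6))))) (c z2 (b (d (a (c z2 z6) (c z3 z7)) (a (c z2 (b (d z6 (a z10 (b z11 (d z7 z11)))) (d z6 z10))) (c z3 z7))) (d (a (c z2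 z6) (c z3 z7)) (a (c z2 z6) (c z3 (b (d z7 (a (b (d z7 z11) (d z7 (c z11 z15))) z11)) (d z7 (a (b (d z6 z10) (d z6 z10)) (b z11 (d z7 z11))))))))))) (a z10 (c z2 (b (d (a z10 z11) z11) z10))))) (b (d z14 (a (b (d z14 (c (a z14 (b (d z14 (c z10 z14)) (d z14 (c z10 z14)))) z14)) z14) (b z15 (d z15 (c (a (b z15 (d z15 (c (a z10 z11) z15))) z15) z15))))) (d z14 (a z14 (b (d z15 (c (a (b (d z14 (c (a z10 z11) z14)) (d z14 (c z10 z14))) z15) z15)) (d z14 (c (a z14 (b (d z15 (c (a (b z11 (d z15 z11)) z11) z15)) (d z15 (c (a z10 z11) z15)))) z14))))))) (c (b (d (c z3 (b z3 (d (a (c z3 z7) (c z3 z7)) z3))) z11) (d (c z3 (a (b (d (a (c z3 z7) (c z3 z7)) z3) (d (a (c z3 z7) (c z3 z7)) (a (c z3 z7) z3))) (b (d (c z3 z7) z3) (d (c z3 z7) z3)))) z11)) (b (d z15 (b (d z15 (c (a z15 (b (d z15 (c z11 z15)) (d z15 (c z11 z15)))) z15)) (d z15 (c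 (a z15 (b (d z15 (c z11 z15)) (d z15 (c z11 z15)))) z15)))) (d z15 (a z15 (b (d z15 (c (b (d z15 (c z11 z15)) (d z15 (c z11 z15))) z15)) (d z15 (c (b (d z15 (c z11 z15)) (d z15 (a z15 (c z11 z15)))) z15)))))))) _ _ (by decide +kernel)

theorem okA260 : CKA ⟨12288, 18432, 7168, 8192⟩ ⟨6144, 12288, 5120, 6144⟩ :=
  ckA_sound (c z10 (b (d (a (b (d (c (a (b (d (c z10 z14) z10) (d z14 z10)) (b (d (c z10 z14) (c z10 z14)) (d (c z10 z14) (c z10 z14)))) z14) (c (a z10 (b (d (c z10 (a z14 z15)) z10) (d (c z10 z14) z10))) z14)) (d (c (a (b (d z14 z10) (d z14 z10)) (b (d (c z10 z14) (c z10 z14)) (d (c z10 z14) (c z10 z14)))) z14) (c z10 z14))) (b (d (c (a (b (d (c z11 z15) z11) (d (c z11 z15) (c z11 z15))) z11) z15) (c z11 z15)) (d (c (a (b (d (c z11 z15) (c z11 z15)) (d (c z11 z15) (c z11 z15))) (b z11 (d (c z11 z15) z11))) z15) (c (a (b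 z11 (d (c z11 (a z14 z15)) z11)) z11) z15)))) (a (b (d (c z10 (a z14 (b (d z14 (c (a z14 z15) z14)) (d z14 (c (a z14 (b z15 z14)) z14))))) (c z10 (a (b (d z14 z10) z14) (b (d (c z10 z14) (c z10 z14)) (d (c z10 z14) (c z10 z14)))))) (d (c z10 z14) (c z10 (a z14 (b (d (c z10 z14) (c z10 z14)) (d z14 (c z10 z14))))))) (b (d (c z11 z15) (c z11 (a (b (d z15 z11) (d z15 z11)) (b (d z15 z11) (d z15 z11))))) (d (c z11 (a (b z15 (d z15 (c (a z14 z15) z15))) z15)) (c z11 (a (b (d (c z11 z15) (c z11 z15)) (d (c z11 z15) (c z11 z15))) (b (d z15 z11) (d z15 z11)))))))) (d (a (b (d (c (a (b (d z14 z10) (d z14 z10)) (b (d (c z10 z14) (c z10 z14)) (d (c z10 z14) (c z10 z14)))) z14) (c z10 z14)) (d (c (a (b (d z14 z10) (d z14 z10)) (b (d z14 z10) (d z14 z10))) z14) (c z10 z14))) (b (d (c (a (b (d (c z10 z14) (c z10 z14)) (d (c z10 z14) (c z10 z14)))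 (b (d (c z11 z15) (c z11 z15)) (d (c z11 z15) (c z11 z15)))) z15) (c (a (b (d (c z10 (a z14 z15)) z10) (d (c z10 z14) z10)) z11) (a z14 z15))) (d (c (a (b (d (c z10 z14) (c z10 z14)) (d (c z10 z14) (c z10 z14))) (b (d (c z11 z15) (c z11 z15)) (d (c z11 z15) (c z11 z15)))) z14) (c (a z10 (b (d (c z11 z15) z11) (d (c z11 (a z14 z15)) (c z11 (a z10 z11))))) z14)))) (a (b (d (c z10 z14) (c z10 (a z14 (b (d z14 z10) z14)))) (d (c z10 z14) (c z10 z14))) (b (d (c (a z10 z11) (a (b (d z14 (c (a z14 z15) z14)) z14) z15)) (c z11 (a (b (d (c z10 z14) (c z10 z14)) (d (c z10 z14) (c z10 z14))) (b (d z15 z11) (d (c z11 z15) (c z11 z15)))))) (d (c z10 (a z14 (b z15 (d z15 (c (a z14 z15) z15))))) (c z10 (a (b (d (c z10 z14) (c z10 z14)) (d z14 z10)) (b (d (c z11 z15) (c z11 z15)) (d (c (a z10 z11) z15) (c z11 z15))))))))))) _ _ (by decide +kernel)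

theorem okA261 : CKA ⟨18432, 24576, 7168, 8192⟩ ⟨6144, 12288, 5120, 6144⟩ :=
  ckA_sound (c z11 (b (d (b (d (c z11 z15) (c z11 z15)) (d (c z11 z15) (c z11 z15))) (b z11 (d (c z11 z15) z11))) (d (a (b (d (c (a (b z11 (d (c z11 z15) z11)) z11) z15) (c z11 z15)) (d (c (a (b (d (c z11 z15) z11) (d (c z11 z15) (c z11 z15))) z11) z15) (c z11 z15))) (b (d (c z11 z15) (c z11 z15)) (d (c z11 z15) (c z11 z15)))) (a (b (d (c z11 z15) z11) (d (c z11 z15) (c z11 (a (b (d z15 z11) (d z15 z11)) (b (d z15 z11) (d z15 z11)))))) (b (d (c z11 z15) z11) (d (c z11 z15) z11)))))) _ _ (by decide +kernel)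

theorem okA262 : CKA ⟨12288, 24576, 6144, 7168⟩ ⟨6144, 12288, 6144, 8192⟩ :=
  ckA_sound (d (c z11 (a (b (d (a (b z11 (d (c z11 (a (b z11 (d (c z11 (a z14 z15)) z11)) z11)) z11)) z11) z11) (d (a (b (d (c z11 (a z10 z11)) (c z11 (a z10 z11))) (d (c z10 (a z10 (b (d (c z11 (a (b z15 z14) z15)) z11) (d (c z10 (a z14 z15)) z10)))) z10)) z11) (a (b (d (c z11 (a z10 z11)) z11) z10) z11))) z11)) (a (b (d z11 (a (b (d z3 z3) (d z3 z3)) (b (d (c (a z3 (b (d z3 z3) z3)) z11) (a z3 (b (d z3 z3) (d z3 z3)))) (d z3 z3)))) (d z11 (a (b (d z3 z3) (d z2 (a z2 z3))) (b (d z3 z3) (d z3 z3))))) (b (d z11 (b (d (c (a (b (d z3 z3) (d z3 z3)) (b (d (c (b (d z3 z3) z3) z3) (b (d z3 z3) (d z3 z3))) (d (c (a z3 (b z3 z3)) z3) (a z3 (b (d z3 z3) (d z3 z3)))))) z11) (a (b (d z3 z3) (d z3 z3)) (b (d (c (b (d z3 z3) (d z3 z3)) z11) (b (d z3 z3) (d z3 z3)))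 (d (c (a z3 (b (d z3 z3) (d z3 z3))) z11) (a z3 (b (d z3 z3) (d z3 z3))))))) (d (c (a (b (d z3 z3) (d z3 z3)) (b (d z3 (a z3 (b (d z3 z3) (d z3 z3)))) (d z3 (a z3 (b z3 z3))))) z11) (a (b (d z3 z3) (d z3 z3)) (b (d (c (a z3 (b (d z3 z3) (d z3 z3))) z11) (a z3 (b (d z3 z3) (d z3 z3)))) (d (c (a z3 (b (d z3 z3) (d z3 z3))) z11) (a z3 (b (d z3 z3) (d z3 z3))))))))) (d z11 (b (d (c (a (b (d z3 z3) (d z3 z3)) (b (d z3 z3) (d z3 z3))) z11) (a (b (d z3 z3) (d z3 z3)) (b (d (c (a z3 (b (d z3 z3) z3)) z11) (a z3 (b (d z3 z3) (d z3 z3)))) (d (c (a z3 (b z3 z3)) z11) (a z3 (b (d z3 z3) (d z3 z3))))))) (d (a z3 (c (b (d z3 z3) (d z3 z3)) z11)) (a (b (d z3 z3) z3) (b (d z3 (a z3 (b z3 z3))) (d z3 (a z3 (b z3 z3))))))))))) _ _ (by decide +kernel)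

theorem okA263 : CKA ⟨12288, 24576, 7168, 8192⟩ ⟨6144, 12288, 6144, 8192⟩ :=
  ckA_sound (d (a (c z10 (b (d (a (b (d (c z10 (a z10 (b (d (c z10 (a z14 z15)) z10) (d (c z10 (a z14 (b z15 z14))) z10)))) z10) z10) (b z11 (d (c z11 (a (b z11 (d (c z11 (a (b z15 z14) z15)) z11)) z11)) z11))) (a z10 z11)) (d (a z10 (b (d (c z11 (a (b (d (c z10 (a z14 z15)) z10) z10) z11)) (c z11 (a z10 z11))) (d (c z10 (a z10 (b z11 (d (c z11 z15) z11)))) z10))) z10))) z11) (a (b (d (c (a (b (d z2 z2) (d z2 z2)) (b (d z3 z3) (d z3 z3))) (a z10 z11)) (a (b (d z2 z2) (d z2 z2)) (b (d z3 z3) (d z3 z3)))) (d z10 (a z2 (b (d z3 z3) (d z2 z2))))) (b (d z11 (b (d (c (a z3 (b (d z3 z3) (d z3 z3))) z11) (a (b (d z3 z3) z3) (b (d z3 z3) (d z3 z3)))) (d (c (a z3 (b (d z3 z3) (d z3 z3))) z11) (a z3 (b (d z3 z3) (d z3 z3)))))) (d z11 (a (b (d z3 z3) (d z3 z3)) (b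 (d (c (b (d z3 z3) (d z3 z3)) z11) (b (d z3 z3) (d z3 z3))) (d (c (b (d z3 z3) z3) z11) (b (d z3 z3) (d z3 z3))))))))) _ _ (by decide +kernel)

theorem okA264 : CKA ⟨12288, 24576, 4096, 6144⟩ ⟨0, 12288, 8192, 12288⟩ :=
  ckA_sound (d (b (d (b (d (a (b (d (a (b (d z1 z0) (d z3 z0)) (b (d z3 z0) (d z3 z0))) z0) (d (a (b (d z3 z0) (d z3 z0)) (b (d z3 z0) (d z3 z0))) z0)) (b (d (b (d (a (b (d z3 z0) (d z3 z0)) (b (d z3 z0) (d z3 z0))) z0) (d (a (b (d z3 z0) (d z3 z0)) (b (d z3 z0) (d z3 z0))) z0)) z0) (d (a (b (d (a z3 (b (d z3 z0) (d z3 z0))) z0) (d (a z3 (b (d z3 z0) (d z3 z0))) z0)) (b (d (b (d z3 z0) (d z3 z0)) z0) (d (b (d z3 z0) (d z3 z0)) z0))) z0))) z0) (d (a (b (d (a (b (d z3 z0) (d z3 z0)) (b (d z3 z0) (d z3 z0))) z0) (d (a (b (d z3 z0) (d z3 z0)) (b (d z3 z0) (d z3 z0))) z0)) (b (d (b (d (a (b (d z3 z0) (d z3 z0)) (b (d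 z3 z0) (d z3 z0))) z0) (d (a (a z3 (b (d z3 z0) (d z3 z0))) (b (d z3 z0) (d z3 z0))) z0)) z0) (d (a (b (d (a z3 (b (d z3 z0) (d z3 z0))) z0) (d z3 z0)) (b (d (b (d z3 z0) (d z3 z0)) z0) (d (a (b (d z3 z0) (d z3 z0)) (b (d z3 z0) (d z3 z0))) z0))) z0))) z0)) z0) (d (b (d (a (b (d (a (b (d z3 z0) (d z3 z0)) (b (d z3 z0) (d z3 z0))) z0) (d (a z3 (b (d z3 z0) (d z3 z0))) z0)) (b (d (a (b (d (a z3 (b (d z3 z0) (d z3 z0))) z0) (d z3 z0)) (b (d (b (d z3 z0) (d z3 z0)) z0) (d (a (b (d z3 z0) (d z3 z0)) (b (d z3 z0) (d z3 z0))) z0))) z0) (d (a (b (d z3 z0) (d z3 z0)) (b (d (a (b (d z3 z0) (d z3 z0)) (b (d z3 z0) (d z3 z0))) z0) (d (a (b (d z3 z0) (d z3 z0)) (b (d z3 z0) (d z3 z0))) z0))) z0))) z0) (d (a (b (d (a z3 (b (d z3 z0) (d z3 z0))) z0) (d (a z3 (b (d z3 z0) (d z3 z0))) z0)) (b (d (a (b (d z3 z0) (d z3 z0)) (b (d (a (b (d z3 z0)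 (d z3 z0)) (b (d z3 z0) (d z3 z0))) z0) (d (a (b (d z3 z0) (d z3 z0)) (b (d z3 z0) (d z3 z0))) z0))) z0) (d (a (b (d z3 z0) (d z3 z0)) (b (d (a (b (d z3 z0) (d z3 z0)) (b (d z3 z0) (d z3 z0))) z0) (d (a (b (d z3 z0) z3) (b (d z3 z0) (d z3 z0))) z0))) z0))) z0)) z0)) z0) _ _ (by decide +kernel)

theorem okA265 : CKA ⟨12288, 24576, 6144, 8192⟩ ⟨0, 12288, 8192, 12288⟩ :=
  ckA_sound (d (b (d (a (b (d (a (b (d z3 z0) (d z3 z0)) (b (d (a z3 (b (d z3 z0) (d z3 z0))) z0) (d (a z3 (b (d z3 z0) z3)) z0))) z0) (d (a (b (d z3 z0) (d (a z2 z3) z0)) (b (d z3 z0) (d z3 z0))) z0)) (b (d (b (d (a (b (d z3 z0) (d z3 z0)) (b (d (b (d z3 z0) (d z3 z0)) z0) (d (a (b (d z3 z0) z3) (b (d z3 z0) (d z3 z0))) z0))) z0) (d (a (b (d z3 z0) (d z3 z0)) (b (d (a z3 (b (d z3 z0) (d z3 z0))) z0) (d (a z3 (b (d z3 z0) (d z3 z0))) z0))) z0)) z0) (d (b (d (a (b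 (d z3 z0) (d z3 z0)) (b (d (a z3 (b (d z3 z0) (d z3 z0))) z0) (d (a z3 (b (d z3 z0) (d z3 z0))) z0))) z0) (d (a (b (d z3 z0) (d z3 z0)) (b (d (a z3 (b (d z3 z0) (d z3 z0))) z0) (d (a z3 (b (d z3 z0) z3)) z0))) z0)) z0))) z0) (d (a (b (d (a (b (d z2 z0) (d z2 z0)) (b (d z3 z0) (d z3 z0))) z0) (d (a z2 (b (d z3 z0) (d z2 z0))) z0)) (b (d (b (d (a (b (d z3 z0) (d z3 z0)) (b (d (a z3 (b z3 z3)) z0) (d z3 z0))) z0) (d (a z3 (b (d z3 z0) (d z3 z0))) z0)) z0) (d (a (b (d z3 z0) (d z3 z0)) (b (d (b (d z3 z0) (d z3 z0)) z0) (d (b (d z3 z0) (d z3 z0)) z0))) z0))) z0)) z0) _ _ (by decide +kernel)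

theorem okA266 : CKA ⟨12288, 24576, 8192, 12288⟩ ⟨0, 6144, 4096, 8192⟩ :=
  ckA_sound (b (d (c (b z2 z0) (b z2 z0)) (b (d (a (b (d z2 z2) z0) (b (d z3 (a z3 (b (d z3 z3) z3))) (d z2 (a z2 z3)))) z0) (d z0 z0))) z0) _ _ (by decide +kernel)

theorem okA267 : CKA ⟨12288, 18432, 8192, 9216⟩ ⟨6144, 12288, 4096, 5120⟩ :=
  ckA_sound (c (b (d (a (c (b z2 z0) (b (d (a (c (b (d (a (c z0 (b z0 z0)) z2) z0) (d (c z0 (b z0 z0)) z0)) (b z4 z4)) (c z2 z6)) (a (c z0 (b (d z4 (a (b (d z4 z8) (d z4 z8)) z10)) (d z4 (b (d z4 (c z8 z12)) (d z4 (c z8 z12)))))) (c z2 z6))) (d (c (b (d (a (c z0 (b z0 z0)) z2) z0) (d (c z0 (b z0 z0)) z0)) (b z4 z4)) (c (b z0 z0) (b (d z4 (a (b (d z4 (c z8 z12)) (d z4 (c z8 z12))) (b z10 (d z6 z10)))) (d z4 (b (d z4 (c z8 z12)) (d z4 (c z8 z12))))))))) (c z2 (b (d (a (c z2 z6) (c z2 z6)) (a (c z2 z6) (c z2 (b (d z6 (a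 z10 (b (d z7 (c z11 z15)) (d z6 z10)))) z6)))) (d (a (c z2 z6) (c z2 z6)) (a (c z2 z6) (c z2 z6)))))) (a (c z0 (b z10 (d (c z8 (b (d (a (b z8 z8) z10) z8) (d (b z8 z8) z8))) (c z8 (b z8 z8))))) z10)) (d (c (b z2 z0) (b (d (a (c (b (d (a (c z0 (b (d z4 z0) (d z4 z0))) z2) z0) (d (c z0 (b (d z4 z0) (d z4 z0))) z0)) (b z4 z4)) (c z2 z6)) (a (c (b z0 z0) (b (d z4 (a (b (d z4 (c z8 z12)) (d z4 (c z8 z12))) (b (d z6 z10) (d z6 z10)))) (d z4 (b (d z4 (c z8 z12)) (d z4 (c z8 z12)))))) (c z2 z6))) (d (c (b (d (c z0 (b z2 z0)) z0) (d (c z0 (b z0 z0)) z0)) (b z4 z4)) (c (b z0 z0) (b (d z4 (b (d z6 z10) (d z4 (c z8 z12)))) z4))))) (c z0 (b z10 (d (c z8 (b (d (b z10 z8) z8) (d (b z8 z0) z8))) (c z8 (b z8 z8))))))) (b (d z14 (a (b z14 (d (c (b z12 z12) (b z12 z12)) (c (b (d z12 (c (a (b z8 z8) z10) z12)) (d z12 (c (b z8 z8) z12))) z12))) (b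 (d z14 (c (a z14 (b (d z14 (c z10 z14)) z14)) z14)) z14))) (d (b z14 (d (c (b z4 z4) (b z4 z4)) (c (b z12 z12) (b z12 z12)))) (b z14 (d (c (b z12 z12) (b z12 z12)) (c (b z12 z12) (b z12 z12))))))) _ _ (by decide +kernel)

theorem okA268 : CKA ⟨18432, 24576, 8192, 9216⟩ ⟨6144, 12288, 4096, 5120⟩ :=
  ckA_sound (c (b (d (c z3 (a (b (d (a (c z3 z7) (c z3 z7)) (a (c z3 (b z7 (d z7 (a (b (d z7 z11) (d z7 (c z11 z15))) z11)))) (c z3 z7))) (d (a (c z2 z6) (c z3 z7)) (a (c z2 (b (d z6 (a (b (d z6 z10) (d z6 z10)) (b (d z7 z11) (d z7 z11)))) z6)) (c z3 z7)))) (b (d (c z3 z7) z3) (d (c z3 z7) (c z3 z7))))) (c z3 (a (b z11 (d (a z10 z11) z11)) z11))) (d (c z2 (a (b (d (a (c z2 z6) (c (b z3 z2) z7)) (a (c z2 z6) (c z3 (b z7 z6)))) (d (a (c z2 z6) (c z2 z6)) (a (c z2 z6) (c z2 z6)))) (b (d (c z3 z7) (c z3 z7)) (d (c z3 z7) (c z3 z7))))) (c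 z2 (a z10 z11)))) (b (d z15 (a (b (d z15 (c (a (b z15 (d z15 (c (a (b z11 (d z15 z11)) z11) z15))) z15) z15)) (d z15 (c (a (b (d z14 (c (a z10 z11) z14)) z14) z15) z15))) z15)) (d z14 (a (b (d z14 (c (a z14 z15) z14)) z14) z15)))) _ _ (by decide +kernel)

theorem okA269 : CKA ⟨12288, 18432, 8192, 9216⟩ ⟨6144, 12288, 5120, 6144⟩ :=
  ckA_sound (c (b z10 (d (c z8 (b z10 z8)) z8)) (b (d (a (b (d (c (a (b (d (c z8 z12) (c z8 z12)) (d (c z8 z12) (c z8 z12))) (b (d z14 z10) (d z14 z10))) z14) (c z10 z14)) (d (c (b (d (c z8 z12) (c z8 z12)) (d (c z8 z12) (c z8 z12))) z12) (c (b (d (c z8 z12) z8) (d (c z8 z12) z8)) (b z12 z12)))) (b (d (c (a (b (d (c z10 z14) (c z10 z14)) (d z14 (c z10 z14))) (b (d (c z10 z14) (c z10 z14)) (d (c z10 z14) (c z10 z14)))) z14) (c (a z10 (b (d (c z10 z14) z10) z10)) z14)) (d (c (a (b (d z14 (c z10 z14)) (d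 z14 (c z10 z14))) (b (d (c z10 z14) (c z10 z14)) (d z14 (c z10 z14)))) z14) (c z10 z14)))) (a (b (d (c z10 z14) z10) (d (c (b z8 z8) (b z12 z12)) (c z8 (b z12 z12)))) (b (d (c z10 z14) (c z10 (a z14 (b (d (c z10 z14) (c z10 z14)) (d z14 (c z10 z14)))))) (d (c z10 z14) (c z10 z14))))) (d (b (d (c (a (b (d (c z8 z12) (c z8 z12)) (d (c z8 z12) (c z8 z12))) (b (d z14 (c z10 z14)) (d z14 z10))) z14) (c z10 z14)) (d (c (b (d (c z8 z12) (c z8 z12)) (d z12 (c z8 z12))) (b z12 z12)) (c (b (d (c z8 z12) z8) (d (c z8 z12) z8)) z12))) (b (d (c z10 z14) (c z10 z14)) (d (c (b z8 z8) (b z12 z12)) (c z8 (b z12 z12))))))) _ _ (by decide +kernel)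

end Vale.Agent.Lib.P154Q5
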