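import Vale.Agent.Lib.P154Q5.CkADefs

namespace Vale.Agent.Lib.P154Q5

set_option maxRecDepth 100000
set_option exponentiation.threshold 1000

open Tr

theorem okA270 : CKA ⟨18432, 24576, 8192, 9216⟩ ⟨6144, 12288, 5120, 6144⟩ :=
  ckA_sound (c z11 (b (d (a (b (d (c (a (b (d (c z11 z15) (c z11 z15)) (d (c z11 z15) (c z11 z15))) (b (d (c z11 z15) z11) (d (c z11 z15) z11))) z15) (c (a (b z11 (d (c z11 z15) z11)) z11) z15)) (d (c (a (b (d (c z10 z14) (c z10 z14)) (d (c z10 z14) (c z10 z14))) (b (d (c z11 z15) (c z11 z15)) (d (c z11 z15) (c z11 z15)))) z15) (c (a (b (d (c z10 z14) z10) z10) z11) z15))) (b (d (c z11 z15) (c z11 z15)) (d (c (b (d (a (c z11 z15) (c z11 z15)) z11) (d (a z15 (c z11 z15)) z11)) z15) (c z11 z15)))) (a (b (d (c z11 z15) (c z11 (a (b (d z15 (c z11 z15)) (d z15 (c z11 z15))) (b (d z15 z11) z15)))) (d (c z11 z15) (c z11 (a (b (d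 (c z10 z14) (c z10 z14)) (d z14 (c z10 z14))) z15)))) (b (d (c z11 z15) z11) (d (c z11 z15) z11)))) (d (a (b (d (c (a (b (d (c z10 z14) (c z10 z14)) (d z14 (c z10 z14))) (b (d (c z11 z15) (c z11 z15)) (d (c z10 z14) (c z10 z14)))) z14) (c (a z10 (b (d (c z11 z15) z11) z10)) z14)) (d (c (a (b (d z14 (c z10 z14)) (d z14 z10)) (b (d z14 (c z10 z14)) (d z14 (c z10 z14)))) z14) (c z10 z14))) (b (d (c (b (d z15 z11) (d z15 (a (c z11 z15) z11))) z15) (c z11 z15)) (d (c (b (d z15 (a (c z11 z15) z11)) (d z15 (a (c z10 z14) z11))) z15) (c z11 z15)))) (a (b (d (c z10 z14) (c z10 (a z14 z15))) (d (c z10 z14) (c z10 z14))) (b (d (c z11 z15) (c z11 z15)) (d (c z11 z15) (c z11 z15))))))) _ _ (by decide +kernel)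

theorem okA271 : CKA ⟨12288, 24576, 9216, 10240⟩ ⟨6144, 12288, 4096, 6144⟩ :=
  ckA_sound (d (c (b (d (c z2 (b (d (a (c z2 z6) (c z2 z6)) (a (c z2 z6) (c z2 z6))) (d (a (c (b z2 z0) (b z6 z4)) (c z2 z6)) (a (c z0 (b z6 z4)) (c z2 z6))))) z10) (d (c z0 (b (d (c (b z2 z0) z4) (c z0 z4)) z0)) (c z0 (b (d (c z8 (b z10 z8)) z8) z0)))) (b z14 (d (b (d (c (b z6 z4) (b z6 z4)) (c (b z14 z12) (b z14 z12))) z0) (b (d (c (b z14 z12) (b z14 z12)) (c z12 (b z14 z12))) z0)))) (c (b z10 (d (c z8 (b z8 z0)) z8)) (b (d (b (d (c (a (b (d z14 z10) (d z14 z10)) (b (d z15 (c z11 z15)) (d z14 (c z10 z14)))) z14) (c z10 z14)) (d z14 (c z10 z14))) (b (d (c z10 z14) (c z10 (a z14 (b z15 z14)))) (d (c z10 z14) z10))) (d (b (d (c (b (d z14 z10) (d z12 (c z8 z12))) (b z14 z12)) (c (b z10 z8) z12)) z0) (b (d (c z8 z12) (c z8 z12)) z0))))) _ _ (by decide +kernel)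

theorem okA272 : CKA ⟨12288, 24576, 8192, 10240⟩ ⟨6144, 12288, 6144, 8192⟩ :=
  ckA_sound (b (d (a (c (b z10 z8) (b z10 (d (b z10 (d (c z8 (b z8 z8)) z8)) (b z10 z8)))) (c z11 (b (d (a (b z11 (d (c z11 (a z10 z11)) z11)) z11) z11) (d (a z10 z11) (a z10 z11))))) (a (b (d z10 z2) (d z8 z0)) (b (d z11 (a (b (d z3 z3) z3) (b (d z3 z3) (d z3 z3)))) (d z10 (a z2 z3))))) (d (c (b z10 z8) (b z10 (d (b (d (c z8 (b z10 z8)) z8) z0) (b z8 z0)))) (b (d z10 z2) z0))) _ _ (by decide +kernel)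

theorem okA273 : CKA ⟨12288, 24576, 10240, 12288⟩ ⟨6144, 12288, 4096, 8192⟩ :=
  ckA_sound z0 _ _ (by decide +kernel)

theorem okA274 : CKA ⟨12288, 24576, 8192, 12288⟩ ⟨0, 12288, 8192, 12288⟩ :=
  ckA_sound (b (d (b (d (a (b (d (a z0 (b (d z2 z0) z2)) z0) (d z0 z0)) (b (d (a (b (d z3 z0) z3) (b (d (b (d z3 z0) z3) z0) (d z3 z0))) z0) (d (a (b (d z2 z0) z2) (b (d z3 z0) z3)) z0))) z0) (d (b (d z2 z0) (d z0 z0)) z0)) z0) z0) _ _ (by decide +kernel)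

theorem okA275 : CKA ⟨12288, 24576, 4096, 6144⟩ ⟨12288, 24576, 4096, 8192⟩ :=
  ckA_sound (d z15 (b (d (c (b (d (a z15 (c (b (d z15 (c (b (d z15 (a z15 (c z11 z15))) (d z15 (a z15 (c z11 z15)))) z15)) (d z15 (c (a z15 (b (d z15 (c z11 z15)) (d z15 (c z11 z15)))) z15))) z15)) (a (c z11 z15) (c z11 z15))) (d (a z15 (c (b (d z15 (c (b (d z15 (a z15 (c z11 z15))) (d z15 (a z15 (c z11 z15)))) z15)) (d z15 (c (a z15 (b (d z15 (c z11 z15)) (d z15 (c z11 z15)))) z15))) z15)) (a (c z11 z15) (c z11 z15)))) z15) (c (b z11 z11) z15)) (d (c (b (d (a z15 (c (b (d z15 (c (a z15 (b (d z15 (c z11 z15)) (d z15 (c z11 z15)))) z15)) (d z15 (a z15 (c (b (d z15 (c z11 z15)) (d z15 (a z15 (c z11 z15)))) z15)))) z15)) (a (c z11 z15) (c z11 z15))) (d (a z15 (c (b (d z15 (a z15 (c (b (d z15 (c z11 z15)) (d z15 (a z15 (c z11 z15)))) z15))) (d z15 (a z15 (c (b (d z15 (a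 z15 (c z11 z15))) (d z15 (a z15 (c z11 z15)))) z15)))) z15)) (a (c z11 z15) (c z11 z15)))) z15) (c (b z11 (d (a (c z11 z15) (c z11 (b (d z15 (a z15 (c (b (d z15 (c z11 z15)) (d z15 (c z11 z15))) z15))) (d z15 (a z15 (c (b (d z15 (c z11 z15)) (d z15 (a z15 (c z11 z15)))) z15)))))) z11)) z15)))) _ _ (by decide +kernel)

theorem okA276 : CKA ⟨12288, 24576, 6144, 8192⟩ ⟨12288, 24576, 4096, 6144⟩ :=
  ckA_sound (b (d (a (b (d (c z15 (a (b z15 (d (a (b z15 (d (c z15 (a z14 z15)) (c z15 (a z14 z15)))) z15) (a (c z15 (b z15 (d (a z14 z15) (a z14 z15)))) z15))) z15)) (c z15 (a (b z15 (d (a (b z15 (d (c z15 (a z14 z15)) (c z15 (a z14 z15)))) z15) (a (c z15 (b z15 (d (a z14 z15) (a z14 z15)))) z15))) z15))) (d (c (a z14 z15) (a z14 z15)) (c (a z14 z15) (a z14 z15)))) z15) (a (b (d (c z15 (a (b z15 (d (a (c z15 (b z15 (d (a z14 z15) (a z14 z15)))) z15) (c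 z15 (a (b z15 (d (a z14 z15) (c z15 (a z14 z15)))) z15)))) z15)) (c z15 (a (b z15 (d (c z15 (a (b z15 (d (a z14 z15) (c z15 (a z14 z15)))) z15)) (c z15 (a (b z15 (d (c z15 (a z14 z15)) (c z15 (a z14 z15)))) z15)))) z15))) (d (c (a z14 z15) (a z14 z15)) (c (a z14 z15) (a z14 z15)))) z15)) (d (a (b z14 (d z14 z14)) z15) (a (b (d z14 (c (a z14 z15) (a z14 (b z15 (d (c z15 (a (b z15 (d (a z14 z15) (a z14 z15))) z15)) (c z15 (a (b z15 (d (a z14 z15) (c z15 (a z14 z15)))) z15))))))) (d z14 z14)) z15))) _ _ (by decide +kernel)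

theorem okA277 : CKA ⟨12288, 24576, 6144, 7168⟩ ⟨12288, 24576, 6144, 7168⟩ :=
  ckA_sound (a (c (b (d (a (c (b z15 (d z15 (a (c (b (d z15 (a (c z11 z15) z15)) (d (a z14 z15) (a (c z10 z14) z15))) z15) z15))) z15) z15) (a (c (b (d (a (c z11 z15) (c z11 z15)) z11) (d (a (c (b z11 (d (a z10 z11) z11)) z15) (c z11 z15)) (a (c z11 (b (d z15 z11) (d (a z14 z15) (a z10 z11)))) z11))) z15) (c z11 z15))) (d (a (c (b (d (a z14 z15) (a (c (b (d z14 (a z14 (c z11 z15))) z14) z14) z15)) (d z14 (a z14 (c (b (d z15 (c z11 z15)) (d z14 (c z10 z14))) z15)))) z14) z15) (a (c (b (d (a (c z10 z14) (c z11 z15)) (a (c z10 (b (d (a z14 z15) (a z10 (c z11 z15))) (d z14 z10))) (c z11 (b z15 (d z15 z11))))) (d (a (c z10 z14) (c (b (d (c z11 z15) z11) (d (c z10 (a z14 z15)) z10)) (b z15 z14))) (a z10 (c z11 (b (d z15 (a z10 z11)) (d (a z14 z15) (a z10 z11))))))) (b (d (a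 z14 z15) (a z14 z15)) z14)) (c (b z11 (d (c z11 z15) z11)) z15)))) (b (d (a (b z15 (d (c z15 (a (b z15 (d (a z14 z15) (a z14 z15))) z15)) (c z15 (a (b z15 (d (a z14 z15) (c z15 (a z14 z15)))) z15)))) z15) (a (b z15 (d (c z15 (a (b z15 (d (c z15 (a z14 z15)) (c z15 (a z14 z15)))) z15)) (c z15 (a (b z15 (d (c z15 (a z14 z15)) (c z15 (a z14 z15)))) z15)))) z15)) (d (a z14 z15) (a z14 z15)))) (c (b (d (c (b (d z15 (a z15 (c (b (d z15 (c z11 z15)) (d z15 (c z11 z15))) z15))) (d z15 (a z15 (c (b (d z15 (c z11 z15)) (d z15 (a z15 (c z11 z15)))) z15)))) z15) (c z11 z15)) (d (c (b (d z15 (a z15 (c (b (d z15 (a z15 (c z11 z15))) (d z15 (a z15 (c z11 z15)))) z15))) (d z15 (a z15 (c (b (d z15 (a z15 (c z11 z15))) (d z15 (a z15 (c z11 z15)))) z15)))) z15) (c z11 z15))) z15)) _ _ (by decide +kernel)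

theorem okA278 : CKA ⟨12288, 24576, 6144, 7168⟩ ⟨12288, 24576, 7168, 8192⟩ :=
  ckA_sound (c (a (b (d (c (a (b z11 (d (c z11 (a (b (d (c z11 z15) z11) (d (c (a z10 z11) z15) (c z11 (a z14 z15)))) z11)) z11)) z11) (a (b z15 (d z15 (c (a (b z15 (d z15 (c (a z10 z11) z15))) z15) z15))) z15)) (c z11 (a (b (d (c z11 z15) z11) (d (c (a (b z11 (d (c z11 z15) z11)) z11) z15) (c z11 z15))) z11))) (d (c (a (b (d (c (a z10 z11) (a (b (d (c z10 z14) z10) z10) z11)) (c z11 (a z10 z11))) (d (c z10 (a z10 (b (d (c z11 z15) z11) (d (c z10 z14) (c z10 (a z14 z15)))))) (c z10 (a z10 z11)))) z11) (a (b (d (c (a z14 z15) (a z14 z15)) (c (a (b (d z14 (c z10 z14)) z14) z15) (a z14 z15))) (d z14 (c (a z14 (b z15 (d z14 (c z10 z14)))) z14))) z15)) (c (a (b (d (c z11 (a z10 z11)) z11) z10) z11) (a (b (d (c (a (b (d (c z10 z14) z10) z10) z11) (a z14 z15)) (c (a z10 z11)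 (a (b (d z14 (c z10 z14)) z14) z15))) (d (c (a z10 (b z11 (d (c z10 z14) z10))) z14) (c z10 (a z14 z15)))) (b z11 (d z15 z11)))))) (b (d (c z11 (b (d z15 (c (a z15 (b (d z15 (c z11 z15)) (d z15 (c z11 z15)))) z15)) (d z15 (a z15 (c (b (d z15 (c z11 z15)) (d z15 (c z11 z15))) z15))))) z11) (d (c z11 (b (d z15 (a z15 (c (b z15 z15) z15))) (d z15 (a z15 (c (b z15 z15) z15))))) (c z11 (b z11 (d (a (c z11 z15) (c z11 z15)) z11)))))) (a (b (d (a (b z15 (d (c z15 (a (b z15 (d (a z14 z15) (c z15 (a z14 z15)))) z15)) (c z15 (a (b z15 (d (c z15 (a z14 z15)) (c z15 (a z14 z15)))) z15)))) z15) (a (c z15 (b z15 (d (a (b z15 (d (c z15 (a z14 z15)) (c z15 (a z14 z15)))) z15) (a (b z15 (d z15 z15)) z15)))) z15)) (d (a (b (d (c (a z14 z15) (a z14 z15)) (c (a z14 z15) (a z14 z15))) z14) z15) (a (c (b (d (a z14 z15) (a z14 z15)) z14) (b (d (a z14 z15) (a z14 z15))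 z14)) z15))) z15)) _ _ (by decide +kernel)

theorem okA279 : CKA ⟨12288, 24576, 7168, 8192⟩ ⟨12288, 24576, 6144, 7168⟩ :=
  ckA_sound (a (c (b (d (a (c (b (d z14 (a z14 (c (b (d (a z14 z15) (a (c z10 z14) z15)) (d z14 (a z14 (c z11 z15)))) z14))) z14) z14) (c (b z15 (d z15 (a (c (b z15 (d z15 (a (c z10 z14) z15))) z15) z15))) z15)) (a (c (b (d (a (c z10 z14) (c (b (d (a z10 z11) z10) z10) z14)) (a z10 (c z10 (b (d (a z14 z15) (a z10 z11)) (d z14 (a z10 (c z11 z15))))))) (d (a z14 (c z10 z14)) (a z10 (c z10 z14)))) z14) (c (b (d (a (c z11 z15) (c z11 z15)) z11) (d (a (c (b z11 (d (a z10 z11) z11)) z15) (c z11 z15)) (a (c z11 (b z15 (d z15 (a z10 z11)))) z11))) z15))) (d (a z14 (c (b (d (a z14 z15) (a (c (b (d z14 (a z14 z15)) z14) z14) z15)) (d z14 (a z14 z15))) z14)) (a (c (b (d (a z14 (c z10 z14)) z10) (d z14 z10)) z14) (c (b (d (a (c (b (d (a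 z10 z11) z10) z10) z14) (c z11 z15)) (a (c z10 (b (d z14 (a z10 z11)) z14)) z11)) (d (a (c z10 z14) (c (b z11 (d (a z10 z11) z11)) z15)) (a z10 (c z11 z15)))) (b z15 z14))))) (b (d (a z14 (b z15 (d (a (c z15 (b z15 (d (a z14 z15) (a z14 z15)))) z15) (c z15 (a (b z15 (d (a z14 z15) (a z14 z15))) z15))))) (a z14 (b z15 (d (c z15 (a (b z15 (d z15 z15)) z15)) (c z15 (a (b z15 (d z15 z15)) z15)))))) (d z14 (a z14 (b (d (c (a z14 z15) (a z14 z15)) (c (a z14 z15) (a z14 z15))) z14))))) (c (b (d (c (b (d z15 (a z15 (c (b (d z15 (c z11 z15)) (d z15 (a z15 (c z11 z15)))) z15))) (d z15 (a z15 (c (b (d z15 (a z15 (c z11 z15))) (d z15 (a z15 (c z11 z15)))) z15)))) z15) (c (b z11 z11) z15)) (d (c (a z15 (b (d z15 (c (b (d z15 (a z15 (c z11 z15))) (d z15 (a z15 (c z11 z15)))) z15)) (d z15 (c (b z15 z15) z15)))) z15) (c (a (b (d (c z11 z15) z11) (d (c z11 z15)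 z11)) (b z11 z11)) z15))) z15)) _ _ (by decide +kernel)

theorem okA280 : CKA ⟨12288, 24576, 7168, 8192⟩ ⟨12288, 24576, 7168, 8192⟩ :=
  ckA_sound (a (c (b (d (a (c (b (d (a z10 (c z10 (b (d (a z10 z11) (a z10 z11)) (d (a z10 (c z11 z15)) z10)))) z10) z10) (b (d z14 (a z14 (c (b (d z14 (a z14 z15)) z14) z14))) z14)) (c (b z11 (d (c z11 (a (b z11 (d (c z11 z15) z11)) z11)) z11)) z15)) (a (c z10 (b (d (a z14 (c (b (d (a z10 z11) (a z10 z11)) z10) z14)) (a z10 (c z10 (b (d z14 (a z14 z15)) z14)))) (d z14 z10))) (c z11 (b (d z15 z11) (d z15 (a (c z11 z15) z11)))))) (d (a (c z10 z14) (c (b (d (c z11 (a (b (d (c z10 z14) z10) (d (c z10 z14) z10)) z11)) z11) (d (c z10 (a z10 (b z11 (d (c z11 z15) z11)))) z10)) (b z15 (d z14 (a z14 z15))))) (a (c z10 (b (d z14 z10) z10)) (c (b z11 z10) (b (d (a (c (b (d (a z10 z11) z10) z10) z14) z15) (a (c z10 z14) z11))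 (d (a z14 z15) (a z10 (c z11 z15)))))))) (b (d (a z14 (b z15 (d (c z15 (a (b z15 (d z15 z15)) z15)) (c z15 (a (b z15 (d z15 z15)) z15))))) (a z14 (c z15 (b z15 (d z15 z15))))) (d (a z14 (b (d (c (a z14 z15) (a z14 z15)) (c (a z14 z15) (a z14 z15))) (d z14 z14))) (a z14 (c (b (d (a z14 z15) z15) z14) (b (d (a z14 z15) (a z14 z15)) (d z14 z14))))))) (c (b (d (c z11 (b (d z15 (a z15 (c (b z15 z15) z15))) (d z15 (a z15 (c (b z15 z15) z15))))) (c z11 (b (d (a (c z11 z15) (c z11 z15)) z11) (d (a (c z11 z15) (c z11 z15)) z11)))) (d (c z11 (a z15 (b z15 z15))) (c z11 (a (b z11 (d z15 z11)) (b (d (c z11 z15) z11) (d (c z11 z15) z11)))))) z15)) _ _ (by decide +kernel)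

theorem okA281 : CKA ⟨12288, 24576, 4096, 4608⟩ ⟨12288, 18432, 8192, 8704⟩ :=
  ckA_sound (c (a (b (d z11 (a (b (d z1 z1) (d z3 z3)) (b (d z3 (a z3 (b (d z3 z3) (d z3 z3)))) (d z3 z3)))) (d z11 (a (b (d z3 z3) (d z3 z3)) (b (d z3 z3) (d z3 z3))))) (b (d z11 (b (d (a (c (b (d z3 z3) (d z3 z3)) z11) (c (b (d (a z3 (c (b (d z3 z3) (d z3 z3)) z3)) (a z3 (b (d z3 z3) (d z3 z3)))) (d (a z3 (c (b (d z3 z3) (d z3 z3)) z3)) (a z3 (b (d z3 z3) (d z3 z3))))) z11)) (a (b (d z3 z3) (d z3 z3)) (b (d (a z3 (c (b (d z3 z3) (d z3 z3)) z3)) (a (b (d z3 z3) (d z3 z3)) (b (d z3 z3) (d z3 z3)))) (d (a z3 (c (b (d z3 z3) (d z3 z3)) z3)) (a (b (d z3 z3) z3) (b (d z3 z3) (d z3 z3))))))) (d (a (c (b (d z3 z3) (d z3 z3)) z11) (c (b (d (a z3 (c (b (d z3 z3) (d z3 z3)) z3)) (a z3 (b (d z3 z3) (d z3 z3)))) (d (a z3 (c (b (d z3 z3) (d z3 z3)) z3)) (a z3 (b (d z3 z3) (d z3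 z3))))) z11)) (a (b (d z3 z3) (d z3 z3)) (b (d (a z3 (c (b (d z3 z3) (d z3 z3)) z3)) (a (b (d z3 z3) z3) (b (d z3 z3) (d z3 z3)))) (d (a z3 (c (b (d z3 z3) (d z3 z3)) z3)) (a z3 (b (d z3 z3) (d z3 z3))))))))) (d z11 (a (b (d (c (a (b (d z3 z3) (d z3 z3)) (b (d z3 z3) (d z3 z3))) z11) (a (b (d z3 z3) (d z3 z3)) (b (d z3 z3) (d z3 z3)))) (d (c (a z3 (b (d z3 z3) (d z3 z3))) z11) (a (b (d z3 z3) (d z3 z3)) (b (d z3 z3) (d z3 z3))))) (b (d (c (b (d (a z3 (c (b (d z3 z3) (d z3 z3)) z3)) (a z3 (b (d z3 z3) (d z3 z3)))) (d (a z3 (c (b (d z3 z3) (d z3 z3)) z3)) (a z3 (b (d z3 z3) (d z3 z3))))) z11) (b (d (a z3 (c (b (d z3 z3) (d z3 z3)) z3)) (a z3 (b (d z3 z3) (d z3 z3)))) (d (a z3 (c (b (d z3 z3) (d z3 z3)) z3)) (a z3 (b (d z3 z3) (d z3 z3)))))) (d (c (b (d (a z3 (c (b (d z3 z3) (d z3 z3)) z3)) (a z3 (b (d z3 z3) (d z3 z3)))) (d (a z3 (c (b (d z3 z3)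 (d z3 z3)) z3)) (a z3 (b (d z3 z3) (d z3 z3))))) z11) (b (d (a z3 (c (b (d z3 z3) (d z3 z3)) z3)) (a z3 (b (d z3 z3) (d z3 z3)))) (d (a z3 (c (b (d z3 z3) (d z3 z3)) z3)) (a z3 (b (d z3 z3) (d z3 z3))))))))))) z11) _ _ (by decide +kernel)

theorem okA282 : CKA ⟨12288, 14693, 4096, 4608⟩ ⟨12288, 18432, 8704, 9216⟩ :=
  ckA_sound (b (d z11 (a (b (d z1 z1) (d z3 z3)) (b (d (a z3 (b (d z11 z3) (d z11 z3))) (a (b (d z1 z0) z3) (b (d z3 z0) (d z3 z0)))) (d (a z3 (b (d z11 z3) (d z11 z3))) (a z3 (b (d z3 z0) (d z3 z0))))))) (d z11 (a (b (d z3 z3) (d z3 z3)) (b (d (a z3 (b (d z11 z3) (d z11 z3))) (a z3 (b (d z3 z0) (d z3 z0)))) (d z3 (a z3 (b (d z3 z0) z3))))))) _ _ (by decide +kernel)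

theorem okA283 : CKA ⟨14693, 24576, 4096, 4352⟩ ⟨12288, 18432, 8704, 9216⟩ :=
  ckA_sound (d (c (b (d (a (c (b (d z3 z3) (d z3 z3)) z11) (c (b (d (a (c (b (d z3 z3) (d z3 z3)) z3) (c (b (d z3 z3) (d z3 z3)) z3)) (a (b (d z3 z3) (d z3 z3)) (b (d z3 z3) (d z3 z3)))) (d (a (c (b (d z3 z3) (d z3 z3)) z3) (c (b (d z3 z3) (d z3 z3)) z3)) (a (b (d z3 z3) (d z3 z3)) (b (d z3 z3) (d z3 z3))))) z11)) (a (b (d z3 z3) (d z3 z3)) (b (d (a (b (d z3 z3) (d z3 z3)) (b (d z3 z3) (d z3 z3))) (a (b (d z3 z0) (d z3 z0)) (b (d z3 z0) (d z3 z0)))) (d (a (b (d z3 z3) (d z3 z3)) (b (d z3 z3) (d z3 z3))) (a (b (d z3 z0) (d z3 z0)) (b (d z3 z0) (d z3 z0))))))) (d (a (c (b (d z3 z3) (d z3 z3)) z11) (c (b (d (a (c (b (d z3 z3) (d z3 z3)) z3) (c (b (d z3 z3) (d z3 z3)) z3)) (a (b (d z3 z3) (d z3 z3)) (b (d z3 z3) (d z3 z3)))) (d (a (c (b (d z3 z3) z3) z3) (c (b (d z3 z3)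 (d z3 z3)) z3)) (a (b (d z3 z3) (d z3 z3)) (b (d z3 z3) (d z3 z3))))) z11)) (a (b (d z3 z3) (d z3 z3)) (b (d (a (b (d z3 z3) (d z3 z3)) (b (d z3 z3) (d z3 z3))) (a (b (d z3 z0) (d z3 z0)) (b (d z3 z0) (d z3 z0)))) (d (a (b (d z3 z3) (d z3 z3)) (b (d z3 z3) (d z3 z3))) (a (b (d z3 z0) (d z3 z0)) (b (d z3 z0) (d z3 z0)))))))) z11) (b (d (a (b (d z11 z3) (d z11 z3)) (b (d z11 (a (b (d z3 z3) (d z3 z3)) (b (d z3 z3) (d z3 z3)))) (d z11 (a (b (d z3 z3) (d z3 z3)) (b (d z3 z3) (d z3 z3)))))) (a (b (d z3 z0) (d z3 z0)) (b (d (a (b (d z3 z0) (d z3 z0)) (b (d z3 z0) (d z3 z0))) z0) (d (a (b (d z3 z0) (d z3 z0)) (b (d z3 z0) (d z3 z0))) z0)))) (d (a (b (d z11 z3) (d z11 z3)) (b (d z11 (a (b (d z3 z3) (d z3 z3)) (b (d z3 z3) (d z3 z3)))) (d z11 (a (b (d z3 z3) (d z3 z3)) (b (d z3 z3) (d z3 z3)))))) (a (b (d z3 z0) (d z3 z0)) (b (d (a (b (d z3 z0) (d z3 z0))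 (b (d z3 z0) (d z3 z0))) z0) (d (a (b (d z3 z0) (d z3 z0)) (b (d z3 z0) (d z3 z0))) z0)))))) _ _ (by decide +kernel)

theorem okA284 : CKA ⟨14693, 24576, 4352, 4608⟩ ⟨12288, 18432, 8704, 9216⟩ :=
  ckA_sound (d (c (a (b (d (c (a (b (d z3 z3) (d z3 z3)) (b (d z3 z3) (d z3 z3))) z11) (a (b (d z3 z3) (d z3 z3)) (b (d z3 z3) (d z3 z3)))) (d (c (a (b (d z3 z3) (d z3 z3)) (b (d z3 z3) (d z3 z3))) z11) (a (b (d z3 z3) (d z3 z3)) (b (d z3 z3) (d z3 z3))))) (b (d (c (b (d (a (c (b (d z3 z3) z3) z3) (c (b (d z3 z3) (d z3 z3)) z3)) (a (b (d z3 z3) (d z3 z3)) (b (d z3 z3) (d z3 z3)))) (d (a z3 (c (b (d z3 z3) (d z3 z3)) z3)) (a (b (d z3 z3) z3) (b (d z3 z3) (d z3 z3))))) z11) (b (d (a (b (d z3 z3) (d z3 z3)) (b (d z3 z3) (d z3 z3))) (a (b (d z3 z0) (d z3 z0)) (b (d z3 z0) (d z3 z0)))) (d (a (b (d z3 z3) (d z3 z3)) (b (d z3 z3) (d z3 z3))) (a (b (d z3 z0) (d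 z3 z0)) (b (d z3 z0) (d z3 z0)))))) (d (c (b (d (a z3 (c (b (d z3 z3) (d z3 z3)) z3)) (a z3 (b (d z3 z3) (d z3 z3)))) (d (a z3 (c (b (d z3 z3) (d z3 z3)) z3)) (a z3 (b (d z3 z3) (d z3 z3))))) z11) (b (d (a (b (d z3 z3) z3) (b (d z3 z3) (d z3 z3))) (a (b (d z3 z0) (d z3 z0)) (b (d z3 z0) (d z3 z0)))) (d (a z3 (b (d z3 z3) (d z3 z3))) (a z3 (b (d z3 z0) (d z3 z0)))))))) z11) (a (b (d (a (b (d z11 z3) (d z11 z3)) (b (d z11 z3) (d z11 z3))) (a (b (d z3 z0) (d z3 z0)) (b (d z3 z0) (d z3 z0)))) (d (a (b (d z11 z3) (d z11 z3)) (b (d z11 z3) (d z11 z3))) (a (b (d z3 z0) (d z3 z0)) (b (d z3 z0) (d z3 z0))))) (b (d (b (d z11 (a (b (d z3 z3) (d z3 z3)) (b (d z3 z3) (d z3 z3)))) (d z11 (a (b (d z3 z3) (d z3 z3)) (b (d z3 z3) (d z3 z3))))) (b (d (a (b (d z3 z0) (d z3 z0)) (b (d z3 z0) (d z3 z0))) z0) (d (a (b (d z3 z0) (d z3 z0)) (b (d z3 z0) (d z3 z0))) z0)))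 (d (b (d z11 (a (b (d z3 z3) (d z3 z3)) (b (d z3 z3) (d z3 z3)))) (d z11 (a (b (d z3 z3) (d z3 z3)) (b (d z3 z3) (d z3 z3))))) (b (d (a (b (d z3 z0) (d z3 z0)) (b (d z3 z0) (d z3 z0))) z0) (d (a (b (d z3 z0) (d z3 z0)) (b (d z3 z0) (d z3 z0))) z0)))))) _ _ (by decide +kernel)

end Vale.Agent.Lib.P154Q5
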