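import Vale.Agent.Lib.P154Q5.CkADefs

namespace Vale.Agent.Lib.P154Q5

set_option maxRecDepth 100000
set_option exponentiation.threshold 1000

open Tr

theorem okA285 : CKA ⟨12288, 24576, 4608, 5120⟩ ⟨12288, 18432, 8192, 8704⟩ :=
  ckA_sound (c (a (b (d z11 (a (b (d z3 z3) (d z3 z3)) (b (d z3 z3) (d z3 z3)))) (d z11 (a (b (d z3 z3) (d z3 z3)) (b (d z3 z3) (d z3 z3))))) (b (d z11 (b (d (a (c (b (d z3 z3) (d z3 z3)) z11) (c (b (d (a z3 (c (b (d z3 z3) (d z3 z3)) z3)) (a z3 (b (d z3 z3) (d z3 z3)))) (d (a z3 (c (b (d z3 z3) (d z3 z3)) z3)) (a z3 (b (d z3 z3) (d z3 z3))))) z11)) (a (b (d z3 z3) (d z3 z3)) (b (d (a z3 (c (b (d z3 z3) (d z3 z3)) z3)) (a z3 (b (d z3 z3) (d z3 z3)))) (d (a z3 (c (b (d z3 z3) (d z3 z3)) z3)) (a z3 (b (d z3 z3) (d z3 z3))))))) (d (a (c (a z3 (b (d z3 z3) (d z3 z3))) z11) (c (b (d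 (a z3 (c (b (d z3 z3) (d z3 z3)) z3)) (a z3 (b (d z3 z3) (d z3 z3)))) (d (a z3 (c (b (d z3 z3) (d z3 z3)) z3)) (a z3 (b (d z3 z3) (d z3 z3))))) z11)) (a (a (b (d z3 z3) z3) (b (d z3 z3) (d z3 z3))) (b (d (a z3 (c (b (d z3 z3) (d z3 z3)) z3)) (a z3 (b (d z3 z3) (d z3 z3)))) (d (a z3 (c (b (d z3 z3) (d z3 z3)) z3)) (a z3 (b (d z3 z3) (d z3 z3))))))))) (d z11 (a (b (d (c (a z3 (b (d z3 z3) (d z3 z3))) z11) (a z3 (b (d z3 z3) (d z3 z3)))) (d (c (a z3 (b (d z3 z3) (d z3 z3))) z11) (a z3 (b (d z3 z3) (d z3 z3))))) (b (d (c (b (d (a z3 (c (b (d z3 z3) (d z3 z3)) z3)) (a z3 (b (d z3 z3) (d z3 z3)))) (d (a z3 (c (b (d z3 z3) (d z3 z3)) z3)) (a z3 (b (d z3 z3) (d z3 z3))))) z11) (b (d (a z3 (c (b (d z3 z3) (d z3 z3)) z3)) (a z3 (b (d z3 z3) (d z3 z3)))) (d (a z3 (c (b (d z3 z3) (d z3 z3)) z3)) (a z3 (b (d z3 z3)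 (d z3 z3)))))) (d (c (a (b (d z3 z3) (d z3 z3)) (b (d (c (b (d z3 z3) (d z3 z3)) z3) (b (d z3 z3) (d z3 z3))) (d (c (a z3 (b (d z3 z3) (d z3 z3))) z3) (a z3 (b (d z3 z3) (d z3 z3)))))) z11) (a (b (d z3 z3) (d z3 z3)) (b (d (c (b (d z3 z3) (d z3 z3)) z3) (b (d z3 z3) (d z3 z3))) (d (c (a z3 (b (d z3 z3) (d z3 z3))) z3) (a z3 (b (d z3 z3) (d z3 z3)))))))))))) z11) _ _ (by decide +kernel)

theorem okA286 : CKA ⟨12288, 15081, 4608, 5120⟩ ⟨12288, 18432, 8704, 9216⟩ :=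
  ckA_sound (b (d z11 (a (b (d z3 z3) (d z3 z3)) (b (d (a z3 (b (d z11 z3) z3)) (a z3 (b (d z3 z0) (d z3 z0)))) (d z3 z3)))) (d z11 (a (b (d z3 z3) (d z3 z3)) (b (d z3 z3) (d z3 z3))))) _ _ (by decide +kernel)

theorem okA287 : CKA ⟨15081, 24576, 4608, 4864⟩ ⟨12288, 18432, 8704, 9216⟩ :=
  ckA_sound (d (c (b (d (a (c (b (d z3 z3) (d z3 z3)) z11) (c (b (d (a z3 (c (b (d z3 z3) (d z3 z3)) z3)) (a z3 (b (d z3 z3) (d z3 z3)))) (d (a z3 (c (b (d z3 z3) (d z3 z3)) z3)) (a z3 (b (d z3 z3) (d z3 z3))))) z11)) (a (b (d z3 z3) (d z3 z3)) (b (d (a (b (d z3 z3) z3) (b (d z3 z3) (d z3 z3))) (a (b (d z3 z0) (d z3 z0)) (b (d z3 z0) (d z3 z0)))) (d (a z3 (b (d z3 z3) (d z3 z3))) (a (b (d z3 z0) z3) (b (d z3 z0) (d z3 z0))))))) (d (a (c (a (b (d z3 z3) (d z3 z3)) (b (d z3 z3) (d z3 z3))) z11) (c (b (d (a z3 (c (b (d z3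 z3) (d z3 z3)) z3)) (a z3 (b (d z3 z3) (d z3 z3)))) (d (a z3 (c (b (d z3 z3) (d z3 z3)) z3)) (a z3 (b (d z3 z3) (d z3 z3))))) z11)) (a (a (b (d z3 z3) (d z3 z3)) (b (d z3 z3) (d z3 z3))) (b (d (a z3 (b (d z3 z3) (d z3 z3))) (a (b (d z3 z0) z3) (b (d z3 z0) (d z3 z0)))) (d (a z3 (b (d z3 z3) (d z3 z3))) (a z3 (b (d z3 z0) (d z3 z0)))))))) z11) (b (d (a (b (d z11 z3) (d z11 z3)) (b (d z11 (a (b (d z3 z3) (d z3 z3)) (b (d z3 z3) (d z3 z3)))) (d z11 (a (b (d z3 z3) (d z3 z3)) (b (d z3 z3) (d z3 z3)))))) (a (b (d z3 z0) (d z3 z0)) (b (d (a (b (d z3 z0) (d z3 z0)) (b (d z3 z0) (d z3 z0))) z0) (d (a (b (d z3 z0) (d z3 z0)) (b (d z3 z0) (d z3 z0))) z0)))) (d (a (a (b (d z11 z3) (d z11 z3)) (b (d z11 z3) (d z11 z3))) (b (d z11 (a (b (d z3 z3) (d z3 z3)) (b (d z3 z3) (d z3 z3)))) (d z11 (a (b (d z3 z3) z3) (b (d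 z3 z3) (d z3 z3)))))) (a (a (b (d z3 z0) (d z3 z0)) (b (d z3 z0) (d z3 z0))) (b (d (a (b (d z3 z0) (d z3 z0)) (b (d z3 z0) (d z3 z0))) z0) (d (a (b (d z3 z0) z3) (b (d z3 z0) (d z3 z0))) z0)))))) _ _ (by decide +kernel)

theorem okA288 : CKA ⟨15081, 24576, 4864, 5120⟩ ⟨12288, 18432, 8704, 9216⟩ :=
  ckA_sound (d (c (a (b (d (c (a (b (d z3 z3) z3) (b (d z3 z3) (d z3 z3))) z11) (a (b (d z3 z3) (d z3 z3)) (b (d z3 z3) (d z3 z3)))) (d (c (a z3 (b (d z3 z3) (d z3 z3))) z11) (a z3 (b (d z3 z3) (d z3 z3))))) (b (d (c (b (d (a z3 (c (b (d z3 z3) (d z3 z3)) z3)) (a z3 (b (d z3 z3) (d z3 z3)))) (d (a z3 (c (b (d z3 z3) (d z3 z3)) z3)) (a z3 (b (d z3 z3) (d z3 z3))))) z11) (b (d (a z3 (b (d z3 z3) (d z3 z3))) (a z3 (b (d z3 z0) (d z3 z0)))) (d (a z3 (b (d z3 z3) (d z3 z3))) (a z3 (b (d z3 z0) (d z3 z0)))))) (d (c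 (a (b (d z3 z3) (d z3 z3)) (b (d (c (b (d z3 z3) (d z3 z3)) z3) (b (d z3 z3) (d z3 z3))) (d (c (a z3 (b (d z3 z3) (d z3 z3))) z3) (a (b (d z3 z3) z3) (b (d z3 z3) (d z3 z3)))))) z11) (a (b (d z3 z3) (d z3 z3)) (b (d (b (d z3 z3) (d z3 z3)) (b (d z3 z0) (d z3 z0))) (d (a (b (d z3 z3) (d z3 z3)) (b (d z3 z3) (d z3 z3))) (a (b (d z3 z0) (d z3 z0)) (b (d z3 z0) (d z3 z0))))))))) z11) (a (b (d (a (b (d z11 z3) (d z11 z3)) (b (d z11 z3) (d z11 z3))) (a (b (d z3 z0) (d z3 z0)) (b (d z3 z0) (d z3 z0)))) (d (a (b (d z11 z3) z3) (b (d z11 z3) (d z11 z3))) (a (b (d z3 z0) z3) (b (d z3 z0) (d z3 z0))))) (b (d (b (d z11 (a (b (d z3 z3) z3) (b (d z3 z3) (d z3 z3)))) (d z11 (a z3 (b (d z3 z3) (d z3 z3))))) (b (d (a (b (d z3 z0) (d z3 z0)) (b (d z3 z0) (d z3 z0))) z0) (d (a z3 (b (d z3 z0) (d z3 z0))) z0))) (d (a (b (d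 z11 z3) (d z11 z3)) (b (d z11 (b (d z3 z3) (d z3 z3))) (d z11 (a (b (d z3 z3) (d z3 z3)) (b (d z3 z3) (d z3 z3)))))) (a (b (d z3 z0) (d z3 z0)) (b (d (b (d z3 z0) (d z3 z0)) z0) (d (a (b (d z3 z0) (d z3 z0)) (b (d z3 z0) (d z3 z0))) z0))))))) _ _ (by decide +kernel)

theorem okA289 : CKA ⟨12288, 24576, 4096, 5120⟩ ⟨18432, 24576, 8192, 9216⟩ :=
  ckA_sound (b (d (a (c (b (d z15 (a z15 (c z11 z15))) (d z15 (a z15 (c z11 z15)))) z15) (c (b (d z15 (c z11 z15)) (d z15 (c z11 z15))) z15)) (a z11 (c (b z11 z11) (b (d z15 (b (d z15 (c z11 z15)) (d z15 (c z11 z15)))) (d z15 (a z15 (b (d z15 (c z11 z15)) (d z15 (c z11 z15))))))))) (d (a (c (b (d z15 (a z15 (c z11 z15))) z15) z15) (c (b (d z15 (c z11 z15)) (d z15 (a (c z11 z15) (c z11 z15)))) z15)) (a z11 (c (b z11 z11) (b (d z15 (b (d z15 (c z11 z15)) (d z15 (a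 z15 (c z11 z15))))) (d z15 (a z15 (b (d z15 (c z11 z15)) (d z15 (c z11 z15)))))))))) _ _ (by decide +kernel)

theorem okA290 : CKA ⟨12288, 14693, 4096, 4608⟩ ⟨12288, 24576, 9216, 9728⟩ :=
  ckA_sound (b (d z11 z11) z11) _ _ (by decide +kernel)

theorem okA291 : CKA ⟨14693, 24576, 4096, 4352⟩ ⟨12288, 24576, 9216, 9728⟩ :=
  ckA_sound (d (c (b (d z11 z11) (d z11 z11)) z11) (c (b (d z11 (a (b (d (a z3 (b (d z11 z3) (d z11 z3))) (a z3 (b (d z3 z0) (d z3 z0)))) (d (a z3 (b (d z11 z3) (d z11 z3))) (a z3 (b (d z3 z0) (d z3 z0))))) (b (d (a (b (d z11 z3) (d z11 z3)) (b (d z11 (a z3 (c (b (d z3 z3) (d z3 z3)) z11))) (d z11 (a z3 (c (b (d z3 z3) (d z3 z3)) z11))))) (a (b (d z3 z0) (d z3 z0)) (b (d (a z3 (b (d z3 z3) (d z3 z3))) z0) (d (a z3 (b (d z3 z3) (d z3 z3))) z0)))) (d (a (b (d z11 z3) (d z11 z3)) (b (d z11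 (a z3 (c (b (d z3 z3) (d z3 z3)) z11))) (d z11 (a z3 (c (b (d z3 z3) (d z3 z3)) z11))))) (a (b (d z3 z0) (d z3 z0)) (b (d (a z3 (b (d z3 z3) (d z3 z3))) z0) (d (a z3 (b (d z3 z3) (d z3 z3))) z0))))))) (d z11 (a (b (d (a z3 (b (d z11 z3) (d z11 z3))) (a z3 (b (d z3 z0) (d z3 z0)))) (d z3 z3)) (b (d (a (b (d z11 z3) (d z11 z3)) (b (d z11 (a z3 (c (b (d z3 z3) (d z3 z3)) z11))) (d z11 (a z3 (c (b (d z3 z3) (d z3 z3)) z11))))) (a (b (d z3 z0) (d z3 z0)) (b (d (a z3 (b (d z3 z3) (d z3 z3))) z0) (d (a z3 (b (d z3 z3) (d z3 z3))) z0)))) (d (a (b (d z11 z3) (d z11 z3)) (b (d z11 (a z3 (c (b (d z3 z3) (d z3 z3)) z11))) (d z11 (a z3 (c (b (d z3 z3) (d z3 z3)) z11))))) (a (b (d z3 z0) (d z3 z0)) (b (d (a z3 (b (d z3 z3) (d z3 z3))) z0) (d (a z3 (b (d z3 z3) (d z3 z3))) z0)))))))) z11)) _ _ (by decide +kernel)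

theorem okA292 : CKA ⟨14693, 24576, 4352, 4608⟩ ⟨12288, 24576, 9216, 9728⟩ :=
  ckA_sound (d (c (a z11 (b (d z11 z11) (d z11 z11))) z11) (c (a (b (d z11 (a (b (d z3 z3) (d z3 z3)) (b (d (b (d z11 z3) z3) (b (d z3 z0) (d z3 z0))) (d z3 z3)))) (d z11 (a (b (d z3 z3) (d z3 z3)) (b (d z3 z3) (d z3 z3))))) (b (d z11 (b (d (a (b (d z11 z3) (d z11 z3)) (b (d z11 (a z3 (c (b (d z3 z3) (d z3 z3)) z11))) (d z11 (a z3 (c (b (d z3 z3) (d z3 z3)) z11))))) (a (b (d z3 z0) (d z3 z0)) (b (d (a z3 (b (d z3 z3) (d z3 z3))) z0) (d (a z3 (b (d z3 z3) (d z3 z3))) z0)))) (d (a (b (d z11 z3) (d z11 z3)) (b (d z11 (a z3 (c (b (d z3 z3) (d z3 z3)) z11))) (d z11 (a z3 (c (b (d z3 z3) (d z3 z3)) z11))))) (a (b (d z3 z0) (d z3 z0)) (b (d (a z3 (b (d z3 z3) (d z3 z3))) z0) (d (a z3 (b (d z3 z3) (d z3 z3))) z0)))))) (d z11 (b (d (a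 (b (d z11 z3) (d z11 z3)) (b (d z11 (a z3 (c (b (d z3 z3) z3) z11))) (d z11 (a z3 (c (b z3 z3) z11))))) (a (b (d z3 z0) (d z3 z0)) (b (d (a z3 (b (d z3 z3) z3)) z0) (d (a z3 (b z3 z3)) z0)))) (d (a (b (d z11 z3) (d z11 z3)) (b (d z11 (a z3 (c (b z3 z3) z11))) (d z11 z3))) (a (b (d z3 z0) (d z3 z0)) (b (d (a z3 (b z3 z3)) z0) (d z3 z0)))))))) z11)) _ _ (by decide +kernel)

theorem okA293 : CKA ⟨12288, 24576, 4096, 4608⟩ ⟨12288, 24576, 9728, 10240⟩ :=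
  ckA_sound (a (b (d (a (b (d z9 (a z1 (b (d z1 z0) z3))) (d z11 z3)) (b (d z11 (a (b (d z1 z0) (d z3 z0)) (b (d z3 z0) (d z3 z0)))) (d z11 (a (b (d z3 z0) (d z3 z0)) (b (d z3 z0) (d z3 z0)))))) z0) (d (a (b (d z11 z3) (d z11 z3)) (b (d z11 (a (b (d z3 z0) (d z3 z0)) (b (d z3 z0) (d z3 z0)))) (d z11 (a z3 (b (d z3 z0) (d z3 z0)))))) z0)) (b (d (b (d z11 (a (b (d (a z3 (b (d z3 z3) (d z3 z3))) z0) (d (a z3 (b (d z3 z3) (d z3 z3))) z0)) (b (d (a (b (d z3 z3) (d z3 z3)) (b (d (a z3 (b (d z3 z3) (d z3 z3))) (a z3 (b (d z3 z0) (d z3 z0)))) (d (a z3 (b (d z3 z3) (d z3 z3))) (a z3 (b (d z3 z0) (d z3 z0)))))) z0) (d (a (b (d z3 z3) (d z3 z3)) (b (d (a z3 (b (d z3 z3) (d z3 z3))) (a z3 (b (d z3 z0) (d z3 z0)))) (d (a z3 (b (d z3 z3) (d z3 z3))) (a z3 (b (d z3 z0) (d z3 z0)))))) z0)))) (d z11 (a (b (d (a z3 (b (d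 z3 z3) (d z3 z3))) z0) (d (a z3 (b (d z3 z3) z3)) z0)) (b (d (a (b (d z3 z3) (d z3 z3)) (b (d (a z3 (b (d z3 z3) (d z3 z3))) (a z3 (b (d z3 z0) (d z3 z0)))) (d (a z3 (b (d z3 z3) (d z3 z3))) (a z3 (b (d z3 z0) (d z3 z0)))))) z0) (d (a (b (d z3 z3) (d z3 z3)) (b (d (a z3 (b (d z3 z3) (d z3 z3))) (a z3 (b (d z3 z0) (d z3 z0)))) (d (a z3 (b (d z3 z3) (d z3 z3))) (a z3 (b (d z3 z0) (d z3 z0)))))) z0))))) z0) (d (a (b (d z11 (a (b (d z3 z0) (d z3 z0)) (b (d (b (d z3 z3) (d z3 z3)) z0) (d z3 z0)))) (d z11 (a (b (d z3 z0) (d z3 z0)) (b (d z3 z0) (d z3 z0))))) (b (d z11 (b (d (a (b (d z3 z3) (d z3 z3)) (b (d (a z3 (b (d z3 z3) (d z3 z3))) (a z3 (b (d z3 z0) (d z3 z0)))) (d (a z3 (b (d z3 z3) (d z3 z3))) (a z3 (b (d z3 z0) (d z3 z0)))))) z0) (d (a (b (d z3 z3) (d z3 z3)) (b (d (a z3 (b (d z3 z3) (d z3 z3))) (a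 z3 (b (d z3 z0) (d z3 z0)))) (d (a z3 (b (d z3 z3) (d z3 z3))) (a z3 (b (d z3 z0) (d z3 z0)))))) z0))) (d z11 (b (d (a (b (d z3 z3) (d z3 z3)) (b (d (a z3 (b (d z3 z3) z3)) (a z3 (b (d z3 z0) z3))) (d (a z3 (b z3 z3)) (a z3 (b z3 z3))))) z0) (d (a (b (d z3 z3) (d z3 z3)) (b (d z3 z3) (d z3 z3))) z0))))) z0))) _ _ (by decide +kernel)

theorem okA294 : CKA ⟨12288, 24576, 4608, 5120⟩ ⟨12288, 24576, 9216, 9728⟩ :=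
  ckA_sound (a z11 (b (d (c (b (d z11 z11) (d z11 z11)) z11) (c (b (d z11 (a (b (d z3 z3) (d z3 z3)) (b (d (a (b (d z11 z3) (d z11 z3)) (b (d z11 z3) (d z11 z3))) (a (b (d z3 z0) (d z3 z0)) (b (d z3 z0) (d z3 z0)))) (d (a (b (d z11 z3) (d z11 z3)) (b (d z11 z3) (d z11 z3))) (a (b (d z3 z0) (d z3 z0)) (b (d z3 z0) (d z3 z0))))))) (d z11 (a (a (b (d z3 z3) (d z3 z3)) (b (d z3 z3) (d z3 z3))) (b (d (a (b (d z11 z3) (d z11 z3)) (b (d z11 z3) (d z11 z3))) (a (b (d z3 z0) (d z3 z0)) (b (d z3 z0) (d z3 z0)))) (d (a (b (d z11 z3) (d z11 z3)) (b (d z11 z3) (d z11 z3))) (a (b (d z3 z0) (d z3 z0)) (b (d z3 z0) (d z3 z0)))))))) z11)) (d (c (a z11 (b (d z11 z11) (d z11 z11))) z11) (a z11 (c (b (d z11 (b (d (a (b (d z11 z3) (d z11 z3)) (b (d z11 z3) (d z11 z3))) (a (b (d z3 z0) (d z3 z0)) (b (d z3 z0) (d z3 z0)))) (d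 (a (b (d z11 z3) (d z11 z3)) (b (d z11 z3) (d z11 z3))) (a (b (d z3 z0) (d z3 z0)) (b (d z3 z0) (d z3 z0)))))) (d z11 (a (b (d (a z3 (b (d z11 z3) (d z11 z3))) (a z3 (b (d z3 z0) (d z3 z0)))) (d z3 z3)) (b (d (b (d z11 z3) (d z11 z3)) (b (d z3 z0) (d z3 z0))) (d (a (b (d z11 z3) (d z11 z3)) (b (d z11 z3) (d z11 z3))) (a (b (d z3 z0) (d z3 z0)) (b (d z3 z0) (d z3 z0)))))))) z11))))) _ _ (by decide +kernel)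

theorem okA295 : CKA ⟨12288, 24576, 4608, 5120⟩ ⟨12288, 24576, 9728, 10240⟩ :=
  ckA_sound (a (b (d (a (b (d z11 z3) (d z11 z3)) (b (d z11 (a z3 (b (d z3 z0) (d z3 z0)))) (d z11 (a z3 (b (d z3 z0) (d z3 z0)))))) z0) (d (a (b (d z11 z3) (d z11 z3)) (b (d z11 (a z3 (b (d z3 z0) z3))) (d z11 z3))) z0)) (b (d (b (d z11 (a (b (d z3 z0) (d z3 z0)) (b (d (a (b (d z3 z3) (d z3 z3)) (b (d z3 z3) (d z3 z3))) z0) (d (a (b (d z3 z3) (d z3 z3)) (b (d z3 z3) (d z3 z3))) z0)))) (d z11 (a (a (b (d z3 z0) (d z3 z0)) (b (d z3 z0) (d z3 z0))) (b (d (a (b (d z3 z3) (d z3 z3)) (b (d z3 z3) (d z3 z3))) z0) (d (a (b (d z3 z3) (d z3 z3)) (b (d z3 z3) (d z3 z3))) z0))))) z0) (d (a (b (d z11 (a (b (d z3 z0) (d z3 z0)) (b (d z3 z0) (d z3 z0)))) (d z11 (a (b (d z3 z0) (d z3 z0)) (b (d z3 z0) (d z3 z0))))) (b (d z11 (b (d (a (b (d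 z3 z3) (d z3 z3)) (b (d z3 z3) (d z3 z3))) z0) (d (a (b (d z3 z3) (d z3 z3)) (b (d z3 z3) (d z3 z3))) z0))) (d z11 (a (b (d (a z3 (b (d z3 z3) (d z3 z3))) z0) (d z3 z0)) (b (d (b (d z3 z3) (d z3 z3)) z0) (d (a (b (d z3 z3) (d z3 z3)) (b (d z3 z3) (d z3 z3))) z0)))))) z0))) _ _ (by decide +kernel)

theorem okA296 : CKA ⟨12288, 24576, 5120, 5632⟩ ⟨12288, 18432, 8192, 8704⟩ :=
  ckA_sound (a z11 (c (b (d z11 (a (b (d (c (a z3 (b (d z3 z3) (d z3 z3))) z11) (a z3 (b (d z3 z3) (d z3 z3)))) (d (c (a z3 (b (d z3 z3) (d z3 z3))) z11) (a z3 (b (d z3 z3) (d z3 z3))))) (b (d (c (b (d (a z3 (c (b (d z3 z3) (d z3 z3)) z3)) (a z3 (b (d z3 z3) (d z3 z3)))) (d (a z3 (c (b (d z3 z3) (d z3 z3)) z3)) (a z3 (b (d z3 z3) (d z3 z3))))) z11) (b (d (a z3 (c (b (d z3 z3) (d z3 z3)) z3)) (a z3 (b (d z3 z3) (d z3 z3)))) (d (a z3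 (c (b (d z3 z3) (d z3 z3)) z3)) (a z3 (b (d z3 z3) (d z3 z3)))))) (d (c (a (b (d z3 z3) (d z3 z3)) (b (d (c (b (d z3 z3) (d z3 z3)) z3) (b (d z3 z3) (d z3 z3))) (d (c (a z3 (b (d z3 z3) (d z3 z3))) z3) (a z3 (b (d z3 z3) (d z3 z3)))))) z11) (a (b (d z3 z3) (d z3 z3)) (b (d (c (b (d z3 z3) (d z3 z3)) z3) (b (d z3 z3) (d z3 z3))) (d (c (a z3 (b (d z3 z3) (d z3 z3))) z3) (a z3 (b (d z3 z3) (d z3 z3)))))))))) (d z11 (a (b (d (c (a z3 (b (d z3 z3) (d z3 z3))) z11) (a z3 (b (d z3 z3) (d z3 z3)))) (d z3 z3)) (b (d (c (a (b (d z3 z3) (d z3 z3)) (b (d (c (b (d z3 z3) (d z3 z3)) z3) (b (d z3 z3) (d z3 z3))) (d (c (a z3 (b z3 z3)) z3) (a z3 (b (d z3 z3) (d z3 z3)))))) z11) (a (b (d z3 z3) (d z3 z3)) (b (d (c (b (d z3 z3) (d z3 z3)) z3) (b (d z3 z3) (d z3 z3))) (d (c (a z3 (b (d z3 z3) (d z3 z3))) z3) (a z3 (b (d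 z3 z3) (d z3 z3))))))) (d (c (a (b (d z3 z3) (d z3 z3)) (b (d (c (a z3 (b z3 z3)) z3) (a z3 (b (d z3 z3) (d z3 z3)))) (d (c (a z3 (b z3 z3)) z3) (a z3 (b z3 z3))))) z11) (a (b (d z3 z3) (d z3 z3)) (b (d (c (a z3 (b (d z3 z3) (d z3 z3))) z3) (a z3 (b (d z3 z3) (d z3 z3)))) (d (a z3 (c (b (d z3 z3) (d z3 z3)) z3)) (a z3 (b (d z3 z3) (d z3 z3))))))))))) z11)) _ _ (by decide +kernel)

theorem okA297 : CKA ⟨12288, 24576, 5120, 5632⟩ ⟨12288, 18432, 8704, 9216⟩ :=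
  ckA_sound (a (b (d z11 (a (b (d z3 z3) (d z3 z3)) (b (d z3 z3) (d z3 z3)))) (d z11 (a (b (d z3 z3) (d z3 z3)) (b (d z3 z3) (d z3 z3))))) (b (d z11 (a (b (d (a (b (d z11 z3) (d z11 z3)) (b (d z11 z3) (d z11 z3))) (a (b (d z3 z0) (d z3 z0)) (b (d z3 z0) (d z3 z0)))) (d (a z3 (b (d z11 z3) (d z11 z3))) (a z3 (b (d z3 z0) (d z3 z0))))) (b (d (b (d z11 (a z3 (b (d z3 z3) (d z3 z3)))) (d z11 (a z3 (b (d z3 z3) (d z3 z3))))) (b (d (a z3 (b (d z3 z0) (d z3 z0))) z0) (d (a z3 (b (d z3 z0) (d z3 z0))) z0))) (d (a (b (d z11 z3) (d z11 z3)) (b (d z11 (b (d z3 z3) (d z3 z3))) (d z11 (a (b (d z3 z3) (d z3 z3)) (b (d z3 z3) (d z3 z3)))))) (a (b (d z3 z0) (d z3 z0)) (b (d (b (d z3 z0) (d z3 z0)) z0) (d (a (b (d z3 z0) (d z3 z0)) (b (d z3 z0) (d z3 z0))) z0))))))) (d z11 (a (b (d (a z3 (b (d z11 z3) (d z11 z3))) (a z3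 (b (d z3 z0) (d z3 z0)))) (d (a z3 (b (d z11 z3) (d z11 z3))) (a z3 (b (d z3 z0) (d z3 z0))))) (b (d (a (b (d z11 z3) (d z11 z3)) (b (d z11 (b (d z3 z3) (d z3 z3))) (d z11 (a (b (d z3 z3) z3) (b (d z3 z3) (d z3 z3)))))) (a (b (d z3 z0) (d z3 z0)) (b (d (b (d z3 z0) (d z3 z0)) z0) (d (a (b (d z3 z0) z3) (b (d z3 z0) (d z3 z0))) z0)))) (d (a (b (d z11 z3) (d z11 z3)) (b (d z11 (a (b (d z3 z3) z3) (b (d z3 z3) (d z3 z3)))) (d z11 (a z3 (b (d z3 z3) (d z3 z3)))))) (a (b (d z3 z0) (d z3 z0)) (b (d (a (b (d z3 z0) z3) (b (d z3 z0) (d z3 z0))) z0) (d (a z3 (b (d z3 z0) (d z3 z0))) z0))))))))) _ _ (by decide +kernel)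

theorem okA298 : CKA ⟨12288, 24576, 5632, 6144⟩ ⟨12288, 18432, 8192, 9216⟩ :=
  ckA_sound (d (a z11 (c (b (d z11 (a (b (d (c (a z3 (b (d z3 z3) z3)) z11) (a z3 (b (d z3 z3) (d z3 z3)))) (d z3 z3)) (b (d (c (a (b (d z3 z3) (d z3 z3)) (b (d z3 (b z3 z3)) (d z3 (b z3 z3)))) z11) (a (b (d z3 z3) (d z3 z3)) (b (d (c (b (d z3 z3) (d z3 z3)) z3) (b (d z3 z3) (d z3 z3))) (d (c (b z3 z3) z3) (b (d z3 z3) (d z3 z3)))))) (d (c (a (b (d z3 z3) (d z3 z3)) (b (d z3 z3) (d z3 z3))) z11) (a (b (d z3 z3) (d z3 z3)) (b (d (c (b z3 z3) z3) (b (d z3 z3) z3)) (d z3 (a z3 (b z3 z3))))))))) (d z11 (a (b (d z3 z3) (d z3 z3)) (b (d (c (a (b (d z3 z3) (d z3 z3)) (b (d z3 z3) (d z3 z3))) z11) (a (b (d z3 z3) (d z3 z3)) (b (d z3 (b z3 z3)) (d z3 z3)))) (d (a (c (b (d z3 z3) (d z3 z3)) z11) (c (b (d z3 z3) (d z3 z3)) z11)) (a (b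 (d z3 z3) (d z3 z3)) (b (d z3 z3) (d z3 z3)))))))) z11)) (a (b (d z11 (a (b (d z3 z3) (d z3 z3)) (b (d z3 z3) (d z3 z3)))) (d z11 (a z3 (b (d z3 z3) (d z3 z3))))) (b (d z11 (a (b (d (a z3 (b (d z11 z3) (d z11 z3))) (a z3 (b (d z3 z0) (d z3 z0)))) (d (a z3 (b (d z11 z3) z3)) (a z3 (b (d z3 z0) (d z3 z0))))) (b (d (a (b (d z11 z3) (d z11 z3)) (b (d z11 (b (d z3 z3) (d z3 z3))) (d z11 (b (d z3 z3) (d z3 z3))))) (a (b (d z3 z0) (d z3 z0)) (b (d (b (d z3 z0) (d z3 z0)) z0) (d (b (d z3 z0) (d z3 z0)) z0)))) (d (a (b (d z11 z3) (d z11 z3)) (b (d z11 (b (d z3 z3) (d z3 z3))) (d z11 (a z3 (b (d z3 z3) (d z3 z3)))))) (a (b (d z3 z0) (d z3 z0)) (b (d (b (d z3 z0) (d z3 z0)) z0) (d (a z3 (b (d z3 z0) (d z3 z0))) z0))))))) (d z11 (a (b (d (a z3 (b (d z11 z3) z3)) (a z3 (b (d z3 z0) z3))) (d z3 z3)) (b (d (a (b (d z11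 z3) (d z11 z3)) (b (d z11 (b (d z3 z3) (d z3 z3))) (d z11 (a z3 (b (d z3 z3) (d z3 z3)))))) (a (b (d z3 z0) (d z3 z0)) (b (d (b (d z3 z0) (d z3 z0)) z0) (d (a z3 (b (d z3 z0) (d z3 z0))) z0)))) (d (a (b (d z11 z3) (d z11 z3)) (b (d z11 (a z3 (b (d z3 z3) (d z3 z3)))) (d z11 (a z3 (b (d z3 z3) (d z3 z3)))))) (a (b (d z3 z0) (d z3 z0)) (b (d (a z3 (b (d z3 z0) (d z3 z0))) z0) (d (a z3 (b (d z3 z0) (d z3 z0))) z0)))))))))) _ _ (by decide +kernel)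

theorem okA299 : CKA ⟨12288, 24576, 5120, 6144⟩ ⟨18432, 24576, 8192, 9216⟩ :=
  ckA_sound (b (d (a z15 (c (b (d z15 (a (c z11 z15) (c z11 z15))) (d z15 (a (c z11 z15) (c z11 z15)))) z15)) (a z11 (c (b z11 z11) (b (d z15 (a z15 (b (d z15 (c z11 z15)) (d z15 (c z11 z15))))) (d z15 (a z15 (b (d z15 (c z11 z15)) (d z15 (c z11 z15))))))))) (d (a z15 (c (b (d z15 (a (c z11 z15) (c z11 z15))) (d z15 (a (c z11 z15) (c z11 z15)))) z15)) (a (c z11 z15) (c z11 (b (d z15 (a z15 (b (d z15 (c z11 z15)) (d z15 (c z11 z15))))) (d z15 (a z15 (b (d z15 (c z11 z15)) (d z15 (c z11 z15)))))))))) _ _ (by decide +kernel)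

end Vale.Agent.Lib.P154Q5
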