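import Vale.Agent.Lib.P154Q5.CkADefs

namespace Vale.Agent.Lib.P154Q5

set_option maxRecDepth 100000
set_option exponentiation.threshold 1000

open Tr

theorem okA30 : CKA ⟨4097, 6145, 1536, 2048⟩ ⟨21504, 24576, 7680, 8192⟩ :=
  ckA_sound (a z12 (b (d (b (d (a z12 z13) (a z12 z13)) (d (a z12 (c (b z13 (d (a z12 z13) (a z12 z13))) (b (d (a (b z13 (d (c z13 (a z12 z13)) z13)) z13) z13) (d (a z12 z13) (a z12 z13))))) (a z12 (c (b z13 (d (a z12 z13) (a z12 z13))) (b (d z13 z13) (d (a z12 z13) (a z12 z13))))))) (b (d (a z12 z13) (c (a z12 z13) (a z12 z13))) (d (a z12 (c (b z13 (d (a z12 z13) (a z12 z13))) (b z13 (d (a z12 z13) (a z12 z13))))) (c (a z12 (b z13 (d (c (a z12 z13) (a z12 z13)) (c (a z12 z13) (a z12 z13))))) (a z12 (b z13 (d (a z12 z13) (c (a z12 z13) (a z12 z13))))))))) (d (b (d (a z12 (c (b (d (a z12 z13) (a z12 z13)) (d (a z12 z13) (a z12 z13)))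 (b (d (a z12 z13) (a z12 z13)) (d (a z12 z13) (a z12 z13))))) (a z12 (c (b (d (a z12 z13) (a z12 z13)) (d (a z12 z13) (a z12 z13))) (b (d (a z12 z13) (a z12 z13)) (d (a z12 z13) (a z12 z13)))))) z12) (b (d (a z12 (c (b (d (a z12 z13) (a z12 z13)) (d (a z12 z13) (a z12 z13))) (b (d (a z12 z13) (a z12 z13)) (d (a z12 z13) (a z12 z13))))) (c (a z12 (b (d (c (a z12 z13) (a z12 z13)) (c (a z12 z13) (a z12 z13))) (d (c (a z12 z13) (a z12 z13)) (c (a z12 z13) (a z12 z13))))) (a z12 (b (d (a z12 z13) (c (a z12 z13) (a z12 z13))) (d (a z12 z13) (c (a z12 z13) (a z12 z13))))))) z12)))) _ _ (by decide +kernel)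

theorem okA31 : CKA ⟨6145, 8193, 1024, 2048⟩ ⟨18432, 24576, 7168, 8192⟩ :=
  ckA_sound (b z0 (d (b z0 (d (a z13 z0) (c (a z13 z0) (a z13 z0)))) (c (b z0 (d (a z13 z0) (a (c (b (d (a z13 z0) (a z13 z0)) z13) z13) z0))) (b z0 (d (a z13 z0) (a z13 z0)))))) _ _ (by decide +kernel)

theorem okA32 : CKA ⟨4097, 8193, 2048, 3072⟩ ⟨12288, 24576, 4096, 5120⟩ :=
  ckA_sound (a z12 (b (d (c (b z13 (d (a (c z13 (b z13 (d (a z12 z13) (a z12 z13)))) z13) (a (c z13 (b z13 (d (a z12 z13) (a z12 z13)))) z13))) (b z13 (d (a (b (d (a (c z13 (b z13 (d (a z12 z13) (a z12 z13)))) z13) (c z13 (a (b z13 (d (a z12 z13) (c z13 (a z12 z13)))) z13))) (d (a z12 z13) (c (a z12 z13) (a z12 z13)))) z13) (a (c (b z13 (d (a z12 z13) (a z12 z13))) (b (d (a (b z13 (d (a z12 z13) (c z13 (a z12 z13)))) z13) (a (b z13 (d (c z13 (a z12 z13)) (c z13 (a z12 z13)))) z13)) (d (a z12 z13) (a z12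 z13)))) z13)))) (c (b z13 (d (a (c z13 (b z13 (d (a z12 z13) (a z12 z13)))) z13) (a (c z13 (b z13 (d (a z12 z13) (a z12 z13)))) z13))) (b z13 (d (a (b (d (c z13 (a (b z13 (d (a z12 z13) (c z13 (a z12 z13)))) z13)) (c z13 (a (b z13 (d (c z13 (a z12 z13)) (c z13 (a z12 z13)))) z13))) (d (c (a z12 z13) (a z12 z13)) (c (a z12 z13) (a z12 z13)))) z13) (a (c (b z13 (d (a z12 z13) (a z12 z13))) (b (d (a (b z13 (d (c z13 (a z12 z13)) (c z13 (a z12 z13)))) z13) (a (c z13 (b z13 (d (a z12 z13) (a z12 z13)))) z13)) (d (a z12 z13) (a z12 z13)))) z13))))) (d (c (b (d (a (c (b (d (a z4 z5) (a z12 z13)) z12) (b (d (a z12 z13) (a z12 z13)) z12)) z13) (a (c (b (d (a z12 z13) (a z12 z13)) z12) (b (d (a z12 z13) (a z12 z13)) z12)) z13)) (d (a z12 z13) (a z12 z13))) (b (d (a (b (d (a z12 z13) (c (a z12 z13) (a z12 z13))) z12) z13) (a (c (b (d (a z12 z13) (a z12 z13)) z12)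 (b (d (a z12 z13) (a z12 z13)) z12)) z13)) (d (a z12 z13) (a z12 z13)))) (c (b (d (a (c (b (d (a z12 z13) (a z12 z13)) z12) (b (d (a z12 z13) (a z12 z13)) z12)) z13) (a (c (b (d (a z12 z13) (a z12 z13)) z12) (b (d (a z12 z13) (a z12 z13)) z12)) z13)) (d (a z12 z13) (a z12 z13))) (b (d (a (b (d (c (a z12 z13) (a z12 z13)) (c (a z12 z13) (a z12 z13))) z12) z13) (a (c (b (d (a z12 z13) (a z12 z13)) z12) (b (d (a z12 z13) (a z12 z13)) z12)) z13)) (d (a z12 z13) (a z12 z13))))))) _ _ (by decide +kernel)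

theorem okA33 : CKA ⟨4097, 8193, 2048, 3072⟩ ⟨12288, 24576, 5120, 6144⟩ :=
  ckA_sound (a z12 (b (d (c (b z13 (d (a (c z13 (b z13 (d (a z12 z13) (a z12 z13)))) z13) (a (c z13 (b z13 (d (a z12 z13) (a z12 z13)))) z13))) (b z13 (d (a (c (b z13 (d (a z12 z13) (a z12 z13))) (b (d (a (b z13 (d (c z13 (a z12 z13)) (c z13 (a z12 z13)))) z13) (a (c z13 (b z13 (d (a z12 z13) (a z12 z13)))) z13)) (d (a z12 z13) (a z12 z13)))) z13) (a (c (b z13 (d (a z12 z13) (a z12 z13))) (b (d (a (c (b z13 (d (a z12 z13) z13)) (b z13 (d (a z12 z13) (a z12 z13)))) z13) (a (c (b z13 (d (a z12 z13) z13)) (b z13 (d (a z12 z13) (a z12 z13)))) z13)) (d (a z12 z13) (a z12 z13)))) z13)))) (c (b z13 (d (c z13 (a (b z13 (d (c z13 (a z12 z13)) (c z13 (a z12 z13)))) z13)) (c z13 (a (b z13 (d (c z13 (a z12 z13)) (c z13 (a z12 z13)))) z13)))) (b z13 (d (a (c (b z13 (d (a z12 z13) (a z12 z13)))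 (b (d (a (c (b z13 (d (a z12 z13) (a z12 z13))) (b z13 (d (a z12 z13) (a z12 z13)))) z13) (a (c (b z13 (d (a z12 z13) (a z12 z13))) (b z13 (d (a z12 z13) (a z12 z13)))) z13)) (d (a z12 z13) (a z12 z13)))) z13) (a (c (b z13 (d (a z12 z13) (a z12 z13))) (b (d (a (c (b z13 (d (a z12 z13) (a z12 z13))) (b z13 (d (a z12 z13) (a z12 z13)))) z13) (a (c (b z13 (d (a z12 z13) (a z12 z13))) (b z13 (d (a z12 z13) (a z12 z13)))) z13)) (d (a z12 z13) (a z12 z13)))) z13))))) (d (c (b (d (a (c (b (d (a z12 z13) (a z12 z13)) z12) (b (d (a z12 z13) (a z12 z13)) z12)) z13) (a (c (b (d (a z12 z13) (a z12 z13)) z12) (b (d (a z12 z13) (a z12 z13)) z12)) z13)) (d (a z12 z13) (a z12 z13))) (b (d (a (c (b (d (a z12 z13) (a z12 z13)) z12) (b (d (a z12 z13) (a z12 z13)) z12)) z13) (a (c (b (d (a z12 z13) (a z12 z13)) z12) (b (d (a z12 z13) (a z12 z13)) z12)) z13)) (d (a z12 z13)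 (a z12 z13)))) (c (b (d (c (a (b (d (c (a z12 z13) (a z12 z13)) (c (a z12 z13) (a z12 z13))) z12) z13) (a (b (d (c (a z12 z13) (a z12 z13)) (c (a z12 z13) (a z12 z13))) z12) z13)) (c (a (b (d (c (a z12 z13) (a z12 z13)) (c (a z12 z13) (a z12 z13))) z12) z13) (a (b (d (c (a z12 z13) (a z12 z13)) (c (a z12 z13) (a z12 z13))) z12) z13))) (d (c (a z12 z13) (a z12 z13)) (c (a z12 z13) (a z12 z13)))) (b (d (a (c (b (d (a z12 z13) (a z12 z13)) z12) (b (d (a z12 z13) (a z12 z13)) z12)) z13) (a (c (b (d (a z12 z13) (a z12 z13)) z12) (b (d (a z12 z13) (a z12 z13)) z12)) z13)) (d (a z12 z13) (a z12 z13))))))) _ _ (by decide +kernel)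

theorem okA34 : CKA ⟨4097, 8193, 3072, 4096⟩ ⟨12288, 24576, 4096, 6144⟩ :=
  ckA_sound (d z12 (a z12 (b (d z12 (c z12 (b (d z12 (a z12 z13)) z12))) z12))) _ _ (by decide +kernel)

theorem okA35 : CKA ⟨4097, 8193, 2048, 3072⟩ ⟨12288, 17067, 6144, 7168⟩ :=
  ckA_sound (a z12 (b (d (c z13 (b z13 (d (a (c (b z13 (d (a z12 z13) (a z12 z13))) (b z13 (d (a z12 z13) (a z12 z13)))) z13) (a (c (b z13 (d (a z12 z13) (a z12 z13))) (b z13 (d (a z12 z13) (a z12 z13)))) z13)))) (c z9 (b z13 (d (a (c z13 (b z13 (d (a z12 z13) (a z12 z13)))) z13) (a (c z13 (b z13 (d (a z12 z13) (a z12 z13)))) z13))))) (d (c (b (d (a (c (b (d (a z12 z13) (a z12 z13)) z12) (b (d (a z12 z13) (a z12 z13)) z12)) z13) (a (c (b (d (a z12 z13) (a z12 z13)) z12) (b (d (a z12 z13) (a z12 z13)) z12)) z13)) (d (a z12 z13) (a z12 z13))) (b (d (a (c (b (d (a z12 z13) (a z12 z13)) z12) (b (d (a z12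 z13) (a z12 z13)) z12)) z13) (a (c (b (d (a z12 z13) (a z12 z13)) z12) (b (d (a z12 z13) (a z12 z13)) z12)) z13)) (d (a z12 z13) (a z12 z13)))) (c (b (d (a (c (b (d (a z8 z9) (a z8 z9)) z8) (b (d (a z12 z13) (a z12 z13)) z12)) z13) (a (c (b (d (a z8 z9) (a z8 z9)) z8) (b (d (a z12 z13) (a z8 z9)) z12)) z9)) (d (a z12 z13) (a z8 z9))) (b (d (a (c (b (d (a z12 z13) (a z12 z13)) z12) (b (d (a z12 z13) (a z12 z13)) z12)) z13) (a (c (b (d (a z12 z13) (a z12 z13)) z12) (b (d (a z12 z13) (a z12 z13)) z12)) z13)) (d (a z12 z13) (a z12 z13))))))) _ _ (by decide +kernel)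

theorem okA36 : CKA ⟨4097, 8193, 2048, 3072⟩ ⟨17067, 24576, 6144, 7168⟩ :=
  ckA_sound (a z12 (b (d (b z13 (d (a (c (b z13 (d (a z12 z13) (a z12 z13))) (b (d (a (b z13 (d (c (a z12 z13) (a z12 z13)) (c (a z12 z13) (a z12 z13)))) z13) (a (c (b z13 (d (a z12 z13) (a z12 z13))) (b z13 (d (a z12 z13) (a z12 z13)))) z13)) (d (a z12 z13) (a z12 z13)))) z13) (a (c (b z13 (d (a z12 z13) (a z12 z13))) (b (d (a (c (b z13 (d (a z12 z13) (a z12 z13))) (b z13 (d (a z12 z13) (a z12 z13)))) z13) (a (c (b z13 (d (a z12 z13) (a z12 z13))) (b z13 (d (a z12 z13) (a z12 z13)))) z13)) (d (a z12 z13) (a z12 z13)))) z13))) (b z13 (d (a (c (b z13 (d (a z12 z13) (a z12 z13))) (b (d (a (c (b z13 (d (a z12 z13) (a z12 z13))) (b z13 (d (a z12 z13) (a z12 z13)))) z13) (a (c (b z13 (d (a z12 z13) (a z12 z13))) (b z13 (d (a z12 z13) (a z12 z13)))) z13)) (d (a z12 z13) (a z12 z13))))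 z13) (c (a (b z13 (d (c (a z12 z13) (a z12 z13)) (c (a z12 z13) (a z12 z13)))) z13) (a (b (d (a (c (b z13 (d (a z12 z13) (a z12 z13))) (b z13 (d (a z12 z13) (a z12 z13)))) z13) (c (a (b z13 (d (c z13 (a z12 z13)) (c z13 (a z12 z13)))) z13) (a (b z13 (d (a z12 z13) (a z12 z13))) z13))) (d (a z12 z13) (c (a z12 z13) (a z12 z13)))) z13))))) (d (b (d (a (c (b (d (a z12 z13) (a z12 z13)) z12) (b (d (a z12 z13) (a z12 z13)) z12)) z13) (a (c (b (d (a z12 z13) (a z12 z13)) z12) (b (d (a z12 z13) (a z12 z13)) z12)) z13)) (d (a z12 z13) (a z12 z13))) (b (d (a (c (b (d (a z12 z13) (a z12 z13)) z12) (b (d (a z12 z13) (a z12 z13)) z12)) z13) (c (a (b (d (c (a z12 z13) (a z12 z13)) (c (a z12 z13) (a z12 z13))) z12) z13) (a (b (d (a z12 z13) (c (a z12 z13) (a z12 z13))) z12) z13))) (d (a z12 z13) (c (a z12 z13) (a z12 z13))))))) _ _ (by decide +kernel)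

theorem okA37 : CKA ⟨4097, 8193, 2048, 3072⟩ ⟨12288, 18432, 7168, 8192⟩ :=
  ckA_sound (a z8 (b (d (c (b (d z9 (a z9 z0)) z9) (b (d z13 (a z13 z0)) (d (a (c (b z13 (d (a z12 z13) (a z12 z13))) (b z13 (d (a z12 z13) (a z12 z13)))) z13) (a (c (b z13 (d (a z12 z13) (a z12 z13))) (b z13 (d (a z12 z13) (a z12 z13)))) z13)))) (c (b (d (a z9 z0) (a z9 z0)) z9) (b (d (a z13 z0) (a z9 z0)) (d (a (c (b z9 (d (a z8 z9) (a z8 z9))) (b z13 (d (a z12 z13) (a z12 z13)))) (c z9 z13)) (a (c (b z9 (d (a z8 z9) (a z8 z9))) (b z13 (d (a z12 z13) (a z12 z13)))) z9))))) (d (c (b (d (a (c (b (d (a z8 z9) (a z8 z9)) z8) (b (d (a z8 z9) (a z8 z9)) z8)) z9) (a (c (b (d (a z8 z9) (a z8 z9)) z8) (b (d (a z8 z9) (a z8 z9)) z8)) z9)) (d (a z8 z9) (a z8 z9))) (b (d (a (c (b (d (a z12 z13) (a z12 z13)) z12) (b (d (a z12 z13) (a z12 z13)) z12)) z13) (a (c (b (d (a z12 z13) (a z12 z13))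 z12) (b (d (a z12 z13) (a z12 z13)) z12)) z13)) (d (a z12 z13) (a z12 z13)))) (c (b (d (a (c (b (d (a z8 z9) (a z8 z9)) (d z8 (a z8 z9))) (b (d (a z8 z9) (a z8 z9)) (d (a z8 z9) (a z8 z9)))) z9) (a (c (b (d (a z8 z9) (a z8 z9)) (d (a z8 z9) (a z8 z9))) (b (d (a z8 z9) (a z8 z9)) (d (a z8 z9) (a z8 z9)))) z9)) (d (a z8 z9) (a (c (b (d z8 (a z8 z9)) z8) (b (d z8 (a z8 z9)) z8)) z9))) (b (d (a (c (b (d (a z8 z9) (a z8 z9)) (d (a z8 z9) (a z8 z9))) (b (d (a z12 z13) (a z12 z13)) (d (a z12 z13) (a z12 z13)))) z13) (a (c (b (d (a z8 z9) (a z8 z9)) (d (a z8 z9) (a z8 z9))) (b (d (a z12 z13) (a z12 z13)) (d (a z12 z13) (a z12 z13)))) z9)) (d (a z12 z13) (a (c (b (d z8 (a z8 z9)) z8) (b (d (a z12 z13) (a z12 z13)) z12)) z9))))))) _ _ (by decide +kernel)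

theorem okA38 : CKA ⟨4097, 8193, 2048, 3072⟩ ⟨18432, 24576, 7168, 8192⟩ :=
  ckA_sound (a z12 (b (d (b z13 (d (a (c (b z13 (d (a z12 z13) (a z12 z13))) (b (d (a (c (b z13 (d (a z12 z13) (a z12 z13))) (b z13 (d (a z12 z13) (a z12 z13)))) z13) (a (c (b z13 (d (a z12 z13) (a z12 z13))) (b z13 (d (a z12 z13) (a z12 z13)))) z13)) (d (a z12 z13) (a z12 z13)))) z13) (c (a (b z13 (d (c (a z12 z13) (a z12 z13)) (c (a z12 z13) (a z12 z13)))) z13) (a (b (d (a (c (b z13 (d (a z12 z13) (a z12 z13))) (b z13 (d (a z12 z13) (a z12 z13)))) z13) (a (c (b z13 (d (a z12 z13) (a z12 z13))) (b z13 (d (a z12 z13) (a z12 z13)))) z13)) (d (a z12 z13) (a z12 z13))) z13)))) (c (b (d z13 (a z13 z0)) (d (a (c (b z13 (d (a z12 z13) (a z12 z13))) (b z13 (d (a z12 z13) (a z12 z13)))) z13) (a (c (b z13 (d (a z12 z13) (a z12 z13))) (b z13 (d (a z12 z13) (a z12 z13)))) z13))) (b z13 (d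 (a (b (d (a (c (b z13 (d (a z12 z13) (a z12 z13))) (b z13 (d (a z12 z13) (a z12 z13)))) z13) (a (c (b z13 (d (a z12 z13) (a z12 z13))) (b z13 (d (a z12 z13) (a z12 z13)))) z13)) (d (a z12 z13) (a z12 z13))) z13) (a (b (d (c z13 (a (b z13 (d (a z12 z13) (a z12 z13))) z13)) (c z13 (a (b z13 (d (a z12 z13) (c z13 (a z12 z13)))) z13))) (d (c (a z12 z13) (a z12 z13)) (c (a z12 z13) (a z12 z13)))) z13))))) (d (b (d (a (c (b (d (a z12 z13) (a z12 z13)) z12) (b (d (a z12 z13) (a z12 z13)) (d (a z12 z13) (a z12 z13)))) z13) (c (a (b (d (c (a z12 z13) (a z12 z13)) (c (a z12 z13) (a z12 z13))) (d z12 (c z12 (a z12 z13)))) z13) (a (b (d (a z12 z13) (a z12 z13)) (d (a z12 z13) (a z12 z13))) z13))) (d (a z12 z13) (c (a z12 z13) (a z12 z13)))) (c (b (d (a (c (b (d (a z12 z13) (a z12 z13)) (d (a z12 z13) (a z12 z13))) (b (d (a z12 z13) (a z12 z13)) (d (a z12 z13) (a z12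 z13)))) z13) (a (c (b (d (a z12 z13) (a z12 z13)) (d (a z12 z13) (a z12 z13))) (b (d (a z12 z13) (a z12 z13)) (d (a z12 z13) (a z12 z13)))) z13)) (d (a z12 z13) (a (c (b (d z12 (a z12 z13)) z12) z12) z13))) (b (d (a (b (d (a z12 z13) (a z12 z13)) (d (a z12 z13) (a z12 z13))) z13) (a (b (d (c (a z12 z13) (a z12 z13)) (c (a z12 z13) (a z12 z13))) (d (c (a z12 z13) (a z12 z13)) (c (a z12 z13) (a z12 z13)))) z13)) (d (a z12 z13) (a z12 z13))))))) _ _ (by decide +kernel)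

theorem okA39 : CKA ⟨4097, 8193, 3072, 4096⟩ ⟨12288, 24576, 6144, 8192⟩ :=
  ckA_sound (d (c (a z12 (b (d (c (b (d z12 (a z12 z13)) z12) (b (d z12 (a z12 z13)) z12)) (c (b (d (a z12 z13) (a z8 z9)) (d (a z12 z13) (a z8 z9))) (b (d (a z12 z13) (a z12 z13)) (d z12 (a z12 z13))))) (d z12 (c z8 z12)))) (a z12 (b (d (b (d (a z12 z13) (a z12 z13)) z12) (b (d (a z12 z13) (c (a z12 z13) (a z12 z13))) (d (a z12 (c (b z13 (d (c z13 (a z12 z13)) (c z13 (a z12 z13)))) (b z13 (d (a z12 z13) (a z12 z13))))) (c z12 (a z12 (b z13 (d (a z12 z13) (c (a z12 z13) (a z12 z13))))))))) z12))) (c (a z8 (b (d (c (b (d (a z8 z9) (a z8 z9)) (d (a z8 z9) (a z8 z9))) (b (d (a z12 z13) (a z12 z13)) (d (a z12 z13) (a z12 z13)))) (c (b (d (a z8 z9) (a z8 z9)) (d (a z8 z9) (a z8 z9))) (b (d (a z12 z13) (a z8 z9)) (d (a z12 z13) (a z8 z9))))) (d (c (b (d z8 (a z8 (c z8 (b z9 z8)))) z8)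 (b (d z12 (a z12 (c (b (d (a z12 z13) (a z12 z13)) z12) z12))) z12)) (c (b (d (a z8 (c (b z9 z8) (b z9 z8))) (a z8 (c (b (d z9 (c (a z8 z9) (a z8 z9))) (d z8 (c (a z8 z9) (a z8 z9)))) (b (d (a z8 z9) (a z8 z9)) (d z8 (a z8 z9)))))) z8) (b (d (a z12 (c (b (d (a z8 z9) (a z8 z9)) z8) (b (d (a z12 z13) (a z12 z13)) z12))) (a z8 (c (b (d (a z8 z9) (a z8 z9)) (d (a z8 z9) (a z8 z9))) (b (d (a z12 z13) (a z12 z13)) (d (a z12 z13) (a z12 z13)))))) z8))))) (a z12 (b (d (b (d (a z12 z13) (c (a z12 z13) (a z12 z13))) (d (a z12 (c (b z13 (d (a z12 z13) (a z12 z13))) (b z13 (d (a z12 z13) (a z12 z13))))) (c (a z12 (b z13 (d (c z13 (a z12 z13)) (c z13 (a z12 z13))))) (a z12 (b z13 (d (a z12 z13) (c (a z12 z13) (a z12 z13)))))))) (c (b (d (a z12 z13) (a z12 z13)) (d (a z12 (c z13 (b z13 (d (a z12 z13) (a z12 z13))))) (a z12 (c z13 (b z13 (d (a z12 z13) (a z12 z13)))))))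 (b (d (a z12 z13) (a z12 z13)) (d (a z12 (b z13 (d (a z12 z13) (a z12 z13)))) (a z12 (b z13 (d (c (a z12 z13) (a z12 z13)) (c (a z12 z13) (a z12 z13))))))))) (d z12 (c (b (d (a z12 (c (b (d (a z12 z13) (a z12 z13)) z12) z12)) (a z12 (c (b (d (a z12 z13) (a z12 z13)) z12) (b (d (a z12 z13) (a z12 z13)) z12)))) z12) z12)))))) _ _ (by decide +kernel)

theorem okA40 : CKA ⟨0, 4097, 0, 4096⟩ ⟨12288, 24576, 8192, 12288⟩ :=
  ckA_sound (b (d (b z0 (d z8 (b z0 z0))) z0) (d z0 z0)) _ _ (by decide +kernel)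

theorem okA41 : CKA ⟨4097, 8193, 0, 1024⟩ ⟨12288, 24576, 8192, 10240⟩ :=
  ckA_sound z0 _ _ (by decide +kernel)

theorem okA42 : CKA ⟨4097, 6145, 1024, 1536⟩ ⟨12288, 15360, 8192, 8704⟩ :=
  ckA_sound (b z0 (d (c (a z0 (b (d (c (a (b z0 z1) z0) (a (b z0 (d z9 (c (a z1 z0) (a z9 z0)))) z0)) (a (b z0 (d (c z1 (a z1 z0)) (a z1 z0))) z0)) (d (c (a z1 z0) (a z9 z0)) (a z1 z0)))) (a z8 (b (d (c (a (b z0 (d (c z9 (a z9 z0)) (c (a z9 z0) (a z9 z0)))) z0) (a (b z0 (d (c (a z9 z0) (a z9 z0)) (c (a z9 z0) (a z9 z0)))) z0)) (c (a (b z0 (d (c (a z9 z0) (a z9 z0)) (c (a z1 z0) (a z9 z0)))) z0) (a (b z0 (d (c (a z9 z0) (a z9 z0)) (c (a z9 z0) (a z9 z0)))) z0))) (d (c (a z9 z0) (a z9 z0)) (c (a z9 z0) (a z9 z0)))))) (a (b (d (c z0 z8) z0) z0) (b (d (c (a (b z0 (d (c (a z1 z0) (a z1 z0)) (a z1 z0))) z0) (a (b z0 (d (c (a z9 z0) (a z9 z0)) (c (a z1 z0) (a z9 z0)))) z0))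 (a (b z0 (d (a z1 z0) (a z1 z0))) z0)) (d (c (a z1 z0) (a z9 z0)) (a z1 z0)))))) _ _ (by decide +kernel)

theorem okA43 : CKA ⟨4097, 6145, 1024, 1536⟩ ⟨15360, 18432, 8192, 8704⟩ :=
  ckA_sound (b z0 (d (c (a z8 (b (d (c (a (b z0 (d (c (a z9 z0) (a z9 z0)) (c (a z9 z0) (a z9 z0)))) z0) (a (b z0 (d (c (a z9 z0) (a z9 z0)) (c (a z9 z0) (a z9 z0)))) z0)) (c (a (b z0 (d (c (a z9 z0) (a z9 z0)) (c (a z9 z0) (a z9 z0)))) z0) (a (b z0 (d (c (a z9 z0) (a z9 z0)) (c (a z9 z0) (a z9 z0)))) z0))) (d (c (a z9 z0) (a z9 z0)) (c (a z9 z0) (a z9 z0))))) (a z8 (b (d (c (a (b z0 (d (c (a z9 z0) (a z9 z0)) (c (a z9 z0) (a z9 z0)))) z0) (a (b z0 (d (c (a z9 z0) (a z13 z0)) (c (a z9 z0) (a z9 z0)))) z0)) (c (a (b z0 (d (c (a z9 z0) (a z9 z0)) (c (a z9 z0) (a z9 z0)))) z0) (a (b z0 (d (c (a z9 z0) (a z9 z0)) (c (a z9 z0) (a z9 z0)))) z0))) (d (c (a z9 z0) (a z9 z0)) (c (a z9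 z0) (a z9 z0)))))) (c (a z8 (b (d (c (a (b z0 (d (c (a z9 z0) (a z9 z0)) (c (a z9 z0) (a z9 z0)))) z0) (a (b z0 (d (c (a z9 z0) (a z9 z0)) (c (a z9 z0) (a z9 z0)))) z0)) (c (a (b z0 (d (c (a z9 z0) (a z9 z0)) (c (a z1 z0) (a z9 z0)))) z0) (a (b z0 (d (c (a z9 z0) (a z9 z0)) (c (a z9 z0) (a z9 z0)))) z0))) (d (c (a z9 z0) (a z9 z0)) (c (a z9 z0) (a z9 z0))))) (a z8 (b (d (c (a (b z0 (d (c (a z9 z0) (a z9 z0)) (c (a z9 z0) (a z9 z0)))) z0) (a (b z0 (d (c (a z9 z0) (a z9 z0)) (c (a z9 z0) (a z9 z0)))) z0)) (c (a (b z0 (d (c (a z9 z0) (a z9 z0)) (c (a z9 z0) (a z9 z0)))) z0) (a (b z0 (d (c (a z9 z0) (a z9 z0)) (c (a z9 z0) (a z9 z0)))) z0))) (d (c (a z9 z0) (a z9 z0)) (c (a z9 z0) (a z9 z0)))))))) _ _ (by decide +kernel)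

theorem okA44 : CKA ⟨4097, 6145, 1024, 1536⟩ ⟨12288, 18432, 8704, 9216⟩ :=
  ckA_sound (b z0 (d (a z8 (c (b (d (c (a (b z0 (d (c (a z1 z0) (a (b (d z9 z1) z1) z0)) (a z1 z0))) z0) (a (b z0 (d (c (a z9 z0) (a z9 z0)) (c (a (b (d z9 z1) z1) z0) (a z9 z0)))) z0)) (a (b z0 (d (a (b (d (c z1 z9) z1) z1) z0) (a z1 z0))) z0)) (d (c (a (b (d (c z1 (a z1 z0)) (a z1 z0)) z1) z0) (a (b (d (c (a z9 z0) (a z9 z0)) (c (a z1 z0) (a z9 z0))) z9) z0)) (a (b (d (a z1 z0) (a z1 z0)) z1) z0))) (b (d (a (c (b z0 (d (a z9 z0) (a z9 z0))) (b z0 (d (a z9 z0) (a z9 z0)))) z0) (a (c (b z0 (d (a z9 z0) (a (c (b (d (a z1 z0) z1) z1) (b (d z9 (a z9 z0)) z9)) z0))) (b z0 (d (a z9 z0) (a (c (b (d z9 (a z9 z0)) z9) z9) z0)))) z0)) (d (a (c (b (d (a z9 z0) (a z9 z0)) z9) (b (d (a z9 z0) (a z9 z0)) z9)) z0) (a (c (b (d (a z9 z0) (a z1 z0)) z9) (b (d (a z9 z0) (a z9 z0)) z9)) z0))))) (a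 (b (d (b z0 z0) z0) z0) (b (d (a (b z0 (d (c (a (b (d (c (a z1 z0) (a z9 z0)) (a z1 z0)) z1) z0) (a (b (d (c (a z9 z0) (a z9 z0)) (c (a z9 z0) (a z9 z0))) z9) z0)) (a (b (d (c (a z1 z0) (a z9 z0)) (c (a z1 z0) (a z1 z0))) z1) z0))) z0) (a (b z0 (d (a (b (d (a z1 z0) z0) z1) z0) z0)) z0)) (d (a (b (d (c (a z1 z0) (a z9 z0)) (a z1 z0)) z1) z0) (a (b (d (a z1 z0) z0) z1) z0)))))) _ _ (by decide +kernel)

end Vale.Agent.Lib.P154Q5
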