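import Vale.Agent.Lib.P154Q5.CkADefs

namespace Vale.Agent.Lib.P154Q5

set_option maxRecDepth 100000
set_option exponentiation.threshold 1000

open Tr

theorem okA300 : CKA ⟨12288, 24576, 5120, 5632⟩ ⟨12288, 24576, 9216, 10240⟩ :=
  ckA_sound (d (a z11 (b (d (c (a z11 (b (d z11 z11) (d z11 z11))) z11) (a z11 (c (b (d z11 (b (d (a (b (d z11 z3) (d z11 z3)) (b (d z11 z3) (d z11 z3))) (a (b (d z3 z0) (d z3 z0)) (b (d z3 z0) (d z3 z0)))) (d (a (b (d z11 z3) z3) (b (d z11 z3) (d z11 z3))) (a (b (d z3 z0) z3) (b (d z3 z0) (d z3 z0)))))) (d z11 (a (b (d (a z3 (b (d z11 z3) z3)) (a z3 (b (d z3 z0) z3))) (d z3 z3)) (b (d (b (d z11 z3) (d z11 z3)) (b (d z3 z0) (d z3 z0))) (d (a (b (d z11 z3) (d z11 z3)) (b (d z11 z3) (d z11 z3))) (a (b (d z3 z0) (d z3 z0)) (b (d z3 z0) (d z3 z0)))))))) z11))) (d (c (a z11 (b z11 z11)) z11) (a z11 (c (b (d z11 (a (b (d z3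 z3) (d z3 z3)) (b (d (b (d z11 z3) (d z11 z3)) (b (d z3 z0) (d z3 z0))) (d (a (b (d z11 z3) (d z11 z3)) (b (d z11 z3) (d z11 z3))) (a (b (d z3 z0) (d z3 z0)) (b (d z3 z0) (d z3 z0))))))) (d z11 (a (b (d z3 z3) (d z3 z3)) (b (d (a (b (d z11 z3) (d z11 z3)) (b (d z11 z3) (d z11 z3))) (a (b (d z3 z0) (d z3 z0)) (b (d z3 z0) (d z3 z0)))) (d (a (b (d z11 z3) z3) (b (d z11 z3) (d z11 z3))) (a (b (d z3 z0) z3) (b (d z3 z0) (d z3 z0)))))))) z11))))) (a (b (d (a (b (d z11 z3) (d z11 z3)) (b (d z11 z3) (d z11 z3))) z0) (d (a (b (d z11 z3) (d z11 z3)) (b (d z11 z3) (d z11 z3))) z0)) (b (d (a (b (d z11 (a (b (d z3 z0) (d z3 z0)) (b (d z3 z0) (d z3 z0)))) (d z11 (a (b (d z3 z0) (d z3 z0)) (b (d z3 z0) (d z3 z0))))) (b (d z11 (b (d (a (b (d z3 z3) (d z3 z3)) (b (d z3 z3) (d z3 z3))) z0) (d (a (b (d z3 z3) z3) (b (d z3 z3) (d z3 z3))) z0))) (d z11 (a (b (d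 (a z3 (b (d z3 z3) z3)) z0) (d z3 z0)) (b (d (b (d z3 z3) (d z3 z3)) z0) (d (a (b (d z3 z3) (d z3 z3)) (b (d z3 z3) (d z3 z3))) z0)))))) z0) (d (a (b (d z11 (a (b (d z3 z0) z3) (b (d z3 z0) (d z3 z0)))) (d z11 (a z3 (b (d z3 z0) (d z3 z0))))) (b (d z11 (a (b (d z3 z0) (d z3 z0)) (b (d (b (d z3 z3) (d z3 z3)) z0) (d (a (b (d z3 z3) (d z3 z3)) (b (d z3 z3) (d z3 z3))) z0)))) (d z11 (a (b (d z3 z0) (d z3 z0)) (b (d (a (b (d z3 z3) (d z3 z3)) (b (d z3 z3) (d z3 z3))) z0) (d (a (b (d z3 z3) z3) (b (d z3 z3) (d z3 z3))) z0)))))) z0)))) _ _ (by decide +kernel)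

theorem okA301 : CKA ⟨12288, 24576, 5632, 6144⟩ ⟨12288, 24576, 9216, 10240⟩ :=
  ckA_sound (d (a z11 (b (d (c (a z11 (b z11 z11)) z11) (a z11 (c (b (d z11 (a (b (d z3 z3) (d z3 z3)) (b (d (b (d z11 z3) (d z11 z3)) (b (d z3 z0) (d z3 z0))) (d (b (d z11 z3) (d z11 z3)) (b (d z3 z0) (d z3 z0)))))) (d z11 (a (b (d z3 z3) (d z3 z3)) (b (d (b (d z11 z3) (d z11 z3)) (b (d z3 z0) (d z3 z0))) (d (a z3 (b (d z11 z3) (d z11 z3))) (a z3 (b (d z3 z0) (d z3 z0)))))))) z11))) (d (c (a z11 (b z11 z11)) z11) (a z11 (c (b (d z11 (a (b (d z3 z3) (d z3 z3)) (b (d (b (d z11 z3) (d z11 z3)) (b (d z3 z0) (d z3 z0))) (d (a z3 (b (d z11 z3) (d z11 z3))) (a z3 (b (d z3 z0) (d z3 z0))))))) (d z11 (a (b (d z3 z3) (d z3 z3)) (b (d (a z3 (b (d z11 z3) (d z11 z3))) (a z3 (b (d z3 z0) (d z3 z0)))) (d (a z3 (b (d z11 z3) (d z11 z3))) (a z3 (b (d z3 z0) (d z3 z0)))))))) z11)))))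 (a (b (d (a (b (d z11 z3) (d z11 z3)) (b (d z11 z3) (d z11 z3))) z0) (d (a z3 (b (d z11 z3) (d z11 z3))) z0)) (b (d (a (b (d z11 (a z3 (b (d z3 z0) (d z3 z0)))) (d z11 (a z3 (b (d z3 z0) (d z3 z0))))) (b (d z11 (a (b (d z3 z0) (d z3 z0)) (b (d (b (d z3 z3) (d z3 z3)) z0) (d (b (d z3 z3) (d z3 z3)) z0)))) (d z11 (a (b (d z3 z0) (d z3 z0)) (b (d (b (d z3 z3) (d z3 z3)) z0) (d (a z3 (b (d z3 z3) (d z3 z3))) z0)))))) z0) (d (a (b (d z11 (a z3 (b (d z3 z0) (d z3 z0)))) (d z11 z3)) (b (d z11 (a (b (d z3 z0) (d z3 z0)) (b (d (b (d z3 z3) (d z3 z3)) z0) (d (a z3 (b (d z3 z3) (d z3 z3))) z0)))) (d z11 (a (b (d z3 z0) (d z3 z0)) (b (d (a z3 (b (d z3 z3) (d z3 z3))) z0) (d (a z3 (b (d z3 z3) (d z3 z3))) z0)))))) z0)))) _ _ (by decide +kernel)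

theorem okA302 : CKA ⟨12288, 24576, 4096, 6144⟩ ⟨12288, 24576, 10240, 12288⟩ :=
  ckA_sound z0 _ _ (by decide +kernel)

theorem okA303 : CKA ⟨12288, 17067, 6144, 7168⟩ ⟨12288, 18432, 8192, 9216⟩ :=
  ckA_sound (b (d z11 (a (b (d z11 z3) (d z11 z3)) (b (d z11 (a (b (d z3 z3) (d z3 z3)) (b (d z3 z3) (d z3 z3)))) (d z11 (a z3 (b (d z3 z3) (d z3 z3))))))) (d (c (a (b (d z11 z3) (d z10 (a z2 z3))) (b (d z11 z3) (d z11 z3))) (a (b (d (c z11 (a z10 z11)) z11) (d (c z10 (a z10 z11)) z10)) z11)) (a (b (d z11 z3) (d z10 (a z2 z3))) (b (d z11 z3) (d z11 z3))))) _ _ (by decide +kernel)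

theorem okA304 : CKA ⟨17067, 24576, 6144, 7168⟩ ⟨12288, 18432, 8192, 9216⟩ :=
  ckA_sound (b (d (c (b (d z11 (a (b (d z3 z3) (d z3 z3)) (b (d (c (b (d z3 z3) (d z3 z3)) z11) (b (d z3 z3) (d z3 z3))) (d (c (a (b (d z3 z3) (d z3 z3)) (b (d z3 z3) (d z3 z3))) z11) (a (b (d z3 z3) (d z3 z3)) (b (d z3 z3) (d z3 z3))))))) (d z11 (a (b (d z3 z3) (d z3 z3)) (b (d (c (a (b (d z3 z3) z3) (b (d z3 z3) (d z3 z3))) z11) (a (b (d z3 z3) (d z3 z3)) (b (d z3 z3) (d z3 z3)))) (d (c (a z3 (b (d z3 z3) (d z3 z3))) z11) (a (b (d z3 z3) z3) (b (d z3 z3) (d z3 z3)))))))) z11) (b (d z11 (a (b (d (a z3 (b (d z11 z3) z3)) (a z3 (b (d z3 z0) (d z3 z0)))) (d z3 z3)) (b (d (b (d z11 (a z3 (b (d z3 z3) z3))) (d z11 (a z3 (b z3 z3)))) (b (d (a z3 (b (d z3 z0) (d z3 z0))) z0) (d (a z3 (b z3 z3)) z0))) (d (a (b (d z11 z3) (d z11 z3)) (b (d z11 z3) (d z11 z3))) (a (b (d z3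 z0) (d z3 z0)) (b (d (b z3 z3) z0) (d z3 z0))))))) (d z11 (a (b (d z3 z3) (d z3 z3)) (b (d (a (b (d z11 z3) (d z11 z3)) (b (d z11 z3) (d z11 z3))) (a (b (d z3 z0) (d z3 z0)) (b (d z3 z0) (d z3 z0)))) (d (a (b (d z11 z3) (d z11 z3)) (b (d z11 z3) (d z11 z3))) (a (b (d z3 z0) (d z3 z0)) (b (d z3 z0) (d z3 z0))))))))) (d (c (b (d z11 (a (b (d z3 z3) (d z3 z3)) (b (d (c (a z3 (b (d z3 z3) (d z3 z3))) z11) (a z3 (b (d z3 z3) (d z3 z3)))) (d (a z3 (c (b (d z3 z3) (d z3 z3)) z11)) (a z3 (b (d z3 z3) (d z3 z3))))))) (d z11 (a (b (d z3 z3) (d z3 z3)) (b (d (a z3 (c (b (d z3 z3) (d z3 z3)) z11)) (a z3 (b (d z3 z3) (d z3 z3)))) (d (a z3 (c (b (d z3 z3) (d z3 z3)) z11)) (a z3 (b (d z3 z3) (d z3 z3)))))))) z11) (b (d z11 (a (b (d z3 z3) (d z3 z3)) (b (d (a (b (d z11 z3) z3) (b (d z11 z3) (d z11 z3))) (a (b (d z3 z0) (d z3 z0)) (b (d z3 z0) (d z3 z0)))) (d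 (a z3 (b (d z11 z3) (d z11 z3))) (a z3 (b (d z3 z0) (d z3 z0))))))) (d z11 (a (b (d z3 z3) (d z3 z3)) (b (d (a z3 (b (d z11 z3) (d z11 z3))) (a z3 (b (d z3 z0) (d z3 z0)))) (d (a z3 (b (d z11 z3) (d z11 z3))) (a z3 (b (d z3 z0) (d z3 z0)))))))))) _ _ (by decide +kernel)

theorem okA305 : CKA ⟨12288, 24576, 6144, 7168⟩ ⟨18432, 24576, 8192, 9216⟩ :=
  ckA_sound (a (b (d z15 (a (c z11 z15) z11)) (d (a (c (b (d (a z14 z15) (a z14 z15)) (d z14 (a z14 z15))) (b (d (a z14 z15) (a z14 z15)) z14)) z15) (a (c (b (d (a z10 z11) z11) (d (a z10 z11) z10)) (b z15 z14)) (c z11 z15)))) (b (d (c (b (d z15 (a (c z11 z15) (c z11 z15))) (d z15 (a (c z11 z15) (c z11 z15)))) z15) (c z11 (b (d z15 (a z15 (b (d z15 (c z11 z15)) (d z15 (c z11 z15))))) (d z15 (a z15 (b (d z15 (c z11 z15)) (d z15 (c z11 z15)))))))) (d (c (b (d z15 (a (c z11 z15) (c z11 z15))) (d z15 (a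 z15 (c z11 z15)))) z15) (c (b z11 z11) (b (d z15 (a z15 (b (d z15 (c z11 z15)) (d z15 (c z11 z15))))) (d z15 (a z15 (b (d z15 (c z11 z15)) (d z15 (c z11 z15)))))))))) _ _ (by decide +kernel)

theorem okA306 : CKA ⟨12288, 24576, 6144, 7168⟩ ⟨12288, 24576, 9216, 10240⟩ :=
  ckA_sound (a (b (d z11 (a (b (d z3 z0) (d z3 z0)) (b (d (a (b (d z11 z3) (d z11 z3)) (b (d z11 z3) (d z11 z3))) z0) (d (a z3 (b (d z11 z3) (d z11 z3))) z0)))) (d (a (b (d (c z11 (a z10 z11)) z11) (d (c z10 (a z10 z11)) z10)) z11) (a (b (d z3 z0) (d (a z2 z3) z0)) (b (d (a z3 (b (d z11 z3) z3)) z0) (d z3 z0))))) (b (d (b (d z11 z11) (d z11 z11)) (b (d (a (b (d z11 (a z3 (b (d z3 z0) (d z3 z0)))) (d z11 (a z3 (b (d z3 z0) z3)))) (b (d z11 (b (d (a z3 (b (d z3 z3) (d z3 z3))) z0) (d (a z3 (b (d z3 z3) (d z3 z3))) z0))) (d z11 (a (b (d z3 z0) (d z3 z0)) (b (d (b (d z3 z3) (d z3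 z3)) z0) (d (a z3 (b (d z3 z3) z3)) z0)))))) z0) (d (a (b (d z11 z3) (d z11 z3)) (b (d z11 (a (b (d z3 z0) (d z3 z0)) (b (d (b z3 z3) z0) (d (a z3 (b z3 z3)) z0)))) (d z11 (a (b (d z3 z0) (d z3 z0)) (b (d z3 z0) (d z3 z0)))))) z0))) (d (b (d z11 z11) (d z11 z11)) (b (d (a (b (d z11 z3) (d z11 z3)) (b (d z11 (a (b (d z3 z0) (d z3 z0)) (b (d z3 z0) (d z3 z0)))) (d z11 (a (b (d z3 z0) (d z3 z0)) (b (d z3 z0) (d z3 z0)))))) z0) (d (a (b (d z11 z3) (d z11 z3)) (b (d z11 (a (b (d z3 z0) z3) (b (d z3 z0) (d z3 z0)))) (d z11 (a z3 (b (d z3 z0) (d z3 z0)))))) z0))))) _ _ (by decide +kernel)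

theorem okA307 : CKA ⟨12288, 24576, 7168, 8192⟩ ⟨12288, 24576, 8192, 9216⟩ :=
  ckA_sound (a (c (b (d (a z10 z11) (a (b (d z10 (a z2 (b (d z2 z2) z2))) (d z10 z2)) (b (d z11 z3) (d z11 z3)))) (d (a z10 (c (b (d z11 z3) (d z10 z2)) (b z11 z10))) (a z2 (b (d z11 z3) (d z10 z2))))) (b (d (a (c (b (d z14 (a z14 (c (b (d (a z10 z11) z10) z10) z14))) z14) z14) z15) (a (c (b (d (a z10 (c z10 z14)) z10) z10) z14) (c z11 z15))) (d (a z14 (c (b z15 (d z14 (a z14 z15))) (b (d (a z14 z15) z15) z14))) (a (c z10 z14) (c (b z11 (d (a z10 z11) z10)) (b z15 z14)))))) (c (b (d (c (b (d z11 (a (b (d z3 z3) (d z3 z3)) (b (d (c (a z3 (b (d z3 z3) (d z3 z3))) z11) (a z3 (b (d z3 z3) (d z3 z3)))) (d (c (a z3 (b z3 z3)) z11) (a z3 (b (d z3 z3) (d z3 z3))))))) (d z11 (a (b (d z3 z3) z3) (b (d (c (a z3 (b z3 z3)) z11) (a z3 (b z3 z3))) (d z3 z3))))) z11) (b (d z11 (a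 (b (d z3 z3) (d z3 z3)) (b (d (a z3 (b (d z11 z3) (d z11 z3))) (a z3 (b (d z3 z0) (d z3 z0)))) (d (a z3 (b (d z11 z3) (d z11 z3))) (a z3 (b (d z3 z0) (d z3 z0))))))) (d z11 (a (b (d z3 z3) (d z3 z3)) (b (d (a z3 (b (d z11 z3) (d z11 z3))) (a z3 (b (d z3 z0) (d z3 z0)))) (d (a z3 (b (d z11 z3) (d z11 z3))) (a z3 (b (d z3 z0) (d z3 z0))))))))) (d (c (a (b (d z11 z3) (d z11 z3)) (b (d z11 (b (d z3 z3) (d z3 z3))) (d z11 (b (d z3 z3) (d z3 z3))))) z11) (a (b (d z11 (a z3 (b (d z3 z3) z3))) (d z11 z3)) (b (d z11 (b (d (a z3 (b z3 z3)) (a z3 (b (d z3 z0) z3))) (d z3 (a z3 (b z3 z3))))) (d z11 (b (d z3 z3) (d z3 z3))))))) (b (d (c (b (d z15 (a z15 (c z11 z15))) (d z15 (a z15 (c z11 z15)))) z15) (c (b z11 z11) (b (d z15 (a z15 (b (d z15 (c z11 z15)) (d z15 (c z11 z15))))) (d z15 (a z15 (b (d z15 (c z11 z15)) (d z15 (c z11 z15)))))))) (d (a z15 (c (b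 (d z15 (c z11 z15)) (d z15 (c z11 z15))) z15)) (a (c z11 z15) (c (b z11 z11) (b (d z15 (b (d z15 (c z11 z15)) z15)) (d z15 (b z15 z15))))))))) _ _ (by decide +kernel)

theorem okA308 : CKA ⟨12288, 24576, 7168, 8192⟩ ⟨12288, 24576, 9216, 10240⟩ :=
  ckA_sound (a (b (d (a z10 z11) (a (b (d (a z2 (b (d z10 z2) z2)) z0) (d z2 z0)) (b (d z3 z0) (d z3 z0)))) (d (a z10 (b z11 (d (c z10 (a z10 z11)) z10))) (a z2 (b (d z3 z0) (d (a z2 z3) z0))))) (b (d (b (d z11 z11) (d z11 z11)) (b (d (a (b (d z11 z3) (d z11 z3)) (b (d z11 (a (b (d z3 z0) z3) (b (d z3 z0) (d z3 z0)))) (d z11 (a z3 (b (d z3 z0) (d z3 z0)))))) z0) (d (a (b (d z11 z3) (d z11 z3)) (b (d z11 (a z3 (b (d z3 z0) (d z3 z0)))) (d z11 (a z3 (b (d z3 z0) (d z3 z0)))))) z0))) (d (a z11 (b (d (c z11 (b z11 z11)) z11) (d (c z11 (b z11 z11)) z11))) (a (b (d (a z3 (b (d z11 z3) (d z11 z3))) z0) (d z3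 z0)) (b (d (b (d z11 (a z3 (b (d z3 z0) (d z3 z0)))) (d z11 (a z3 (b (d z3 z0) (d z3 z0))))) z0) (d (b (d z11 (a z3 (b (d z3 z0) (d z3 z0)))) (d z11 (a z3 (b (d z3 z0) z3)))) z0)))))) _ _ (by decide +kernel)

theorem okA309 : CKA ⟨12288, 24576, 6144, 8192⟩ ⟨12288, 24576, 10240, 12288⟩ :=
  ckA_sound z0 _ _ (by decide +kernel)

theorem okA310 : CKA ⟨12288, 18432, 8192, 8704⟩ ⟨12288, 24576, 4096, 4608⟩ :=
  ckA_sound (a (c (b z14 (d (c (b z12 z12) (b z12 (d (c z12 (b z12 z12)) z12))) (c (b z12 z12) (b z12 z12)))) (b z14 (d (b (d (c (a (b z12 z12) z14) (a (b (d (c z12 (a (b z12 z12) z12)) (c z12 (a (b z12 z12) z12))) (d (c z12 (b z12 z12)) (c z12 (b z12 z12)))) z14)) (c (a (b z12 z12) z14) (a (b (d (c z12 (a (b z12 z12) z12)) (c z12 (a (b z12 z12) z12))) (d (c z12 (b z12 z12)) (c z12 (b z12 z12)))) z14))) (d (c (b z12 z12) (b (d (c z12 (a (b z12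 z12) z12)) (c z12 (a (b z12 z12) z12))) (d (c (b z12 z12) (b z12 z12)) (c (b z12 z12) (b z12 z12))))) (c (b z12 z12) (b (d (c z12 (a (b z12 z12) z12)) (c z12 (a (b z12 z12) z12))) (d (c (b z12 z12) (b z12 z12)) (c z12 (b z12 z12))))))) (c (b (d (a (c (b z12 z12) (b z12 z12)) z14) (a (c z12 (b z12 z12)) z14)) (d (c (b z12 z12) (b z12 z12)) (c (b z12 z12) (b z12 z12)))) (b (d (a (b (d (c z12 (a (b z12 z12) z12)) (c z12 (a (b z12 z12) z12))) (d (c z12 (b z12 z12)) (c z12 (b z12 z12)))) z14) (a (b (d (c z12 (a (b z12 z12) z12)) (c z12 (a (b z12 z12) z12))) (d (c z12 (b z12 z12)) (c z12 (b z12 z12)))) z14)) (d (b (d (c z12 (a (b z12 z12) z12)) (c z12 (a (b z12 z12) z12))) (d (c z12 (b z12 z12)) (c z12 (b z12 z12)))) (b (d (c z12 (a (b z12 z12) z12)) (c z12 (a (b z12 z12) z12))) (d (c z12 (b z12 z12)) (c z12 (b z12 z12)))))))))) z14) _ _ (by decide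 +kernel)

theorem okA311 : CKA ⟨12288, 18432, 8192, 8704⟩ ⟨12288, 24576, 4608, 5120⟩ :=
  ckA_sound (a (c (b z14 (d (c (b z12 z12) (b z12 z12)) (c (b z12 z12) (b z12 z12)))) (b z14 (d (b (d (c (a (b z12 z12) z14) (a (b (d (c z12 (a (b z12 z12) z12)) (c z12 (a (b z12 z12) z12))) (d (c z12 (b z12 z12)) (c z12 (b z12 z12)))) z14)) (c (a (c z12 (b z12 z12)) z14) (a (b (d (c z12 (a (b z12 z12) z12)) (c z12 (a (b z12 z12) z12))) (d (c z12 (b z12 z12)) (c z12 (b z12 z12)))) z14))) (d (c (b z12 z12) (b (d (c z12 (a (b z12 z12) z12)) (c z12 (a (b z12 z12) z12))) (d (c z12 (b z12 z12)) (c z12 (b z12 z12))))) (c (c (b z12 z12) (b z12 z12)) (b (d (c z12 (a (b z12 z12) z12)) (c z12 (a (b z12 z12) z12))) (d (c z12 (b z12 z12)) (c z12 (b z12 z12))))))) (c (b (d (a (c z12 (b z12 z12)) z14) (a (c z12 (b z12 z12)) z14)) (d (c z12 (b z12 z12)) (c z12 (b z12 z12))))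 (b (d (a (b (d (c z12 (a (b z12 z12) z12)) (c z12 (a (b z12 z12) z12))) (d (c z12 (b z12 z12)) (c z12 (b z12 z12)))) z14) (a (c (b z12 z12) (b (d (a (b z12 z12) z12) (a (c z12 (b z12 z12)) z12)) (d (b z12 z12) (c z12 (b z12 z12))))) z14)) (d (b (d (c z12 (a (b z12 z12) z12)) (c z12 (a (b z12 z12) z12))) (d (c z12 (b z12 z12)) (c z12 (b z12 z12)))) (c (b z12 z12) (b (d (a (b z12 z12) z12) (a (c z12 (b z12 z12)) z12)) (d (b z12 z12) (c z12 (b z12 z12))))))))))) z14) _ _ (by decide +kernel)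

theorem okA312 : CKA ⟨12288, 18432, 8704, 9216⟩ ⟨12288, 24576, 4096, 4608⟩ :=
  ckA_sound (c (b z14 (d (c (b z12 z12) (b (d (c z12 (b z14 z12)) (c z12 (b z14 z12))) (d (c (b z12 z0) (b z12 z0)) (c z12 (b z12 z0))))) (c (b z12 z12) (b (d (c z12 (b z14 z12)) z12) (d (c z12 (b z12 z0)) (c z12 (b z12 z0))))))) (b (d (a (b (d (c (a (b z12 z12) z14) (a (b (d (c (a (b z12 z12) z12) (a (b z12 z12) z12)) (c (a (b z12 z12) z12) (a (b z12 z12) z12))) (d (c (b z12 z12) (b z12 z12)) (c (b z12 z12) (b z12 z12)))) z14)) (c (a (b z12 z12) z14) (a (b (d (c (a (b z12 z12) z12) (a (b z12 z12) z12)) (c (a (b z12 z12) z12) (a (b z12 z12) z12))) (d (c (b z12 z12) (b z12 z12)) (c (b z12 z12) (b z12 z12)))) z14))) (d (c (b z12 z12) (b (d (c (b z12 z12) (b z12 z12)) (c (b z12 z12) (b z12 z12))) (d (c (b z12 z0) (b z12 z0)) (c (b z12 z0) (b z12 z0))))) (c (b z12 z12)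 (b (d (c (b z12 z12) (b z12 z12)) (c (b z12 z12) (b z12 z12))) (d (c (b z12 z0) (b z12 z0)) (c (b z12 z0) (b z12 z0))))))) z14) (a (c (b (d (a (c (b z12 z12) (b z12 z12)) z14) (a (c (b z12 z12) (b z12 z12)) z14)) (d (c (b z12 z12) (b z12 z12)) (c (b z12 z12) (b z12 z12)))) (b (d (a (b (d (c (a (b z12 z12) z12) (a (b z12 z12) z12)) (c z12 (a (b z12 z12) z12))) (d (c (b z12 z12) (b z12 z12)) (c (b z12 z12) (b z12 z12)))) z14) (a (b (d (c z12 (a (b z12 z12) z12)) (c z12 (a (b z12 z12) z12))) (d (c z12 (b z12 z12)) (c z12 (b z12 z12)))) z14)) (d (b (d (c (b z12 z12) (b z12 z12)) (c (b z12 z12) (b z12 z12))) (d (c (b z12 z0) (b z12 z0)) (c (b z12 z0) (b z12 z0)))) (b (d (c (b z12 z12) (b z12 z12)) (c z12 (b z12 z12))) (d (c (b z12 z0) (b z12 z0)) (c z12 (b z12 z0))))))) z14)) (d (b (d (c (b z14 z12) (b z14 (d (c (b z12 z12) (b (d z12 z12) (d z12 z12)))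 (c (b z12 z12) (b z12 (d z12 z12)))))) (c (b z14 z12) (b z14 (d (c (b z12 z12) (b z12 (d z12 z12))) (c (b z12 z12) (b z12 z12)))))) (d (c (b z12 z0) (b (d (c (b z12 z0) (b (d z12 z12) z0)) (c (b z12 z0) (b (d z12 z12) z0))) z0)) (c (b z12 z0) (b (d (c (b z12 z0) (b (d z12 z12) z0)) (c (b z12 z0) (b z12 z0))) z0)))) (c (b (d (c (b z14 z12) (b z14 z12)) (c (b z14 z12) (b z14 z12))) (d (c (b z12 z0) (b z12 z0)) (c (b z12 z0) (b z12 z0)))) (b (d (b z14 (d (c (b z12 z12) (b z12 z12)) (c (b z12 z12) (b z12 z12)))) (b z14 (d (c (b z12 z12) (b z12 z12)) (c (b z12 z12) (b z12 z12))))) (d (b (d (c (b z12 z0) (b z12 z0)) (c (b z12 z0) (b z12 z0))) z0) (b (d (c (b z12 z0) (b z12 z0)) (c (b z12 z0) (b z12 z0))) z0))))))) _ _ (by decide +kernel)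

theorem okA313 : CKA ⟨12288, 18432, 8704, 9216⟩ ⟨12288, 24576, 4608, 5120⟩ :=
  ckA_sound (c (b z14 (d (c (b z12 z12) (b (d (c z12 (b z14 z12)) z12) (d (c z12 (b z12 z0)) z12))) (c (b z12 z12) (b z12 z12)))) (b (d (a (b (d (c (a (b z12 z12) z14) (a (b (d (c z12 (a (b z12 z12) z12)) (c z12 (a (b z12 z12) z12))) (d (c z12 (b z12 z12)) (c z12 (b z12 z12)))) z14)) (c (a (c (b z12 z12) (b z12 z12)) z14) (a (b (d (c z12 (a (b z12 z12) z12)) (c z12 (a (b z12 z12) z12))) (d (c z12 (b z12 z12)) (c z12 (b z12 z12)))) z14))) (d (c (b z12 z12) (b (d (c (b z12 z12) (b z12 z12)) (c z12 (b z12 z12))) (d (c (b z12 z0) (b z12 z0)) (c (b z12 z0) (b z12 z0))))) (c (c (b z12 z12) (b z12 z12)) (b (d (c z12 (b z12 z12)) (c z12 (b z12 z12))) (d (c (b z12 z0) (b z12 z0)) (c z12 (b z12 z0))))))) z14) (a (c (b (d (a (c (b z12 z12) (b z12 z12)) z14) (a (c z12 (b z12 z12))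 z14)) (d (c (b z12 z12) (b z12 z12)) (c z12 (b z12 z12)))) (b (d (a (b (d (c z12 (a (b z12 z12) z12)) (c z12 (a (b z12 z12) z12))) (d (c z12 (b z12 z12)) (c z12 (b z12 z12)))) z14) (a (c (b z12 z12) (b (d (a (b z12 z12) z12) (a (c z12 (b z12 z12)) z12)) (d (b z12 z12) (c (b z12 z12) (b z12 z12))))) z14)) (d (b (d (c z12 (b z12 z12)) (c z12 (b z12 z12))) (d (c z12 (b z12 z0)) (c z12 (b z12 z0)))) (c (b z12 z12) (b (d (b z12 z12) (c (b z12 z12) (b z12 z12))) (d (b z12 z0) (c (b z12 z0) (b z12 z0)))))))) z14)) (d (b (d (c (b z14 z12) (b z14 (d (c (b z12 z12) (b z12 z12)) (c (b z12 z12) (b z12 z12))))) (c (c (b z14 z12) (b z14 z12)) (b z14 (d (c (b z12 z12) (b z12 z12)) (c (b z12 z12) (b z12 z12)))))) (d (c (b z12 z0) (b (d (c (b z12 z0) (b z12 z0)) (c (b z12 z0) (b z12 z0))) z0)) (c (c (b z12 z0) (b z12 z0)) (b (d (c (b z12 z0) (b z12 z0)) (c (b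 z12 z0) (b z12 z0))) z0)))) (c (b (d (c (b z14 z12) (b z14 z12)) (c (b z14 z12) (b z14 z12))) (d (c (b z12 z0) (b z12 z0)) (c (b z12 z0) (b z12 z0)))) (b (d (b z14 (d (c (b z12 z12) (b z12 z12)) (c z12 (b z12 z12)))) (c (b z14 z12) (b z14 (d (b z12 z12) (c (b z12 z12) (b z12 z12)))))) (d (b (d (c (b z12 z0) (b z12 z0)) (c z12 (b z12 z0))) z0) (c (b z12 z0) (b (d (b z12 z0) (c (b z12 z0) (b z12 z0))) z0)))))))) _ _ (by decide +kernel)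

theorem okA314 : CKA ⟨18432, 24576, 8192, 9216⟩ ⟨12288, 24576, 4096, 5120⟩ :=
  ckA_sound (b (d (c (a (b z15 (d (c z15 (a z14 z15)) (c z15 (a z14 z15)))) z15) (a (b (d z15 z15) (d (a z14 z15) (a z14 z15))) z15)) (c (a (b z15 (d (c z15 (a z14 z15)) z15)) z15) (a (b (d z15 z15) (d (a z14 z15) (c (a z14 z15) (a z14 z15)))) z15))) (d (c z14 (a (b z14 (d z14 z14)) (b z15 (d (b z15 (d (a z14 z15) (a z14 z15))) (c z15 (b z15 (d (a z14 z15) (a z14 z15)))))))) (c z14 (a (b z14 (d z14 z14)) (b z15 (d (b z15 (d (a z14 z15) (c z15 (a z14 z15)))) (c z15 (b z15 (d (a z14 z15) (a z14 z15)))))))))) _ _ (by decide +kernel)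

end Vale.Agent.Lib.P154Q5
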