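import Vale.Agent.Lib.P154Q5.CkADefs

namespace Vale.Agent.Lib.P154Q5

set_option maxRecDepth 100000
set_option exponentiation.threshold 1000

open Tr

theorem okA315 : CKA ⟨12288, 18432, 8192, 8704⟩ ⟨12288, 24576, 5120, 6144⟩ :=
  ckA_sound (d (c z14 (a (b (d z14 z14) (d (c (b (d (a (c z12 (b z12 z12)) z14) (a (c z12 (b z12 z12)) z14)) (d (c z12 (b z12 z12)) (c z12 (b z12 z12)))) (b (d (a (b (d (c z12 (a (b z12 z12) z12)) (c z12 (a (b z12 z12) z12))) (d (c z12 (b z12 z12)) (c z12 (b z12 z12)))) z14) (a (c (b z12 z12) (b (d (a (b z12 z12) z12) (a (c z12 (b z12 z12)) z12)) (d (b z12 z12) (c z12 (b z12 z12))))) z14)) (d (b (d (c z12 (a (b z12 z12) z12)) (c z12 (a (b z12 z12) z12))) (d (c z12 (b z12 z12)) (c z12 (b z12 z12)))) (c (b z12 z12) (b (d (a (b z12 z12) z12) (a (c z12 (b z12 z12)) z12)) (d (b z12 z12) (c z12 (b z12 z12)))))))) (c (b (d (a (c z12 (b z12 z12))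 z14) z12) (d (c z12 (b z12 z12)) z12)) (b (d (a (c (b z12 z12) (b (d (a (b z12 z12) z12) (a (c z12 (b z12 z12)) z12)) (d (b z12 z12) (c z12 (b z12 z12))))) z14) (a (c (b z12 z12) (b (d (a (c z12 (b z12 z12)) z12) (a (c z12 (b z12 z12)) z12)) (d (c z12 (b z12 z12)) (c z12 (b z12 z12))))) z14)) (d (c (b z12 z12) (b (d (a (b z12 z12) z12) (a (c z12 (b z12 z12)) z12)) (d (b z12 z12) (c z12 (b z12 z12))))) (c (b z12 z12) (b (d (a (c z12 (b z12 z12)) z12) (c z12 (a (b z12 z12) z12))) (d (c z12 (b z12 z12)) (c z12 (b z12 z12)))))))))) z14)) (c z14 (a (b z14 (d (c (b (d (a (c z12 (b z12 z12)) z14) z12) (d (c z12 (b z12 z12)) z12)) (b (d (a (c (b z12 z12) (b (d z12 z12) (d (b z12 z12) (b z12 z12)))) z14) (a (c (b z12 z12) (b (d z12 z12) (d z12 z12))) z14)) (d (c (b z12 z12) (b (d (a (b z12 z12) z12) (a (b z12 z12) z12)) (d (b z12 z12) (b z12 z12)))) (c (b z12 z12) (b (d (a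 (b z12 z12) z12) z12) (d (b z12 z12) (c z12 (b z12 z12)))))))) (c (b z12 z12) (b (d (a (c (b z12 z12) (b z12 (d z12 z12))) z14) (c (a (b z12 z12) z14) (a (b z12 z12) z14))) (d (c (b z12 z12) (b (d z12 z12) (d (b z12 z12) z12))) (c (b z12 z12) (b (d z12 z12) (d z12 z12)))))))) z14))) _ _ (by decide +kernel)

theorem okA316 : CKA ⟨12288, 18432, 8704, 9216⟩ ⟨12288, 24576, 5120, 6144⟩ :=
  ckA_sound (d (c (b z14 (d (c (b z12 z12) (b z12 z12)) (c (b z12 z12) (b z12 z12)))) (b (d z14 z14) (d (c (b (d (c (b z14 z12) (b z14 z12)) (c z12 (b z14 z12))) (d (c (b z12 z0) (b z12 z0)) (c z12 (b z12 z0)))) (b (d (b z14 (d (c z12 (b z12 z12)) (c z12 (b z12 z12)))) (c (b z14 z12) (b z14 (d (b z12 z12) (c (b z12 z12) (b z12 z12)))))) (d (b (d (c z12 (b z12 z0)) (c z12 (b z12 z0))) z0) (c (b z12 z0) (b (d (b z12 z0) (c (b z12 z0) (b z12 z0))) z0))))) (c (b (d (c z12 (b z14 z12)) (c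 z12 (b z14 z12))) (d (c z12 (b z12 z0)) (c z12 (b z12 z0)))) (b (d (c (b z14 z12) (b z14 (d (b z12 z12) (c (b z12 z12) (b z12 z12))))) (c (b z14 z12) (b z14 (d (c (b z12 z12) (b z12 z12)) (c z12 (b z12 z12)))))) (d (c (b z12 z0) (b (d (b z12 z0) (c (b z12 z0) (b z12 z0))) z0)) (c (b z12 z0) (b (d (c (b z12 z0) (b z12 z0)) (c z12 (b z12 z0))) z0)))))))) (c (b z14 (d (c (b z12 z12) (b z12 z12)) (c z12 (b z12 z12)))) (b (d z14 z14) (d (c (b (d (c z12 (b z14 z12)) (c z12 (b z14 z12))) (d (c z12 (b z12 z0)) (c z12 (b z12 z0)))) (b (d (c (b z14 z12) (b z14 (d (b z12 z12) (b z12 z12)))) (c (b z14 z12) (b z14 (d (b z12 z12) (c z12 (b z12 z12)))))) (d (c (b z12 z0) (b (d (b z12 z0) (b z12 z0)) z0)) (c (b z12 z0) (b (d (b z12 z0) (c z12 (b z12 z0))) z0))))) (c (b (d (c z12 (b z14 z12)) z12) (d (c z12 (b z12 z0)) z12)) (b (d (c (b z14 z12) (b z14 (d (b z12 z12) (c z12 (b z12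 z12))))) (c (b z14 z12) (b z14 (d (c z12 (b z12 z12)) (c z12 (b z12 z12)))))) (d (c (b z12 z0) (b (d (b z12 z0) (c z12 (b z12 z0))) z0)) (c (b z12 z0) (b (d (c z12 (b z12 z0)) (c z12 (b z12 z0))) z0))))))))) _ _ (by decide +kernel)

theorem okA317 : CKA ⟨18432, 24576, 8192, 9216⟩ ⟨12288, 24576, 5120, 6144⟩ :=
  ckA_sound (b (d (c z15 (a (b (d z15 z15) (d (c (a z14 z15) (a z14 z15)) (c (a z14 z15) (a z14 z15)))) z15)) (c z15 (a (b (d z15 z15) (d (c (a z14 z15) (a z14 z15)) (c (a z14 z15) (a z14 z15)))) z15))) (d (c z14 (a (b z14 (d z14 z14)) (b z15 (d (c z15 (b z15 (d (a z14 z15) (a z14 z15)))) (c z15 (b z15 (d (a z14 z15) (a z14 z15)))))))) (c (a z14 z15) (a z14 (b z15 (d (c z15 (b z15 (d (a z14 z15) (a z14 z15)))) (c z15 (b z15 (d (a z14 z15) (a z14 z15)))))))))) _ _ (by decide +kernel)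

theorem okA318 : CKA ⟨12288, 24576, 9216, 9728⟩ ⟨12288, 24576, 4096, 5120⟩ :=
  ckA_sound (d (c (b z14 z14) (b (d (a (b z14 z14) z14) (a (c z14 (b z14 z14)) z14)) (d (a (b z14 (d (c (b (d (c z12 (b z14 z12)) (c z12 (b z14 z12))) (d (c z12 (b z12 z0)) (c z12 (b z12 z0)))) (b (d (c (b z14 z12) (b z14 (d (c z12 (a (b z12 z12) z14)) (c z12 (a (b z12 z12) z14))))) (c (b z14 z12) (b z14 (d (c z12 (a (b z12 z12) z14)) (c z12 (a (b z12 z12) z14)))))) (d (c (b z12 z0) (b (d (c z12 (b z12 z12)) (c z12 (b z12 z12))) z0)) (c (b z12 z0) (b (d (c z12 (b z12 z12)) (c z12 (b z12 z12))) z0))))) (c (b (d (c z12 (b z14 z12)) z12) (d (c z12 (b z12 z0)) z12)) (b (d (c (b z14 z12) (b z14 (d (c z12 (a (b z12 z12) z14)) (c z12 (a (b z12 z12) z14))))) (c (b z14 z12) (b z14 (d (c z12 (a (b z12 z12) z14)) (c z12 (a (b z12 z12) z14)))))) (d (c (b z12 z0) (b (d (c z12 (b z12 z12)) (c z12 (b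 z12 z12))) z0)) (c (b z12 z0) (b (d (c z12 (b z12 z12)) (c z12 (b z12 z12))) z0))))))) z14) (a (c (b z14 (d (c (b z12 z12) (b (d (b z14 z12) z12) (d (b z12 z0) z12))) (c (b z12 z12) (b z12 z12)))) (b z14 (d (b (d (c (b z14 z12) (b z14 (d (c z12 (a (b z12 z12) z14)) (c z12 (a (b z12 z12) z14))))) (c (b z14 z12) (b z14 (d (c z12 (a (b z12 z12) z14)) (c z12 (a (b z12 z12) z14)))))) (d (c (b z12 z0) (b (d (c z12 (b z12 z12)) (c z12 (b z12 z12))) z0)) (c (b z12 z0) (b (d (c z12 (b z12 z12)) (c z12 (b z12 z12))) z0)))) (b (d (c (b z14 z12) (b z14 (d (c z12 (a (b z12 z12) z14)) (c z12 (a (b z12 z12) z14))))) (c (b z14 z12) (b z14 (d (c z12 (a (b z12 z12) z14)) z12)))) (d (c (b z12 z0) (b (d (c z12 (b z12 z12)) (c z12 (b z12 z12))) z0)) (c (b z12 z0) (b (d (c z12 (b z12 z12)) z12) z0))))))) z14)))) (c z14 (b (d (a (b z14 z14) z14) (a (c z14 (b z14 z14)) z14)) (d (a (b z14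 (d (c (b z12 z12) (b (d (c (b z14 z12) (b z14 (d z12 z12))) (c (b z14 z12) (b z14 (d z12 z12)))) (d (c (b z12 z0) (b (d z12 z12) z0)) (c (b z12 z0) (b (d z12 z12) z0))))) (c (c (b z12 z12) (b z12 z12)) (b (d (c (b z14 z12) (b z14 z12)) (c (b z14 z12) (b z14 z12))) (d (c (b z12 z0) (b z12 z0)) (c (b z12 z0) (b z12 z0))))))) z14) (c z14 (a (b z14 (d (b (d (c (b z14 z12) (b z14 z12)) (c (b z14 z12) (b z14 z12))) (d (c (b z12 z0) (b z12 z0)) (c (b z12 z0) (b z12 z0)))) (c (b (d (c z12 (b z14 z12)) z12) (d (c z12 (b z12 z0)) z12)) (b (d (b z14 z12) (c (b z14 z12) (b z14 z12))) (d (b z12 z0) (c (b z12 z0) (b z12 z0))))))) z14)))))) _ _ (by decide +kernel)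

theorem okA319 : CKA ⟨12288, 24576, 9728, 10240⟩ ⟨12288, 24576, 4096, 5120⟩ :=
  ckA_sound (d (c (b (d (c (b z14 (d (c z4 (b z12 z0)) z12)) (b z14 (d (c (b z12 z0) (b z12 z0)) (c (b z12 z0) (b z12 z0))))) (c (b z14 z12) (b z14 (d (c (b z12 z0) (b z12 z0)) (c z12 (b z12 z0)))))) z0) (b (d (b (d z14 z14) (d (c (b (d (c z12 (b z12 z12)) (c z12 (b z12 z12))) z0) (b (d (c (b z12 z12) (b (d (c z12 (b z12 z12)) (c z12 (b z12 z12))) (d (c z12 (b z12 z0)) (c z12 (b z12 z0))))) (c (b z12 z12) (b (d (c z12 (b z12 z12)) (c z12 (b z12 z12))) (d (c z12 (b z12 z0)) (c z12 (b z12 z0)))))) z0)) (c (b (d (c z12 (b z12 z12)) (c z12 (b z12 z12))) z0) (b (d (c (b z12 z12) (b (d (c z12 (b z12 z12)) (c z12 (b z12 z12))) (d (c z12 (b z12 z0)) (c z12 (b z12 z0))))) (c (b z12 z12) (b (d (c z12 (b z12 z12)) (c z12 (b z12 z12))) (d (c z12 (b z12 z0)) (c z12 (b z12 z0)))))) z0)))) (c (b z14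 (d (c (b z12 z0) (b (d (b z12 z12) z12) z0)) (c (b z12 z0) (b z12 z0)))) (b z14 (d (b (d (c (b z12 z12) (b (d (c z12 (b z12 z12)) (c z12 (b z12 z12))) (d (c z12 (b z12 z0)) (c z12 (b z12 z0))))) (c (b z12 z12) (b (d (c z12 (b z12 z12)) (c z12 (b z12 z12))) (d (c z12 (b z12 z0)) (c z12 (b z12 z0)))))) z0) (b (d (c (b z12 z12) (b (d (c z12 (b z12 z12)) (c z12 (b z12 z12))) (d (c z12 (b z12 z0)) (c z12 (b z12 z0))))) (c (b z12 z12) (b (d z12 z12) (d z12 z12)))) z0))))) z0)) (c (b (d (c (b z14 z12) (b z14 (d (c z12 (b z12 z0)) (c z12 (b z12 z0))))) (c (b z14 z12) (b z14 (d (c z12 (b z12 z0)) z12)))) z0) (b (d (b z14 (d (c (b z12 z0) (b (d (c (b z12 z12) (b (d z12 z12) (d z12 z12))) (c (b z12 z12) (b (d z12 z12) z12))) z0)) (c (c (b z12 z0) (b z12 z0)) (b (d (c (b z12 z12) (b z12 z12)) (c (b z12 z12) (b z12 z12))) z0)))) (c (b z14 (d (c (b z12 z0) (b z12 z0)) (c (b z12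 z0) (b z12 z0)))) (b z14 (d (b (d (c (b z12 z12) (b z12 z12)) (c (b z12 z12) (b z12 z12))) z0) (c (b (d (c z12 (b z12 z12)) z12) z0) (b (d (b z12 z12) (c (b z12 z12) (b z12 z12))) z0)))))) z0))) _ _ (by decide +kernel)

theorem okA320 : CKA ⟨12288, 24576, 9216, 10240⟩ ⟨12288, 24576, 5120, 6144⟩ :=
  ckA_sound (b (d (c z14 (b (d (a (c z14 (b z14 z14)) z14) (a (c z14 (b z14 z14)) z14)) (d (c z14 (a (b z14 (d (b (d (c (b z14 z12) (b z14 z12)) (c (b z14 z12) (b z14 z12))) (d (c (b z12 z0) (b z12 z0)) (c (b z12 z0) (b z12 z0)))) (c (b (d (c z12 (b z14 z12)) z12) (d (c z12 (b z12 z0)) z12)) (b (d (b z14 z12) (c (b z14 z12) (b z14 z12))) (d (b z12 z0) (c (b z12 z0) (b z12 z0))))))) z14)) (c z14 (a (b z14 (d (c (b z12 z12) (b (d (b z14 z12) (c (b z14 z12) (b z14 z12))) (d (b z12 z0) (c (b z12 z0) (b z12 z0))))) (c (b z12 z12) (b (d (c (b z14 z12) (b z14 z12)) (c (b z14 z12)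 (b z14 z12))) (d (c (b z12 z0) (b z12 z0)) (c (b z12 z0) (b z12 z0))))))) z14))))) (c z14 (b (d (a (c z14 (b z14 z14)) z14) (a (c z14 (b z14 z14)) z14)) (d (c z14 (a (b z14 (d (c (b z12 z12) (b (d (b z14 z12) (b z14 z12)) (d (b z12 z0) (b z12 z0)))) (c (b z12 z12) (b (d (b z14 z12) (c z12 (b z14 z12))) (d (b z12 z0) (c z12 (b z12 z0))))))) z14)) (c z14 (a (b z14 (d (c (b z12 z12) (b (d (b z14 z12) (c z12 (b z14 z12))) (d (b z12 z0) (c z12 (b z12 z0))))) (c (b z12 z12) (b (d (c z12 (b z14 z12)) (c z12 (b z14 z12))) (d (c z12 (b z12 z0)) (c z12 (b z12 z0))))))) z14)))))) (d (c (b (d (c (b z14 z12) (b z14 z12)) (c (b z14 z12) (b z14 z12))) z0) (b (d (c (b z14 (d (c (b z12 z0) (b z12 z0)) (c (b z12 z0) (b z12 z0)))) (b z14 (d (b (d (c (b z12 z12) (b z12 z12)) (c (b z12 z12) (b z12 z12))) z0) (c (b (d (c z12 (b z12 z12)) z12) z0) (b (d (b z12 z12) (c (b z12 z12) (b z12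 z12))) z0))))) (c (b z14 (d (c (b z12 z0) (b z12 z0)) (c z12 (b z12 z0)))) (b z14 (d (c (b z12 z0) (b (d (b z12 z12) (c (b z12 z12) (b z12 z12))) z0)) (c (b z12 z0) (b (d (c (b z12 z12) (b z12 z12)) (c (b z12 z12) (b z12 z12))) z0)))))) z0)) (c (b (d (c (b z14 z12) (b z14 z12)) (c z12 (b z14 z12))) z0) (b (d (c (b z14 (d (c z12 (b z12 z0)) (c z12 (b z12 z0)))) (b z14 (d (c (b z12 z0) (b (d (b z12 z12) (b z12 z12)) z0)) (c (b z12 z0) (b (d (b z12 z12) (c z12 (b z12 z12))) z0))))) (c (b z14 (d (c z12 (b z12 z0)) z12)) (b z14 (d (c (b z12 z0) (b (d (b z12 z12) (c z12 (b z12 z12))) z0)) (c (b z12 z0) (b (d (c z12 (b z12 z12)) (c z12 (b z12 z12))) z0)))))) z0)))) _ _ (by decide +kernel)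

theorem okA321 : CKA ⟨12288, 24576, 8192, 9216⟩ ⟨12288, 24576, 6144, 7168⟩ :=
  ckA_sound (a (c (b (d z14 (a (c (b z10 (d z12 (c z8 z12))) (b z14 z12)) (c (b (d (a z14 (c z10 z14)) (a z10 (c z10 z14))) (d z14 z10)) z14))) (d (c (b z14 z12) (b z14 (d (c (b z12 z12) (b z12 z12)) (c z12 (b z12 z12))))) (c (b (d z14 z10) (d z12 (c z8 z12))) (b z14 z12)))) (b (d (a (b z14 (d (c (b z12 z12) (b (d (a (b z12 z12) z14) (a (c (b z12 z12) (b z12 z12)) z14)) (d (b z12 (d z12 z12)) (c (b z12 z12) (b z12 z12))))) (c (b z12 z12) (b (d (a (c (b z12 z12) (b z12 z12)) z14) (a (c z12 (b z12 z12)) z14)) (d (c (b z12 z12) (b z12 z12)) (c (b z12 z12) (b z12 z12))))))) z14) (a (b z14 (d (c (b z12 z12) (b (d (a (c z12 (b z12 z12)) z14) (c z12 (a (b z12 z12) z14))) (d (c z12 (b z12 z12)) (c z12 (b z12 z12))))) (c (b z12 z12) (b (d (c z12 (a (b z12 z12) z14)) (c z12 (a (b z12 z12) z14)))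 (d (c z12 (b z12 z12)) (c z12 (b z12 z12))))))) z14)) (d (b (d z14 z14) (d (c (b (d (c z12 (b z14 z12)) z12) (d (c z12 (b z12 z0)) z12)) (b (d (b z14 (d (c z12 (b z12 z12)) (c z12 (b z12 z12)))) (c (b z14 z12) (b z14 (d z12 z12)))) (d (b (d (c z12 (b z12 z0)) (c z12 (b z12 z0))) z0) (c (b z12 z0) (b (d (b z12 z0) z12) z0))))) (c (b z12 z12) (b (d (c (b z14 z12) (b z14 (d z12 z12))) (c (b z14 z12) (b z14 z12))) (d (c (b z12 z0) (b (d z12 z12) z0)) (c (b z12 z0) (b (d z12 z12) z0))))))) (b (d z14 z14) (d (c (b z12 z12) (b (d (c (b z14 z12) (b z14 z12)) (c z12 (b z14 z12))) (d (c (b z12 z0) (b z12 z0)) (c z12 (b z12 z0))))) (c (b z12 z12) (b (d (c z12 (b z14 z12)) (c z12 (b z14 z12))) (d (c z12 (b z12 z0)) (c z12 (b z12 z0)))))))))) (c (b (d z15 (c (a (b (d (c z11 z15) z11) (d (c z11 z15) (c z11 z15))) (b z11 (d (c z11 z15) z11))) z15)) (d (c (a z14 z15) z14) (c (a (b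 (d (c z10 z14) (c z10 z14)) (d z14 z10)) (b (d z15 z11) (d z15 z11))) (a z14 z15)))) (b (d (a (b (d z15 z15) (d (c (a z14 z15) (a z14 z15)) (c (a z14 z15) (a z14 z15)))) z15) (a (b (d z15 z15) (d (c (a z14 z15) (a z14 z15)) (c z15 (a z14 z15)))) z15)) (d (a z14 (b z15 (d (c z15 (b z15 (d (a z14 z15) (a z14 z15)))) (c z15 (b z15 (d (a z14 z15) (a z14 z15))))))) (a (b (d z14 z14) z14) (b z15 (d (c z15 (b z15 (d (a z14 z15) (a z14 z15)))) (c z15 (b z15 (d (a z14 z15) (a z14 z15))))))))))) _ _ (by decide +kernel)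

theorem okA322 : CKA ⟨12288, 24576, 8192, 9216⟩ ⟨12288, 24576, 7168, 8192⟩ :=
  ckA_sound (a (c (b (d (a (c (b z10 (d (c z8 (b z8 z8)) z8)) (b z14 z12)) (c z10 z14)) (a (c z8 (b z10 (d z12 z8))) (c z10 (b (d z14 z10) (d z14 z10))))) (d (c (b z10 (d (c z8 (b z8 z8)) z8)) (b z14 z12)) (c z8 (b z10 (d z12 z8))))) (b (d (a (b z14 (d (c (b z12 z12) (b (d (a (c z12 (b z12 z12)) z14) (a (c z12 (b z12 z12)) z14)) (d (c z12 (b z12 z12)) (c z12 (b z12 z12))))) (c (b z12 z12) (b (d (a (c z12 (b z12 z12)) z14) z12) (d (c z12 (b z12 z12)) z12))))) z14) (a (c (b z14 z12) (b z14 (d (b (d z12 z12) (d z12 z12)) (b z12 z12)))) z14)) (d (b z14 (d (c (b z12 z12) (b (d (c z12 (b z14 z12)) (c z12 (b z14 z12))) (d (c z12 (b z12 z0)) (c z12 (b z12 z0))))) (c (b z12 z12) (b (d (c z12 (b z14 z12)) (c z12 (b z14 z12))) (d (c z12 (b z12 z0)) (c z12 (b z12 z0))))))) (c (b z14 (d (c z12 (b z12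 z12)) z12)) (b z14 (d (b (d (c z12 (b z14 z12)) z12) (d (c z12 (b z12 z0)) (c z12 (b z12 z0)))) (b (d z12 z12) (d z12 z12)))))))) (c (b (d (c (a (b z11 (d (c z11 (a (b (d (c z10 z14) z10) z10) z11)) z11)) z11) z15) (c z11 (a (b (d z15 z11) (d z15 (c z11 z15))) (b (d (c z11 z15) z11) (d z15 z11))))) (d (c (a (b (d (c z10 (a z10 z11)) z10) z10) z11) (a z14 z15)) (c (a z10 z11) (a (b (d z14 (c z10 z14)) (d z14 z10)) (b (d z15 z11) (d z15 z11)))))) (b (d (a (b (d z15 z15) (d (c z15 (a z14 z15)) (c z15 (a z14 z15)))) z15) (a (c z15 (b (d z15 z15) (d (a z14 z15) (a z14 z15)))) z15)) (d (a (b (d z14 z14) z14) (b z15 (d (c z15 (b z15 (d (a z14 z15) (a z14 z15)))) (c z15 (b z15 (d (a z14 z15) (a z14 z15))))))) (a (c z14 (b (d z14 z14) z14)) (c z15 (b z15 (d (b z15 (d (a z14 z15) z15)) (b z15 (d z15 z15)))))))))) _ _ (by decide +kernel)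

theorem okA323 : CKA ⟨12288, 24576, 9216, 10240⟩ ⟨12288, 24576, 6144, 8192⟩ :=
  ckA_sound (d (c (b (d z14 (c (b (d (a z14 (c z10 z14)) (a z10 (c z10 z14))) (d z14 z10)) z14)) (d (c (b z12 z0) (b (d (c (b z14 z12) (b z14 z12)) (c z12 (b z14 z12))) z0)) (c (b (d z12 (c z8 z12)) z0) (b (d (c z12 (b z14 z12)) z12) z0)))) (b (d (b (d z14 z14) (d z14 z14)) (b (d z14 z14) (d z14 z14))) (d (b (d (c (b z14 (d (c z12 (b z12 z0)) (c z12 (b z12 z0)))) (b z14 (d (b (d (c z12 (b z12 z12)) (c z12 (b z12 z12))) z0) (c (b z12 z0) (b (d (b z12 z12) (c z12 (b z12 z12))) z0))))) (c (b z14 z12) (b z14 (d (c (b z12 z0) (b (d (b z12 z12) (c z12 (b z12 z12))) z0)) (c (b z12 z0) (b (d z12 z12) z0)))))) z0) (b (d (c (b z14 z12) (b z14 (d (c (b z12 z0) (b (d z12 z12) z0)) (c (b z12 z0) (b z12 z0))))) (c (b z14 z12) (b z14 (d (c (b z12 z0) (b z12 z0)) (c z12 (b z12 z0)))))) z0)))) (c (b (d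 (c z10 z14) (c z10 (b (d z14 (a z10 (c z10 z14))) (d z14 z10)))) (d (c (b (d (c z8 (b z10 z8)) z8) z0) (b z12 z0)) (c z8 (b (d z12 (c z8 z12)) z0)))) (b (d (b (d z14 z14) (d z14 z14)) (c z14 (b (d (a z14 (b (d (a z14 z15) (a z14 z15)) z14)) (a z14 (b (d (c z15 (a z14 z15)) (c z15 (a z14 z15))) z14))) (d z14 z14)))) (d (b (d (c (b z14 z12) (b z14 (d (c (b z12 z0) (b z12 z0)) (c z12 (b z12 z0))))) (c (b z14 z12) (b z14 (d (c z12 (b z12 z0)) (c z12 (b z12 z0)))))) z0) (c (b (d (c z12 (b z14 z12)) z12) z0) (b (d (b z14 (d (c z12 (b z12 z0)) (c z12 (b z12 z0)))) (b z14 (d (c z12 (b z12 z0)) (c z12 (b z12 z0))))) z0)))))) _ _ (by decide +kernel)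

theorem okA324 : CKA ⟨12288, 24576, 10240, 12288⟩ ⟨12288, 24576, 4096, 8192⟩ :=
  ckA_sound z0 _ _ (by decide +kernel)

theorem okA325 : CKA ⟨12288, 24576, 8192, 12288⟩ ⟨12288, 24576, 8192, 12288⟩ :=
  ckA_sound (b (d (b (d (a (c (b (d z10 (a z0 (b (d z10 z2) z2))) (d (c z0 (b z10 z8)) z0)) (b z14 (d (c (b z14 z12) (b z14 (d (b z12 z12) z12))) (c (b z10 z8) (b z14 z12))))) (c (b (d z11 (a (b (d z11 z3) (d z11 z3)) (b (d z11 (b (d z3 z3) (d z3 z3))) (d z11 z3)))) (d (c (a (b (d z10 z2) z2) (b (d z11 z3) z3)) (a z10 z11)) (a (b (d z10 z2) z2) (b (d z11 z3) z3)))) (b (d (a (c z15 (b z15 (d (a z14 z15) z15))) (c (b (d z15 (c z11 z15)) z15) z15)) (a (c z11 z15) (c z11 z15))) (d (a z14 z15) (a (c z10 z14) (c z11 z15)))))) (a (b (d z10 (a z0 (b (d z2 z0) z2))) (d (b z10 z8) z0)) (b (d z11 (a (b (d z3 z0) (d z3 z0)) (b (d (b (d z11 z3) (d z11 z3)) z0) (d (b (d z11 z3) z3)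 z0)))) (d (a z10 z11) (a (b (d z2 z0) (d z2 z0)) (b (d z3 z0) (d z3 z0))))))) (d (c (b (d z10 (b (d z10 z2) z2)) (d (c z0 (b z8 z0)) z0)) (b z14 (d (c (b z12 z0) (b (d (b z14 z12) (b z14 z12)) z0)) (c (b z8 z0) (b z12 z0))))) (b (d (b (d (a z10 (c z10 (b z11 z10))) z10) z10) (b (d z2 z0) z2)) (d (b z8 z0) (b z0 z0))))) z0) z0) _ _ (by decide +kernel)

theorem okA326 : CKA ⟨0, 12288, 4096, 8192⟩ ⟨24576, 49152, 4096, 8192⟩ :=
  ckA_sound (a (b (d z0 (a (b z12 (d z0 z12)) z12)) (d z0 (b (d z0 (b (d z0 z12) (d z0 (b z12 z12)))) z0))) (b (d z0 (b (d z0 (a (b (d z0 (a z12 (b (d z0 (a z12 z13)) z12))) z14) (b z15 (d z0 (b z15 (d z0 (a (b z15 (d z0 (a z14 z15))) z15))))))) (d z0 (a z14 (b (d z0 (b (d z0 (a z14 z15)) (d z0 (a z14 z15)))) (d z0 (b (d z0 (a z14 z15)) z14))))))) (d z0 (b (d z0 z14) (d z0 (b (d z0 z14) (d z0 (b (d z0 (a (b z12 z12) z14)) (d z0 (b z12 z12))))))))))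 _ _ (by decide +kernel)

theorem okA327 : CKA ⟨0, 6144, 4096, 8192⟩ ⟨24576, 49152, 8192, 12288⟩ :=
  ckA_sound (b (d (a (b z12 (d z12 z12)) z12) (a (b z0 (d z8 z0)) (b (d z8 (b (d z8 z0) (d z8 z0))) (d z8 (b (d z8 z0) (d z8 z0)))))) (d (b (d (b (d z12 z12) (d (b z12 z12) (b z12 z12))) (b z12 (d z12 z12))) z0) (b (d (b (d z12 z12) (d z12 z12)) (b (d z8 z0) (d z8 z0))) z0))) _ _ (by decide +kernel)

theorem okA328 : CKA ⟨6144, 12288, 4096, 6144⟩ ⟨24576, 49152, 8192, 12288⟩ :=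
  ckA_sound (d (b (d (a (b (d (a z12 (b (d (a z12 z13) (a z12 z13)) z12)) (a z12 (b (d (a z12 z13) (a z12 z13)) z12))) z14) (b z15 (d (b z15 (d (a (b z15 (d z15 z15)) z15) z15)) z15))) (a (b (d (a z12 (b (d (c (a z12 z13) (a z12 z13)) (c (a z12 z13) (a z12 z13))) (d z12 (c (a z12 z13) z12)))) (a z12 (c (b z9 z8) (b z13 z12)))) z14) (b (d z15 (c z11 z15)) (d z15 (c z11 z15))))) (d (a z14 (b (d (b (d (a z14 z15) (a z14 z15)) (d (a z14 z15) (a z14 z15))) (b (d (a z14 z15) (a z14 z15)) (d (a z14 z15) (a z14 z15)))) (d (b (d (a z14 z15) (a z14 z15)) z14) (b (d (a z14 z15) (a z14 z15)) z14)))) (a z14 (b (d (b (d (a (c (b z15 z14) z14) z15) z15) (d (a z14 z15) (a z14 z15))) (c (b z11 (d z15 z11)) (b z15 (d (a z14 z15) z15)))) (d (b (d (a z14 z15) (a z14 z15)) z14) (c (b (d (a z14 z15) (a z10 z11)) (d (a z14 z15) z10)) z14)))))) (b (d (a (b (d (a z12 (c (b (d z9 z1) (d z8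 (a z0 z1))) z12)) z12) z10) (b z11 (d z15 z15))) (a (b (d z8 (a (b (d z4 z0) (d z4 z0)) (b (d (a z4 (b (d z13 z13) z5)) (a (b (d z4 z0) z0) (b (d z5 z1) (d z5 z1)))) (d z4 (a z0 (b (d z5 z1) (d z6 z2))))))) (d z10 (a (b (d z4 z0) (d z6 z2)) (b (d z6 (a z2 (b (d z6 z2) z2))) (d z6 z2))))) (b (d z11 (b (d (a (b (d z13 z13) (d z13 z13)) (b (d z13 z13) (d z15 z15))) (a (b (d z5 z1) (d z5 z1)) (b (d (a z5 (b (d z13 z13) (d z13 z13))) (a (b (d z5 z1) (d z5 z1)) (b (d z5 z1) (d z5 z1)))) (d (a z7 (b (d z15 z15) (d z15 z15))) (a (b (d z5 z1) z3) (b (d z7 z3) (d z7 z3))))))) (d (a (b (d z15 z15) (d z15 z15)) (b (d z15 z15) (d z15 z15))) (a (b (d z7 z3) (d z7 z3)) (b (d z7 (a z3 (b (d z7 z3) (d z7 z3)))) (d z7 z3)))))) (d z11 (b (d (a (b (d z15 z15) (d z15 z15)) (b (d z15 z15) (d z15 z15))) (a (b (d z7 z3) (d z7 z3)) (b (d z7 z3) (d z7 z3)))) (d (a z7 (b (d z15 z15) (d z15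 z15))) (a (b (d z7 z3) (d z7 z3)) (b (d z7 z3) (d z7 z3))))))))) (d (a z10 (b (d z15 z15) (d (c (b (d (a z10 z11) (a z2 z3)) (d z10 (a z2 z3))) z14) z14))) (a (b (d z10 (a z2 (b (d z6 z2) (d z6 z2)))) (d z10 z2)) (b (d z11 (b (d (a z6 (b (d z15 z15) z7)) (a z2 (b (d z7 z3) (d z7 z3)))) (d z7 (a z2 (b (d z7 z3) z3))))) (d z10 (b (d z6 z2) (d z6 z2)))))))) _ _ (by decide +kernel)

theorem okA329 : CKA ⟨6144, 12288, 6144, 8192⟩ ⟨24576, 49152, 8192, 12288⟩ :=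
  ckA_sound (d (b (d z14 z14) (d (b (d z14 z14) (d (b (d (a (b z12 z12) z14) z12) (d (b z12 z12) (b z12 z12))) (b (d z12 z12) (d z12 z12)))) (b (d z14 z14) (d (b z12 z12) (c z8 (b z12 z12)))))) (b (d (a (b (d z14 z14) (d z14 z14)) (b (d z14 z14) (d z14 z14))) (a (b (d z10 z2) (d z10 z2)) (b (d z10 (b (d z6 z2) (d z6 z2))) (d z10 z2)))) (d (b (d z14 z14) (d z12 z12)) (b (d z10 z2) (d z8 z0))))) _ _ (by decide +kernel)

end Vale.Agent.Lib.P154Q5
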