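import Vale.Agent.Lib.P154Q5.CkADefs

namespace Vale.Agent.Lib.P154Q5

set_option maxRecDepth 100000
set_option exponentiation.threshold 1000

open Tr

theorem okA330 : CKA ⟨0, 12288, 8192, 12288⟩ ⟨24576, 49152, 4096, 12288⟩ :=
  ckA_sound (d (b (d z0 (b (d z0 (b (d z0 (b (d z0 (b z12 z0)) z0)) z0)) z0)) z0) (b (d (b (d (b (d (b (d (b z12 z0) (b z12 z0)) z0) (b (d z12 z12) z0)) z0) (b (d (b (d z12 z12) z0) (c z8 (b z12 z0))) z0)) z0) (b (d (b (d z12 z12) z0) (b (d z8 z0) z0)) z0)) z0)) _ _ (by decide +kernel)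

theorem okA331 : CKA ⟨12288, 24576, 4096, 8192⟩ ⟨24576, 49152, 4096, 8192⟩ :=
  ckA_sound (b (d z0 z15) (d z0 (b (d z0 (a (b (d z0 (a (b z15 (d z0 (a (b z15 (d z0 z15)) z15))) z15)) (d z0 (a (b (d z0 (a z14 z15)) z14) z15))) z15)) (d z0 (a (b (d z0 (a z14 (b z15 (d z0 z15)))) (d z0 (a z14 (b (d z0 (a z14 z15)) (d z0 z14))))) z15))))) _ _ (by decide +kernel)

theorem okA332 : CKA ⟨12288, 24576, 4096, 6144⟩ ⟨24576, 49152, 8192, 10240⟩ :=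
  ckA_sound (b (d z15 (b (d (a z15 (b (d z15 (c (b (d z15 (a z15 (c (b (d z15 z11) (d z15 z11)) z15))) (d z15 (a z15 (c (b (d z15 z11) (d z15 z11)) z15)))) z15)) (d z15 (c (a z15 (b (d z15 (c (b (d z15 z11) (d z15 z11)) z15)) (d z15 (c (b (d z15 z11) (d z15 z11)) z15)))) z15)))) (a (c z11 z15) (c (b (d (c z11 (b z15 z15)) (b (d z11 z11) (d z11 z11))) (d (c z11 (a z15 (b z15 z15))) (a z11 (b (d z11 z11) (d z11 z11))))) (b z15 z15)))) (d (a z15 (b (d z15 (c (b (d z15 (a z15 (c (b (d z15 z11) (d z15 z11)) z15))) (d z15 (a z15 (c (b (d z15 z11) (d z15 z11)) z15)))) z15)) (d z15 (c (a z15 (b (d z15 (c (b (d z15 z11) (d z15 z11)) z15)) (d z15 (c (a z15 (b (d z15 z11) (d z15 z11))) z15)))) z15)))) (a (c z11 z15) (c (b (d (c z11 z15) (b (d z11 z11) (d z11 z11))) (d (a (c z11 z15) (c z11 z15)) (a z11 (b (d z11 z11) (d z11 z11))))) z15))))) (d z15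 (b (d (a z15 (b (d z15 (c (a z15 (b (d z15 (c (b (d z15 z11) (d z15 z11)) z15)) (d z15 (c (a z15 (b (d z15 z11) (d z15 z11))) z15)))) z15)) (d z15 (c (a z15 (b (d z15 (c (a z15 (b (d z15 z11) (d z15 z11))) z15)) (d z15 (c (a z15 (b (d z15 z11) (d z15 z11))) z15)))) z15)))) (a (c z11 z15) (c (b (d (c z11 z15) (a z11 (b (d z11 z11) z11))) (d (a (c z11 z15) (c z11 z15)) (a z11 (b z11 z11)))) z15))) (d (a z15 (b (d z15 (c (a z15 (b (d z15 (c (a z15 (b (d z15 z11) (d z15 z11))) z15)) (d z15 (c (a z15 (b (d z15 z11) (d z15 z11))) z15)))) z15)) (d z15 (c (a z15 (b (d z15 (c (a z15 (b (d z15 z11) z15)) z15)) (d z15 (c (a z15 (b z15 z15)) z15)))) z15)))) (a (c z11 z15) (c (b (d (a (c z11 z15) (c z11 z15)) (a z11 (b z11 z11))) (d (a (c z11 z15) (c z11 z15)) z11)) z15)))))) _ _ (by decide +kernel)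

theorem okA333 : CKA ⟨12288, 14693, 4096, 4608⟩ ⟨24576, 49152, 10240, 10752⟩ :=
  ckA_sound (c (b (d z11 (a (b (d z9 (a (b (d z1 z0) z3) (b (d z1 z0) (d z3 z0)))) (d z11 (a z3 (b (d z3 z0) (d z3 z0))))) (b (d z11 (a (b (d z1 z0) (d z3 z0)) (b (d z3 z0) (d z3 z0)))) (d z11 (a (b (d z3 z0) (d z3 z0)) (b (d z3 z0) (d z3 z0))))))) (d z11 (a (b (d z11 z3) (d z11 z3)) (b (d z11 (a (b (d z3 z0) (d z3 z0)) (b (d z3 z0) (d z3 z0)))) (d z11 (a (b (d z3 z0) (d z3 z0)) (b (d z3 z0) (d z3 z0)))))))) z15) _ _ (by decide +kernel)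

theorem okA334 : CKA ⟨14693, 24576, 4096, 4608⟩ ⟨24576, 49152, 10240, 10752⟩ :=
  ckA_sound (c (b (d (c (b (d z11 (a (b (d z11 (a z3 (b (d z3 z0) (d z3 z0)))) (d z11 (a z3 (b (d z3 z0) (d z3 z0))))) (b (d z11 (a (b (d z3 z0) (d z3 z0)) (b (d (a z3 (b (d z11 z3) (d z11 z3))) z0) (d (a z3 (b (d z11 z3) (d z11 z3))) z0)))) (d z11 (a (b (d z3 z0) (d z3 z0)) (b (d (a z3 (b (d z11 z3) (d z11 z3))) z0) (d (a z3 (b (d z11 z3) (d z11 z3))) z0))))))) (d z11 (a (b (d z11 (a z3 (b (d z3 z0) (d z3 z0)))) (d z11 (a z3 (b (d z3 z0) (d z3 z0))))) (b (d z11 (a (b (d z3 z0) (d z3 z0)) (b (d (a z3 (b z3 z3)) z0) (d (a z3 (b z3 z3)) z0)))) (d z11 (a (b (d z3 z0) (d z3 z0)) (b (d z3 z0) (d z3 z0)))))))) (b (d z15 (a z15 (b (d z15 z11) (d z15 z11)))) (d z15 (a z15 (b (d z15 z11) (d z15 z11)))))) (b (d z11 (a (b (d (a z3 (b (d z11 z3) (d z11 z3))) z0) (d (a z3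 (b (d z11 z3) (d z11 z3))) z0)) (b (d (a (b (d z11 z3) (d z11 z3)) (b (d z11 (a z3 (b z3 z3))) (d z11 z3))) z0) (d (a (b (d z11 z3) (d z11 z3)) (b (d z11 z3) (d z11 z3))) z0)))) (d z11 (a (b (d (a z3 (b (d z11 z3) (d z11 z3))) z0) (d (a z3 (b (d z11 z3) (d z11 z3))) z0)) (b (d (a (b (d z11 z3) (d z11 z3)) (b (d z11 z3) (d z11 z3))) z0) (d (a (b (d z11 z3) (d z11 z3)) (b (d z11 z3) (d z11 z3))) z0)))))) (d (a z11 (c (b (d z11 (b (d z11 (a (b (d z3 z0) (d z3 z0)) (b (d z3 z0) (d z3 z0)))) (d z11 (a (b (d z3 z0) (d z3 z0)) (b (d z3 z0) (d z3 z0)))))) (d z11 (b (d z11 (a (b (d z3 z0) (d z3 z0)) (b (d z3 z0) (d z3 z0)))) (d z11 (a (b (d z3 z0) (d z3 z0)) (b (d z3 z0) (d z3 z0))))))) (b (d z15 (b (d z15 z11) (d z15 z11))) (d z15 (b (d z15 z11) (d z15 z11)))))) (a (b (d z11 (a (b (d z3 z0) (d z3 z0)) (b (d (b (d z11 z3) (d z11 z3)) z0) (d (b (d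 z11 z3) z3) z0)))) (d z11 (a (b (d z3 z0) (d z3 z0)) (b (d z3 z0) (d z3 z0))))) (b (d z11 (b (d (a (b (d z11 z3) (d z11 z3)) (b (d z11 z3) (d z11 z3))) z0) (d (a (b (d z11 z3) (d z11 z3)) (b (d z11 z3) (d z11 z3))) z0))) (d z11 (b (d (a (b (d z11 z3) (d z11 z3)) (b (d z11 z3) (d z11 z3))) z0) (d (a (b (d z11 z3) (d z11 z3)) (b (d z11 z3) (d z11 z3))) z0))))))) (b (d z15 (b (d z15 (c (a z15 (b (d z15 z11) (d z15 z11))) z15)) (d z15 (c (a z15 (b (d z15 z11) (d z15 z11))) z15)))) (d z15 (a z15 (b (d z15 (c (b (d z15 z11) (d z15 z11)) z15)) (d z15 (c (b (d z15 z11) (d z15 z11)) z15))))))) _ _ (by decide +kernel)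

theorem okA335 : CKA ⟨12288, 24576, 4096, 4608⟩ ⟨24576, 49152, 10752, 11264⟩ :=
  ckA_sound (a (b (d (a z15 (c (b (d z11 (a (b (d z9 z1) (d z11 z3)) (b (d z11 z3) (d z11 z3)))) (d z11 (a (b (d z11 z3) (d z11 z3)) (b (d z11 z3) (d z11 z3))))) z15)) z15) (d z15 z15)) (b (d (c (b (d z11 (a (b (d z11 (a z3 (b (d z11 z3) (d z11 z3)))) (d z11 (a z3 (b (d z11 z3) (d z11 z3))))) (b (d z11 (a (b (d z11 z3) (d z11 z3)) (b (d z11 z3) (d z11 z3)))) (d z11 (a (b (d z11 z3) (d z11 z3)) (b (d z11 z3) (d z11 z3))))))) (d z11 (a (b (d z11 (a z3 (b (d z11 z3) (d z11 z3)))) (d z11 (a z3 (b (d z11 z3) (d z11 z3))))) (b (d z11 (a (b (d z11 z3) (d z11 z3)) (b (d z11 z3) (d z11 z3)))) (d z11 (a (b (d z11 z3) (d z11 z3)) (b (d z11 z3) (d z11 z3)))))))) z15) (b (d (a z15 (c z11 z15)) z15) (d (a z15 (c z11 z15)) z15))) (d (c (a (b (d z11 (a (b (d z11 z3) (d z11 z3))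 (b (d z11 (b (d z11 z3) (d z11 z3))) (d z11 z3)))) (d z11 (a (b (d z11 z3) (d z11 z3)) (b (d z11 z3) (d z11 z3))))) (b (d z11 (b (d z11 (a (b (d z11 z3) (d z11 z3)) (b (d z11 z3) (d z11 z3)))) (d z11 (a (b (d z11 z3) (d z11 z3)) (b (d z11 z3) (d z11 z3)))))) (d z11 (b (d z11 (a (b (d z11 z3) (d z11 z3)) (b (d z11 z3) (d z11 z3)))) (d z11 (a (b (d z11 z3) (d z11 z3)) (b (d z11 z3) (d z11 z3)))))))) z15) (a (b (d z15 z15) z15) (b (d z15 z15) (d z15 z15)))))) _ _ (by decide +kernel)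

theorem okA336 : CKA ⟨12288, 24576, 4608, 5120⟩ ⟨24576, 49152, 10240, 10752⟩ :=
  ckA_sound (a (c (b (d z11 (a (b (d z11 z3) (d z11 z3)) (b (d z11 (a (b (d z3 z0) (d z3 z0)) (b (d z3 z0) (d z3 z0)))) (d z11 (a z3 (b (d z3 z0) (d z3 z0))))))) (d z11 (a (b (d z11 z3) (d z11 z3)) (b (d z11 (a z3 (b (d z3 z0) (d z3 z0)))) (d z11 z3))))) z15) (c (b (d (c (b (d z11 (a (b (d z11 z3) (d z11 z3)) (b (d z11 (a (b (d z3 z0) (d z3 z0)) (b (d z3 z0) (d z3 z0)))) (d z11 (a (b (d z3 z0) (d z3 z0)) (b (d z3 z0) (d z3 z0))))))) (d z11 (a (a (b (d z11 z3) (d z11 z3)) (b (d z11 z3) (d z11 z3))) (b (d z11 (a (b (d z3 z0) (d z3 z0)) (b (d z3 z0) (d z3 z0)))) (d z11 (a (b (d z3 z0) (d z3 z0)) (b (d z3 z0) (d z3 z0)))))))) (b (d z15 (a z15 (b (d z15 z11) (d z15 z11)))) (d z15 (a z15 (b (d z15 z11) (d z15 z11)))))) (b (d z11 (a (b (d z3 z0) (d z3 z0)) (b (d (a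 (b (d z11 z3) (d z11 z3)) (b (d z11 z3) (d z11 z3))) z0) (d (a (b (d z11 z3) (d z11 z3)) (b (d z11 z3) (d z11 z3))) z0)))) (d z11 (a (a (b (d z3 z0) (d z3 z0)) (b (d z3 z0) (d z3 z0))) (b (d (a (b (d z11 z3) (d z11 z3)) (b (d z11 z3) (d z11 z3))) z0) (d (a (b (d z11 z3) (d z11 z3)) (b (d z11 z3) (d z11 z3))) z0)))))) (d (a z11 (c (b (d z11 (b (d z11 (a (b (d z3 z0) (d z3 z0)) (b (d z3 z0) (d z3 z0)))) (d z11 (a (b (d z3 z0) (d z3 z0)) (b (d z3 z0) (d z3 z0)))))) (d z11 (a (b (d z11 (a z3 (b (d z3 z0) (d z3 z0)))) (d z11 z3)) (b (d z11 (b (d z3 z0) (d z3 z0))) (d z11 (a (b (d z3 z0) (d z3 z0)) (b (d z3 z0) (d z3 z0)))))))) (b (d z15 (b (d z15 z11) (d z15 z11))) (d z15 (a z15 (b (d z15 z11) (d z15 z11))))))) (a (b (d z11 (a (b (d z3 z0) (d z3 z0)) (b (d z3 z0) (d z3 z0)))) (d z11 (a (b (d z3 z0) (d z3 z0)) (b (d z3 z0) (d z3 z0))))) (b (d z11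 (b (d (a (b (d z11 z3) (d z11 z3)) (b (d z11 z3) (d z11 z3))) z0) (d (a (b (d z11 z3) z3) (b (d z11 z3) (d z11 z3))) z0))) (d z11 (a (b (d (a z3 (b (d z11 z3) z3)) z0) (d z3 z0)) (b (d (b (d z11 z3) (d z11 z3)) z0) (d (a (b (d z11 z3) (d z11 z3)) (b (d z11 z3) (d z11 z3))) z0)))))))) (b (d z15 (b (d z15 (a z15 (c (b (d z15 z11) (d z15 z11)) z15))) (d z15 (a z15 (c (b z15 z15) z15))))) (d z15 (a z15 (b z15 z15)))))) _ _ (by decide +kernel)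

theorem okA337 : CKA ⟨12288, 24576, 4608, 5120⟩ ⟨24576, 49152, 10752, 11264⟩ :=
  ckA_sound (a (b (d z15 z15) (d z15 z15)) (b (d (c (b (d z11 (a (b (d z11 z3) (d z11 z3)) (b (d z11 (a (b (d z11 z3) (d z11 z3)) (b (d z11 z3) (d z11 z3)))) (d z11 (a (b (d z11 z3) (d z11 z3)) (b (d z11 z3) (d z11 z3))))))) (d z11 (a (a (b (d z11 z3) (d z11 z3)) (b (d z11 z3) (d z11 z3))) (b (d z11 (a (b (d z11 z3) (d z11 z3)) (b (d z11 z3) (d z11 z3)))) (d z11 (a (b (d z11 z3) z3) (b (d z11 z3) (d z11 z3)))))))) z15) (b (d z15 z15) (d z15 z15))) (d (a z15 (c (b (d z11 (b (d z11 (a (b (d z11 z3) z3) (b (d z11 z3) (d z11 z3)))) (d z11 (a z3 (b (d z11 z3) (d z11 z3)))))) (d z11 (a (b (d z11 z3) (d z11 z3)) (b (d z11 (b (d z11 z3) (d z11 z3))) (d z11 (a (b (d z11 z3) z3) (b (d z11 z3) (d z11 z3)))))))) z15)) (a z15 (b (d z15 z15) (d z15 z15)))))) _ _ (by decide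 +kernel)

theorem okA338 : CKA ⟨12288, 24576, 4096, 4608⟩ ⟨24576, 49152, 11264, 12288⟩ :=
  ckA_sound (d (a z11 (b (d (b (d z15 z15) (d z15 z15)) (b (d z15 z15) (d z15 z15))) (d (a z15 (b (d z15 z15) (d z15 z15))) (a z15 (b z15 z15))))) (a (b (d (a (b (d z13 z13) (d z15 z15)) (b (d z15 z15) (d z15 z15))) (a (b (d (a (b (d z13 z13) (d z15 z15)) (b (d z13 z13) (d z15 z15))) (a (b (d z5 z1) (d z7 z3)) (b (d z5 z1) (d z7 z3)))) (d (a (b (d z15 z15) (d z15 z15)) (b (d z15 z15) (d z15 z15))) (a (b (d z7 z3) (d z7 z3)) (b (d z7 z3) (d z7 z3))))) (b (d (a (b (d z13 z13) (d z15 z15)) (b (d z15 z15) (d z15 z15))) (a (b (d z5 z1) (d z7 z3)) (b (d z7 z3) (d z7 z3)))) (d (a (b (d z15 z15) (d z15 z15)) (b (d z15 z15) (d z15 z15))) (a (b (d z7 z3) (d z7 z3)) (b (d z7 z3) (d z7 z3))))))) (d (a (b (d z15 z15) (d z15 z15)) (b (d z15 z15) (d z15 z15))) (a (b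 (d (a (b (d z15 z15) (d z15 z15)) (b (d z15 z15) (d z15 z15))) (a (b (d z7 z3) (d z7 z3)) (b (d z7 z3) (d z7 z3)))) (d (a z7 (b (d z15 z15) (d z15 z15))) (a (b (d z7 z3) z3) (b (d z7 z3) (d z7 z3))))) (b (d (a (b (d z15 z15) (d z15 z15)) (b (d z15 z15) (d z15 z15))) (a (b (d z7 z3) (d z7 z3)) (b (d z7 z3) (d z7 z3)))) (d (a (b (d z15 z15) (d z15 z15)) (b (d z15 z15) (d z15 z15))) (a (b (d z7 z3) (d z7 z3)) (b (d z7 z3) (d z7 z3)))))))) (b (d (b (d z15 z15) (d z15 z15)) (b (d (a (b (d z15 z15) (d z15 z15)) (b (d z15 z15) (d z15 z15))) (a (b (d (a z7 (b (d z15 z7) z7)) z3) (d z7 z3)) (b (d (a (b (d z15 z7) (d z15 z7)) (b (d z15 z7) (d z15 z7))) (a (b (d z7 z3) (d z7 z3)) (b (d z7 z3) (d z7 z3)))) (d (a (b (d z15 z7) (d z15 z7)) (b (d z15 z7) (d z15 z7))) (a (b (d z7 z3) z3) (b (d z7 z3) (d z7 z3))))))) (d (a (b (d z15 z15) (d z15 z15)) (b (d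 z15 z15) (d z15 z15))) (a (b (d z7 z3) (d z7 z3)) (b (d (a z7 (b (d z15 z7) (d z15 z7))) (a z3 (b (d z7 z3) (d z7 z3)))) (d (a z7 (b (d z15 z7) (d z15 z7))) (a z3 (b z3 z3)))))))) (d (a (b (d z15 z15) (d z15 z15)) (b (d z15 z15) (d z15 z15))) (a (b (d (a (b (d z15 z15) (d z15 z15)) (b (d z15 z15) (d z15 z15))) (a (b (d z7 z3) (d z7 z3)) (b (d z7 z3) (d z7 z3)))) (d (a (b (d z15 z15) (d z15 z15)) (b (d z15 z15) (d z15 z15))) (a (b (d z7 z3) (d z7 z3)) (b (d z7 z3) (d z7 z3))))) (b (d (b (d z15 z15) (d z15 z15)) (b (d z7 z3) (d z7 z3))) (d (b (d z15 z15) (d z15 z15)) (b (d z7 z3) (d z7 z3))))))))) _ _ (by decide +kernel)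

theorem okA339 : CKA ⟨12288, 24576, 4608, 5120⟩ ⟨24576, 49152, 11264, 12288⟩ :=
  ckA_sound (d (a z11 (b (d (b (d z15 z15) (d z15 z15)) z15) z11)) (a (b (d (a (b (d z15 z15) (d z15 z15)) (b (d z15 z15) (d z15 z15))) (a (b (d (a z7 (b (d z15 z15) z7)) (a z3 (b (d z7 z3) (d z7 z3)))) (d z7 z3)) (b (d (a (b (d z15 z15) (d z15 z15)) (b (d z15 z15) (d z15 z15))) (a (b (d z7 z3) (d z7 z3)) (b (d z7 z3) (d z7 z3)))) (d (a (b (d z15 z15) (d z15 z15)) (b (d z15 z15) (d z15 z15))) (a (b (d z7 z3) (d z7 z3)) (b (d z7 z3) (d z7 z3))))))) (d (a (b (d z15 z15) (d z15 z15)) (b (d z15 z15) (d z15 z15))) (a (b (d z7 z3) (d z7 z3)) (b (d (a z7 (b (d z15 z15) (d z15 z15))) (a z3 (b (d z7 z3) (d z7 z3)))) (d z7 z3))))) (b (d (b (d z15 z15) (d z15 z15)) (b (d (a (b (d z15 z15) (d z15 z15)) (b (d z15 z15) (d z15 z15))) (a (b (d z7 z3) (d z7 z3)) (b (d z7 z3)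 (d z7 z3)))) (d (a (a (b (d z15 z15) (d z15 z15)) (b (d z15 z15) (d z15 z15))) (b (d z15 z15) (d z15 z15))) (a (a (b (d z7 z3) (d z7 z3)) (b (d z7 z3) (d z7 z3))) (b (d z7 z3) (d z7 z3)))))) (d (a (b (d z15 z15) (d z15 z15)) (b (d z15 z15) (d z15 z15))) (a (b (d (a (b (d z15 z15) (d z15 z15)) (b (d z15 z15) (d z15 z15))) (a (b (d z7 z3) (d z7 z3)) (b (d z7 z3) (d z7 z3)))) (d (a (b (d z15 z15) (d z15 z15)) (b (d z15 z15) (d z15 z15))) (a (b (d z7 z3) (d z7 z3)) (b (d z7 z3) (d z7 z3))))) (b (d (b (d z15 z15) (d z15 z15)) (b (d z7 z3) (d z7 z3))) (d (a (b (d z15 z15) (d z15 z15)) (b (d z15 z15) (d z15 z15))) (a (b (d z7 z3) (d z7 z3)) (b (d z7 z3) (d z7 z3)))))))))) _ _ (by decide +kernel)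

theorem okA340 : CKA ⟨12288, 24576, 5120, 5632⟩ ⟨24576, 49152, 10240, 11264⟩ :=
  ckA_sound (d (a (c (b (d z11 (a (b (d z11 z3) (d z11 z3)) (b (d z11 (a z3 (b (d z3 z0) z3))) (d z11 z3)))) (d z11 (a (b (d z11 z3) (d z11 z3)) (b (d z11 z3) (d z11 z3))))) z15) (c (b (d (a z11 (c (b (d z11 (b (d z11 (a (b (d z3 z0) z3) (b (d z3 z0) (d z3 z0)))) (d z11 (a z3 (b (d z3 z0) (d z3 z0)))))) (d z11 (a (b (d z11 z3) (d z11 z3)) (b (d z11 (b (d z3 z0) (d z3 z0))) (d z11 (a (b (d z3 z0) (d z3 z0)) (b (d z3 z0) (d z3 z0)))))))) (b (d z15 (b z15 z15)) (d z15 (a z15 (b z15 z15)))))) (a (b (d z11 (a (b (d z3 z0) (d z3 z0)) (b (d z3 z0) (d z3 z0)))) (d z11 (a (b (d z3 z0) (d z3 z0)) (b (d z3 z0) (d z3 z0))))) (b (d z11 (b (d (a z3 (b (d z11 z3) (d z11 z3))) z0) (d (a z3 (b (d z11 z3) (d z11 z3))) z0))) (d z11 (a (b (d z3 z0) (d z3 z0)) (b (d (b (d z11 z3)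 (d z11 z3)) z0) (d (a (b (d z11 z3) z3) (b (d z11 z3) (d z11 z3))) z0))))))) (d (a z11 (c (b (d z11 (a (b (d z11 z3) (d z11 z3)) (b (d z11 (b (d z3 z0) (d z3 z0))) (d z11 (a (b (d z3 z0) z3) (b (d z3 z0) (d z3 z0))))))) (d z11 (a (b (d z11 z3) (d z11 z3)) (b (d z11 (a (b (d z3 z0) z3) (b (d z3 z0) (d z3 z0)))) (d z11 (a z3 (b (d z3 z0) (d z3 z0)))))))) (b z15 z15))) (a (b (d z11 (a (b (d z3 z0) z3) (b (d z3 z0) (d z3 z0)))) (d z11 (a z3 (b (d z3 z0) (d z3 z0))))) (b (d z11 (a (b (d z3 z0) (d z3 z0)) (b (d (b (d z11 z3) (d z11 z3)) z0) (d (a z3 (b (d z11 z3) (d z11 z3))) z0)))) (d z11 (a (b (d z3 z0) (d z3 z0)) (b (d (a z3 (b (d z11 z3) (d z11 z3))) z0) (d (a z3 (b (d z11 z3) (d z11 z3))) z0)))))))) (b (d z15 (a z15 (b z15 z15))) z15))) (a z15 (b (d (a z15 (c (b (d z11 (b (d z11 (a z3 (b (d z11 z3) (d z11 z3)))) (d z11 (a z3 (b (d z11 z3)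 (d z11 z3)))))) (d z11 (a (b (d z11 z3) (d z11 z3)) (b (d z11 (b (d z11 z3) (d z11 z3))) (d z11 (a z3 (b (d z11 z3) (d z11 z3)))))))) z15)) (a z15 (b (d z15 z15) (d z15 z15)))) (d (a z15 (c (b (d z11 (a (b (d z11 z3) (d z11 z3)) (b (d z11 (b (d z11 z3) (d z11 z3))) (d z11 (a z3 (b (d z11 z3) z3)))))) (d z11 (a (b (d z11 z3) (d z11 z3)) (b (d z11 (a z3 (b z3 z3))) (d z11 z3))))) z15)) (a z15 (b z15 z15)))))) _ _ (by decide +kernel)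

theorem okA341 : CKA ⟨12288, 24576, 5632, 6144⟩ ⟨24576, 49152, 10240, 11264⟩ :=
  ckA_sound (d (a (c (b (d z11 (a (b (d z11 z3) (d z11 z3)) (b (d z11 z3) (d z11 z3)))) (d z11 (a z3 (b (d z11 z3) (d z11 z3))))) z15) (c (b (d z11 (a (b (d z11 (a z3 (b (d z3 z0) (d z3 z0)))) (d z11 (a z3 (b (d z3 z0) (d z3 z0))))) (b (d z11 (a (b (d z3 z0) (d z3 z0)) (b (d (b (d z11 z3) (d z11 z3)) z0) (d (b (d z11 z3) (d z11 z3)) z0)))) (d z11 (a (b (d z3 z0) (d z3 z0)) (b (d (b (d z11 z3) (d z11 z3)) z0) (d (a z3 (b z3 z3)) z0))))))) (d z11 (a (b (d z11 (a z3 (b (d z3 z0) (d z3 z0)))) (d z11 z3)) (b (d z11 (a (b (d z3 z0) (d z3 z0)) (b (d (b z3 z3) z0) (d z3 z0)))) (d z11 (a (b (d z3 z0) (d z3 z0)) (b (d z3 z0) (d z3 z0)))))))) (b z15 z15))) (a z15 (b (d (a z15 (c (b (d z11 (a (b (d z11 z3) (d z11 z3)) (b (d z11 z3) (d z11 z3)))) (d z11 (a (b (d z11 z3) (d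 z11 z3)) (b (d z11 z3) (d z11 z3))))) z15)) z15) (d (a z15 (c (b (d z11 (a (b (d z11 z3) (d z11 z3)) (b (d z11 z3) (d z11 z3)))) (d z11 (a (b (d z11 z3) (d z11 z3)) (b (d z11 z3) (d z11 z3))))) z15)) z15)))) _ _ (by decide +kernel)

theorem okA342 : CKA ⟨12288, 24576, 5120, 6144⟩ ⟨24576, 49152, 11264, 12288⟩ :=
  ckA_sound (b (d z11 (a (b (d (a (b (d z15 z15) (d z15 z15)) (b (d z15 z15) (d z15 z15))) (a (b (d z7 z3) (d z7 z3)) (b (d z7 z3) (d z7 z3)))) (d (a (b (d z15 z15) (d z15 z15)) (b (d z15 z15) (d z15 z15))) (a (b (d z7 z3) (d z7 z3)) (b (d z7 z3) (d z7 z3))))) (b (d (a (b (d z15 z15) (d z15 z15)) (b (d z15 z15) (d z15 z15))) (a (b (d (a (b (d z15 z15) z7) (b (d z15 z15) (d z15 z15))) (a (b (d z7 z3) z3) (b (d z7 z3) (d z7 z3)))) (d (a z7 (b (d z15 z15) (d z15 z15))) (a z3 (b (d z7 z3) z3)))) (b (d (b (d z15 z15) (d z15 z15)) (b (d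 z7 z3) (d z7 z3))) (d (a (b (d z15 z15) (d z15 z15)) (b (d z15 z15) (d z15 z15))) (a (b (d z7 z3) (d z7 z3)) (b (d z7 z3) (d z7 z3))))))) (d (a (b (d z15 z15) (d z15 z15)) (b (d z15 z15) (d z15 z15))) (a (b (d z7 z3) (d z7 z3)) (b (d (a (b (d z15 z15) (d z15 z15)) (b (d z15 z15) (d z15 z15))) (a (b (d z7 z3) z3) (b (d z7 z3) (d z7 z3)))) (d (a (b (d z15 z15) z7) (b (d z15 z15) (d z15 z15))) (a z3 (b (d z7 z3) z3))))))))) (d z11 (a (b (d (a (b (d z15 z15) z7) (b (d z15 z15) (d z15 z15))) (a (b (d z7 z3) z3) (b (d z7 z3) (d z7 z3)))) (d (a z7 (b (d z15 z15) (d z15 z15))) (a z3 (b (d z7 z3) (d z7 z3))))) (b (d (a (b (d z15 z15) (d z15 z15)) (b (d z15 z15) (d z15 z15))) (a (b (d z7 z3) (d z7 z3)) (b (d (a z7 (b (d z15 z15) (d z15 z15))) z3) (d z7 z3)))) (d (a (b (d z15 z15) (d z15 z15)) (b (d z15 z15) (d z15 z15))) (a (b (d z7 z3) (d z7 z3))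 (b (d z7 z3) (d z7 z3)))))))) _ _ (by decide +kernel)

theorem okA343 : CKA ⟨12288, 24576, 6144, 8192⟩ ⟨24576, 49152, 8192, 10240⟩ :=
  ckA_sound (b (d (a (b (d (a (b z15 (d z15 z15)) z15) z15) (d (a (b (d (a z14 z15) (a z14 z15)) z14) z15) (a (b (d (a z14 z15) (a z14 z15)) z14) z15))) z15) (a (b (d z15 (a z15 (c z11 z15))) (d (a (b (d (c z15 (a z14 z15)) z15) z14) z15) (a (c (b z11 z10) z14) z15))) (b (d (b (d z15 (c (a z15 (b (d z15 (c (b z15 z15) z15)) (d z15 (c (a z15 (b z15 z15)) z15)))) z15)) (d z15 (c (a z15 (b z15 z15)) z15))) (c (b (d (a (c z11 z15) (c z11 z15)) z11) (d (a z15 (c z11 z15)) z11)) z15)) (d (b (d z15 (a z15 (c (b z15 z15) z15))) (d z15 (a z15 (c (b z15 z15) z15)))) (c (b z11 z11) z15))))) (d (a (b (d (a z14 (b z15 (d z15 z15))) (a z14 (b z15 (d z15 z15)))) (d (a z14 (b (d (a z14 z15) (a z14 z15)) (d z14 z14))) (a z14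 (b (d (a z14 z15) (a z14 z15)) (d z14 z14))))) (b z15 (d z15 z15))) (a (b (d (a z14 z15) (a z14 z15)) (d (a z14 (b (d z15 z15) (d z14 z14))) (a z14 (c (b z11 (d z14 z10)) (b z15 z14))))) (b (d (b (d z15 (c (a z15 (b z15 z15)) z15)) (d z15 (a z15 (c (b z15 z15) z15)))) (c (b (d (a z15 (c z11 z15)) z11) (d (a z15 (c z11 z15)) z11)) z15)) (d (a z15 (b z15 z15)) (c (a z11 (b (d (c z11 z15) z11) (d (c z11 z15) z11))) z15)))))) _ _ (by decide +kernel)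

theorem okA344 : CKA ⟨12288, 24576, 6144, 8192⟩ ⟨24576, 49152, 10240, 12288⟩ :=
  ckA_sound (b (d (a (b (d z15 z15) (d z15 z15)) (b (d (c (b (d z11 (a (b (d z11 (a z3 (b (d z3 z0) (d z3 z0)))) (d z11 z3)) (b (d z11 (b (d z3 z0) (d z3 z0))) (d z11 (a (b (d z3 z0) (d z3 z0)) (b (d z3 z0) (d z3 z0))))))) (d z11 (a (b (d z11 z3) (d z11 z3)) (b (d z11 (a (b (d z3 z0) (d z3 z0)) (b (d z3 z0) (d z3 z0)))) (d z11 (a (b (d z3 z0) (d z3 z0)) (b (d z3 z0) (d z3 z0)))))))) (b z15 z15)) (b (d (a z15 (c (b (d z11 (b (d z11 z3) (d z11 z3))) (d z11 (a (b (d z11 z3) (d z11 z3)) (b (d z11 z3) (d z11 z3))))) z15)) z15) (d z15 z15))) (d (c (b (d z11 (a (b (d z11 z3) (d z11 z3)) (b (d z11 (a (b (d z3 z0) (d z3 z0)) (b (d z3 z0) (d z3 z0)))) (d z11 (a z3 (b (d z3 z0) (d z3 z0))))))) (d z11 (a (b (d z11 z3) (d z11 z3)) (b (d z11 (a z3 (b (d z3 z0) (d z3 z0))))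 (d z11 (a z3 (b (d z3 z0) (d z3 z0)))))))) z15) (b (d z15 z15) (d z15 z15))))) (a (b (d z11 (a (b (d z7 z3) (d z7 z3)) (b (d (a z7 (b (d z15 z15) (d z15 z15))) (a z3 (b (d z7 z3) z3))) (d z7 z3)))) (d z11 (a (b (d z7 z3) (d z6 z2)) (b (d z7 z3) (d z7 z3))))) (b (d z11 (b (d (a (b (d z15 z15) (d z15 z15)) (b (d z15 z15) (d z15 z15))) (a (b (d z7 z3) (d z7 z3)) (b (d z7 z3) (d z7 z3)))) (d (a (b (d z15 z15) (d z15 z15)) (b (d z15 z15) (d z15 z15))) (a (b (d z7 z3) (d z7 z3)) (b (d z7 z3) (d z7 z3)))))) (d z11 (b (d (a (b (d z15 z15) z7) (b (d z15 z15) (d z15 z15))) (a z3 (b (d z7 z3) (d z7 z3)))) (d (a z7 (b (d z15 z15) (d z15 z15))) (a z3 (b z3 z3)))))))) (d (a (b (d (a z14 z15) (a z14 z15)) (d z14 z14)) (b (d (c (b (d z11 (a (b (d z11 z3) (d z11 z3)) (b (d z11 (a z3 (b (d z3 z0) (d z3 z0)))) (d z11 (a z3 (b (d z3 z0) (d z3 z0))))))) (d z11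 (a (b (d z11 z3) (d z11 z3)) (b (d z11 (a z3 (b (d z3 z0) (d z3 z0)))) (d z11 (a z3 (b (d z3 z0) (d z3 z0)))))))) z15) (b z15 z15)) (d (a z15 (c (b (d z11 (b (d z11 (a z3 (b (d z3 z0) (d z3 z0)))) (d z11 (a z3 (b z3 z3))))) (d z11 (b (d z11 (a z3 (b z3 z3))) (d z11 z3)))) z15)) (a z15 (b z15 z15))))) (a (b (d z10 (a z2 (b (d z7 z3) (d z7 z3)))) (d z10 z2)) (b (d z11 (b (d (a z7 (b (d z15 z15) z7)) z3) (d z7 z3))) (d z11 (a (b (d z7 z3) (d z7 z3)) (b (d z7 z3) (d z7 z3)))))))) _ _ (by decide +kernel)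

end Vale.Agent.Lib.P154Q5
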