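import Vale.Agent.Lib.P154Q5.CkADefs

namespace Vale.Agent.Lib.P154Q5

set_option maxRecDepth 100000
set_option exponentiation.threshold 1000

open Tr

theorem okA345 : CKA ⟨12288, 24576, 8192, 12288⟩ ⟨24576, 49152, 4096, 12288⟩ :=
  ckA_sound (d (b (d z0 (b (d z0 (a (b (d z0 (a (b z14 (d z0 (b z12 z12))) z14)) (d z0 (b z14 (d z0 (b (d z0 z12) (d z0 z12)))))) (b (d z0 (a (b (d z0 z15) (d z0 (a z14 z15))) z15)) (d z0 (a (b (d z0 z14) z14) (b z15 (d z0 (b z15 (d z0 z15))))))))) (d z0 (b (d z0 (b (d z0 (a z14 (b (d z0 (a z14 z15)) z14))) (d z0 z14))) (d z0 (b (d z0 (b z14 (d z0 (b z12 z0)))) z0)))))) z0) (b (d (b (d (a (b (d z14 z14) (d (b z14 (d (b z12 (d z12 z12)) (b z12 z12))) (b z14 (d (b z12 z12) (b z12 z12))))) (b (d (a (b (d z15 z15) (d (a z14 z15) (a z14 z15))) z15) (a (b (d z15 z15) (d (a z14 z15) (a z14 z15))) z15)) (d (a (b (d z14 z14) (d z14 z14)) (b z15 (d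 (b z15 (d z15 z15)) z15))) (a (b (d z14 z14) (d z14 z14)) (b z15 (d z15 z15)))))) (a (b (d z14 z14) (d (b z14 (d z12 z12)) (c (b z10 z8) (b z14 (d z12 z12))))) (b (d (a (b z15 (d z15 z15)) z15) (c (a z11 (b (d z15 z11) z11)) (a (b z15 (d z15 z15)) z15))) (d (a (b (d z14 z14) z14) (b z15 (d z15 z15))) (c (a (b (d z14 z10) z10) z11) (a (b (d z14 z14) z14) z15)))))) (d (b (d (b (d (a z14 (b (d z15 z15) z14)) (a z14 (b (d z15 z15) z14))) (d z14 z14)) (b (d (a z14 (b z15 z14)) (a z14 (b z15 z14))) (d z14 z14))) (d (b (d (b z14 (d (b z12 z0) (b z12 z0))) (b z14 (d z12 z12))) z0) (b (d (b z14 (d z12 z12)) (b z14 z12)) z0))) (b (d (b (d (a z14 (c z14 (b z15 z14))) (a z14 (c z14 (b z15 z14)))) (d z14 z14)) (c (b (d z14 z10) z10) (b (d z14 z14) z14))) (d (b (d (c z12 (b z14 z12)) (c z12 (b z14 z12))) z0) (c (b (d z12 z8) z0) (b (d z12 z12) z0)))))) (b (d (a (b (d z14 z14) (d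 (c z0 (b z14 z12)) z12)) (b (d z15 z15) (d (a z14 z15) (a z14 z15)))) (a (b (d z10 z2) (d z8 z0)) (b (d z11 (a z3 (b (d z7 z3) z3))) (d z10 z2)))) (d (b (d z14 z14) (d (c (b (d z8 z0) z0) (b z12 z0)) z12)) (b (d z10 z2) (d z8 (b (d z4 z0) z0)))))) z0)) _ _ (by decide +kernel)

theorem okA346 : CKA ⟨24576, 49152, 4096, 8192⟩ ⟨0, 12288, 4096, 12288⟩ :=
  ckA_sound (d (c (b z0 (d (c (b z0 (d z3 z3)) z3) (b z0 (d (b z0 (d z3 (b z0 (d z3 z3)))) z0)))) (b z0 (d (b z0 (d (c (b z0 (d (c z3 (b z0 (d (c z3 z7) z3))) z11)) (b z0 (d z15 (b z0 (d z15 (c (b z0 (d z15 (c z11 z15))) z15)))))) (c z11 (b z0 (d (b z0 (d (c z11 z15) (c z11 z15))) (b z0 (d (c z11 z15) z11))))))) (b z0 (d z11 (b z0 (d z11 (b z0 (d (c (b z0 z3) z11) (b z0 (d z3 z3))))))))))) (b z0 (d (b z0 (d (b z0 (d (b z0 (d (b z0 (d z3 z0)) z0)) z0)) z0)) z0))) _ _ (by decide +kernel)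

theorem okA347 : CKA ⟨24576, 49152, 8192, 12288⟩ ⟨0, 6144, 4096, 8192⟩ :=
  ckA_sound (b (d (c (b (d z3 z3) z3) z3) (b (d (b (d z3 (b (d z3 z3) (d z3 z3))) (d z3 (b z3 z3))) z0) (d (b (d z3 z3) (d z3 z3)) z0))) (d (c (b z2 z0) (b z2 (d (b z2 z0) (b z2 z0)))) (b (d (b z3 z3) z0) (d (b z2 z0) z0)))) _ _ (by decide +kernel)

theorem okA348 : CKA ⟨24576, 49152, 8192, 12288⟩ ⟨6144, 12288, 4096, 8192⟩ :=
  ckA_sound (b (d (b (d (c (b (d (c z3 (b (d (c z3 z7) z3) (d (c z3 z7) z3))) z11) (d (c z3 (b (d (c z3 z7) z3) (d (c z3 z7) z3))) z11)) (b (d z15 (b (d z15 (c (b z15 z15) z15)) z15)) z15)) (c z11 (b (d (b (d (c z11 z15) (c z11 z15)) (d (c z11 z15) (c z11 z15))) (b (d (c z11 z15) z11) (d (c z11 z15) z11))) (d (b (d (c z11 z15) (c z11 z15)) (d (c z11 z15) (c z11 z15))) (b (d (c z11 z15) z11) (d (c z11 z15) z11)))))) (d (c (b (d (c z3 (b (d (a (c z3 z7) (c z3 z7)) z3) (d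 (a (c z3 z7) (c z3 z7)) (a (c z3 z7) z3)))) z11) (d (c z3 (a (b (d z7 (a z2 z3)) (d z6 z2)) (b (d z7 z3) (d z7 z3)))) z11)) (b z15 (d (a z14 z15) (a z14 z15)))) (c z11 (b (d (b (d (c (a (b (d z15 z11) (d z15 z11)) z11) z15) (c z11 z15)) (d z15 (c z11 z15))) (b (d (c z11 z15) z11) (d (c z11 z15) z11))) (d (a (b z15 z14) (b (d z15 (c z11 z15)) z15)) (a (b (d (c z11 z15) (c z11 z15)) (d (c z10 z14) z10)) z11)))))) (b (d z11 (b (d z11 (b (d (c (b z3 z3) z11) (b (d z3 z3) z3)) (d z3 (b z3 z3)))) (d z11 (b (d z3 z3) (d z3 z3))))) (d z11 (b (d z11 (b (d z3 z3) z3)) (d z11 (a z2 (b z3 z3))))))) (d (b (d (c (b (d (c z3 (a (b (d z6 z2) (d z4 (c z0 z4))) z3)) z11) z3) (b (d (a (b z14 (d (c (b z6 z4) (b z6 z4)) (c (b z14 z12) (b z14 z12)))) z15) z15) z15)) (c z10 (b (d z15 (a (b (d (c z10 z14) z10) (d (c z8 z12) (c z8 z12))) z11)) (d z15 z11)))) (d (c (b z2 (d (c (b z1 z0) (b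 (d (c z1 (b z7 z7)) z1) (d (c (b z1 z0) (b z5 z4)) (c z0 (b z5 z4))))) (c (b z1 z0) (b z9 (d (c z8 (b z9 z8)) z8))))) (b z14 (d (b (d (c (b z7 z7) (b z7 z7)) (c (b z15 z15) (b z15 z15))) (d (c (b z5 z4) (b (d (c z5 (b z7 z7)) (c z13 (b z15 z15))) (d (c (b z5 z4) (b z5 z4)) (c (b z13 z12) (b z13 z12))))) (c (b z13 z12) (b z13 (d (c z12 (b z13 z12)) z12))))) (b (d (c (b z15 z15) (b z15 z15)) (c z13 (b z15 z15))) (d (c (b z13 z12) (b z13 z12)) (c (b z13 z12) (b z13 z12))))))) (c (b z10 (d (c z8 (b z9 z8)) z8)) (b z10 (d (b (d (c z9 (b z15 z15)) z13) (d (c z8 (b z13 z12)) (c z8 (b z13 z12)))) (b z9 z8)))))) (b (d (c (b z11 z11) (b z11 z11)) (b (d z11 z3) z3)) (d (c (b z10 z8) (b z10 (d (b z9 z8) z8))) (b z2 z0))))) _ _ (by decide +kernel)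

theorem okA349 : CKA ⟨24576, 49152, 8192, 12288⟩ ⟨0, 12288, 8192, 12288⟩ :=
  ckA_sound (b (d (b (d (b (d (b (d (b (d z3 z0) (d z3 z0)) z0) (d (b z3 z3) z0)) z0) (d (b (d z3 z0) (d z3 z0)) z0)) z0) (d (b (d (b (d z3 z0) (d z3 z0)) z0) (d (a z2 (b z3 z3)) z0)) z0)) z0) (d (b (d (b (d z3 z0) (d z3 z0)) z0) (d (b z2 z0) z0)) z0)) _ _ (by decide +kernel)

theorem okA350 : CKA ⟨24576, 49152, 4096, 8192⟩ ⟨12288, 24576, 4096, 12288⟩ :=
  ckA_sound (d (b z0 (d z15 (b z0 (d (c (b z0 (d (c (b z0 (d z15 (c (b z0 z15) z15))) z15) (c (b z0 z11) z15))) z15) (c (b z0 (d (c z11 (b z0 z15)) (c z11 (b z0 (d (c z11 z15) z11))))) z15))))) (b z0 (d (b z0 (d (c (b z0 (d (c (b z0 (d z11 (b z0 (d z3 z3)))) z11) (b z0 (d z11 (b z0 (d z3 z3)))))) (b z0 (d (c (b z0 (d z15 (c z11 z15))) z15) (c (b z0 z11) (b z0 (d z15 (b z0 z15))))))) (b z0 (d (b z0 (d (c z11 (b z0 z11)) z11)) (b z0 (d (b z0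 (d z11 (b z0 z3))) z0)))))) z0))) _ _ (by decide +kernel)

theorem okA351 : CKA ⟨24576, 49152, 8192, 10240⟩ ⟨12288, 24576, 4096, 6144⟩ :=
  ckA_sound (b z15 (d (b (d (c z15 (b z15 (d (a (b z15 (d (c z15 (a (b z15 z14) z15)) (c z15 (a (b z15 z14) z15)))) z15) (a (c z15 (b z15 (d (a (b z15 z14) z15) (a (b z15 z14) z15)))) z15)))) (c z15 (b z15 (d (a (b z15 (d (c z15 (a (b z15 z14) z15)) (c z15 (a (b z15 z14) z15)))) z15) (a (c z15 (b z15 (d (a (b z15 z14) z15) (a (c z15 (b z15 z14)) z15)))) z15))))) (d (c (a z14 z15) (a (b (d (a z14 (b z15 (d z15 z15))) (a z14 (c z15 (b z15 (d z15 z15))))) (d (b (d z14 z14) (d z14 z14)) (c z14 (b z14 z14)))) (b z15 (d z15 z15)))) (c (a z14 z15) (a (b (d (a z14 z15) (c (a z14 z15) (a z14 z15))) (d (b z14 z14) (c z14 (b z14 z14)))) z15)))) (b (d (c z15 (b z15 (d (a (c z15 (b z15 (d (a (b z15 z14) z15) (a (c z15 (b z15 z14)) z15)))) z15)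 (a (c z15 (b z15 (d (a (c z15 (b z15 z14)) z15) (a (c z15 (b z15 z14)) z15)))) z15)))) (c z15 (b z15 (d (a (c z15 (b z15 (d (a (c z15 (b z15 z14)) z15) (a (c z15 (b z15 z14)) z15)))) z15) (a (c z15 (b z15 (d (a (c z15 (b z15 z14)) z15) (a (c z15 (b z15 z14)) z15)))) z15))))) (d (c (a z14 z15) (a (b (d (a z14 z15) (c (a z14 z15) (a z14 z15))) (d (c z14 (b z14 z14)) (c z14 (b z14 z14)))) z15)) (c (a z14 z15) (a (b (d (c (a z14 z15) (a z14 z15)) (c (a z14 z15) (a z14 z15))) (d (c z14 (b z14 z14)) z14)) z15)))))) _ _ (by decide +kernel)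

theorem okA352 : CKA ⟨24576, 49152, 8192, 10240⟩ ⟨12288, 24576, 6144, 8192⟩ :=
  ckA_sound (b (d (c (b (d (c (b z15 z15) z15) (c (b (d (c z11 z15) z11) (d (c z11 z15) z11)) z15)) (d z15 (c (b z11 z11) z15))) z15) (c (b (d (c z11 (b z15 z15)) (c z11 (b (d (c z11 z15) z11) (d (c z11 z15) z11)))) (d (c z11 (b z15 z15)) (c z11 (b (d (c z11 z15) z11) (d (c z11 z15) z11))))) (b z15 z15))) (d (c (b (d z15 (c (b z11 (d z15 z11)) z15)) (d (c z15 (a z14 z15)) (c (a (b (d z15 z11) z10) z11) z15))) (b (d (b z15 (d (a (c z15 (b z15 (d (a (b z15 z14) z15) (a (c z15 (b z15 z14)) z15)))) z15) (a (c z15 (b z15 (d z15 z15))) z15))) (b z15 (d (c z15 (a (b z15 (d z15 z15)) z15)) (c z15 (a (b z15 (d z15 z15)) z15))))) (d (a (b (d (c (a z14 z15) (a z14 z15)) (c z15 (a z14 z15))) (d z14 z14)) z15) (a (b (d (c z15 (a z14 z15)) (c z15 (a z14 z15))) (d z14 z14)) z15)))) (c (b (d (c z11 z15)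 (c z11 (b (d z15 z11) (d z15 z11)))) (d (c z11 z15) (c z11 (a (b (d z15 z11) (d z14 z10)) (b (d z15 z11) z11))))) (b (d (b z15 (d (a (c z15 (b z15 (d z15 z15))) z15) (c z15 (a (b z15 (d z15 z15)) z15)))) (c z15 (b z15 (d z15 z15)))) (d (a (b (d (c z15 (a z14 z15)) (c z15 (a z14 z15))) (d z14 z14)) z15) (a (c z14 (b (d (a z14 z15) (a z14 z15)) (d z14 z14))) z15)))))) _ _ (by decide +kernel)

theorem okA353 : CKA ⟨24576, 49152, 10240, 10752⟩ ⟨12288, 24576, 4096, 4608⟩ :=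
  ckA_sound (c (a (b z14 (d (c (b z14 (d (c (b z4 z0) (b z12 z0)) (c z12 (b z12 z0)))) (b z14 (d (c (b z12 z0) (b z12 z0)) (c (b z12 z0) (b z12 z0))))) (c (b z14 z12) (b z14 (d (c (b z12 z0) (b z12 z0)) (c (b z12 z0) (b z12 z0))))))) z15) (a (b (d (a (b z14 (d (c (b z14 (d (c z12 (b z12 z0)) (c z12 (b z12 z0)))) (b z14 (d (c (b z12 z0) (b (d (c z12 (b z14 z12)) (c z12 (b z14 z12))) z0)) (c (b z12 z0) (b (d (c z12 (b z14 z12)) (c z12 (b z14 z12))) z0))))) (c (b z14 (d (c z12 (b z12 z0)) (c z12 (b z12 z0)))) (b z14 (d (c (b z12 z0) (b (d (c z12 (b z14 z12)) (c z12 (b z14 z12))) z0)) (c (b z12 z0) (b (d z12 z12) z0))))))) (b z15 (d (c z15 (b (d z15 z15) z14)) (c z15 (b z15 z14))))) (c z14 (a (b z14 (d (b z14 (d (c (b z12 z0) (b z12 z0)) (c (b z12 z0) (b z12 z0)))) (b z14 (d (c (b z12 z0) (b z12 z0)) (c (b z12 z0) (b z12 z0)))))) (b z15 (d (b z15 z14) (b z15 z14))))))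 (d (b z14 (d (c (b (d (c z12 (b z14 z12)) (c z12 (b z14 z12))) z0) (b (d (c (b z14 z12) (b z14 (d (c z12 (b z12 z12)) z12))) (c (b z14 z12) (b z14 (d z12 z12)))) z0)) (c (b (d (c z12 (b z14 z12)) (c z12 (b z14 z12))) z0) (b (d (c (b z14 z12) (b z14 z12)) (c (b z14 z12) (b z14 z12))) z0)))) (c (b z14 (d (c (b z12 z0) (b (d (b z14 z12) (b z14 z12)) z0)) (c (b z12 z0) (b z12 z0)))) (b z14 (d (b (d (c (b z14 z12) (b z14 z12)) (c (b z14 z12) (b z14 z12))) z0) (b (d (c (b z14 z12) (b z14 z12)) (c (b z14 z12) (b z14 z12))) z0)))))) (b z15 (d (b z15 (d (a (c z15 (b z15 z14)) z15) (a (c z15 (b z15 z14)) z15))) (c z15 (b z15 (d (a (b z15 z14) z15) (a (b z15 z14) z15)))))))) _ _ (by decide +kernel)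

theorem okA354 : CKA ⟨24576, 49152, 10240, 10752⟩ ⟨12288, 24576, 4608, 5120⟩ :=
  ckA_sound (c (a (b z14 (d (c (b z14 z12) (b z14 (d (c (b z12 z0) (b z12 z0)) (c z12 (b z12 z0))))) (c (b z14 z12) (b z14 (d (c z12 (b z12 z0)) z12))))) z15) (a (b (d (a (b z14 (d (c (b z14 z12) (b z14 (d (c (b z12 z0) (b z12 z0)) (c (b z12 z0) (b z12 z0))))) (c (c (b z14 z12) (b z14 z12)) (b z14 (d (c (b z12 z0) (b z12 z0)) (c (b z12 z0) (b z12 z0))))))) (b z15 (d (c z15 (b z15 z14)) (c z15 (b z15 z14))))) (c z14 (a (b z14 (d (b z14 (d (c (b z12 z0) (b z12 z0)) (c (b z12 z0) (b z12 z0)))) (c (b z14 (d (c z12 (b z12 z0)) z12)) (b z14 (d (b z12 z0) (c (b z12 z0) (b z12 z0))))))) (b z15 (d (b z15 z14) (c z15 (b z15 z14))))))) (d (b z14 (d (c (b z12 z0) (b (d (c (b z14 z12) (b z14 z12)) (c (b z14 z12) (b z14 z12))) z0)) (c (c (b z12 z0) (b z12 z0)) (b (d (c (b z14 z12) (b z14 z12)) (c (b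 z14 z12) (b z14 z12))) z0)))) (c (b z14 (d (c (b z12 z0) (b z12 z0)) (c (b z12 z0) (b z12 z0)))) (b z14 (d (b (d (c (b z14 z12) (b z14 z12)) (c (b z14 z12) (b z14 z12))) z0) (c (b (d (c z12 (b z14 z12)) z12) z0) (b (d (b z14 z12) (c (b z14 z12) (b z14 z12))) z0))))))) (b z15 (d (b z15 (d (c z15 (a (b z15 z14) z15)) (c z15 (a (b z15 z14) z15)))) (c z15 (b z15 (d z15 z15))))))) _ _ (by decide +kernel)

theorem okA355 : CKA ⟨24576, 49152, 10752, 11264⟩ ⟨12288, 24576, 4096, 5120⟩ :=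
  ckA_sound (d (c (b (d (c z15 (a (b z14 (d (c (b z14 z12) (b z14 z12)) (c (b z14 z12) (b z14 z12)))) z15)) z15) z15) (b (d (a (b z14 (d (c (b z14 (d (c z12 (b z14 z12)) (c z12 (b z14 z12)))) (b z14 (d (c (b z14 z12) (b z14 z12)) (c (b z14 z12) (b z14 z12))))) (c (b z14 (d (c z12 (b z14 z12)) (c z12 (b z14 z12)))) (b z14 (d (c (b z14 z12) (b z14 z12)) (c (b z14 z12) (b z14 z12))))))) z15) (a (c (b z14 (d (c (b z14 z12) (b z14 (d (b z14 z12) z12))) (c (b z14 z12) (b z14 z12)))) (b z14 (d (b z14 (d (c (b z14 z12) (b z14 z12)) (c (b z14 z12) (b z14 z12)))) (b z14 (d (c (b z14 z12) (b z14 z12)) (c (b z14 z12) (b z14 z12))))))) z15)) (d (b (d (c z15 (a z14 z15)) (c z15 (a z14 z15))) (d z15 z15)) (c (b z15 z15) (b (d z15 z15) z15))))) (c (b z15 z15) (b (d (a (b z14 (d (c (b z14 z12) (b z14 (d (c (b z14 z12) (b z14 z12)) (c (b z14 z12) (b z14 z12))))) (c (c (b z14 z12) (b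 z14 z12)) (b z14 (d (c (b z14 z12) (b z14 z12)) (c (b z14 z12) (b z14 z12))))))) z15) (c z15 (a (b z14 (d (b z14 (d (c (b z14 z12) (b z14 z12)) (c z12 (b z14 z12)))) (c (b z14 z12) (b z14 (d (b z14 z12) (c (b z14 z12) (b z14 z12))))))) z15))) (d (b z15 z15) (c z15 (b z15 z15)))))) _ _ (by decide +kernel)

theorem okA356 : CKA ⟨24576, 49152, 10240, 11264⟩ ⟨12288, 24576, 5120, 6144⟩ :=
  ckA_sound (b (d (c (a (b z14 (d (c (b z14 z12) (b z14 (d (c z12 (b z12 z0)) z12))) (c (b z14 z12) (b z14 z12)))) z15) (a (b (d (c z14 (a (b z14 (d (b z14 (d (c (b z12 z0) (b z12 z0)) (c z12 (b z12 z0)))) (c (b z14 z12) (b z14 (d (b z12 z0) (c (b z12 z0) (b z12 z0))))))) (b z15 (d (b z15 z14) (c z15 (b z15 z14)))))) (c z14 (a (b z14 (d (c (b z14 z12) (b z14 (d (b z12 z0) (c (b z12 z0) (b z12 z0))))) (c (b z14 z12) (b z14 (d (c (b z12 z0) (b z12 z0)) (c z12 (b z12 z0))))))) (b z15 (d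 z15 z15))))) (d (c (b z14 (d (c (b z12 z0) (b z12 z0)) (c (b z12 z0) (b z12 z0)))) (b z14 (d (b (d (c z12 (b z14 z12)) (c z12 (b z14 z12))) z0) (c (b z12 z0) (b (d (b z14 z12) (c (b z14 z12) (b z14 z12))) z0))))) (c (b z14 (d (c (b z12 z0) (b z12 z0)) (c z12 (b z12 z0)))) (b z14 (d (c (b z12 z0) (b (d (b z14 z12) (c z12 (b z14 z12))) z0)) (c (b z12 z0) (b (d (c z12 (b z14 z12)) (c z12 (b z14 z12))) z0))))))) (b z15 (d (c z15 (b z15 (d z15 z15))) z15)))) (c (a (b z14 (d (c (b z14 z12) (b z14 z12)) (c z12 (b z14 z12)))) z15) (a (b (d z14 z14) (d (c (b z14 (d (c z12 (b z12 z0)) (c z12 (b z12 z0)))) (b z14 (d (c (b z12 z0) (b (d (b z14 z12) (b z14 z12)) z0)) (c (b z12 z0) (b (d (b z14 z12) (c z12 (b z14 z12))) z0))))) (c (b z14 (d (c z12 (b z12 z0)) z12)) (b z14 (d (c (b z12 z0) (b (d (b z14 z12) z12) z0)) (c (b z12 z0) (b (d z12 z12) z0))))))) (b z15 (d z15 z15)))))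 (d (c z15 (b (d (c z15 (a (b z14 (d (b z14 (d (c z12 (b z14 z12)) (c z12 (b z14 z12)))) (c (b z14 z12) (b z14 (d (b z14 z12) (c z12 (b z14 z12))))))) z15)) (c z15 (a (b z14 (d (c (b z14 z12) (b z14 (d (b z14 z12) (c z12 (b z14 z12))))) (c (b z14 z12) (b z14 (d (c z12 (b z14 z12)) z12))))) z15))) (d (c z15 (b z15 z15)) (c z15 (b z15 z15))))) (c z15 (b (d (c z15 (a (b z14 (d (c (b z14 z12) (b z14 (d z12 z12))) (c (b z14 z12) (b z14 z12)))) z15)) (c z15 (a (b z14 (d (c (b z14 z12) (b z14 z12)) (c (b z14 z12) (b z14 z12)))) z15))) (d z15 z15))))) _ _ (by decide +kernel)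

theorem okA357 : CKA ⟨24576, 49152, 11264, 12288⟩ ⟨12288, 24576, 4096, 5120⟩ :=
  ckA_sound (b (d (c z14 (b (d (b z15 z15) (c z15 (b z15 z15))) (d (b z15 z15) (c z15 (b z15 z15))))) (c z14 (b (d (b z15 z15) (c z15 (b z15 z15))) (d z15 z15)))) (d (c (b (d (c (b z15 z15) (b z15 z15)) (c (b z15 z15) (b z15 z15))) (d (c (b (d (c (b z7 z7) (b z15 z15)) (c (b z15 z15) (b z15 z15))) (d (c (b z5 z4) (b z13 z12)) (c (b z13 z12) (b z13 z12)))) (b (d (c (b z15 z15) (b z15 z15)) (c (b z15 z15) (b z15 z15))) (d (c (b z13 z12) (b z13 z12)) (c (b z13 z12) (b z13 z12))))) (c (b (d (c (b z15 z15) (b z15 z15)) (c z13 (b z15 z15))) (d (c (b z13 z12) (b z13 z12)) (c (b z13 z12) (b z13 z12)))) (b (d (c (b z15 z15) (b z15 z15)) (c (b z15 z15) (b z15 z15))) (d (c (b z13 z12) (b z13 z12)) (c (b z13 z12) (b z13 z12))))))) (b (d (b z15 z15) (c (b z15 z15) (b z15 z15))) (d (b (d (c (b z15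 z15) (b z15 z15)) (c (b z15 z15) (b z15 z15))) (d (c (b (d (c z13 (b z15 z13)) z13) z12) (b (d (c (b z15 z13) (b z15 z13)) (c (b z15 z13) (b z15 z13))) (d (c (b z13 z12) (b z13 z12)) (c (b z13 z12) (b z13 z12))))) (c (b z13 z12) (b (d (c z13 (b z15 z13)) (c z13 (b z15 z13))) (d (c z12 (b z13 z12)) (c z12 (b z13 z12))))))) (c (b (d (c (b z15 z15) (b z15 z15)) (c (b z15 z15) (b z15 z15))) (d (c (b z13 z12) (b z13 z12)) (c (b z13 z12) (b z13 z12)))) (b (d (b z15 z15) (b z15 z15)) (d (b (d z13 z13) z12) (b z13 z12))))))) (c (b (d (c (b z15 z15) (b z15 z15)) (c (b z15 z15) (b z15 z15))) (d (c (b (d (c z13 (b z15 z15)) z13) (d (c z12 (b z13 z12)) z12)) (b (d (c (b z15 z15) (b z15 z15)) (c (b z15 z15) (b z15 z15))) (d (c (b z13 z12) (b z13 z12)) (c (b z13 z12) (b z13 z12))))) (c (b z13 z12) (b (d (c z13 (b z15 z15)) z13) (d (c z12 (b z13 z12)) z12))))) (b (d (b z15 z15)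 (c (b z15 z15) (b z15 z15))) (d (b (d (c (b z15 z15) (b z15 z15)) (c (c (b z15 z15) (b z15 z15)) (b z15 z15))) (d (c (b z13 z12) (b z13 z12)) (c (c (b z13 z12) (b z13 z12)) (b z13 z12)))) (c (b (d (c (b z15 z15) (b z15 z15)) (c (b z15 z15) (b z15 z15))) (d (c (b z13 z12) (b z13 z12)) (c (b z13 z12) (b z13 z12)))) (b (d (b z15 z15) (c (b z15 z15) (b z15 z15))) (d (b z13 z12) (c (b z13 z12) (b z13 z12)))))))))) _ _ (by decide +kernel)

theorem okA358 : CKA ⟨24576, 49152, 11264, 12288⟩ ⟨12288, 24576, 5120, 6144⟩ :=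
  ckA_sound (b (d z14 z14) (d (c (b (d (c (b z15 z15) (b z15 z15)) (c (b z15 z15) (b z15 z15))) (d (c (b z13 z12) (b z13 z12)) (c (b z13 z12) (b z13 z12)))) (b (d (c (b z15 z15) (b z15 z15)) (c (b z15 z15) (b z15 z15))) (d (c (b (d (c (b z15 z15) (b z15 z15)) (c z13 (b z15 z15))) (d (c (b z13 z12) (b z13 z12)) (c z12 (b z13 z12)))) (b (d (b z15 z15) (c (b z15 z15) (b z15 z15))) (d (b z13 z12) (c (b z13 z12) (b z13 z12))))) (c (b z13 z12) (b (d (c (b z15 z15) (b z15 z15)) (c (b z15 z15) (b z15 z15))) (d (c (b z13 z12) (b z13 z12)) (c z12 (b z13 z12)))))))) (c (b (d (c (b z15 z15) (b z15 z15)) (c z13 (b z15 z15))) (d (c (b z13 z12) (b z13 z12)) (c z12 (b z13 z12)))) (b (d (c (b z15 z15) (b z15 z15)) (c (b z15 z15) (b z15 z15))) (d (c (b z13 z12) (b (d (c z13 (b z15 z15)) z13) (d z12 z12))) (c (b z13 z12) (b z13 z12))))))) _ _ (by decide +kernel)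

theorem okA359 : CKA ⟨24576, 49152, 10240, 12288⟩ ⟨12288, 24576, 6144, 8192⟩ :=
  ckA_sound (b (d (c (b z15 z15) (b (d (a (b (d z14 z14) (d (c (b z14 (d (c z12 (b z12 z0)) z12)) (b z14 (d (b z12 z0) (c (b z12 z0) (b z12 z0))))) (c (b z14 z12) (b z14 (d (c (b z12 z0) (b z12 z0)) (c (b z12 z0) (b z12 z0))))))) (b z15 (d z15 z15))) (a (b z14 (d (c (b z14 z12) (b z14 (d (c (b z12 z0) (b z12 z0)) (c z12 (b z12 z0))))) (c (b z14 z12) (b z14 (d (c z12 (b z12 z0)) (c z12 (b z12 z0))))))) z15)) (d (b (d (c z15 (a (b z14 (d (b z14 z12) (c (b z14 z12) (b z14 z12)))) z15)) z15) z15) (b (d z15 z15) z15)))) (c (b (d (c z11 z15) z11) (d (c z11 z15) z11)) (b (d (a (b (d z14 z14) (d (c (b z14 z12) (b z14 (d (c z12 (b z12 z0)) (c z12 (b z12 z0))))) (c (b z14 z12) (b z14 (d (c z12 (b z12 z0)) (c z12 (b z12 z0))))))) z15) (c z15 (a (b (d z14 z14) (d (b z14 (d (c z12 (b z12 z0)) (c z12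 (b z12 z0)))) (b z14 (d (c z12 (b z12 z0)) z12)))) z15))) (d (b (d z15 z15) z15) (c z15 (b z15 z15)))))) (d (c (b z14 (d (c (b z13 z12) (b (d (c z13 (b z15 z15)) z13) (d (c z12 (b z13 z12)) z12))) (c (b z9 z8) (b z13 z12)))) (b z14 (d (b (d (c (b z15 z15) (b z15 z15)) (c (b z15 z15) (b z15 z15))) (d (c (b z13 z12) (b z13 z12)) (c (b z13 z12) (b z13 z12)))) (b (d (c (b z15 z15) (b z15 z15)) (c z13 (b z15 z15))) (d (c z12 (b z13 z12)) (c z12 (b z13 z12))))))) (c (b z10 (d (c z8 (b z13 z12)) z8)) (b z14 (d (b (d (c z13 (b z15 z15)) z13) z12) (c (b z13 z12) (b z13 z12))))))) _ _ (by decide +kernel)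

end Vale.Agent.Lib.P154Q5
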