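import Vale.Agent.Lib.P154Q5.CkADefs

namespace Vale.Agent.Lib.P154Q5

set_option maxRecDepth 100000
set_option exponentiation.threshold 1000

open Tr

theorem okA360 : CKA ⟨24576, 49152, 8192, 12288⟩ ⟨12288, 24576, 8192, 12288⟩ :=
  ckA_sound (b (d (b (d (c (b (d z11 (b (d z11 (b (d z3 z3) (d z3 z3))) (d z11 (b (d z3 z3) (d z3 z3))))) (d z11 (b (d z11 (b (d z3 z3) (d z3 z3))) (d z11 (b z3 z3))))) (b (d (c (b (d z15 (c z11 z15)) (d z15 (c z11 z15))) z15) (c (b z11 z11) (b (d z15 (b z15 z15)) z15))) (d (c (b (d z15 (c z11 z15)) (d z15 (c z11 z15))) z15) (c (b z11 z11) (b z15 z15))))) (b (d (b (d (c z11 (b z11 z11)) z11) (d (c z11 (b z11 z11)) z11)) (b (d (b (d z11 (b z3 z3)) (d z11 (b z3 z3))) z0) (d (b (d z11 z3) (d z11 z3)) z0))) (d (b (d (c z11 (b z11 z11)) z11) (d (c z11 (b z11 z11)) z11)) (b (d (b (d z11 z3) (d z11 z3)) z0) (d (b (d z11 z3) (d z11 z3)) z0)))))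 (d (c (b (d z11 (b (d z11 z3) (d z11 z3))) (d z11 (a (b z3 z2) (b (d z11 z3) z3)))) (b (d (c (b z15 z15) z15) (c (b z11 z11) (b z15 z15))) (d (a (c z14 (b z15 z14)) (c (b z15 z15) z15)) (a (c (b z11 z10) z14) (c (b z11 z11) z15))))) (b (d (b (d (c z11 (a z11 (b z11 z11))) z11) (d (c z11 (a z11 (b z11 z11))) z11)) (b (d (a z3 (b (d z11 z3) (d z11 z3))) z0) (d (a z3 (b z3 z3)) z0))) (d (a (b z11 z10) (b z11 z11)) (a (b (d z3 z0) (d z2 z0)) (b (d z3 z0) (d z3 z0))))))) z0) (d (b (d (c (b (d z11 (a z0 (b z3 z3))) (d z11 z3)) (b (d z15 (c z11 z15)) z15)) (b (d z11 (a (b (d z2 z0) (d z0 z0)) (b (d z3 z0) z3))) (d z11 z3))) (d (c (b z2 z0) (b z14 (d (c z12 (b z13 z12)) z8))) (b (d z10 z2) (d z8 (b z1 z0))))) z0)) _ _ (by decide +kernel)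

theorem okA361 : CKA ⟨24576, 49152, 4096, 12288⟩ ⟨24576, 49152, 4096, 12288⟩ :=
  ckA_sound (b (d z15 (b z0 (d (b z0 (d z15 (b z0 (d (b z0 z15) (c (b z0 (d (c z11 z15) z11)) z15))))) (b z0 (d (b z0 (d (c (b z0 (d z11 (b z0 (d z11 z3)))) z15) (b z0 z15))) (b z0 (d z11 (b z0 (d z7 z3))))))))) (d (b (d z0 (b (d z0 z15) (d z0 (b (d z0 (b z15 (d z0 z15))) (d z0 (a (b (d z0 (a z14 z15)) (d z0 z14)) z15)))))) (d z0 (b (d z0 (b (d z0 (a (b (d z0 z14) (d z0 (b z14 (d z0 z12)))) z15)) (d z0 (b z15 z15)))) (d z0 (b z14 (d z0 (b z13 z12))))))) (b (d (b (d (b z15 (d z15 z15)) (b (d (b z15 z15) (c (b (d (c z11 z15) z11) (d (c z11 z15) z11)) z15)) (d (b z15 z15) (c (b (d (c z11 z15) z11) (d z15 z11)) z15)))) (d (b (d (b z15 (d z15 z15)) (b z15 (d z15 z15))) (d (a (b (d (a z14 z15) (a z14 z15)) (d z14 z14)) z15) (a (b (d (a z14 z15) z15) (d z14 z14)) z15))) (b (d (b z15 (d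 z15 z15)) (c (b (d z15 z11) (d z15 z11)) (b z15 (d z15 z15)))) (d (a (b (d z15 z15) (d z14 z14)) (b (d z15 z15) (d z15 z15))) (a (c (b z11 z10) (b (d z15 z15) (d z14 z14))) (c (b (d z15 z11) (d z15 z11)) (b (d z15 z15) (d z15 z15)))))))) (b (d (b (d (c (b (d z11 (b (d z11 z3) (d z11 z3))) (d (c (b (d z11 z3) (d z11 z3)) z15) (b (d z11 z3) (d z11 z3)))) z15) z15) (d (c (b (d (c (b (d z11 z3) (d z11 z3)) z15) (b (d z11 z3) (d z11 z3))) (d (c (b (d z11 z3) (d z11 z3)) z15) (b (d z11 z3) (d z11 z3)))) z15) z15)) (b (d z11 (b (d z7 z3) z3)) (d z11 z3))) (d (b (d (c (b (d (a z11 (c (b (d z11 z3) (d z11 z3)) z15)) (a z3 (b (d z11 z3) (d z11 z3)))) (d z11 (a z3 (b z3 z3)))) (b z15 z15)) z15) (d (a (c (b (d z11 z3) (d z10 z2)) (b z15 z14)) (c (b (d z11 z3) (d z11 z3)) (b z15 z15))) z15)) (b (d z11 z3) (d z11 (a z2 z3)))))) (d (b (d (b (d (a (b (d z14 (a (b z14 (d z12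 z12)) z15)) (d (b z14 (d z12 z12)) (b z14 (d z12 z12)))) z15) (a (b (d (a (b z14 (d z12 z12)) z15) (a (b z14 z12) z15)) (d (b z14 z12) (b z14 z12))) z15)) (d z15 z15)) (b (d (a (b (d (c z14 (a (b z14 z12) z15)) z14) (d (c z12 (b z14 z12)) (c z12 (b z14 z12)))) (b z15 z15)) (c (a (b (d z14 z10) (d z12 z8)) (b z11 z11)) (a (b (d z14 z14) (d z12 z12)) (b z15 z15)))) (d z15 z15))) (d (b z14 (d (b z13 z12) z12)) (b z14 (d z12 (c z8 z12))))) (b (d (b (d z15 z15) (d z15 z15)) (b (d z11 (a (b z2 (d z4 z0)) z3)) (d z11 z3))) (d (b (d z14 z14) (d (c (b z1 z0) z12) z12)) (b (d z10 z2) (d z8 (b z1 (d z4 z0)))))))))) _ _ (by decide +kernel)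

end Vale.Agent.Lib.P154Q5
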