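import Vale.Agent.Lib.P154Q5.CkADefs

namespace Vale.Agent.Lib.P154Q5

set_option maxRecDepth 100000
set_option exponentiation.threshold 1000

open Tr

theorem okA45 : CKA ⟨4097, 6145, 1536, 2048⟩ ⟨12288, 18432, 8192, 8704⟩ :=
  ckA_sound (c (a z0 (b (d (c (b (d (a z0 z1) (a z0 z1)) (d (a z0 z1) (a z0 z1))) (b (d (a z8 z9) (a z8 z9)) (d (a z8 z9) (a z8 z9)))) (b (d (a z0 (c (b (d z1 (a z1 z0)) z1) (b (d z9 (a z9 z0)) z9))) (a z0 (b (d (a z1 z0) (a z1 z0)) z1))) (d (a z0 (c z1 z9)) (a z0 z1)))) (d (c (b (d (a z0 (c z1 z9)) (a z0 z1)) z0) (b (d (a z8 z9) (a z8 z9)) z8)) (b (d (a z0 (c (b z1 (d (a z0 z1) z1)) z9)) (a z0 (b z1 (d (a z0 z1) z1)))) (d (a z0 (c (b (d z0 z0) z0) (b (d z8 (a z8 z9)) z8))) (a z0 (b (d (a z0 z1) (a z0 z1)) z0))))))) (a z8 (b (d (c (b (d (a z8 z9) (a z8 z9)) (d (a z8 z9) (a z8 z9))) (b (d (a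 z8 z9) (a z8 z9)) (d (a z8 z9) (a z8 z9)))) (c (b (d (a z8 (c (b (d z9 (a z9 z0)) z9) (b (d z9 (a z9 z0)) z9))) (a z8 (c (b (d (a z9 z0) (a z9 z0)) z9) (b (d (a z9 z0) (a z9 z0)) z9)))) (d (a z8 z9) (a z8 z9))) (b (d (a z8 z9) (a z8 (c (b (d (a z9 z0) (a z9 z0)) z9) (b (d (a z9 z0) (a z9 z0)) z9)))) (d (a z8 z9) (a z8 z9))))) (d (c (b (d (a z8 (c (b z9 (d (a z8 z9) (a z8 z9))) (b z9 (d (a z8 z9) (a z8 z9))))) (a z8 (c (b z9 (d (a z8 z9) (a z8 z9))) (b z9 (d (a z8 z9) (a z8 z9)))))) z8) (b (d (a z8 (c (b z9 (d (a z8 z9) (a z8 z9))) (b z9 (d (a z12 z13) (a z8 z9))))) (a z8 (c (b z9 (d (a z8 z9) (a z8 z9))) (b z9 (d (a z8 z9) (a z8 z9)))))) z8)) (c (b (d (a z8 (c (b z9 (d (a z8 z9) (a z8 z9))) (b z9 (d (a z8 z9) (a z8 z9))))) (a z8 (c (b z9 (d (a z8 z9) (a z8 z9))) (b z9 (d (a z8 z9) (a z8 z9)))))) (d (a z8 (c (b (d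 z8 (a z8 z9)) z8) z8)) (a z8 (c (b (d (a z8 z9) (a z8 z9)) z8) (b (d (a z8 z9) (a z8 z9)) z8))))) (b (d (a z8 (c (b z9 (d (a z8 z9) (a z8 z9))) (b z9 (d (a z8 z9) (a z8 z9))))) (a z8 (c (b z9 (d (a z8 z9) (a z8 z9))) (b z9 (d (a z8 z9) (a z8 z9)))))) (d z8 (a z8 (c (b (d (a z8 z9) (a z8 z9)) z8) (b (d z8 (a z8 z9)) z8)))))))))) _ _ (by decide +kernel)

theorem okA46 : CKA ⟨4097, 6145, 1536, 2048⟩ ⟨12288, 18432, 8704, 9216⟩ :=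
  ckA_sound (a z0 (b (d (c (b (d (a z0 (c (b (d (a z1 z0) (a z1 z0)) z1) (b (d (a z9 z0) (a z9 z0)) z9))) (a z0 (b (d (a z1 z0) (a z1 z0)) (d z1 (a z1 z0))))) (d (a z0 (c z1 z9)) (a z0 z1))) (b (d (a z8 (c (b (d (a z9 z0) (a z9 z0)) z9) (b (d (a z9 z0) (a z9 z0)) z9))) (a z8 (c (b (d (a z9 z0) (a z1 z0)) (d z9 (a z1 z0))) (b (d (a z9 z0) (a z9 z0)) z9)))) (d (a z8 z9) (a z8 z9)))) (b (d (a z0 (b (d (a z9 z0) (a z1 z0)) (d (a z9 z0) (a z1 z0)))) (a z0 (b (d (a z1 z0) z0) (d (a z1 z0) z0)))) (d (a z0 (b z1 (d z9 z1))) (a z0 z1)))) (d (c (b (d (a z0 (c (b (d (a z0 z1) z1) (d (a z0 z1) (a z0 z1))) (b z9 (d (a z8 z9) (a z8 z9))))) (a z0 (b (d (a z0 z1) z1) (d (a z0 z1) z1)))) (d (a z0 (c (b (d (a z0 z1) (a z0 z1)) (d z0 z0)) (b (d (a z8 z9) (a z8 z9)) (d z8 (a z8 z9))))) (a z0 (b (d (a z0 z1) (a z0 z1)) (d (a z0 z1)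 (a z0 z1)))))) (b (d (a z8 (c (b z9 (d (a z8 z9) (a z8 z9))) (b z9 (d (a z8 z9) (a z8 z9))))) (a z8 (c (b z9 (d (a z8 z9) (a z0 z1))) (b z9 (d (a z8 z9) (a z8 z9)))))) (d (a z8 (c (b (d (a z8 z9) (a z8 z9)) z8) (b (d (a z8 z9) (a z8 z9)) z8))) (a z8 (c (b (d (a z8 z9) (a z0 z1)) (d (a z8 z9) (a z0 z1))) (b (d (a z8 z9) (a z8 z9)) (d z8 (a z8 z9)))))))) (b (d (a z0 (b (d z9 (a z0 z1)) (d (a z8 z9) (a z0 z1)))) (a z0 (b z1 (d (a z0 z1) z0)))) (d (a z0 (b (d (a z8 z9) (a z0 z1)) (d (a z8 z9) (a z0 z1)))) (a z0 (b (d (a z0 z1) z0) (d (a z0 z1) z0)))))))) _ _ (by decide +kernel)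

theorem okA47 : CKA ⟨6145, 8193, 1024, 2048⟩ ⟨12288, 18432, 8192, 9216⟩ :=
  ckA_sound (b z0 (d (c (b z0 (d (a (c (b (d (a z1 z0) (a z1 z0)) (d (a z1 z0) (a z1 z0))) (b (d (a z9 z0) (a z9 z0)) (d z9 (a z9 z0)))) z0) (a (b (d (a (c (b (d z1 z1) z1) z9) z0) (a (b (d (a z1 z0) (a z1 z0)) z1) z0)) (d (a z1 z0) (a z1 z0))) z0))) (b z0 (d (a (c (b (d (a z9 z0) (a z9 z0)) (d z9 (a z9 z0))) (b (d (a z9 z0) (a z9 z0)) (d z9 (a z9 z0)))) z0) (a (c (b (d (a z9 z0) (a (c (b (d z9 (a z9 z0)) z9) z9) z0)) (d (a z9 z0) (a z9 z0))) (b (d (a z9 z0) (a z9 z0)) (d (a z9 z0) (a z9 z0)))) z0)))) (b z0 (d (a (c (b (d (a (c (b (d (a z1 z0) (a z1 z0)) z1) (b (d (a z9 z0) (a z9 z0)) z9)) z0) (a (b (d (a z1 z0) (a z1 z0)) (d z1 z1)) z0)) (d (a z1 z0) (a z1 z0))) (b (d (a (c (b (d z9 (a z9 z0)) z9) (b (d z9 (a z9 z0)) z9)) z0) (a (c (b (d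 (a z9 z0) (a z1 z0)) z9) (b (d (a z9 z0) (a z9 z0)) z9)) z0)) (d (a z9 z0) (a z9 z0)))) z0) (a (b (d (a (b (d (c (a z1 z0) (a z9 z0)) (a z1 z0)) (d z9 (a z1 z0))) z0) (a (b (d (a z1 z0) z0) (d (a z1 z0) z0)) z0)) (d (a z1 z0) (a z1 z0))) z0))))) _ _ (by decide +kernel)

theorem okA48 : CKA ⟨4097, 6145, 1024, 1536⟩ ⟨18432, 24576, 8192, 8704⟩ :=
  ckA_sound (c (b z0 (d (a z12 (c (b (d (a (c (b z0 (d (a z13 z0) (a z13 z0))) (b z0 (d (a z13 z0) (a z13 z0)))) z0) (a (c (b z0 (d (a z13 z0) (a z13 z0))) (b z0 (d (a z13 z0) (a z13 z0)))) z0)) (d (a z13 z0) (a z13 z0))) (b (d (a (c (b z0 (d (a z13 z0) (a z13 z0))) (b z0 (d (a z13 z0) (a z13 z0)))) z0) (a (c (b z0 (d (a z13 z0) (a z13 z0))) (b z0 (d (a z13 z0) (a z13 z0)))) z0)) (d (a z13 z0) (a z13 z0))))) (a z12 (c (b (d (a (c (b z0 (d (a z9 z0) (a z9 z0))) (b z0 (d (a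 z13 z0) (a z13 z0)))) z0) (a (c (b z0 (d (a z9 z0) (a z9 z0))) (b z0 (d (a z9 z0) (a z9 z0)))) z0)) (d (a z9 z0) (a z9 z0))) (b (d (a (c (b z0 (d (a z13 z0) (a z13 z0))) (b z0 (d (a z13 z0) (a z13 z0)))) z0) (a (c (b z0 (d (a z13 z0) (a z13 z0))) (b z0 (d (a z13 z0) (a z13 z0)))) z0)) (d (a z13 z0) (a z13 z0))))))) (b z0 (d (a (b (d (c z12 (b z0 z12)) z12) z12) (b (d (c (a (b z0 (d (c (a z13 z0) (a z13 z0)) (c (a z13 z0) (a z13 z0)))) z0) (a (b z0 (d (c (a z13 z0) (a z13 z0)) (c (a z13 z0) (a z13 z0)))) z0)) (c (a (b z0 (d (c (a z13 z0) (a z13 z0)) (c (a z13 z0) (a z13 z0)))) z0) (a (b z0 (d (c (a z13 z0) (a z13 z0)) (c (a z13 z0) (a z13 z0)))) z0))) (d (c (a z13 z0) (a (b z13 (d (c (a z12 z13) (a z12 z13)) (c z13 (a z12 z13)))) z0)) (c (a z13 z0) (a z13 z0))))) (a z12 (b (d (c (a (b z0 (d (c (a z13 z0) (a z13 z0))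 (c (a z13 z0) (a z13 z0)))) z0) (a (b z0 (d (c (a z13 z0) (a z13 z0)) (c (a z13 z0) (a z13 z0)))) z0)) (c (a (b z0 (d (c (a z13 z0) (a z13 z0)) (c (a z13 z0) (a z13 z0)))) z0) (a (b z0 (d (c (a z13 z0) (a z13 z0)) (c (a z13 z0) (a z13 z0)))) z0))) (d (c (a z13 z0) (a z13 z0)) (c (a z13 z0) (a z13 z0)))))))) _ _ (by decide +kernel)

theorem okA49 : CKA ⟨4097, 6145, 1024, 1536⟩ ⟨18432, 21504, 8704, 9216⟩ :=
  ckA_sound (b z0 (d (a z8 (c (b (d (a (c (b z0 (d (a z9 z0) (a z9 z0))) (b z0 (d (a z9 z0) (a z9 z0)))) z0) (a (c (b z0 (d (a z9 z0) (a z9 z0))) (b z0 (d (a z9 z0) (a z9 z0)))) z0)) (d (a (c (b (d z9 (a z9 z0)) z9) (b (d z9 (a z9 z0)) z9)) z0) (a (c (b (d (a z9 z0) (a z9 z0)) z9) (b (d (a z9 z0) (a z9 z0)) z9)) z0))) (b (d (a (c (b z0 (d (a z13 z0) (a z9 z0))) (b z0 (d (a z13 z0) (a z13 z0)))) z0) (a (c (b z0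 (d (a z9 z0) (a z9 z0))) (b z0 (d (a z13 z0) (a z9 z0)))) z0)) (d (a z13 z0) (a (c (b (d (a z9 z0) (a z9 z0)) z9) (b (d z13 (a z9 z0)) z13)) z0))))) (a z8 (c (b (d (a (c (b z0 (d (a (c (b (d (a z9 z0) (a z9 z0)) z9) (b (d z9 (a z9 z0)) z9)) z0) (a (c (b (d (a z9 z0) (a z9 z0)) z9) (b (d (a z9 z0) (a z9 z0)) z9)) z0))) (b z0 (d (a z9 z0) (a (c (b (d (a z9 z0) (a z9 z0)) z9) (b (d z9 (a z9 z0)) z9)) z0)))) z0) (a (c (b z0 (d (a (c (b (d (a z9 z0) (a z1 z0)) z1) (b (d (a z9 z0) (a z9 z0)) z9)) z0) (a (b (d (c (a z1 z0) (a z9 z0)) (a z1 z0)) z1) z0))) (b z0 (d (a (c (b (d (a z9 z0) (a z9 z0)) z9) (b (d (a z9 z0) (a z9 z0)) z9)) z0) (a (c (b (d (a z9 z0) (a z9 z0)) z9) (b (d (a z9 z0) (a z9 z0)) z9)) z0)))) z0)) (d (a (c (b (d (a z9 z0) (a z9 z0)) z9) (b (d (a z9 z0) (a z9 z0)) z9)) z0) (a (c (b (d (a z9 z0) (a z1 z0))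 z1) (b (d (a z9 z0) (a z9 z0)) z9)) z0))) (b (d (a (c (b z0 (d (a z9 z0) (a z9 z0))) (b z0 (d (a z9 z0) (a z9 z0)))) z0) (a (c (b z0 (d (a (c (b (d (a z9 z0) (a z9 z0)) z9) z9) z0) (a (c (b (d (a z9 z0) (a z9 z0)) z9) (b (d (a z9 z0) (a z9 z0)) z9)) z0))) (b z0 (d (a z9 z0) (a (b (d z9 (c (a z9 z0) z9)) z9) z0)))) z0)) (d (a (c (b (d (a z9 z0) (a z9 z0)) z9) (b (d (a z9 z0) (a z9 z0)) z9)) z0) (a (c (b (d (a z9 z0) (a z9 z0)) z9) (b (d (a z9 z0) (a z9 z0)) z9)) z0))))))) _ _ (by decide +kernel)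

theorem okA50 : CKA ⟨4097, 6145, 1024, 1536⟩ ⟨21504, 24576, 8704, 9216⟩ :=
  ckA_sound (b z0 (d (a z12 (b (d (c (a (b z0 (d (c (a z13 z0) (a z13 z0)) (c (a z13 z0) (a z13 z0)))) z0) (a (b z0 (d (c (a z13 z0) (a z13 z0)) (c (a z13 z0) (a z13 z0)))) z0)) (c (a (b z0 (d (c (a z13 z0) (a z13 z0)) (c (a z13 z0) (a z13 z0)))) z0) (a (b z0 (d (c (a z13 z0) (a z13 z0)) (c (a z13 z0) (a z13 z0)))) z0))) (d (c (a z13 z0) (a z13 z0)) (c (a z13 z0) (a z13 z0))))) (a z12 (b (d (c (a (b z0 (d (c (a z13 z0) (a z13 z0)) (c (a z13 z0) (a z13 z0)))) z0) (a (b z0 (d (c (a z13 z0) (a z13 z0)) (c (a z13 z0) (a z13 z0)))) z0)) (c (a (b z0 (d (c (a z9 z0) (a z13 z0)) (c (a z9 z0) (a z13 z0)))) z0) (a (b z0 (d (c (a z13 z0) (a z13 z0)) (c (a z13 z0) (a z13 z0)))) z0))) (d (c (a (b (d (c (a z13 z0) z13) (c (a z13 z0) z13)) z13) z0) (a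 z13 z0)) (c (a (b (d (c (a z9 z0) (a z13 z0)) (c (a z9 z0) (a z13 z0))) z9) z0) (a z13 z0))))))) _ _ (by decide +kernel)

theorem okA51 : CKA ⟨4097, 6145, 1536, 2048⟩ ⟨18432, 21504, 8192, 8704⟩ :=
  ckA_sound (a z12 (b (d (c (b (d (a z12 z13) (a z12 z13)) (d (a z12 z13) (a z12 z13))) (b (d (a z12 z13) (a z12 z13)) (d (a z12 z13) (a z12 z13)))) (c (b (d (a z8 z9) (a z8 (c (b (d z9 (a z9 z0)) z9) (b (d z9 (a z9 z0)) z9)))) (d (a z8 z9) (a z8 z9))) (b (d (a z12 z13) (a z12 z13)) (d (a z12 z13) (a z12 z13))))) (d (c (b (d (a z12 (c (b (d (a z12 z13) (a z12 z13)) (d (a z12 z13) (a z12 z13))) (b (d (a z12 z13) (a z12 z13)) (d (a z12 z13) (a z12 z13))))) (a z12 (c (b (d (a z12 z13) (a z12 z13)) (d (a z12 z13) (a z12 z13))) (b (d (a z12 z13) (a z12 z13)) (d (a z12 z13) (a z12 z13)))))) z12) (b (d (a z12 (c (b (d (a z12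 z13) (a z12 z13)) (d (a z12 z13) (a z12 z13))) (b (d (a z12 z13) (a z12 z13)) (d (a z12 z13) (a z12 z13))))) (a z12 (c (b (d (a z12 z13) (a z12 z13)) (d (a z12 z13) (a z12 z13))) (b (d (a z12 z13) (a z12 z13)) (d (a z12 z13) (a z12 z13)))))) z12)) (c (b (d (a z8 (c (b z9 (d (a z8 z9) (a z8 z9))) (b (d (a z12 z13) (a z12 z13)) (d (a z12 z13) (a z12 z13))))) (a z8 (c (b z9 (d (a z8 z9) (a z8 z9))) (b z9 (d (a z8 z9) (a z8 z9)))))) (d z8 (a z8 (c (b (d z8 (a z8 z9)) z8) z8)))) (b (d (a z12 (c (b (d (a z12 z13) (a z12 z13)) (d (a z12 z13) (a z12 z13))) (b (d (a z12 z13) (a z12 z13)) (d (a z12 z13) (a z12 z13))))) (a z12 (c (b (d (a z12 z13) z13) (d (a z12 z13) (a z12 z13))) (b (d (a z12 z13) (a z12 z13)) (d (a z12 z13) (a z12 z13)))))) z12))))) _ _ (by decide +kernel)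

theorem okA52 : CKA ⟨4097, 6145, 1536, 2048⟩ ⟨21504, 24576, 8192, 8704⟩ :=
  ckA_sound (a z12 (b (d (b (d (c (a z12 z13) (a z12 z13)) (c (a z12 z13) (a z12 z13))) (d (c (a z12 (b z13 (d (c (a z12 z13) (a z12 z13)) (c z13 (a z12 z13))))) (a z12 (b z13 (d (c (a z12 z13) (a z12 z13)) (c (a z12 z13) (a z12 z13)))))) (c (a z12 z13) (a z12 (b z13 (d (c (a z12 z13) (a z12 z13)) (c (a z12 z13) (a z12 z13)))))))) (b (d (c (a z12 z13) (a z12 z13)) (c (a z12 z13) (a z12 z13))) (d (c (a z12 z13) (a z12 (b z13 (d (c z13 (a z12 z13)) z13)))) (c (a z12 z13) (a z12 z13))))) (d (b (d (c (a z12 (b (d (c (a z12 z13) (a z12 z13)) (c (a z12 z13) (a z12 z13))) (d (c (a z12 z13) (a z12 z13)) (c (a z12 z13) (a z12 z13))))) (a z12 (b (d (c (a z12 z13) (a z12 z13)) (c (a z12 z13) (a z12 z13))) (d (c (a z12 z13) (a z12 z13)) (c (a z12 z13)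 (a z12 z13)))))) (c (a z12 (b (d (c (a z12 z13) (a z12 z13)) (c (a z12 z13) (a z12 z13))) (d (c (a z12 z13) (a z12 z13)) (c (a z12 z13) (a z12 z13))))) (a z12 (b (d (c (a z12 z13) (a z12 z13)) (c (a z12 z13) (a z12 z13))) (d (c (a z12 z13) (a z12 z13)) (c (a z12 z13) (a z12 z13))))))) z12) (b (d (c (a z12 (b (d (c (a z12 z13) (a z12 z13)) (c (a z12 z13) (a z12 z13))) (d (c (a z12 z13) (a z12 z13)) (c (a z12 z13) (a z12 z13))))) (a z12 (b (d (c (a z12 z13) (a z12 z13)) (c (a z12 z13) (a z12 z13))) (d (c (a z12 z13) (a z12 z13)) (c (a z12 z13) (a z12 z13)))))) (c (a z12 (b (d (c (a z12 z13) (a z12 z13)) (c (a z12 z13) (a z12 z13))) (d (c (a z12 z13) (a z12 z13)) (c (a z12 z13) (a z12 z13))))) (a z12 (b (d (c (a z12 z13) (a z12 z13)) (c (a z12 z13) (a z12 z13))) (d (c (a z12 z13) (a z12 z13)) (c (a z12 z13) (a z12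 z13))))))) z12)))) _ _ (by decide +kernel)

theorem okA53 : CKA ⟨4097, 5121, 1536, 2048⟩ ⟨18432, 21504, 8704, 9216⟩ :=
  ckA_sound z8 _ _ (by decide +kernel)

theorem okA54 : CKA ⟨5121, 6145, 1536, 2048⟩ ⟨18432, 21504, 8704, 9216⟩ :=
  ckA_sound (b (d (c (b (d (a z8 (c (b (d (a z9 z0) (a z9 z0)) z9) (b (d (a z9 z0) (a z9 z0)) z9))) (a z8 (c (b (d (a z9 z0) (a z9 z0)) z9) (b (d (a z9 z0) (a z9 z0)) z9)))) (d (a z8 z9) (a z8 z9))) (b (d (a z12 (c (b (d (a z13 z0) (a z9 z0)) z9) (b (d z13 (a z13 z0)) z13))) (a z8 (c (b (d (a z9 z0) (a z9 z0)) z9) (b (d (a z13 z0) (a z9 z0)) z13)))) (d (a z12 z13) (a z8 z9)))) (c (b (d (a z8 (c (b (d (a z9 z0) (a z9 z0)) (d z9 (a z9 z0))) (b (d (a z9 z0) (a z9 z0)) z9))) (a z8 (c (b (d (a z9 z0) (a z1 z0)) (d (a z9 z0) (a z1 z0))) (b (d (a z9 z0) (a z9 z0)) (d (a z9 z0) (a z9 z0))))))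 (d (a z8 z9) (a z8 z9))) (b (d (a z8 (c (b (d (a z9 z0) (a z9 z0)) z9) (b (d (a z9 z0) (a z9 z0)) z9))) (a z8 (c (b (d (a z9 z0) (a z9 z0)) (d z9 (a z9 z0))) (b (d (a z9 z0) (a z9 z0)) z9)))) (d (a z8 z9) (a z8 z9))))) (d (c (b (d (a z8 (c (b z9 (d (a z8 z9) (a z8 z9))) (b z9 (d (a z8 z9) (a z8 z9))))) (a z8 (c (b z9 (d (a z8 z9) (a z8 z9))) (b z9 (d (a z8 z9) (a z8 z9)))))) (d (a z8 (c (b (d (a z8 z9) (a z8 z9)) z8) (b (d (a z8 z9) (a z8 z9)) z8))) (a z8 (c (b (d (a z8 z9) (a z8 z9)) z8) (b (d (a z8 z9) (a z8 z9)) z8))))) (b (d (a z12 (c (b z9 (d (a z12 z13) (a z8 z9))) (b (d (a z12 z13) z13) (d (a z12 z13) (a z12 z13))))) (a z8 (c (b z9 (d (a z8 z9) (a z8 z9))) (b z13 (d (a z12 z13) (a z8 z9)))))) (d (a z12 (c (b (d z12 (a z8 z9)) z8) z12)) (a z8 (c (b (d (a z8 z9) (a z8 z9)) z8) (b (d (a z12 z13) (a z8 z9)) z12))))))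 (c (b (d (a z8 (c (b z9 (d (a z8 z9) (a z8 z9))) (b z9 (d (a z8 z9) (a z8 z9))))) (a z8 (c (b (d z9 z1) (d (a z8 z9) (a z0 z1))) (b z9 (d (a z8 z9) (a z8 z9)))))) (d (a z8 (c (b (d (a z8 z9) (a z8 z9)) (d (a z8 z9) (a z8 z9))) (b (d (a z8 z9) (a z8 z9)) (d z8 (a z8 z9))))) (a z8 (c (b (d (a z8 z9) (a z0 z1)) (d (a z8 z9) (a z0 z1))) (b (d (a z8 z9) (a z8 z9)) (d (a z8 z9) (a z8 z9))))))) (b (d (a z8 (c (b z9 (d (a z8 z9) (a z8 z9))) (b z9 (d (a z8 z9) (a z8 z9))))) (a z8 (c (b z9 (d (a z8 z9) (a z8 z9))) (b z9 (d (a z8 z9) (a z8 z9)))))) (d (a z8 (c (b (d (a z8 z9) (a z8 z9)) z8) (b (d (a z8 z9) (a z8 z9)) z8))) (a z8 (c (b (d (a z8 z9) (a z8 z9)) (d z8 (a z8 z9))) (b (d (a z8 z9) (a z8 z9)) z8)))))))) _ _ (by decide +kernel)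

theorem okA55 : CKA ⟨4097, 6145, 1536, 2048⟩ ⟨21504, 24576, 8704, 9216⟩ :=
  ckA_sound (a z12 (b (d (b (d (c (a z12 z13) (a z12 z13)) (c (a z12 (b (d (c (a z13 z0) z13) (c (a z13 z0) z13)) z13)) (a z12 z13))) (d (c (a z12 z13) (a z12 z13)) (c (a z12 z13) (a z12 z13)))) (b (d (c (a z12 (b (d (c (a z13 z0) (a z13 z0)) (c (a z13 z0) (a z13 z0))) z13)) (a z12 (b (d z13 (c (a z13 z0) z13)) z13))) (c (a z8 (b (d (c (a z9 z0) (a z13 z0)) (c (a z9 z0) (a z13 z0))) z9)) (a z12 (b (d (c (a z13 z0) z13) (c (a z13 z0) (a z13 z0))) z13)))) (d (c (a z12 z13) (a z12 z13)) (c (a z8 z9) (a z12 z13))))) (d (b (d (c (a z12 (b (d (c (a z12 z13) (a z12 z13)) (c z13 (a z12 z13))) (d (c (a z12 z13) (a z12 z13)) (c (a z12 z13) (a z12 z13))))) (a z12 (b (d (c (a z12 z13) (a z12 z13)) (c (a z12 z13) (a z12 z13))) (d (c (a z12 z13) (a z12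 z13)) (c (a z12 z13) (a z12 z13)))))) (c (a z12 (b z13 (d (c (a z12 z13) (a z12 z13)) (c (a z12 z13) (a z12 z13))))) (a z12 (b (d (c (a z12 z13) (a z12 z13)) z13) (d (c (a z12 z13) (a z12 z13)) (c (a z12 z13) (a z12 z13))))))) z12) (b (d (c (a z12 (b z13 (d (c (a z12 z13) (a z12 z13)) (c (a z12 z13) (a z12 z13))))) (a z12 (b z13 (d (c (a z12 z13) (a z12 z13)) (c (a z12 z13) (a z12 z13)))))) (c (a z8 (b z9 (d (c (a z8 z9) (a z12 z13)) (c (a z8 z9) (a z12 z13))))) (a z12 (b z13 (d (c (a z12 z13) (a z12 z13)) (c (a z12 z13) (a z12 z13))))))) (d (c (a z12 (b (d (c (a z12 z13) z12) (c (a z12 z13) z12)) z12)) z12) (c (a z8 (b (d (c (a z8 z9) (a z12 z13)) (c (a z8 z9) (a z12 z13))) z8)) z12)))))) _ _ (by decide +kernel)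

theorem okA56 : CKA ⟨6145, 8193, 1024, 2048⟩ ⟨18432, 24576, 8192, 9216⟩ :=
  ckA_sound (b z0 (d (c (b z0 (d (a (c (b (d (a z13 z0) (a z13 z0)) (d z13 (a z13 z0))) (b (d (a z13 z0) (a z13 z0)) z13)) z0) (a (c (b (d (a z9 z0) (a z9 z0)) (d (a z9 z0) (a z9 z0))) (b (d (a z13 z0) (a z13 z0)) (d z13 (a z13 z0)))) z0))) (b z0 (d (a (b (d z13 (c (a z13 z0) z13)) z13) z0) (a (b (d (c (a z13 z0) (a z13 z0)) (c (a z13 z0) (a z13 z0))) z13) z0)))) (c (b z0 (d (a (c (b (d (a z9 z0) (a (c (b (d (a z9 z0) (a z9 z0)) z9) (b (d z9 (a z9 z0)) z9)) z0)) (d (a z9 z0) (a z9 z0))) (b (d (a z13 z0) (a z9 z0)) (d (a z13 z0) (a z9 z0)))) z0) (a (c (b (d (a (c (b (d (a z9 z0) (a z9 z0)) z9) (b (d (a z9 z0) (a z9 z0)) z9)) z0) (a (c (b (d (a z9 z0) (a z1 z0)) (d (a z9 z0) (a z1 z0))) (b (d (a z9 z0) (a z9 z0)) z9)) z0)) (d (a z9 z0) (a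 z9 z0))) (b (d (a (c (b (d (a z9 z0) (a z9 z0)) z9) (b (d z9 (a z9 z0)) z9)) z0) (a (c (b (d (a z9 z0) (a z9 z0)) z9) (b (d (a z9 z0) (a z9 z0)) z9)) z0)) (d (a z9 z0) (a z9 z0)))) z0))) (b z0 (d (a (b (d (c (a z13 z0) (a z13 z0)) (c (a z13 z0) (a z13 z0))) (d z13 (c (a z13 z0) z13))) z0) (a (b (d (c (a z13 z0) (a z13 z0)) (c (a (b (d (c z9 z13) (c (a z9 z0) z13)) z9) z0) (a z13 z0))) (d (c (a z13 z0) (a z13 z0)) (c (a z9 z0) (a z13 z0)))) z0)))))) _ _ (by decide +kernel)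

theorem okA57 : CKA ⟨4097, 6145, 1024, 1280⟩ ⟨12288, 24576, 9216, 9728⟩ :=
  ckA_sound z0 _ _ (by decide +kernel)

theorem okA58 : CKA ⟨4097, 6145, 1280, 1536⟩ ⟨12288, 24576, 9216, 9472⟩ :=
  ckA_sound (c (a (b (d z8 z8) z8) (b (d (c (a (b z0 (d (c (a (b (d (c (a z1 z0) (a z9 z0)) (c (a z1 z0) (a z9 z0))) (d z9 z1)) z0) (a (b (d (c (a z9 z0) (a z9 z0)) (c (a z9 z0) (a z9 z0))) z9) z0)) (c (a (b (d (c (a z1 z0) (a z9 z0)) (a z1 z0)) z1) z0) (a (b (d (c (a z9 z0) (a z9 z0)) (c (a z1 z0) (a z9 z0))) z9) z0)))) z0) (a (b z0 (d (c (a (b (d (c (a z9 z0) (a z9 z0)) (c (a z9 z0) (a z9 z0))) z9) z0) (a z9 z0)) (c (a (b (d (c (a z9 z0) (a z9 z0)) (c (a z9 z0) (a z9 z0))) z9) z0) (a (b (d (c (a z9 z0) z9) (c (a z9 z0) z9)) z9) z0)))) z0)) (c (a (b z0 (d (c (a (b (d (c (a z1 z0) (a z9 z0)) (a z1 z0)) z1) z0) (a (b (d (a z9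 z0) (a z9 z0)) z9) z0)) (a (b (d (a z1 z0) (a z1 z0)) z1) z0))) z0) (a (b z0 (d (a (c (b (d (a z9 z0) (a z9 z0)) z9) (b (d (a z9 z0) (a z9 z0)) z9)) z0) (a (c (b (d (a z9 z0) (a z9 z0)) z9) (b (d (a z9 z0) (a z9 z0)) z9)) z0))) z0))) (d (c (a (b (d (c (a z1 z0) (a z9 z0)) (c (a z1 z0) (a z9 z0))) (d z9 z1)) z0) (a (b (d (c (a z9 z0) (a z9 z0)) (c (a z9 z0) (a z9 z0))) z9) z0)) (c (a (b (d (c (a z1 z0) (a z9 z0)) (a z1 z0)) z1) z0) (a (b (d (a z9 z0) (a z9 z0)) z9) z0))))) (a z8 (b (d (c (a (b z0 (d (c (a z9 z0) (a z13 z0)) (c (a z9 z0) (a z9 z0)))) z0) (a (b z0 (d (c (a z13 z0) (a z13 z0)) (c (a z13 z0) (a z13 z0)))) z0)) (c (a (b z0 (d (c (a z9 z0) (a z9 z0)) (c (a (b (d z9 (c (a z9 z0) z9)) z9) z0) (a z9 z0)))) z0) (a (b z0 (d (c (a z13 z0) (a z13 z0)) (c (a z9 z0) (a z13 z0)))) z0))) (d (c (a (b (d (c (a z9 z0)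 (a z13 z0)) (c (a z9 z0) (a z9 z0))) z9) z0) (a z13 z0)) (c (a (b (d (c (a z9 z0) (a z9 z0)) (c (a z9 z0) (a z9 z0))) z9) z0) (a (b (d (c (a z13 z0) z13) (c (a z9 z0) z13)) z13) z0)))))) _ _ (by decide +kernel)

theorem okA59 : CKA ⟨4097, 6145, 1280, 1536⟩ ⟨12288, 24576, 9472, 9728⟩ :=
  ckA_sound (a (c (b (d z8 z0) z0) z8) (c (b (d (a (c (b z0 (d (a (c (b (d (a z1 z0) (a z1 z0)) z1) (b (d (a z9 z0) (a z9 z0)) z9)) z0) (a (b (d (a z1 z0) (a z1 z0)) z1) z0))) (b z0 (d (a (c (b (d (a z9 z0) (a z9 z0)) z9) z9) z0) (a (c (b (d (a z9 z0) (a z9 z0)) z9) z9) z0)))) z0) (a (b z0 (d (a (b (d (c (a z1 z0) z9) (a z1 z0)) z1) z0) (a z1 z0))) z0)) (d (a (c (b (d (a z9 z0) (a z1 z0)) z1) (b (d (a z9 z0) (a z9 z0)) z9)) z0) (a (b (d (a z1 z0) (a z1 z0)) z1) z0))) (b (d (a (c (b z0 (d (a z9 z0) (a z9 z0))) (b z0 (d (a z9 z0) (a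 z9 z0)))) z0) (a (c (b z0 (d (a z9 z0) (a z9 z0))) (b z0 (d (a z9 z0) (a z9 z0)))) z0)) (d (a (c (b (d (a z9 z0) (a z9 z0)) z9) (b (d (a z9 z0) (a z9 z0)) z9)) z0) (a (c (b (d (a z9 z0) (a z9 z0)) z9) (b (d (a z9 z0) (a z9 z0)) z9)) z0))))) _ _ (by decide +kernel)

end Vale.Agent.Lib.P154Q5
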