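import Vale.Agent.Lib.P154Q5.CkADefs

namespace Vale.Agent.Lib.P154Q5

set_option maxRecDepth 100000
set_option exponentiation.threshold 1000

open Tr

theorem okA60 : CKA ⟨4097, 6145, 1024, 1536⟩ ⟨12288, 24576, 9728, 10240⟩ :=
  ckA_sound (b z0 (d (a (b (d z8 z0) z0) (b (d (a (b z0 (d (c (a (b (d z9 z1) z1) z0) (a z9 z0)) (a z9 z0))) z0) (a (b z0 (d (a z1 z0) z0)) z0)) (d (a (b (d (c (a z1 z0) (a z9 z0)) (a z9 z0)) z9) z0) (a (b (d (a z1 z0) z0) z1) z0)))) z0)) _ _ (by decide +kernel)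

theorem okA61 : CKA ⟨4097, 6145, 1536, 2048⟩ ⟨12288, 24576, 9216, 9728⟩ :=
  ckA_sound (a z8 (b (d (c (b (d (c (a z0 (b (d (c (a z1 z0) (a z9 z0)) (a z1 z0)) (d (c (a z1 z0) (a z9 z0)) (a z1 z0)))) (a z8 (b (d (c (a z9 z0) (a z9 z0)) (c (a z9 z0) (a z9 z0))) (d (c (a z9 z0) z9) (c (a z9 z0) (a z9 z0)))))) (a z8 (c (b (d (a z9 z0) (a z1 z0)) (d (a z9 z0) (a z1 z0))) (b (d (a z9 z0) (a z9 z0)) (d (a z9 z0) (a z9 z0)))))) (d (c (a z0 (b z1 (d z9 z1))) (a z8 z9)) (a z8 z9))) (b (d (a z12 (c (b (d (a z9 z0) (a z9 z0)) z9) (b (d (a z13 z0) (a z13 z0)) z13))) (a z8 (c (b (d (a z9 z0) (a z9 z0)) (d z9 (a z9 z0))) (b (d (a z13 z0) (a z13 z0)) z13)))) (d (a z12 z13) (a z8 z9)))) (c (b (d (a z8 (c (b (d (a z9 z0) (a z1 z0)) (d (a z9 z0) (a z1 z0))) (b (d (a z9 z0) (a z9 z0)) (d (a z9 z0) (a z9 z0))))) (a z0 (b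 (d (a z1 z0) (a z1 z0)) (d (a z1 z0) (a z1 z0))))) (d (a z8 z9) (a z0 z1))) (b (d (a z8 (c (b (d (a z9 z0) (a z9 z0)) (d z9 (a z9 z0))) (b (d (a z9 z0) (a z9 z0)) z9))) (a z8 (c (b (d (a z9 z0) (a z9 z0)) (d (a z9 z0) (a z9 z0))) (b (d (a z9 z0) (a z9 z0)) z9)))) (d (a z8 z9) (a z8 z9))))) (d (c (b (d (c (a z0 (b (d z9 (a z0 z1)) (d (c (a z0 z1) (a z8 z9)) (a z0 z1)))) (a z8 (b z9 (d (c (a z8 z9) z9) z9)))) (a z8 z9)) (d (c (a z0 (b (d (c (a z0 z1) (a z8 z9)) (a z0 z1)) (d (c (a z0 z1) (a z8 z9)) (a z0 z1)))) (a z8 (b (d (c (a z8 z9) (a z8 z9)) (c (a z8 z9) (a z8 z9))) (d (c (a z8 z9) z8) (c (a z8 z9) z8))))) (a z8 (c (b (d (a z8 z9) (a z0 z1)) (d (a z8 z9) (a z0 z1))) (b (d (a z8 z9) (a z8 z9)) (d (a z8 z9) (a z8 z9))))))) (b (d (a z12 z13) (a z8 z9)) (d (a z12 (c (b (d (a z8 z9) (a z8 z9)) z8) z12))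 (a z8 (c (b (d (a z8 z9) (a z8 z9)) z8) (b (d (a z12 z13) (a z12 z13)) z12)))))) (c (b (d (a z8 z9) (a z0 (b z1 (d (a z0 z1) z1)))) (d (a z8 (c (b (d (a z8 z9) (a z0 z1)) (d (a z8 z9) (a z0 z1))) (b (d (a z8 z9) (a z8 z9)) (d z8 (a z8 z9))))) (a z0 (b (d (a z0 z1) (a z0 z1)) (d (a z0 z1) z0))))) (b (d (a z8 z9) (a z8 z9)) (d (a z8 (c (b (d (a z8 z9) (a z8 z9)) z8) (b (d (a z8 z9) (a z8 z9)) z8))) (a z8 (c (b (d (a z8 z9) (a z8 z9)) z8) (b (d (a z8 z9) (a z8 z9)) z8))))))))) _ _ (by decide +kernel)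

theorem okA62 : CKA ⟨4097, 6145, 1536, 2048⟩ ⟨12288, 24576, 9728, 10240⟩ :=
  ckA_sound (a z0 (b (d (b (d (a z8 (b (d (a z9 z0) (a z9 z0)) (d (a z9 z0) (a z9 z0)))) (a z0 (b (d (a z1 z0) z0) (d (a z1 z0) z0)))) (d (a z8 z9) (a z0 z1))) z0) (d (b (d (a z8 z9) (a z0 z1)) (d (a z8 (b (d (a z8 z9) (a z8 z9)) z8)) (a z0 (b (d (a z0 z1) z0) z0)))) z0))) _ _ (by decide +kernel)

theorem okA63 : CKA ⟨6145, 8193, 1024, 2048⟩ ⟨12288, 24576, 9216, 10240⟩ :=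
  ckA_sound (b z0 (d (b z0 (d (c (a (b (d (c (a (b (d (c (a z1 z0) (a z9 z0)) (a z1 z0)) (d (c (a z1 z0) z9) (a z1 z0))) z0) (a (b (d (c (a z9 z0) (a z9 z0)) (c (a z9 z0) (a z9 z0))) z9) z0)) (a (c (b (d (a z9 z0) (a z1 z0)) (d (a z9 z0) (a z1 z0))) (b (d (a z9 z0) (a z9 z0)) (d z9 (a z9 z0)))) z0)) (d (c (a z1 z0) (a z9 z0)) (a z9 z0))) z0) (a (b (d (c (a (b (d (c (a z9 z0) (a z13 z0)) (c (a z9 z0) (a z9 z0))) z9) z0) (a z13 z0)) (c (a (b (d (c (a z9 z0) (a z9 z0)) (c (a z9 z0) (a z9 z0))) z9) z0) (a (b (d (a z13 z0) (a z13 z0)) z13) z0))) (d (c (a z9 z0) (a z13 z0)) (c (a z9 z0) (a z13 z0)))) z0)) (a (c (b (d (a (c (b (d (a z9 z0) (a z1 z0)) (d (a z9 z0) (a z1 z0))) (b (d (a z9 z0) (a z9 z0)) (d z9 (a z9 z0)))) z0) (a (b (d (a z1 z0) (a z1 z0)) (d (a z1 z0) (a z1 z0))) z0)) (d (a z9 z0) (a (b (d z1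 z1) z1) z0))) (b (d (a (c (b (d (a z9 z0) (a z9 z0)) z9) (b (d (a z9 z0) (a z9 z0)) z9)) z0) (a (c (b (d (a z9 z0) (a z9 z0)) (d z9 (a z9 z0))) (b (d (a z9 z0) (a z9 z0)) z9)) z0)) (d (a z9 z0) (a z9 z0)))) z0))) (b z0 (d (a (b (d (a (b (d (a z9 z0) (a z9 z0)) (d (a z9 z0) (a z9 z0))) z0) (a (b (d (a z1 z0) z0) (d (a z1 z0) z0)) z0)) (d (a z9 z0) (a z1 z0))) z0) z0)))) _ _ (by decide +kernel)

theorem okA64 : CKA ⟨4097, 8193, 0, 2048⟩ ⟨12288, 24576, 10240, 12288⟩ :=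
  ckA_sound z0 _ _ (by decide +kernel)

theorem okA65 : CKA ⟨4097, 6145, 2048, 3072⟩ ⟨12288, 18432, 8192, 9216⟩ :=
  ckA_sound (b (d z8 (a z0 (b (d (c (b (d z0 z0) z0) z8) (b (d z0 z0) z0)) z0))) z0) _ _ (by decide +kernel)

theorem okA66 : CKA ⟨6145, 8193, 2048, 2560⟩ ⟨12288, 18432, 8192, 9216⟩ :=
  ckA_sound (d (c (b (d (a z9 z0) (a (b (d (a z1 (c (b z0 z1) z9)) (a z1 (b z0 z1))) (d z1 z1)) z0)) (d (a (c (b z1 (d (a z0 z1) z1)) (b z9 (d z9 (a (c (b z9 z8) (b z9 z8)) z9)))) (c (b (d (c (a z1 z0) z9) (a z1 z0)) (d z1 (a z1 z0))) (b (d z9 (a z9 z0)) z9))) (a (b z1 (d (a (c (b z1 (d z0 (a z0 z1))) (b z9 z8)) z1) (a (b z1 (d (a z0 z1) (a z0 z1))) z1))) (b (d (a z1 z0) (a (b z0 z1) z0)) (d (a z1 z0) (a z1 z0)))))) (b (d (a z9 z0) (a z9 z0)) (d (a (c (b z9 (d (a z8 z9) (a z8 z9))) (b z9 (d (a z8 z9) (a z8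 z9)))) z9) (a (c (b z9 (d (a (c (b z9 z8) (b z9 z8)) z9) (a (c (b z9 (d (a z8 z9) (a z8 z9))) (b z9 (d z8 (a z8 z9)))) z9))) (b z9 (d (a (c (b z9 z8) z8) z9) (a (c (b z9 z8) (b z9 z8)) z9)))) (c (b (d (a z9 z0) (a z9 z0)) z9) (b (d (a z9 z0) (a z9 z0)) z9)))))) (b (d (a (c (b (d (a z1 (c (b z0 z1) z9)) (a z1 (b z0 (d z1 z1)))) (d z1 z1)) (b (d z9 (a z9 (c (b z0 z9) z9))) z9)) z0) (a (b (d (a z1 (b z0 (d z9 z1))) (a z1 (b z0 (d z1 z0)))) (d z1 z1)) z0)) (d (a (c (b z1 (d (a (c (b (d (a z0 z1) z1) (d (a z0 z1) (a z0 z1))) (b z9 (d (a z8 z9) (a z8 z9)))) z1) (a (b (d (a z0 z1) z1) (d (a z0 z1) (a z0 z1))) z1))) (b z9 (d (a (c (b z9 (d (a z8 z9) (a z8 z9))) (b z9 (d z8 (a z8 z9)))) z9) (a (c (b (d z9 (a z0 z1)) (d (a z8 z9) (a z0 z1))) (b z9 (d (a z8 z9) (a z8 z9)))) z9)))) (c (b (d (a (c (b z0 z1) z9) z0)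 (a (b z0 z1) z0)) (d (a z1 z0) (a z1 z0))) (b (d (a z9 z0) (a z9 z0)) z9))) (a (b (d z1 z1) (d (a (b (d (c (a z0 z1) z9) (a z0 z1)) (d (c (a z0 z1) (a z8 z9)) (a z0 z1))) z1) (a (b (d z1 z0) (d (a z0 z1) z0)) z1))) (b (d (a (b z0 (d z9 z1)) z0) (a (b z0 (d z1 z0)) z0)) (d (a z1 z0) (a z1 z0))))))) _ _ (by decide +kernel)

theorem okA67 : CKA ⟨6145, 8193, 2560, 3072⟩ ⟨12288, 18432, 8192, 9216⟩ :=
  ckA_sound (d (c (b (d (a (c (b (d (a z0 z1) (a z0 z1)) (d (a z0 z1) (a z0 z1))) (b (d (a z8 z9) (a z8 z9)) (d (a z8 z9) (a z8 z9)))) z9) (a (b (d (a z0 z1) (a z0 z1)) (d (a z0 z1) (a z0 z1))) (b (d z1 z1) (d z1 z1)))) (d (a (c (b (d (a z0 z1) (a z0 z1)) (d (a z0 (c (b z1 z0) z8)) (a z0 (b z1 (d z0 z0))))) (b (d (a z8 z9) (a z8 z9)) (d z8 (a z8 (c (b z9 z8) (b z9 z8)))))) z9) (a (b (d (a z0 z1) (a z0 z1)) (d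 (a z0 (c (b z1 (d (a z0 z1) (a z0 z1))) (b z9 z8))) (a z0 (b z1 (d (a z0 z1) (a z0 z1)))))) z1))) (b (d (a (c (b (d (a z8 z9) (a z8 z9)) (d (a z8 z9) (a z8 z9))) (b (d (a z8 z9) (a z8 z9)) (d (a z8 z9) (a z8 z9)))) z9) (a (c (b (d (a z8 z9) (a z8 z9)) (d (a z8 z9) (a z8 z9))) (b (d (a z8 z9) (a z8 z9)) (d (a z8 z9) (a z8 z9)))) z9)) (d (a (c (b (d (a z8 z9) (a z8 z9)) z8) (b (d (a z8 z9) (a z8 z9)) z8)) z9) (a (c (b (d (a z8 z9) (a z8 z9)) (d (a z8 (c (b z9 z8) (b z9 z8))) (a z8 (c (b z9 (d z8 (a z8 z9))) (b z9 z8))))) (b (d (a z8 z9) (a z8 z9)) (d z8 (a z8 (c (b z9 z8) (b z9 z8)))))) z9)))) (b (d (a (c (b (d (a (c (b (d z0 z0) z0) z8) z1) (a (b (d (a z0 z1) (a z0 z1)) z0) z1)) (d (a z0 z1) (a z0 z1))) (b (d (a z8 z9) (a (c (b (d z8 (a z0 z1)) z8) z8) z9)) (d (a z8 z9) (a z8 z9)))) z9) (a (b (d (a (b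 (d (c (a z0 z1) z8) (a z0 z1)) z0) z1) (a (b (d (a z0 z1) z0) z0) z1)) (d (a z0 z1) (a z0 z1))) (b (d (a z1 (b z0 z1)) (a z1 (b z0 z1))) (d z1 z1)))) (d (a (c (b (d (a z0 z1) (a z0 z1)) (d (a z0 (c (b z1 (d (a z0 z1) (a z0 z1))) (b z9 (d (a z8 z9) (a z8 z9))))) (a z0 (b z1 (d (a z0 z1) (a z0 z1)))))) (b (d (a z8 z9) (a z8 z9)) (d (a z8 (c (b z9 (d z8 (a z8 z9))) (b z9 z8))) (a z8 (c (b z9 (d (a z8 z9) (a z0 z1))) (b z9 (d (a z8 z9) (a z8 z9)))))))) z9) (a (b (d (a z0 z1) (a z0 z1)) (d (a z0 (b z1 (d (c (a z0 z1) (a z8 z9)) (a z0 z1)))) (a z0 (b z1 (d (a z0 z1) z0))))) z1)))) _ _ (by decide +kernel)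

theorem okA68 : CKA ⟨4097, 6145, 2048, 3072⟩ ⟨18432, 24576, 8192, 9216⟩ :=
  ckA_sound z12 _ _ (by decide +kernel)

theorem okA69 : CKA ⟨6145, 8193, 2048, 2560⟩ ⟨18432, 24576, 8192, 9216⟩ :=
  ckA_sound (d (c (b (d (a z13 z0) (a z13 z0)) (d (a (c (b z13 (d (a z12 z13) (a z12 z13))) (b z13 (d (a z12 z13) (a z12 z13)))) z13) (a (c (b z9 (d (a z8 z9) (a (c (b z9 z8) (b z9 z8)) z9))) (b z13 (d (a z12 z13) (a z12 z13)))) (c (b (d z9 (a z9 z0)) z9) z13)))) (b (d (a z13 z0) (a z13 z0)) (d (a (b z13 (d (c (a z12 z13) (a z12 z13)) (c (a z12 z13) (a z12 z13)))) z13) (a (b z13 (d (c (a z12 z13) (a z12 z13)) (c (a z12 z13) (a z12 z13)))) z13)))) (c (b (d (a z9 z0) (a (c (b (d (a z9 (c (b z0 z9) z9)) (a z9 (c (b z0 (d z9 (a z1 z0))) (b z0 z9)))) z9) (b (d z9 (a z9 (c (b z0 z9) z9))) z9)) z0)) (d (a (c (b z9 (d (a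 (c (b z9 z8) (b z9 z8)) z9) (a (c (b z9 (d (a z8 z9) (a z8 z9))) (b z9 z8)) z9))) (b z13 (d (a (c (b z9 z8) z12) z13) (a (c (b z9 z8) (b z13 z12)) z9)))) (c (b (d (a z9 z0) (a z9 z0)) z9) (b (d (a z13 z0) (a z9 z0)) (d z13 z9)))) (a (c (b z9 (d (a (c (b z9 (d (a z8 z9) (a z8 z9))) (b z9 (d (a z8 z9) (a z8 z9)))) z9) (a (c (b (d z9 z1) (d (a z8 z9) (a z0 z1))) (b z9 (d (a z8 z9) (a z8 z9)))) z9))) (b z9 (d (a (c (b z9 (d z8 (a z8 z9))) (b z9 z8)) z9) (a (c (b z9 (d (a z8 z9) (a z8 z9))) (b z9 (d z8 (a z8 z9)))) z9)))) (c (b (d (a z9 z0) (a z9 z0)) (d z9 (a z9 z0))) (b (d (a z9 z0) (a z9 z0)) z9))))) (b (d (a z13 z0) (a (b (d z13 (c z9 z13)) z13) z0)) (d (a (b z13 (d (c (a z12 z13) (a z12 z13)) (c (a (b z13 z12) z13) (a z12 z13)))) (b (d z13 (c (a z13 z0) z13)) z13)) (a (b z13 (d (c (a (b z13 z12) z13)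 (a z12 z13)) z13)) (b (d (c (a z13 z0) z13) (c (a z9 z0) (a z13 z0))) (d z13 (c z9 z13)))))))) _ _ (by decide +kernel)

theorem okA70 : CKA ⟨6145, 8193, 2560, 3072⟩ ⟨18432, 24576, 8192, 9216⟩ :=
  ckA_sound (d (c (b (d (a (c (b (d (a z12 z13) (a z12 z13)) (d (a z12 z13) (a z12 z13))) (b (d (a z12 z13) (a z12 z13)) (d (a z12 z13) (a z12 z13)))) z13) (a (c (b (d (a z8 z9) (a z8 z9)) (d (a z8 z9) (a z8 z9))) (b (d (a z12 z13) (a z12 z13)) (d (a z12 z13) (a z12 z13)))) z13)) (d (a (c (b (d (a z12 z13) (a z12 z13)) z12) (b (d (a z12 z13) (a z12 z13)) z12)) z13) (a (c (b (d (a z8 z9) (a z8 z9)) (d z8 (a z8 (c (b z9 z8) z8)))) (b (d (a z12 z13) (a z12 z13)) z12)) z13))) (b (d (a (b (d (c (a z12 z13) (a z12 z13)) (c (a z12 z13) (a z12 z13))) (d (c (a z12 z13) (a z12 z13)) (c (a z12 z13) (a z12 z13)))) z13) (a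 (b (d (c (a z12 z13) (a z12 z13)) (c (a z12 z13) (a z12 z13))) (d (c (a z12 z13) (a z12 z13)) (c (a z12 z13) (a z12 z13)))) z13)) (d (a (b (d z12 (c (a z12 z13) z12)) z12) z13) (a (b (d (c (a z12 z13) z12) (c (a z12 z13) (a z12 z13))) z12) z13)))) (c (b (d (a (c (b (d (a z8 z9) (a z8 z9)) (d (a z8 z9) (a z8 z9))) (b (d (a z12 z13) (a z8 z9)) (d (a z12 z13) (a z8 z9)))) z9) (a (c (b (d (a z8 z9) (a (c (b (d (a z8 z9) (a z0 z1)) z0) z8) z9)) (d (a z8 z9) (a z8 z9))) (b (d (a z8 z9) (a z8 z9)) (d (a z8 z9) (a z8 z9)))) z9)) (d (a (c (b (d (a z8 z9) (a z8 z9)) (d (a z8 (c (b z9 z8) (b z9 z8))) (a z8 (c (b z9 z8) (b z9 z8))))) (b (d (a z12 z13) (a z8 z9)) (d (a z12 (c (b z9 z8) z12)) (a z8 (c (b z9 z8) (b z13 z12)))))) z9) (a (c (b (d (a z8 z9) (a z8 z9)) (d (a z8 (c (b z9 (d (a z8 z9) (a z8 z9))) (b z9 (d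 z8 (a z8 z9))))) (a z8 (c (b z1 (d (a z8 z9) (a z0 z1))) (b z9 (d (a z8 z9) (a z8 z9))))))) (b (d (a z8 z9) (a z8 z9)) (d (a z8 (c (b z9 z8) (b z9 z8))) (a z8 (c (b z9 (d z8 (a z8 z9))) (b z9 z8)))))) z9))) (b (d (a (b (d (c (a z12 z13) (a z12 z13)) (c (a z12 z13) (a z12 z13))) (d (c (a z12 z13) (a z12 z13)) (c (a z12 z13) (a z12 z13)))) z13) (a (b (d (c (a z12 z13) (a z12 z13)) (c (a z8 z9) (a z12 z13))) (d (c (a z12 z13) (a z12 z13)) (c (a z8 z9) (a z12 z13)))) z13)) (d (a (b (d (c (a z12 z13) (a z12 z13)) (c (a z12 z13) (a z12 z13))) z12) z13) (a (b (d (c (a z12 z13) (a z12 z13)) (c (a z8 z9) (a z12 z13))) (d (c (a z12 (b z13 z12)) z12) (c (a z8 (b z9 z8)) z12))) z13))))) _ _ (by decide +kernel)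

theorem okA71 : CKA ⟨4097, 6145, 2048, 3072⟩ ⟨12288, 24576, 9216, 10240⟩ :=
  ckA_sound (b (d (a z8 (b (d (c (b (d z8 z8) z8) z8) (c (b (d z8 z0) z0) z8)) z8)) (a z0 (b (d z0 z0) z0))) (d z8 z0)) _ _ (by decide +kernel)

theorem okA72 : CKA ⟨6145, 8193, 2048, 2560⟩ ⟨12288, 24576, 9216, 10240⟩ :=
  ckA_sound (d (b (d (c (a (b (d (c (a z1 (b z0 (d z9 (a z1 z0)))) (a z9 (b z0 z9))) (a z9 (c (b z0 (d z9 (a z1 z0))) (b z0 z9)))) z9) z0) (a (b (d (c z9 z13) (c (a z9 (b z0 z9)) z13)) z9) z0)) (a (c (b (d (a z9 (c (b z0 (d z9 (a z1 z0))) (b z0 z9))) (a z1 (b z0 (d (a z1 z0) (a z1 z0))))) (d z9 (a z1 (b (d z1 z1) z1)))) (b (d (a z9 (c (b z0 z9) z9)) (a z9 (c (b z0 z9) (b z0 z9)))) z9)) z0)) (d (c (a (b z9 (d (c (a (b (d z9 (a z0 z1)) (d (c (a z0 z1) (a z8 z9)) (a z0 z1))) z1) (a (b z9 (d (c (a z8 z9) (a z8 z9))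 (c (a z8 z9) (a z8 z9)))) z9)) (a (c (b z1 (d (a z8 z9) (a z0 z1))) (b z9 (d (a z8 z9) (a z8 z9)))) z9))) (b (d (c (a (b z0 (d z9 z1)) z0) (a z9 z0)) (a z9 z0)) (d (c (a z1 z0) z9) (a z9 z0)))) (a z9 (b (d (c (a z9 z0) (a z13 z0)) (c (a z9 z0) (a z13 z0))) z9))) (a z9 (c (b (d (a (c (b z0 (d z9 z1)) z9) z0) (a (b z0 (d z1 z1)) z0)) (d (a z9 z0) (a z1 z0))) (b (d (a z9 z0) (a z9 z0)) (d z9 (a z9 z0))))))) (b (d (a (b (d (a z9 (b z0 z9)) (a z1 (b z0 (d (a z1 z0) z0)))) (d z9 (a z1 (b (d z1 z0) z1)))) z0) z0) (d (a (b (d z9 z1) z1) (b (d (a (b z0 z9) z0) (a (b z0 (d z1 z0)) z0)) (d (a z9 z0) (a z1 z0)))) z0))) _ _ (by decide +kernel)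

theorem okA73 : CKA ⟨6145, 8193, 2560, 3072⟩ ⟨12288, 24576, 9216, 10240⟩ :=
  ckA_sound (d (b (d (c (a (b (d (c (a (b (d (c (a z0 z1) z8) (a z0 z1)) z0) z1) (a z8 z9)) (a (c (b (d (a z8 z9) (a z0 z1)) z0) z8) z9)) (d (c (a z0 z1) (a z8 z9)) (a z8 z9))) z9) (a (b (d (c (a z8 z9) (a z12 z13)) (c (a z8 z9) (a z12 z13))) (d (c (a z8 z9) (a z12 z13)) (c (a z8 z9) (a z12 z13)))) z9)) (a (c (b (d (a (c (b (d z8 z0) z0) z8) z9) (a z0 z1)) (d (a z8 z9) (a z0 z1))) (b (d (a z8 z9) (a z8 z9)) (d (a z8 z9) (a z8 z9)))) z9)) (d (c (a (b (d (c (a z0 z1) (a z8 z9)) (a z8 z9)) (d (c (a z0 (b z1 (d (c (a z0 z1) (a z8 z9)) (a z0 z1)))) (a z8 (b z9 (d z8 (c (a z8 z9) z8))))) (a z8 (c (b z1 (d (a z8 z9) (a z0 z1))) (b z9 (d z8 (a z8 z9))))))) z9) (a (b (d (c (a z8 z9) (a z12 z13)) (c (a z8 z9) (a z12 z13))) (d (c (a z8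 (b z9 z8)) z12) (c (a z8 (b z9 z8)) (a z12 (b z13 z12))))) z9)) (a (c (b (d (a z8 z9) (a z0 z1)) (d (a z8 (c (b z1 (d (a z8 z9) (a z0 z1))) (b z9 z8))) (a z0 (b z1 (d (a z0 z1) (a z0 z1)))))) (b (d (a z8 z9) (a z8 z9)) (d (a z8 (c (b z9 z8) z8)) (a z8 (c (b z9 z8) z8))))) z9))) (b (d (a (b (d z9 z1) (d (a z8 z9) (a z0 z1))) (b (d z9 (a z1 (b z0 (d z1 z0)))) (d z9 z1))) z0) (d (a (b (d (a z8 z9) (a z0 z1)) (d (a z8 (b z9 z8)) (a z0 (b z1 z0)))) (b (d z9 z1) (d z9 z1))) z0))) _ _ (by decide +kernel)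

theorem okA74 : CKA ⟨4097, 6145, 3072, 4096⟩ ⟨12288, 18432, 8192, 9216⟩ :=
  ckA_sound z0 _ _ (by decide +kernel)

end Vale.Agent.Lib.P154Q5
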