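import Vale.Agent.Lib.P154Q5.CkADefs

namespace Vale.Agent.Lib.P154Q5

set_option maxRecDepth 100000
set_option exponentiation.threshold 1000

open Tr

theorem okA75 : CKA ⟨6145, 8193, 3072, 3584⟩ ⟨12288, 18432, 8192, 9216⟩ :=
  ckA_sound (d (c (b (d (a z8 z9) (a (b (d z0 (a z0 (b (d z0 z0) z0))) z0) z1)) (d (a z8 (c (b z1 (d z1 (a (b (d z0 (a z0 z1)) (d z0 z0)) z1))) z9)) (a z0 (b (d z1 z1) (d (a (c (b (d (a z0 z1) (a z0 z1)) (d z0 z0)) z8) z1) (a (b (d (a z0 z1) (a z0 z1)) (d z0 z0)) z1)))))) (b (d (a z8 z9) (a z8 z9)) (d (a z8 z9) (a z8 (c (b z9 (d z9 (a (c (b (d z8 (a z8 z9)) z8) z8) z9))) z9))))) (b (d (a (c (b (d (a z0 (c (b (d z0 (a z0 z1)) z0) z8)) (a z0 (b (d (a z0 z1) (a z0 z1)) z0))) (d z0 z0)) z8) z9) (a (b (d (a z0 (b (d z8 (a z0 z1)) z0)) (a z0 (b (d (a z0 z1) z0) z0))) (d z0 z0)) (b z1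 (d z1 z1)))) (d (a z8 (c (b (d z1 z1) (d (a (c (b (d (a z0 z1) (a z0 z1)) (d (a z0 z1) (a z0 z1))) (b (d z8 (a z8 z9)) z8)) z1) (a (b (d (a z0 z1) (a z0 z1)) (d (a z0 z1) (a z0 z1))) z1))) (b z9 (d z9 (a (c (b (d (a z8 z9) (a z0 z1)) z8) (b (d z8 (a z8 z9)) z8)) z9))))) (a z0 (b (d z1 z1) (d (a (b (d (c (a z0 z1) (a z8 z9)) (a z0 z1)) (d z8 (a z0 z1))) z1) (a (b (d (a z0 z1) z0) (d (a z0 z1) z0)) z1))))))) _ _ (by decide +kernel)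

theorem okA76 : CKA ⟨6145, 8193, 3584, 4096⟩ ⟨12288, 18432, 8192, 9216⟩ :=
  ckA_sound (d (c (b (d (a z8 (c (b (d (c (a z0 z1) (a z8 z9)) (a z0 z1)) (d (c (a z0 z1) (a z8 z9)) (a z0 z1))) (b (d (a z8 z9) (a z8 z9)) (d (a z8 z9) (a z8 z9))))) (a z0 (b (d (a z0 z1) (a z0 z1)) (d (a z0 z1) (a z0 z1))))) (d (a z8 (c (b (d (c (a z0 (b z1 (d z0 z0))) z8) (a z0 (b z1 (d z0 z0)))) (d z0 z0)) z8)) (a z0 (b (d (a z0 (c (b z1 (d z0 z0)) z8)) (a z0 (b z1 (d (a z0 z1) (a z0 z1))))) (d (a z0 (c (b (d z0 z0) z0) z8)) (a z0 (b (d z0 z0) z0))))))) (b (d (a z8 (c (b (d (a z8 z9) (a z8 z9)) (d (a z8 z9) (a z8 z9))) (b (d (a z8 z9) (a z8 z9)) (d (a z8 z9) (a z8 z9))))) (a z8 (c (b (d (a z8 z9) (a z8 z9)) (d (a z8 z9) (a z8 z9))) (b (d (a z8 z9) (a z8 z9)) (d (a z8 z9) (a z8 z9)))))) (d z8 (a z8 (c (b (d z8 (a z8 (c (b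 z9 z8) z8))) z8) z8))))) (b (d (a z8 (c (b (d (a (c (b (d z0 z0) z0) z8) z1) (a (b (d z0 z0) z0) z1)) (d (a z0 z1) (a z0 z1))) (b (d (a z8 z9) (a z8 z9)) (d (a z8 z9) (a z8 z9))))) (a z0 (b (d (a (b (d z8 z0) z0) z1) (a (b (d z0 z0) z0) z1)) (d (a z0 z1) (a z0 z1))))) (d (a z8 (c (b (d (a z0 (c (b (d z1 z1) (d (a z0 z1) (a z0 z1))) (b z9 z8))) (a z0 (b z1 (d (a z0 z1) (a z0 z1))))) (d (a z0 (c (b (d z0 z0) z0) z8)) (a z0 (b (d z0 z0) z0)))) (b (d z8 (a z8 (c (b z9 z8) z8))) z8))) (a z0 (b (d (a z0 (b z1 (d z8 (a z0 z1)))) (a z0 (b z1 (d (a z0 z1) z0)))) (d (a z0 (b (d z8 z0) z0)) (a z0 (b (d z0 z0) z0)))))))) _ _ (by decide +kernel)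

theorem okA77 : CKA ⟨4097, 8193, 3072, 4096⟩ ⟨18432, 24576, 8192, 9216⟩ :=
  ckA_sound (a z12 (b (d (c (b (d (a z12 z13) (a z12 z13)) (d (a z12 z13) (a z12 z13))) (b (d (a z12 z13) (a z12 z13)) (d (a z12 (b z13 (d (c (a z12 z13) (a z12 z13)) (c (a z12 z13) (a z12 z13))))) (a z12 (b z13 (d (c z13 (a z12 z13)) z13)))))) (c (b (d (a z8 z9) (a z8 z9)) (d (a z8 z9) (a z8 z9))) (b (d (a z12 z13) (a z12 z13)) (d (a z12 z13) (a z12 z13))))) (d (c (b (d (a z12 (c (b (d (a z12 z13) (a z12 z13)) (d (a z12 z13) (a z12 z13))) (b (d (a z12 z13) (a z12 z13)) z12))) (a z12 (c (b (d (a z8 z9) (a z8 z9)) (d (a z8 z9) (a z8 z9))) (b (d (a z12 z13) (a z12 z13)) (d (a z12 z13) (a z12 z13)))))) (d z12 (a z12 (c z8 z12)))) (b (d (a z12 (b (d (c (a z12 z13) (a z12 z13)) (c (a z12 z13) (a z12 z13))) z12)) (a z12 (b (d (c (a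 z12 z13) (a z12 z13)) (c (a z12 z13) (a z12 z13))) z12))) z12)) (c (b (d (a z8 (c (b (d (a z8 z9) (a z8 z9)) (d (a z8 z9) (a z8 z9))) (b (d (a z12 z13) (a z8 z9)) (d (a z12 z13) (a z8 z9))))) (a z8 (c (b (d (a z8 z9) (a z8 z9)) (d (a z8 z9) (a z8 z9))) (b (d (a z8 z9) (a z8 z9)) (d (a z8 z9) (a z8 z9)))))) (d z8 (a z8 (c (b (d z8 (a z8 (c (b z1 (d z8 (a z0 z1))) z8))) z8) z8)))) (b (d (a z12 (b (d (c (a z12 z13) (a z12 z13)) (c (a z12 z13) (a z12 z13))) (d (c (a z12 z13) z12) (c (a z12 z13) z12)))) (a z12 (b (d (c (a z12 z13) (a z12 z13)) (c (a z8 z9) (a z12 z13))) (d (c (a z12 z13) z12) (c (a z8 z9) (a z12 z13)))))) (d z12 (a z12 (b (d z12 (c z8 z12)) z12)))))))) _ _ (by decide +kernel)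

theorem okA78 : CKA ⟨4097, 8193, 3072, 4096⟩ ⟨12288, 24576, 9216, 10240⟩ :=
  ckA_sound (a z0 (b (d (b (d (c (a (b (d z8 z8) z8) z9) (a z8 z9)) (a z8 z9)) (d (c (a z8 z9) (a z8 z9)) (a z8 z9))) (b (d (a (b (d z8 z0) z0) (b (d z9 z1) z1)) z0) (d (a z0 z1) z0))) (d (b (d (c (a z8 (b (d (c (a z0 z1) (a z8 z9)) (a z8 z9)) (d (c (a z0 z1) (a z8 z9)) (a z8 z9)))) (a z8 (b (d (c (a z8 z9) z13) z9) (d (c (a z8 z9) (a z12 z13)) (c (a z8 z9) (a z12 z13)))))) (a z8 (c (b (d z9 z1) (d (a z8 z9) (a z0 z1))) (b z9 (d (a z8 z9) (a z8 z9)))))) (d (c (a z8 (b (d (c (a z0 (b z1 (d z8 z0))) z8) z8) z8)) z8) z8)) (b (d (a z0 (b z1 (d (a z8 z9) (a z0 z1)))) z0) (d (a z0 (b (d z8 z0) (d z8 z0))) z0))))) _ _ (by decide +kernel)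

theorem okA79 : CKA ⟨4097, 8193, 2048, 4096⟩ ⟨12288, 24576, 10240, 12288⟩ :=
  ckA_sound z0 _ _ (by decide +kernel)

theorem okA80 : CKA ⟨8193, 49152, 0, 4096⟩ ⟨12288, 24576, 4096, 8192⟩ :=
  ckA_sound (b z0 (d (b (d z13 (a (b z0 z13) z0)) (d z13 (a z13 (b z0 z13)))) (b (d (c (a (b z0 (d (c (a z13 z0) z13) (c (a z9 z0) (a z13 z0)))) z0) (a (b z0 z13) z0)) (c (a (b z0 (d (c (a (b z0 z9) z0) (a (b z0 z13) z0)) (c (a (b z0 z9) z0) (a (b z0 z9) z0)))) z0) (a (b z0 (d z13 (a (c (b z0 z13) z13) z0))) z0))) (d (a (c (b (d (a z13 (c (b z0 z13) z13)) (a (c z9 z13) (c z9 z13))) (d z13 (a z13 (c z9 z13)))) z13) (c (b z0 (d (c (a (b z0 z13) (b z0 (d z13 (c (b z0 (d z13 (a z13 (c z9 z13)))) z13)))) z13) (c (a z9 (b z0 z9)) z13))) z13)) (c (a (b (d (c (a z9 (b z0 z9)) (a z13 (b z0 z13))) (c (a z9 (b z0 z9)) (a z9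 (b z0 z9)))) z9) (b z0 (d (c (a z9 (b z0 z9)) (a (b z0 z13) (b z0 (d z13 (c (b z0 (d z13 (a z13 (c z9 z13)))) z13))))) (c (a (b z0 z9) (b z0 (d z9 (c (b z0 z9) (b z0 z9))))) (a z9 (b z0 (d (c z9 z13) (c (b z0 z9) (b z0 (d (a z13 (c (b z0 z13) z13)) (a (c z9 z13) (c z9 z13)))))))))))) (a (b (d z13 (a z13 (c (b z0 z13) z13))) z13) (b z0 (d z13 (c (a z13 (b z0 z13)) z13))))))))) _ _ (by decide +kernel)

theorem okA81 : CKA ⟨8193, 49152, 0, 2048⟩ ⟨12288, 24576, 8192, 12288⟩ :=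
  ckA_sound z0 _ _ (by decide +kernel)

theorem okA82 : CKA ⟨8193, 49152, 2048, 3072⟩ ⟨12288, 24576, 8192, 10240⟩ :=
  ckA_sound (d (c (a (b z0 (d (c (a (b z0 (d (c (a (b (d z1 z1) (d z1 z1)) z0) z9) (a (b (d z1 (a z1 z0)) (d z1 z1)) z0))) z0) (a (b z0 (d z9 (c (a z9 z0) (a z9 z0)))) z0)) (a (b z0 (d (c (a (b (d (c (a z1 z0) z9) (a z1 z0)) (d z1 z1)) z0) (a z9 z0)) (a (b (d (a z1 z0) (a z1 z0)) (d z1 z1)) z0))) z0))) z0) (a (b z0 (d (a (c (b z0 (d (a z13 z0) (a z13 z0))) (b z0 z13)) z0) (a (c (b z0 (d (a z9 z0) (a z9 z0))) (b z0 (d z13 (a z13 z0)))) z0))) z0)) (a (b z0 (d (a (b z0 (d (c (a z9 z0) (a z9 z0)) (a z9 z0))) z0) (a (b z0 (d (a (b (d z9 (a z1 z0)) (d z9 (a z1 (b (d z1 z0) z1)))) z0) z0)) z0))) z0)) _ _ (by decide +kernel)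

theorem okA83 : CKA ⟨8193, 12289, 3072, 4096⟩ ⟨12288, 18432, 8192, 9216⟩ :=
  ckA_sound (b (d (c (a (b (d z9 (a (b (d z1 z1) z1) (b (d (c (a z1 z0) z9) (a z1 z0)) (d z1 z1)))) (d z9 (a z1 (b (d z1 z1) z1)))) (b z0 (d (c (a (b z0 (d z1 z1)) z0) z9) (a (b z0 (d z1 z1)) z0)))) (a z9 (b z0 (d z9 (c (a z9 z0) z9))))) (a (b (d z9 (a (b (d z1 z1) (d z1 z1)) (b (d (a (b z0 z1) z0) (a (b z0 z1) z0)) (d (a z1 z0) (a z1 z0))))) (d z9 (a (b (d z1 z1) (d z1 z1)) (b (d z1 z1) (d z1 z1))))) (b z0 (d (c (a (b z0 (d z1 (a z1 z0))) z0) (a z9 z0)) (a (b z0 (d (a z1 z0) (a z1 z0))) z0))))) (d z9 (a (b (d z9 (a (b (d z1 z1) (d z1 z1)) (b (d z1 z1) (d z1 z1)))) (d z9 (a (b (d z1 z1) (d z1 z1)) (b (d z1 z1) (d z1 z1))))) (b (d z9 (a (b (d z1 z1) (d z1 z1)) (b (d (a (b z0 z1) z0) (a (b z0 z1) z0)) (d z1 (a z1 (b z0 z1))))))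 (d z9 (a (b (d z1 z1) (d z1 z1)) (b (d z1 z1) (d z1 z1)))))))) _ _ (by decide +kernel)

theorem okA84 : CKA ⟨12289, 49152, 3072, 4096⟩ ⟨12288, 18432, 8192, 9216⟩ :=
  ckA_sound (b z0 (d (c (a (b z0 (d z9 (a (b (d z1 (a z1 (b z0 z1))) (d z1 z1)) (b (d (c (b z0 (d z1 z1)) z9) (b z0 (d z1 z1))) (d (c (b (d z1 z1) z1) z9) (b (d z1 z1) z1)))))) (b z0 (d (c (b z0 (d (a (c (b z0 (d z1 z1)) z9) (c (b z0 (d (a z1 (c (b z0 (d z1 z1)) z1)) (a z1 (b z0 (d z1 z1))))) z9)) (a (b z0 (d z1 z1)) (b z0 (d (a z1 (c (b z0 (d z1 z1)) z1)) (a (b z0 z1) (b z0 (d z1 z1)))))))) (b z0 z9)) (b z0 (d (a (c (b z0 (d z1 z1)) z9) (c (b z0 (d (a (c (b z0 z1) z1) (c (b z0 (d z1 z1)) z1)) (a (b z0 z1) (b z0 (d z1 z1))))) z9)) (a (b z0 (d z1 z1)) (b z0 (d (a (c (b z0 (d z1 z1)) z1) (c (b z0 (d z1 z1)) z1)) (a (b z0 (d z1 z1)) (b z0 (d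 z1 z1))))))))))) (a (b z0 z9) (b z0 (d (c (b z0 z9) (b z0 z9)) (c (b z0 (d z9 (a z9 (c (b z0 z9) z9)))) (b z0 z9)))))) (a (b z0 (d z9 (a (b (d (a z1 (b z0 z1)) (a z1 (b z0 (d z1 z0)))) (d z1 z1)) (b (d (b z0 (d z9 z1)) (b z0 (d z1 z0))) (d (b (d z9 z1) (d z9 z1)) (b (d z1 z0) (d z1 z0))))))) (b z0 (d (c (b z0 (d (a (c (b z0 (d z1 z1)) z9) (c (b z0 (d (a (c (b z0 (d z1 z1)) z1) (c (b z0 (d z1 z1)) z1)) (a (b z0 (d z1 z1)) (b z0 (d (a z1 (b z0 z1)) (a z1 (b z0 z1))))))) (b z0 z9))) (a (b z0 (d z1 (a z1 (b z0 z1)))) (b z0 (d (a (b z0 (d z1 z1)) (b z0 (d (c (a z1 (b z0 z1)) z9) (a z1 (c (b z0 z1) z1))))) (a (b z0 (d z1 z0)) (b z0 (d (a z1 (b z0 z1)) z0)))))))) (b z0 (d z9 (a z9 (c (b z0 z9) (b z0 z9)))))) (b z0 (d (a (b z0 (d z9 (a z1 (b z0 z1)))) (b z0 (d z9 (a (b z0 (d z1 z1)) (b z0 (d (c (a z1 (b z0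 (d z1 z1))) z9) (a z1 (c (b z0 (d z1 z1)) z1)))))))) (a (b z0 (d (a z1 (b z0 z1)) z0)) (b z0 (d (a (b z0 (d z1 z0)) (b z0 (d (a z1 (b z0 (d z1 z1))) z0))) z0)))))))))) _ _ (by decide +kernel)

theorem okA85 : CKA ⟨8193, 49152, 3072, 4096⟩ ⟨18432, 24576, 8192, 9216⟩ :=
  ckA_sound (a (b (d (a (c (b (d z13 (a z13 (c z9 z13))) z13) z13) (c (b z0 (d (a z13 z0) (a (c z9 z13) z0))) z13)) (a z9 (c (b z0 (d (a z9 z0) (a z9 z0))) (b z0 (d z13 (a z13 z0)))))) (d (a z13 (c (b (d z13 (a z13 (c z9 z13))) z13) z13)) z9)) (b z0 (d (c (a (b z0 (d z13 (c z9 z13))) (b z0 (d (c (b z0 (d z13 (a z13 (c (b z0 z13) z13)))) z13) (c (b z0 z9) (b z0 z13))))) z13) (c (a (b z0 z9) (b z0 (d (c (b z0 z9) (b z0 (d (a z13 (c z9 z13)) z9))) (c (b z0 (d (a z9 (c (b z0 z9) z9)) (a z9 (c (b z0 (d z9 (a (b z0 (d z1 z1)) (b z0 (d (a z1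 (c (b z0 (d z1 z1)) z9)) (a z1 (b z0 (d z1 z1)))))))) (b z0 z9))))) (b z0 (d z9 (a z9 (c (b z0 z9) z9)))))))) (a (b z0 (d z13 (a z13 (b (d z13 (c z9 z13)) z13)))) (b z0 (d (b z0 z13) (b z0 (d (c (a z13 (b z0 z13)) z13) (c z9 z13)))))))))) _ _ (by decide +kernel)

theorem okA86 : CKA ⟨8193, 12289, 3072, 4096⟩ ⟨12288, 24576, 9216, 10240⟩ :=
  ckA_sound (b (d (a (b (d (c (a z9 (b (d z9 z9) z9)) z9) (a z9 (c (b (d z9 (a (b z0 (d z1 z1)) z0)) (d z9 (a z1 z0))) z9))) z9) (b z0 (d (c (a z9 z0) (a z9 z0)) (a (c (b z0 (d z9 (a z1 z0))) z9) z0)))) (a (b (d (a (b (d z9 z1) (d z9 z1)) (b (d z9 (a (b z0 (d z1 z0)) z0)) (d z9 (a z1 z0)))) z0) (d (a (b (d z9 z1) (d z9 z1)) (b (d z9 z1) (d z9 z1))) z0)) (b z0 (d (a (b z0 (d z9 (a z1 z0))) z0) z0)))) (d (a z9 (b (d z9 z9) z9)) (a (b (d (a (b (d z9 z1) (d z9 z1)) (b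 (d z9 z1) (d z9 z1))) z0) (d (a (b (d z9 z1) (d z9 z1)) (b (d z9 z1) (d z9 z1))) z0)) (b (d (a (b (d z9 z1) (d z9 z1)) (b (d z9 (a (b z0 (d z1 z0)) z0)) (d z9 (a z1 (b z0 (d z1 z0)))))) z0) (d (a (b (d z9 z1) (d z9 z1)) (b (d z9 z1) (d z9 z1))) z0))))) _ _ (by decide +kernel)

theorem okA87 : CKA ⟨12289, 49152, 3072, 4096⟩ ⟨12288, 24576, 9216, 10240⟩ :=
  ckA_sound (b z0 (d (a (b z0 (d (c (a z9 (b (d z9 z9) z9)) z9) (c (a (b (d z9 (a (b (d z1 z1) z1) (b z0 (d z1 z1)))) (d z9 z1)) (b (d z9 (b z0 (d (a z1 z0) (a z1 z0)))) (d z9 (b (d z1 z1) (d z1 z1))))) z9))) (b z0 (d (c (b z0 (d (c (a (b z0 (d z9 (a z1 (c (b z0 (d z1 z1)) z9)))) (b z0 (d z9 (a (c (b z0 (d z1 z1)) z9) (c (b z0 (d (a (c (b z0 z1) z9) (c (b z0 (d z1 z1)) z9)) (a (b z0 z1) (b z0 (d z1 z1))))) z9))))) (a z9 (b z0 z9))) (a z9 (c (b z0 (d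 z9 (a (b z0 (d z1 z1)) (b z0 (d (a (b z0 z1) (b z0 (d z1 z1))) (a (b z0 z1) (b z0 (d z1 z0)))))))) (b z0 z9))))) (b z0 (d (a (c z9 z13) (c z9 z13)) (a z9 (c (b z0 z9) (b z0 (d z13 (a (c z9 z13) (c z9 z13))))))))) (c (b z0 (d (a z9 (c (b z0 (d z9 (a (b z0 (d z1 z1)) (b z0 (d (a (b z0 z1) (b z0 (d z1 z1))) (a (b z0 z1) (b z0 (d z1 z0)))))))) (b z0 z9))) (a (b z0 (d (a z1 (b z0 (d z9 z1))) (a z1 (b z0 (d z1 z0))))) (b z0 (d (a (b z0 (d z9 z1)) (b z0 (d z9 (a (c (b z0 z1) z9) (c (b z0 (d z1 z1)) z9))))) (a (b z0 (d z1 z0)) (b z0 (d (a (b z0 z1) (b z0 (d z1 z1))) z0)))))))) (b z0 (d (a z9 (c (b z0 z9) z9)) (a z9 (c (b z0 z9) (b z0 z9))))))))) (a (b z0 (d (a (b (d z9 (a (b (d z1 z0) z1) (b z0 (d z1 z0)))) (d z9 (a z1 (b (d z1 z0) (d z1 z0))))) (b (d z9 (b z0 (d (a z1 z0) z0))) (d z9 (b (d z1 z0) (d z1 z0)))))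 z0)) (b z0 (d (b z0 (d (a z9 (b z0 (d z9 z9))) (a (b z0 (d (a z1 (b z0 (d z1 z1))) z0)) (b z0 (d (a (b z0 (d z1 z1)) (b z0 (d (a (b z0 z1) (b z0 (d z1 z1))) (a (b z0 z1) (b z0 (d z1 z0)))))) z0))))) z0))))) _ _ (by decide +kernel)

theorem okA88 : CKA ⟨8193, 49152, 2048, 4096⟩ ⟨12288, 24576, 10240, 12288⟩ :=
  ckA_sound z0 _ _ (by decide +kernel)

theorem okA89 : CKA ⟨0, 8193, 0, 4096⟩ ⟨24576, 49152, 4096, 8192⟩ :=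
  ckA_sound (a (b (d z0 (b z0 (d z0 z12))) z12) (b (d z0 (b z0 (d z0 (a (b (d z0 (b z0 (d z0 (a (b (d z0 (b z0 z12)) z12) (b (d z0 (a (b z0 (d z0 (a z13 z0))) z0)) (d z0 (a (b z13 (d z0 (a z12 z13))) z0))))))) (d z0 (a z12 (b (d z0 (b (d z0 (a z12 z13)) (d z0 (a z12 (b z13 (d z0 (a z12 z13))))))) (d z0 (b (d z0 (a z12 (b (d z0 (a z12 z13)) (d z0 (a z12 z13))))) z12)))))) (b z0 (d z0 (b z0 (d z0 (a z13 z0))))))))) (d z0 (b (d z0 (a z12 (b (d z0 (b z13 (d z0 (a (b (d z0 (a (b z13 (d z0 (a z12 z13))) z13)) (d z0 (a z12 z13))) z13)))) (d z0 (b (d z0 (a (b (d z0 (a z12 z13)) (d z0 (a z12 z13))) z13)) (d z0 (a z12 z13))))))) (d z0 (a z12 (b (d z0 (b (d z0 (a z12 z13)) (d z0 (a z12 (b z13 (d z0 (a z12 z13))))))) z12))))))) _ _ (by decide +kernel)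

end Vale.Agent.Lib.P154Q5
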