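import Vale.Agent.Lib.P154Q5.CkADefs

namespace Vale.Agent.Lib.P154Q5

set_option maxRecDepth 100000
set_option exponentiation.threshold 1000

open Tr

theorem okA90 : CKA ⟨0, 4097, 0, 4096⟩ ⟨24576, 49152, 8192, 12288⟩ :=
  ckA_sound (b (d (b z0 z12) (b z0 (d z8 z0))) (d z12 z0)) _ _ (by decide +kernel)

theorem okA91 : CKA ⟨4097, 8193, 0, 1024⟩ ⟨24576, 49152, 8192, 10240⟩ :=
  ckA_sound z0 _ _ (by decide +kernel)

theorem okA92 : CKA ⟨4097, 6145, 1024, 1536⟩ ⟨24576, 49152, 8192, 9216⟩ :=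
  ckA_sound (d (b z0 (d (a (b (d (b z0 z12) (b z0 z12)) z12) (b (d (a (b z0 (d (a z13 z0) (a z13 z0))) z0) (a (b z0 (d (a z13 z0) (a z13 z0))) z0)) (d (a (b z13 (d (a z12 z13) (a z12 z13))) z0) (a (b z13 (d (a z12 z13) z13)) z0)))) (a (b (d z12 z12) z12) (b (d (a (b z0 (d (a z13 z0) (c (a z13 z0) (a z13 z0)))) z0) (a (b z0 (d (c (a z13 z0) (a z13 z0)) (c (a z13 z0) (a z13 z0)))) z0)) (d (a z13 z0) (a z13 z0)))))) (b z0 (d (a z12 (b (d (c (a (b z0 (d (c (a z13 z0) (a z13 z0)) (c (a z13 z0) (a z13 z0)))) z0) (a (b z0 (d (a z13 z0) (a z13 z0))) z0)) (c (a (b z0 (d (c (a z13 z0) (a z13 z0)) (c (a z13 z0) (a z13 z0)))) z0) (a (b z0 (d (a z13 z0) (c (a z13 z0) (a z13 z0)))) z0))) (d (c (a z13 z0) (a z13 z0)) (c (a z13 z0) (a z13 z0))))) (a z12 (b (d (c (a (b z0 (d (c (a z13 z0) (a z13 z0)) (c (a z13 z0) (a z13 z0)))) z0) (a (b z0 (d (c (a z13 z0)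 (a z13 z0)) (c (a z13 z0) (a z13 z0)))) z0)) (c (a (b z0 (d (c (a z13 z0) (a z13 z0)) (c (a z13 z0) (a z13 z0)))) z0) (a (b z0 (d (c (a z13 z0) (a z13 z0)) (c (a z13 z0) (a z13 z0)))) z0))) (d (c (a z13 z0) (a z13 z0)) (c (a z13 z0) (a z13 z0)))))))) _ _ (by decide +kernel)

theorem okA93 : CKA ⟨4097, 6145, 1536, 2048⟩ ⟨24576, 49152, 8192, 9216⟩ :=
  ckA_sound (d (a z12 (b (d (b (d (a z12 z13) (a z12 z13)) (d (a z12 (b z13 (d (a z12 z13) (a z12 z13)))) (a z12 (b z13 (d (a z12 z13) (a z12 z13)))))) (b (d (a z12 z13) (a z12 z13)) (d (a z12 (b z13 (d (a z12 z13) (a z12 z13)))) (a z12 (b z13 (d (a z12 z13) z13)))))) (d (b (d (a z12 (b (d (a z12 z13) (a z12 z13)) (d (a z12 z13) (a z12 z13)))) (a z12 (b (d (a z12 z13) (a z12 z13)) (d (a z12 z13) (a z12 z13))))) z12) (b (d (a z12 (b (d (a z12 z13) (a z12 z13)) (d (a z12 z13) (a z12 z13)))) (a z12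 (b (d (a z12 z13) (c (a z12 z13) (a z12 z13))) (d (a z12 z13) (c (a z12 z13) (a z12 z13)))))) z12)))) (a z12 (b (d (b (d (a z12 z13) (a z12 z13)) (d (a z12 z13) (a z12 z13))) (b (d (a z12 z13) (c (a z12 z13) (a z12 z13))) (d (a z12 z13) (c (a z12 z13) (a z12 z13))))) (d (b (d (a z12 (c (b (d (a z12 z13) (a z12 z13)) (d (a z12 z13) (a z12 z13))) (b (d (a z12 z13) (a z12 z13)) (d (a z12 z13) (a z12 z13))))) (a z12 (c (b (d (a z12 z13) (a z12 z13)) (d (a z12 z13) (a z12 z13))) (b (d (a z12 z13) (a z12 z13)) (d (a z12 z13) (a z12 z13)))))) z12) (b (d (a z12 (c (b z13 (d (a z12 z13) (a z12 z13))) (b (d z13 z13) (d (a z12 z13) (a z12 z13))))) (c (a z12 (b z13 (d (c (a z12 z13) (a z12 z13)) (c (a z12 z13) (a z12 z13))))) (a z12 (b z13 (d (a z12 z13) (c (a z12 z13) (a z12 z13))))))) z12))))) _ _ (by decide +kernel)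

theorem okA94 : CKA ⟨6145, 8193, 1024, 2048⟩ ⟨24576, 49152, 8192, 9216⟩ :=
  ckA_sound (b z0 (d (b z0 (d (a z13 z0) (a z13 z0))) (b z0 (d (a (b (d (a z13 z0) (a z13 z0)) z13) z0) (a (b (d (c (a z13 z0) (a z13 z0)) (c (a z13 z0) (a z13 z0))) z13) z0))))) _ _ (by decide +kernel)

theorem okA95 : CKA ⟨4097, 6145, 1024, 1536⟩ ⟨24576, 49152, 9216, 9728⟩ :=
  ckA_sound (b z0 (d (c (a z12 (b (d (c (a (b z0 (d (c (a z13 z0) (a z13 z0)) (c (a z13 z0) (a z13 z0)))) z0) (a (b z0 (d (c (a z13 z0) (a z13 z0)) (c (a z13 z0) (a z13 z0)))) z0)) (c (a (b z0 (d (c (a z13 z0) (a z13 z0)) (c (a z13 z0) (a z13 z0)))) z0) (a (b z0 (d (c (a z13 z0) (a z13 z0)) (c (a z13 z0) (a z13 z0)))) z0))) (d (c (a z13 z0) (a z13 z0)) (c (a z13 z0) (a z13 z0))))) (a z12 (b (d (a (b z0 (d (c (a z13 z0) (a z13 z0)) (c (a z13 z0) (a z13 z0)))) z0) (c (a (b z0 (d (c (a z13 z0)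 (a z13 z0)) (c (a z13 z0) (a z13 z0)))) z0) (a (b z0 (d (a z13 z0) (c (a z13 z0) (a z13 z0)))) z0))) (d (a z13 z0) (c (a z13 z0) (a z13 z0)))))) (c (a z12 (b (d (c (a (b z0 (d (c (a z13 z0) (a z13 z0)) (c (a z13 z0) (a z13 z0)))) z0) (a (b z0 (d (c (a z13 z0) (a z13 z0)) (c (a z13 z0) (a z13 z0)))) z0)) (c (a (b z0 (d (c (a z9 z0) (a z13 z0)) (c (a z9 z0) (a z13 z0)))) z0) (a (b z0 (d (c (a z13 z0) (a z13 z0)) (c (a z13 z0) (a z13 z0)))) z0))) (d (c (a z13 z0) (a z13 z0)) (c (a z13 z0) (a z13 z0))))) (a z12 (b (d (c (a (b z0 (d (c (a z13 z0) (a z13 z0)) (c (a z13 z0) (a z13 z0)))) z0) (a (b z0 z13) z0)) (c (a (b z0 (d (c (a z13 z0) z13) (c (a z13 z0) z13))) z0) (a (b z0 z13) z0))) (d (c (a z13 z0) (a z13 z0)) (c (a z13 z0) (a z13 z0)))))))) _ _ (by decide +kernel)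

theorem okA96 : CKA ⟨4097, 6145, 1024, 1536⟩ ⟨24576, 49152, 9728, 10240⟩ :=
  ckA_sound (c (b z0 (d (a z12 (c (b (d (c (a (b z0 (d (c (a z9 z0) (a z9 z0)) (c (a z9 z0) (a z9 z0)))) z0) (a (b z0 (d (a z13 z0) (a z9 z0))) z0)) (c (a (b z0 (d (c (a z9 z0) (a z9 z0)) (a z9 z0))) z0) (a (b z0 (d (a z9 z0) (a z9 z0))) z0))) (d (c (a (b (d z9 (c (a z9 z0) z9)) z9) z0) (a z13 z0)) (c (a (b (d (c (a z9 z0) z9) (a z9 z0)) z9) z0) (a z9 z0)))) (b (d (a (c (b z0 (d (a z13 z0) (a z13 z0))) (b z0 (d (a z13 z0) (a z13 z0)))) z0) (a (c (b z0 (d (a z13 z0) (a z13 z0))) (b z0 (d (a z13 z0) z13))) z0)) (d (a z13 z0) (a z13 z0))))) (a z8 (b (d (c (a (b z0 (d (c (a z9 z0) (a z9 z0)) (c (a z1 z0) (a z9 z0)))) z0) (a (b z0 (d (c (a z9 z0) z13) (c (a z9 z0) z13))) z0)) (c (a (b z0 (d (c (a z1 z0) (a z9 z0)) (a z1 z0))) z0) (a (b z0 z9) z0))) (d (c (a (b (d z9 z9)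 z9) z0) (a z13 z0)) (c (a z1 z0) (a z9 z0))))))) (b z0 (d (a z12 (b (d (a (c (b z0 z13) (b z0 z13)) z0) (c (a (b z0 z13) z0) (a (b z0 z13) z0))) (d (a z13 z0) (c (a z13 z0) (a z13 z0))))) (a z12 (c (b (d (a (c (b z0 z13) (b z0 z13)) z0) (a (c (b z0 z13) (b z0 z13)) z0)) (d (a z13 z0) (a z13 z0))) (b (d (a z13 z0) (a z13 z0)) (d (a z13 z0) (a z13 z0)))))))) _ _ (by decide +kernel)

theorem okA97 : CKA ⟨4097, 6145, 1536, 2048⟩ ⟨24576, 49152, 9216, 10240⟩ :=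
  ckA_sound (d (a z12 (b (d (c (b (d (a z12 (c (b (d z13 (a z13 z0)) z13) z13)) (a z12 (c (b (d (a z13 z0) (a z13 z0)) z13) z13))) (d (a z12 z13) (a z12 z13))) (b (d (a z12 z13) (a z12 z13)) (d (a z12 z13) (a z12 z13)))) (c (b (d (a z12 (c (b (d (a z13 z0) (a z13 z0)) z13) z13)) (a z12 (c (b (d (a z13 z0) (a z9 z0)) z13) (b (d z13 (a z13 z0)) z13)))) (d (a z12 z13) (a z12 z13))) (b (d (a z12 z13) (a z12 z13)) (d (a z12 z13) (a z12 z13))))) (d (c (b (d (a z12 z13) (a z12 z13)) z12) (b (d (a z12 z13) (a z12 z13)) z12)) (c (b (d (a z12 z13) (a z12 z13)) z12) (b (d (a z12 z13) (a z12 z13)) z12))))) (c (a z8 (b (d (c (b (d (a z8 (c (b (d (a z9 z0) (a z9 z0)) z9) (b (d (a z13 z0) (a z9 z0)) z13))) (a z8 (c (b (d (a z9 z0) (a z9 z0)) (d z9 (a z9 z0))) (b (d (a z9 z0) (a z9 z0)) z9)))) (d (a z8 z9) (a z8 z9))) (b (d (a z12 z13) (a z12 (c (b (d (a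 z13 z0) (a z13 z0)) z13) z13))) (d (a z12 z13) (a z12 z13)))) (b (d (c (a z8 (b (d (c (a z9 z0) (a z9 z0)) (a z9 z0)) (d z9 z9))) (a z12 (b (d (a z13 z0) (a z9 z0)) z13))) (a z8 (c (b (d (a z9 z0) (a z1 z0)) z1) z9))) (d (c (a z8 z9) (a z12 z13)) (a z8 z9)))) (d (c (b (d (a z8 z9) (a z8 z9)) (d z8 (a z8 (c (b (d (a z8 z9) z8) z8) z8)))) (b (d (a z12 z13) (a z12 z13)) z12)) (b (d (c (a z8 z9) (a z12 z13)) (a z8 z9)) (d z8 z8))))) (a z12 (b (d (b (d (a z12 z13) (a z12 z13)) (d (a z12 z13) (a z12 z13))) (c (b (d (a z12 z13) (a z12 z13)) (d (a z12 z13) (a z12 z13))) (b (d (a z12 z13) (a z12 z13)) z12))) z12)))) _ _ (by decide +kernel)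

theorem okA98 : CKA ⟨6145, 8193, 1024, 2048⟩ ⟨24576, 49152, 9216, 10240⟩ :=
  ckA_sound (b z0 (d (b z0 (d (a (c (b (d (a z13 z0) (a z13 z0)) (d (a z13 z0) (a z13 z0))) (b (d (a z13 z0) (a z13 z0)) z13)) z0) (a (c (b (d (a (c (b (d z13 (a z13 z0)) z13) z13) z0) (a (c (b (d (a z13 z0) (a z9 z0)) z13) z13) z0)) (d (a z13 z0) (a z13 z0))) (b (d (a z13 z0) (a z13 z0)) z13)) z0))) (c (b z0 (d (a (c (b (d (a (c (b (d (a z9 z0) (a z9 z0)) z9) (b (d (a z13 z0) (a z9 z0)) z13)) z0) (a (c (b (d (a z9 z0) (a z9 z0)) (d z9 z9)) (b (d (a z9 z0) (a z9 z0)) z9)) z0)) (d (a z9 z0) (a z9 z0))) (b (d (a z13 z0) (a (c (b (d z13 (a z13 z0)) z13) z13) z0)) (d (a z13 z0) (a z13 z0)))) z0) (a (b (d (c (a (b (d (c (a z9 z0) (a z9 z0)) (a z9 z0)) (d z9 z9)) z0) (a (b (d z13 (c (a z9 z0) z13)) z13) z0)) (a (c (b (d (a z9 z0) (a z1 z0)) (d z9 z1)) (b (d z9 (a z9 z0))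 z9)) z0)) (d (c (a z9 z0) (a z13 z0)) (a z9 z0))) z0))) (b z0 (d (a (b (d (a z13 z0) (a z13 z0)) z13) z0) (a (c (b (d (a z13 z0) (a z13 z0)) (d (a z13 z0) (a z13 z0))) (b (d (a z13 z0) (a z13 z0)) z13)) z0)))))) _ _ (by decide +kernel)

theorem okA99 : CKA ⟨4097, 8193, 0, 2048⟩ ⟨24576, 49152, 10240, 12288⟩ :=
  ckA_sound (b z0 (d (a (b (d (c (b z0 (d (a z8 (c (b (d (a (c (b z0 (d z9 z1)) (b z0 z9)) z0) (a (b z0 z1) z0)) (d (a z9 z0) (a z1 z0))) (b (d (a (b z0 z13) z0) (a z13 z0)) (d (a z13 z0) (a z13 z0))))) (a z0 (b (d (a z9 z0) (a z1 z0)) (d (a z9 z0) z1))))) (b z0 (d (a z12 (b (d (a z13 z0) (a z13 z0)) z13)) (a z12 (b (d (c (a z13 z0) (a z13 z0)) (c (a z13 z0) z13)) z13))))) (b z0 (d (a z12 (c (b (d (a z9 z0) z1) z1) z13)) z12))) (d (c (a z0 (b (d (c (b (d (a z8 (c (b (d (a z9 z0) z1) z1) z9)) (a z0 z1)) (d (a z8 z9) (a z0 z1))) (b (d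 (a z12 z13) (a z12 z13)) (d (a z12 z13) z12))) (b (d (a z8 z9) z0) z0)) (d (c (b (d (a z8 z9) z0) z0) z12) z0))) (a z12 (b (d (b (d (a z12 z13) z12) z12) z12) z12))) z12)) (b z0 (d (c (b z0 (d (a (c (b (d (a (c (b (d (a z9 z0) (a z1 z0)) z1) z9) z0) (a (b (d z9 z1) z1) z0)) (d (a z9 z0) (a z1 z0))) (b (d (a z13 z0) (a z13 z0)) (d (a z13 z0) (a z13 z0)))) z0) (a (b (d (a z9 z0) (a z1 z0)) (d (a z9 z0) (a z1 z0))) z0))) (b z0 (d (a (b (d (a z13 z0) (a z13 z0)) z13) z0) (a (b (d (a z13 z0) (c (a z13 z0) z13)) (d z13 (c (a z13 z0) z13))) z0)))) (b z0 (d (a (c (b (d (a z9 z0) (a z1 z0)) (d z9 z1)) z13) z0) (a z13 z0)))))) (a (b (d z8 z0) z0) (b z0 (d (b z0 (d (a z13 z0) z13)) (b z0 (d (a (b (d z13 z13) z5) z0) (a z1 z0)))))))) _ _ (by decide +kernel)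

theorem okA100 : CKA ⟨4097, 8193, 2048, 3072⟩ ⟨24576, 49152, 8192, 10240⟩ :=
  ckA_sound (d (a z12 (b (d (b z13 (d (a (b (d (a (b z13 (d (a z12 z13) z13)) z13) z13) (d (a z12 z13) (a z12 z13))) z13) (a (b z13 (d (a z12 z13) (a z12 z13))) z13))) (b (d (a z13 z0) (a z13 z0)) (d (a (b z13 (d (a z12 z13) (a z12 z13))) z13) (a (b z13 (d (c (a z12 z13) (a z12 z13)) (c z13 (a z12 z13)))) z13)))) (d (b (d (a (b (d (a z12 z13) (a z12 z13)) (d (a z12 z13) (a z12 z13))) z13) (a (b (d (a z12 z13) (a z12 z13)) (d (a z12 z13) (a z12 z13))) z13)) (d (a z12 z13) (a z12 z13))) (b (d (a (b (d (a z12 z13) (a z12 z13)) (d (a z12 z13) (a z12 z13))) z13) (a (b (d (c (a z12 z13) (a z12 z13)) (c (a z12 z13) (a z12 z13))) (d (c (a z12 z13) (a z12 z13)) (c (a z12 z13) (a z12 z13)))) z13)) (d (a (b (d z12 (a z12 z13)) z12) z13) (a (b (d (c (a z12 z13) z12) (c (a z12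 z13) z12)) z12) z13)))))) (a z12 (b (d (b (d (a z13 z0) (a (c (b (d z13 (a z13 (c (b z0 z13) z13))) z13) z13) z0)) (d (a z13 (c (b (d z13 (a z13 z0)) z13) z13)) (a z13 (c (b (d (c (a z13 z0) z13) (c (a z13 z0) (a z13 z0))) (d z13 (c (a z13 z0) z13))) z13)))) (c (b (d (a (c (b (d (a z9 (c (b z0 z9) z13)) (a z9 (c (b z0 z9) (b z0 z9)))) z9) z13) z0) (a (b (d (c (a z9 (b z0 z9)) (a z13 (b z0 z13))) (a z9 (c (b z0 (d z9 z1)) z9))) z9) z0)) (d (a z13 (c (b (d (a z9 z0) (a z9 z0)) (d z9 (a z9 z0))) (b (d (a z13 z0) (a z13 z0)) z13))) (a z9 (b (d (c (a z9 z0) (a z13 z0)) (a z9 z0)) (d (c (a z9 z0) (a z13 z0)) (a z9 z0)))))) (b (d (a z13 z0) (a z13 z0)) (d z13 (a z13 (c (b (d (a z13 z0) (a z13 z0)) z13) z13)))))) (d (b (d (a (c (b (d (a z12 z13) (a z12 z13)) (d (a z12 z13) (a z12 z13))) (b (d (a z12 z13) (a z12 z13)) (d (a z12 z13) (a z12 z13))))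 z13) (a (c (b (d (a z12 z13) z13) (d (a z12 z13) (a z12 z13))) (b (d z13 z13) (d (a z12 z13) (a z12 z13)))) z13)) (d (a (c (b (d (a z12 z13) (a z12 z13)) z12) z12) z13) (a (c (b (d (a z12 z13) (a z12 z13)) z12) z12) z13))) (c (b (d (a (c (b z9 (d (a z8 z9) (a z8 z9))) z13) (c z9 z13)) z9) (d (a (c (b (d (a z8 z9) (a z8 z9)) z8) (b (d (a z12 z13) (a z12 z13)) z12)) z13) (a (b (d (c (a z8 z9) (a z12 z13)) (a z8 z9)) z8) z9))) (b (d z13 z13) (d (a z12 z13) (a z12 z13)))))))) _ _ (by decide +kernel)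

theorem okA101 : CKA ⟨4097, 8193, 3072, 4096⟩ ⟨24576, 49152, 8192, 10240⟩ :=
  ckA_sound (d (a z12 (b (d (b (d (a z12 z13) (a z12 z13)) (d (a z12 (b z13 (d (a z12 z13) (a z12 z13)))) (a z12 (b z13 (d (a z12 z13) (a z12 z13)))))) (b (d (a z12 z13) (a z12 z13)) (d (a z12 (b z13 (d z13 z13))) (a z12 z13)))) (d z12 (b (d (a z12 (b (d (a z12 z13) (a z12 z13)) z12)) (a z12 (b (d (c (a z12 z13) (a z12 z13)) (c (a z12 z13) (a z12 z13))) z12))) z12)))) (a z12 (b (d (b (d (a z12 z13) (a z12 z13)) (d (a z12 z13) (a z12 z13))) (c (b (d (a z12 z13) (a z8 z9)) (d (a z12 z13) (a z8 z9))) (b (d (a z12 z13) (a z12 z13)) (d (a z12 z13) (a z12 z13))))) (d (b (d (a z12 (c (b z13 z12) z12)) (a z12 (c (b z13 (d (c (a z12 z13) z12) (c (a z12 z13) z12))) z12))) z12) (c (b (d (a z12 (c (b z9 z8) (b z13 z12))) (a z8 (b z9 z8))) z8) z12))))) _ _ (by decide +kernel)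

theorem okA102 : CKA ⟨4097, 8193, 2048, 4096⟩ ⟨24576, 49152, 10240, 12288⟩ :=
  ckA_sound (b (d (a z8 (b (d (c (b (d (a (c (b (d (a z9 (c (b z0 (d z9 z1)) z9)) (a z1 (b z0 (d z9 z1)))) (d z9 z1)) z13) z0) (a (b (d z9 z1) (d z9 z1)) z0)) (d (a z9 (c (b (d (a z9 z0) (a (b z0 (d z9 z1)) z0)) (d (a z9 z0) (a z1 z0))) (b (d (a z13 z0) (a z13 z0)) z13))) (a z1 (b (d (a z9 z0) (a (b z0 z1) z0)) (d z9 (a z1 z0)))))) (b (d (a z13 z0) (a z13 z0)) (d z13 (a z13 (b (d (a z13 z0) (c (a z13 z0) z13)) z13))))) (b (d (a z13 z0) (a z13 z0)) (d (a z13 (c (b (d (a z9 z0) (a z1 z0)) (d z9 (a z1 z0))) z13)) z13))) (d (c (b (d z9 (a z1 (b (d z9 (a z1 (b z0 z1))) (d z9 z1)))) (d z9 (a z0 (b (d z9 z1) (d z9 z1))))) z13) (b (d z13 z13) z13)))) (a (b (d z8 z0) (d z8 z0)) (b (d z9 (b (d (a z5 z0) (a z1 z0)) (d (a z5 (b (d z13 z13) (d z13 z13))) (a z1 (b (d z5 z1)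 (d z5 z1)))))) (d z9 (b (d (a z5 (b (d z13 z13) (d z13 z13))) (a z1 (b (d z5 z1) (d z5 z1)))) (d z5 z1)))))) (d (a z8 (b (d (c (b (d (a z8 z9) (a z0 z1)) (d (a z8 z9) (a z0 z1))) (b (d (a z12 z13) (a z12 z13)) z12)) (b (d (a z12 z13) z12) z12)) (d (c (b (d z8 (a z0 (b z1 z0))) (d z8 z0)) z12) z12))) (a (b (d z8 z0) (d z8 z0)) (b (d z8 (b (d z4 z0) (d z4 z0))) (d z8 (b (d z4 z0) (d z4 z0))))))) _ _ (by decide +kernel)

theorem okA103 : CKA ⟨8193, 49152, 0, 4096⟩ ⟨24576, 49152, 4096, 8192⟩ :=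
  ckA_sound (b z0 (d z0 (b (d z0 (a (b z0 z13) z0)) z13))) _ _ (by decide +kernel)

theorem okA104 : CKA ⟨8193, 49152, 0, 2048⟩ ⟨24576, 49152, 8192, 12288⟩ :=
  ckA_sound z0 _ _ (by decide +kernel)

end Vale.Agent.Lib.P154Q5
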