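import Vale.Agent.Lib.P154Q5.CkADefs

namespace Vale.Agent.Lib.P154Q5

set_option maxRecDepth 100000
set_option exponentiation.threshold 1000

open Tr

theorem okA105 : CKA ⟨8193, 49152, 2048, 4096⟩ ⟨24576, 49152, 8192, 10240⟩ :=
  ckA_sound (b (d (a (b z0 (d (a z13 z0) (a (b z0 z13) z0))) z0) (a (b z0 (d (a (b z0 (d z13 (c (a z13 z0) z13))) z0) (c (a (b z0 (d (c (a z9 z0) (a z13 z0)) (a z9 z0))) z0) (a (b z0 (d z13 (a z13 z0))) z0)))) z0)) (d (a z13 (b z0 z13)) (a (b (d (a z13 (b z0 (d z13 (c (a z13 z0) z13)))) (a (c (b (d (a z13 (c z9 z13)) (a z9 (b (d z9 z9) z9))) z9) z13) (c (b z0 (d (c (a z9 z0) (a z13 z0)) (a (b z0 z9) z0))) (b z0 (d z13 (a z13 z0)))))) (d z13 (a (c z9 z13) (c (b (d (c z9 z13) z9) z9) z13)))) (b z0 (d (a (b z0 (d z13 (c (a z13 (b (d z13 (c (b z0 z13) z13)) z13)) z13))) (b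 z0 (d z13 (c (b z0 (d (a z13 (c (b z0 z13) z13)) (a (c (b z0 z13) z13) (c (b z0 (d (a z13 (c z9 z13)) z9)) z13)))) z13)))) (c (a (b z0 (d (c z9 z13) (a z9 (b (d z9 z9) z9)))) (b z0 (d (c (b z0 (d (a z9 (c (b z0 z9) (b z0 (d z13 z9)))) (a z9 (c (b z0 z9) (b z0 z9))))) (b z0 (d z13 (a z13 (c (b z0 (d z13 (a z13 (c z9 z13)))) z13))))) (b z0 (d (c (a z9 (b z0 (d z9 z9))) (a (b z0 z13) (b z0 (d (c z9 z13) z9)))) (a z9 (c (b z0 (d z9 (a (b z0 (d z9 z1)) (b z0 (d z9 (a (b z0 z1) (b z0 (d z1 z1)))))))) (b z0 z9)))))))) (a (b z0 z13) (b z0 (d z13 (c (b z0 (d z13 (a z13 (c (b z0 z13) z13)))) z13)))))))))) _ _ (by decide +kernel)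

theorem okA106 : CKA ⟨8193, 49152, 2048, 3072⟩ ⟨24576, 49152, 10240, 12288⟩ :=
  ckA_sound (d (a (b z0 (d (a (c (b z0 (d (a z9 z0) (a (b (d z9 (a z1 z0)) (d z9 z1)) z0))) (b z0 (d z13 (a z13 z0)))) z0) (a (b z0 (d (a z13 z0) (a z13 z0))) z0))) z0) (a (b z0 (d (a (b z0 z9) z0) (a (b z0 (d (a (b (d z13 z13) (d z13 z13)) z0) (a (b (d z5 z1) (d z5 z1)) z0))) z0))) z0)) _ _ (by decide +kernel)

theorem okA107 : CKA ⟨8193, 12289, 3072, 4096⟩ ⟨24576, 49152, 10240, 11264⟩ :=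
  ckA_sound (b (d (a (c (b (d (a z9 (c (b (d z9 (a (b z0 (d z9 z1)) z0)) (d z9 (a z1 z0))) z13)) (a (b (d z9 z1) (d z9 z1)) (b (d z9 (a (b z0 (d z1 z0)) z0)) (d z9 (a z1 z0))))) (d z9 (a (b (d z9 z1) (d z9 z1)) (b (d z9 z1) (d z9 z1))))) z13) (c (b z0 (d (a z9 z0) (a (b z0 (d z9 (a (b (d z1 z0) z1) z0))) z0))) (b z0 (d z13 (a z13 z0))))) (a (b (d (a z13 (c (b (d z9 (a (b z0 z1) z0)) (d z9 (a z1 z0))) z13)) z13) (d z13 z13)) (b z0 (d (a (c (b z0 (d z9 (a (b (d z9 z1) z1) z0))) z13) z0) (a z13 z0))))) (d (a (c (b (d z9 (a (b (d z9 z1) (d z9 z1)) (b (d z9 z1) (d z9 z1)))) (d z9 (a z1 (b (d z9 z1) (d z9 z1))))) z13) (c (b (d z9 (a (b (d z9 (a z1 (b (d z1 z0) z1))) (d z9 z1)) (b (d z9 (a (b z0 (d z1 z0)) z0)) (d z9 (a (b (d z1 z0) z1) (b z0 (d z1 z0))))))) (d z9 (a (b (d z9 z1) (d z9 z1)) (b (d z9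 (a z1 (b (d z1 z0) z1))) (d z9 z1))))) z13)) (a z13 (b (d (a z13 (c (b (d z9 (a (b z0 (d z9 z1)) z0)) (d z9 (a (b (d z9 z1) z1) (b z0 (d z9 z1))))) z13)) z13) (d z13 z13))))) _ _ (by decide +kernel)

theorem okA108 : CKA ⟨12289, 49152, 3072, 4096⟩ ⟨24576, 49152, 10240, 11264⟩ :=
  ckA_sound (b z0 (d (c (a (b z0 (d (c (a (b (d z9 (a (b (d z9 z1) (d z9 z1)) (b z0 (d z9 z1)))) (d z9 (a (b (d z9 z1) z1) (b (d z9 z1) (d z9 z1))))) (b (d z9 (b z0 (d z9 (a z1 z0)))) (d z9 (b (d z9 z1) (d z9 z1))))) (a z13 (b (d z13 (b z0 z13)) z13))) (a (b (d z9 (a (b (d z1 z0) (d z1 z0)) (b z0 (d z1 z0)))) (d z9 (a (b (d z1 z0) (d z1 z0)) (b (d z1 z0) (d z1 z0))))) (b (d z9 (b z0 (d (a z1 z0) z0))) (d z9 (b (d z1 z0) (d z1 z0))))))) (b z0 (d (c (b z0 (d (a z9 (c (b z0 (d z9 (a (b z0 (d z9 z1)) (b z0 (d z9 (a (b z0 z1)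 (b z0 (d z1 z0)))))))) z9)) (a (b z0 (d z9 (a z1 (b z0 (d z1 z0))))) (b z0 (d z9 (a (b z0 (d z1 z0)) (b z0 (d (a (b z0 z1) (b z0 (d z9 z1))) z0)))))))) (b z0 (d (a z13 (b z0 z13)) (a (b z0 z13) (b z0 (d (c z9 z13) z9)))))) (b z0 (d (a z9 (b z0 (d z9 z9))) (a (b z0 (d (a (b (d z9 z1) z1) (b z0 (d z9 z1))) z0)) (b z0 (d (a (b z0 (d z9 z1)) (b z0 (d z9 (a z1 (b z0 (d z1 z1)))))) z0)))))))) (a (b z0 z13) (b z0 (d z13 (b z0 (d (a z13 (c (b z0 z13) z13)) (c (a (b z0 z13) (b z0 (d (c z9 z13) z9))) z13))))))) (a (b z0 (d (c (a (b (d z9 (a (b (d z9 z1) (d z9 z1)) (b z0 (d z9 z1)))) (d z9 (a (b (d z9 z1) (d z9 z1)) (b (d z9 z1) (d z9 z1))))) (b (d z9 (b z0 (d z9 (a z1 z0)))) (d z9 (b (d z9 z1) (d z9 z1))))) z13) (a z13 (b (d z13 z13) z13)))) (b z0 (d (c (b z0 (d (a z9 (c (b z0 (d z9 (a (b z0 (d z9 z1))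 (b z0 (d z9 (a z1 (b z0 z1))))))) z13)) (a (b z0 (d z9 (a z1 (b z0 (d z9 z1))))) (b z0 (d z9 (a (b z0 (d z9 z1)) (b z0 (d z9 (a z1 (b z0 z1)))))))))) (b z0 z13)) (b z0 (d (a z13 (c (b z0 z9) z13)) (a z13 (c z9 z13))))))))) _ _ (by decide +kernel)

theorem okA109 : CKA ⟨8193, 49152, 3072, 4096⟩ ⟨24576, 49152, 11264, 12288⟩ :=
  ckA_sound (a (b (d (a z9 (b z0 (d (a z13 z0) z13))) (a (b (d (a (b (d z13 z13) (d z13 z13)) (b (d z13 z13) (d z13 z13))) (a (b (d z5 z1) (d z5 z1)) (b (d (a z5 z0) (a z1 z0)) (d (a z5 z0) (a z1 z0))))) (d (a (b (d z13 z13) (d z13 z13)) (b (d z13 z13) (d z13 z13))) (a (b (d z5 z1) (d z5 z1)) (b (d z5 z1) (d z5 z1))))) (b z0 (d (a (b z0 (d z13 z13)) z0) (a (b z0 (d (a (b (d z13 z13) z5) z0) (a (b (d z5 z1) z1) z0))) z0))))) (d z9 (a (b (d (a (b (d z13 z13) (d z13 z13)) (b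 (d z13 z13) (d z13 z13))) (a (b (d z5 z1) (d z5 z1)) (b (d z5 z1) (d z5 z1)))) (d (a (b (d z13 z13) (d z13 z13)) (b (d z13 z13) (d z13 z13))) (a (b (d z5 z1) (d z5 z1)) (b (d z5 z1) (d z5 z1))))) (b (d (a (b (d z13 z13) (d z13 z13)) (b (d z13 z13) (d z13 z13))) (a (b (d (a z5 (b (d z13 z13) (d z13 z13))) (a z1 (b (d z5 z1) (d z5 z1)))) (d (a z5 (b (d z13 z13) z5)) (a z1 (b (d z5 z1) (d z5 z1))))) (b (d (a (b z0 (d z13 z13)) z0) (a (b z0 (d z5 z1)) z0)) (d (a (b (d z13 z13) (d z13 z13)) (b z0 (d z13 z13))) (a (b (d z5 z1) (d z5 z1)) (b z0 (d z5 z1))))))) (d (a (b (d z13 z13) (d z13 z13)) (b (d z13 z13) (d z13 z13))) (a (b (d z5 (a z1 (b (d z5 z1) (d z5 z1)))) (d z5 (a z1 (b (d z5 z1) z1)))) (b (d (a (b (d z13 z13) (d z13 z13)) (b (d z13 z13) (d z13 z13))) (a (b (d z5 z1) (d z5 z1)) (b (d z5 z1)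 (d z5 z1)))) (d (a (b (d z13 z13) (d z13 z13)) (b (d z13 z13) (d z13 z13))) (a (b (d z5 z1) (d z5 z1)) (b (d z5 z1) (d z5 z1))))))))))) (b z0 (d (a (b z0 (d (a z13 (b (d z13 z13) z13)) z13)) (b z0 (d (b z0 (d (a z13 (c (b z0 (d z13 (a (b z0 (d z9 z1)) (b z0 (d z9 z1))))) z13)) z13)) (b z0 (d z13 z13))))) (a (b z0 (d (a (b (d z13 z13) (d z13 z13)) (b (d z13 z13) (d z13 z13))) (a (b (d (a (b (d z13 z13) (d z13 z13)) (b z0 (d z13 z13))) (a (b (d z5 z1) (d z5 z1)) (b z0 (d z5 z1)))) (d (a (b (d z13 z13) (d z13 z13)) (b (d z13 z13) (d z13 z13))) (a (b (d z5 z1) (d z5 z1)) (b (d z5 z1) (d z5 z1))))) (b (d (b z0 (d z13 z13)) (b z0 (d z5 z1))) (d (b (d z13 z13) (d z13 z13)) (b (d z5 z1) (d z5 z1))))))) (b z0 (d (b z0 (d z13 z13)) (b z0 (d (a (b z0 (d z13 z13)) (b z0 (d z13 z13))) (a (b z0 (d (a z5 (b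 z0 z5)) (a z1 (b z0 z1)))) (b z0 (d (a (b z0 (d z13 z5)) (b z0 (d z13 z5))) (a (b z0 (d z5 z1)) (b z0 (d z5 z1)))))))))))))) _ _ (by decide +kernel)

theorem okA110 : CKA ⟨0, 6144, 4096, 8192⟩ ⟨0, 8193, 0, 4096⟩ :=
  ckA_sound (c (b (d (a z0 (b (d z0 z0) (d z0 z0))) z0) (d (b (d z0 z0) z0) (c z0 (b z0 z0)))) (b (d (a (b z4 z4) (b (d z0 z0) (d z0 z0))) (a (b z0 z0) z0)) (d (b (d z0 (c z0 (b (d z0 z4) (d z0 (b z4 (d z0 z4)))))) z0) (b (d (c z0 (b z4 z4)) (c z0 (b z0 z0))) z0)))) _ _ (by decide +kernel)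

theorem okA111 : CKA ⟨6144, 12288, 4096, 8192⟩ ⟨0, 4097, 0, 4096⟩ :=
  ckA_sound (b (d (b (d z0 (a (b (d z0 z0) (d z0 z2)) (b (d z0 z3) (d z0 z3)))) (d z0 (a z2 (b (d z0 z3) z2)))) (c (b (d (a z0 z3) z2) z2) z2)) (d (b (d z0 z2) (d z0 (b z2 z0))) z2)) _ _ (by decide +kernel)

theorem okA112 : CKA ⟨6144, 12288, 4096, 6144⟩ ⟨4097, 8193, 0, 4096⟩ :=
  ckA_sound (d (b (d z0 (a (c (b (d z0 z0) (d z2 z2)) z4) (c (b (d (b (d z0 z1) (d z0 z3)) z3) (d (b (d z0 z3) (d z0 z3)) z3)) (b (d z0 z7) (d z0 z7))))) (d z0 (a (c z2 (b (d z0 z6) (d z0 z6))) (c (b (d (b (d z0 z3) (d z0 z3)) z3) (d (b (d z0 z2) (d z0 z2)) z2)) (b (d z0 z7) (d z0 (b z6 (d z0 z6)))))))) (b (d (a z0 z3) z2) (d (a z2 (c z2 (b (d z7 (b (d (a z6 (c (b (d z7 z3) (d z7 z3)) z7)) (a (c z2 z6) (c z3 z7))) (d (a z6 (c (b (d z7 z3) (d z7 z3))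 z7)) (a (c z2 z6) (c z3 z7))))) (d z6 (b (d (a z6 (c (b (d z7 z3) (d z7 z3)) z7)) (a (c z2 z6) (c z3 z7))) (d (a z6 (c (b (d z7 z3) (d z6 z2)) z7)) (a (c z2 z6) (c z3 z7)))))))) z2))) _ _ (by decide +kernel)

theorem okA113 : CKA ⟨6144, 12288, 6144, 8192⟩ ⟨4097, 8193, 0, 2048⟩ :=
  ckA_sound (b (d z0 (a (c (b (d (a z2 (b z2 (d z0 z2))) z2) (d (a z0 (b (d z0 z2) (d z0 z2))) z2)) (b (d z0 (a z6 (b z6 (d z0 z6)))) (d z0 (a (b (d z0 z4) (d z0 z4)) (b (d z0 z6) (d z0 z6)))))) (c (b (d (b (d z0 z2) (d z0 z2)) z2) (d (b (d z0 (a z2 (c z2 z6))) (d z0 (a z2 (c z2 z6)))) z2)) (b (d z0 (b (d z0 z6) (d z0 z6))) (d z0 (b (d z0 (a z6 (c z6 z0))) (d z0 (a (c z6 z0) (c z6 z0))))))))) (d z0 (c (b (d (a (b (d z0 (a z0 z2)) (d z0 (c z0 z4))) (b (d z0 (a (c z2 z6) (c z2 (b (d (a z6 (c z6 z0)) z6) (d (a (c z6 z0)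 (c z6 z0)) z6))))) (d z0 (a (c z2 (b (d (a z6 (c z6 z0)) z6) (d (a (c z4 z0) (c z6 z0)) z6))) (c z2 (b (d (a (c z6 z0) (c z6 z0)) z6) (d (a (c z6 z0) (c z6 z0)) z6))))))) (a z0 (c z2 (b z2 (d (a z2 (b z2 (d (c z2 z6) z2))) z2))))) (d (b (d z0 (a (c z0 (b (d (a (c z4 z0) (c z4 z0)) z4) (d (c z4 z0) z4))) (c z2 (b (d (a (c z6 z0) (c z6 z0)) z6) (d (a (c z6 z0) (c z6 z0)) z6))))) (d z0 (c z0 (b (d (a (c z4 z0) (c (b z6 (d z0 z4)) z0)) (a z4 (c z6 z0))) (d (c (b (d z0 z4) (d z0 z4)) z0) (c z4 z0)))))) (c z0 (b (d (a (b (d (c z0 z4) z0) (d (c z0 z4) z0)) (b (d (c z2 z6) z2) (d (c z2 z6) z2))) z0) (d (b (d (c z0 z4) (c z0 z4)) (d (c z0 z4) (c z0 z4))) z0))))) (b (d z0 (a (b (d z0 (a (c z4 z0) (c z6 z0))) (d z0 (c z4 z0))) (b (d z0 (c z6 z0)) (d z0 (c z6 z0))))) (d z0 (b (d z0 (a (c (b z4 (d (c z4 z0)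 z4)) z0) (c (b z6 (d (c z6 z0) z6)) z0))) (d z0 (c (b (d (c z4 z0) z4) (d (c z4 z0) (c z4 z0))) z0)))))))) _ _ (by decide +kernel)

theorem okA114 : CKA ⟨6144, 12288, 6144, 8192⟩ ⟨4097, 8193, 2048, 4096⟩ :=
  ckA_sound (b (d (a (c z2 (b (d z6 (a z6 (b (d z6 (c z2 z6)) (d z6 (c z2 z6))))) (d z6 (a (b (d z4 (c z0 z4)) z4) (b (d z6 (c z2 z6)) (d z6 (c z2 z6))))))) (c z2 (b (d z6 (b (d (a z6 (c (b (d z6 z2) (d z6 z2)) z6)) (a (c z2 z6) (c z2 z6))) (d (a z6 (c (b (d z6 z2) (d z6 z2)) z6)) (a (c z2 z6) (c z2 z6))))) (d z6 (b (d (a z6 (c (b (d z6 z2) (d z6 z2)) z6)) (a (c z2 z6) (c z2 z6))) (d (a z6 (c (b (d z6 z2) (d z6 z2)) z6)) (a (c z2 z6) (c z2 z6)))))))) (a z2 (c z2 (b z2 (d (b (d (a z2 (c z2 z6)) z2) (d (a (c z2 z6) (c z2 z6)) z2)) z2))))) (d (c z0 (b (d (a (b z4 (d (c z4 z0) z4)) (b z6 (d (c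 z6 z0) z6))) (a (b (d (a z4 z6) (a (c z0 z4) (c z2 z6))) (d z4 (c z0 z4))) (b (d (c (a (b (d z6 z2) (d z6 z2)) (b (d z6 z2) (d z6 z2))) z6) (c z2 z6)) (d (c (a (b (d z6 z2) (d z6 z2)) (b (d z6 z2) (d z6 z2))) z6) (c z2 z6))))) (d (b (d (a (c z4 z0) (c z6 z0)) (a (c z4 (b z4 z4)) z6)) (d (c z4 z0) (c z4 (b (d (a (c z4 z0) z6) z4) (d (c z4 z0) z4))))) (b (d (a (c (b (d z4 z0) (d z4 (c z0 z4))) z4) (c (b (d z6 z2) (d (c z2 z6) (c z2 z6))) z6)) (a (c z0 z4) (c z2 z6))) (d (c (b (d (c z0 z4) (c z0 z4)) (d (c z0 z4) (c z0 z4))) z4) (c (b (d (c z0 z4) z0) (d (c z0 z4) z0)) z4)))))) (c z0 (b (d (a (b (d (a (c z0 z4) (c z2 z6)) z0) (d (c z0 z4) (c z0 z4))) (b (d (c z2 z6) (c z2 z6)) (d (c z2 z6) (c z2 z6)))) z2) (d (b (d (a (c z0 z4) (c z2 z6)) (a (c z0 z4) (c z2 z6))) (d (c z0 z4) (c z0 z4))) (b (d (a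 (c z0 (b (d z4 z0) (d z4 (c z0 z4)))) (c z2 (b z2 (d z6 z2)))) (a (c z0 (b z0 z0)) z2)) (d (c z0 (b (d z4 (a (c z0 z4) z2)) (d (c z0 z4) (c z0 z4)))) (c z0 (b z0 (d (c z0 (b z0 z0)) z0)))))))))) _ _ (by decide +kernel)

theorem okA115 : CKA ⟨0, 12288, 8192, 12288⟩ ⟨0, 8193, 0, 4096⟩ :=
  ckA_sound (c (b (d (b (d z0 z0) z0) z0) z0) (b (d (b (d z0 (c (b (d (b (d z0 (c z0 (b (d (c (b (d z0 z4) z0) z0) (c z4 z0)) z0))) z0) (c z0 (b (d (b (d (c z0 z4) (c z0 z4)) z0) (b (d (c z0 z4) z0) z0)) z0))) z0) (b (d z0 (b (d z0 (c (b (d (c z4 z0) (c z4 z0)) z0) z0)) z0)) z0))) z0) (b (d (c (b z0 z0) (b (d (b (d (c (b z4 z0) z0) (c z4 (b (d (c z4 z0) z4) z0))) z0) (b (d (c (b (d (c z0 z4) (c z0 z4)) z0) (b z4 z0)) (c (b (d (c z0 z4) (c z0 (b z0 z0))) z0) z4)) z0)) z0)) (c z0 (b (d (b (d (c (b z0 z0) z4) (c z0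 (b z4 z0))) z0) (b (d (c z0 (b (d (c z0 z4) (c z0 z4)) z0)) (c z0 (b (d (c z0 (b z0 z0)) z0) z0))) z0)) z0))) z0)) z0)) _ _ (by decide +kernel)

theorem okA116 : CKA ⟨0, 12288, 4096, 8192⟩ ⟨8193, 49152, 0, 4096⟩ :=
  ckA_sound (a (b (d z0 (a (b z4 (d (c z4 z0) (c z4 (b z4 z4)))) (b z4 (d (c z4 z0) z4)))) (d z0 (b (d (c (b (d z0 z4) (d z0 (c (b z4 z4) z0))) z0) (c (b z4 (d (c (b z4 z4) (b z4 (d z0 z4))) (c z4 (b z4 z4)))) (b (d z0 (a (c (b z4 z4) (b z4 z4)) z4)) (d z0 (c (b z4 (d z0 z4)) (b (d z0 (a (b z4 z4) z4)) (d z0 (b z4 z0)))))))) z0))) (b (d z0 (b (d (a (c z4 z0) (c (b z7 (d z0 z7)) z0)) (c z6 (a z4 (b z7 (d z0 (c z7 (b z7 (d z0 (a (b z7 (d z0 (a z6 z7))) z7))))))))) (d (a (c (b (d z0 z6) (d z0 z6)) z0) (c (b (d z0 (c (b z7 (d z0 (a z6 z7))) z0)) (d z0 (c z6 z0))) z0)) (c z6 (a (b (d z0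 z6) (d z0 z6)) (b (d z0 (c (b (d z0 (a z6 z7)) (d z0 (a z6 z7))) (b (d z0 (a z6 z7)) (d z0 (a z6 z7))))) (d z0 z6))))))) (d z0 (b (d (a (c (b (d z0 z6) (d z0 (a (c z4 z0) (c z6 z0)))) z0) (c (b (d z0 (c z6 z0)) (d z0 (c z6 z0))) z0)) (c z6 (a (b (d z0 z6) (d z0 z6)) (b (d z0 z6) (d z0 (c z6 (b z6 (d z0 z6)))))))) (d (c (b (d z0 (a (c (b (d z0 z4) (d z0 (c z4 z0))) z0) (c (b z6 (d z0 z6)) z0))) (d z0 (c (b (d z0 (a (c z4 z0) z6)) (d z0 (c (b z4 z4) z0))) z0))) z0) (c (b (d (a (c (b z4 z4) (b (d z0 (a (c z4 z0) z6)) (d z0 (c (b z4 z4) z0)))) (c z6 (b z6 (d z0 z6)))) z6) (d (c (b (d (a (c z4 (b z4 z4)) z6) z4) (d (c z4 (b z4 z4)) z4)) (b (d z0 (a (c (b z4 z4) z0) z6)) (d z0 (c (b z4 z4) z0)))) (c (b z4 z4) (b (d (a (c z4 (b z4 z4)) z6) z4) (d (c (b z4 z4) (b z4 z4)) (c z4 (b z4 z4))))))) (b (d z0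 (a (c (b (d z0 (a (c z4 (b z4 z4)) z6)) (d z0 (c (b z4 z4) (b z4 z4)))) (b (d z0 (a (b (d z0 z4) (d z0 (c z4 (a (b z4 z4) z4)))) z6)) (d z0 (b (d z0 (a (c z4 (b z4 z4)) z4)) (d z0 (c z4 (a (b z4 z4) z4))))))) (c z6 (b (d z0 z6) (d z0 z6))))) (d z0 (c (b (d z0 (a (c (b z4 z4) (b z4 (d (b z4 z4) z4))) z6)) (d z0 (c (b z4 z4) (b (d (a (b z4 z4) z6) z4) (d (b z4 z4) z4))))) (b (d z0 (a (b (d z0 (c (a (b z4 z4) z4) (a (b z4 z4) z4))) (d z0 (c (b z4 z4) (b (d z0 z4) (d z0 z4))))) z6)) (d z0 (b (d z0 (c (a (b z4 z4) z6) (a (b (d z0 z4) (d z0 (c z4 (b z4 z4)))) z6))) (d z0 (c (b z4 z4) (b (d z0 (c z4 (a (b z4 z4) z4))) (d z0 (c z4 (b z4 z4)))))))))))))))))) _ _ (by decide +kernel)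

theorem okA117 : CKA ⟨0, 12288, 8192, 12288⟩ ⟨8193, 49152, 0, 4096⟩ :=
  ckA_sound (b (d z0 (b (d (c (b (d z0 (c (b (d z0 (c (b z4 z0) z0)) z0) z0)) z0) z0) (c (b (d (c (b (d (c z4 (b (d (c z4 z0) z4) z0)) (c z4 (b z4 z0))) z0) (b (d z0 (c (b (d z0 z4) z0) z0)) z0)) (c (b (d z4 (c (b z4 z0) z4)) z0) (b (d (c (b z4 z0) (b z4 z0)) (c z4 (b z4 z0))) z0))) z0) (b (d z0 (c (b (d z0 (c (b z4 z0) (b (d (b z4 z0) z4) z0))) z0) (b (d z0 (b (d z0 (c (b z4 z0) (b (d z0 (c z4 (b z4 z0))) z0))) z0)) z0))) z0))) z0)) z0) _ _ (by decide +kernel)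

theorem okA118 : CKA ⟨12288, 24576, 4096, 8192⟩ ⟨0, 4097, 0, 4096⟩ :=
  ckA_sound (b (d (b (d z0 (b (d z0 z3) (d z0 z3))) (d z0 (b (d z0 z3) (d z0 z3)))) z3) (d (b (d z0 (a (b (d z0 z3) z3) (b (d z0 z3) (d z0 z3)))) (d z0 z3)) z3)) _ _ (by decide +kernel)

theorem okA119 : CKA ⟨12288, 24576, 4096, 5120⟩ ⟨4097, 8193, 0, 2048⟩ :=
  ckA_sound (d z0 (c (b (d (a (b (d z0 z3) (d z0 z3)) (b (d z0 (c (b (d z3 z3) (d z3 z3)) (b (d z7 (a (c (b (d z7 (a z7 (c z3 z7))) (d z7 (a z7 (c z3 z7)))) z0) (c (b (d z7 (a (c z3 z7) (c z3 z7))) (d z7 (a (c z3 z7) (c z3 z7)))) z0))) (d z7 (a (c (b (d z7 (a z7 (c z3 z7))) (d z7 (a z7 (c z3 z7)))) z0) (c (b (d z7 (a (c z3 z7) (c z3 z7))) (d z7 (a (c z3 z7) (c z3 z7)))) z0)))))) (d z0 (c (a z3 (b (d z3 z3) z3)) (a (b (d z7 (c (a z7 (b (d z7 (c z3 z7)) (d z7 (c z3 z7))))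 z0)) (d z7 (c (a z7 (b (d z7 (c z3 z7)) (d z7 (c z3 z7)))) z0))) (b (d z7 (c (b (d z7 (a (c z3 z7) (c z3 z7))) (d z7 (a (c z3 z7) (c z3 z7)))) z0)) (d z7 (c (b (d z7 (a (c z3 z7) (c z3 z7))) (d z7 (a (c z3 z7) (c z3 z7)))) z0)))))))) z3) (d (a (b (d z0 z3) (d z0 z3)) (b (d z0 (c z3 (b (d z7 (a (c (b (d z7 (a z7 (c z3 z7))) (d z7 (a z7 (c z3 z7)))) z0) (c (b (d z7 (a (c z3 z7) (c z3 z7))) (d z7 (a (c z3 z7) (c z3 z7)))) z0))) (d z7 (a (c (a z7 (b (d z7 (c z3 z7)) (d z7 (c z3 z7)))) z0) (c (b (d z7 (a (c z3 z7) (c z3 z7))) (d z7 (a (c z3 z7) (c z3 z7)))) z0)))))) (d z0 (c (a z3 (b z3 z3)) (a (b (d z7 (a z7 (c (b (d z7 (c z3 z7)) (d z7 (c z3 z7))) z0))) (d z7 (a z7 (c (b (d z7 (c z3 z7)) (d z7 (c z3 z7))) z0)))) (b (d (c z7 z0) (c (b (d z7 (a (c z3 z7) (c z3 z7))) (d z7 (a (c z3 z7) (c z3 z7))))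 z0)) (d (c (a z7 (b (d z0 z7) (d z0 z7))) z0) (c (a (b (d z7 (c z3 z7)) (d z7 (c z3 z7))) (b (d z7 (c z3 z7)) (d z7 (c z3 z7)))) z0)))))))) z3)) (b (d z0 z7) (d z0 z7)))) _ _ (by decide +kernel)

end Vale.Agent.Lib.P154Q5
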