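import Vale.Agent.Lib.P154Q5.CkADefs

namespace Vale.Agent.Lib.P154Q5

set_option maxRecDepth 100000
set_option exponentiation.threshold 1000

open Tr

theorem okA120 : CKA ⟨12288, 24576, 5120, 6144⟩ ⟨4097, 8193, 0, 1024⟩ :=
  ckA_sound z0 _ _ (by decide +kernel)

theorem okA121 : CKA ⟨12288, 24576, 5120, 5632⟩ ⟨4097, 6145, 1024, 2048⟩ :=
  ckA_sound (d (a (b (d z0 (a z3 (c z3 z7))) (d z0 (a z3 (c z3 z7)))) (b (d z0 (c (a z3 (b z3 (d (a z3 (b z3 (d z0 z3))) z3))) (a (b (d z7 (a z7 (c (b (d z7 (c z3 z7)) (d z7 (c z3 z7))) z0))) (d z7 (a z7 (c (b (d z7 (c z3 z7)) (d z7 (c z3 z7))) z0)))) (b (d (c (b (d z0 z7) (d z0 z7)) z0) (c (b (d z7 (a (c z3 z7) (c z3 z7))) (d z7 (a (c z3 z7) (c z3 z7)))) z0)) (d (c (a z7 (b (d z0 z7) (d z0 z7))) z0) (c (a (b (d z7 (c z3 z7)) (d z7 (c z3 z7))) (b (d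 z7 (c z3 z7)) (d z7 (c z3 z7)))) z0)))))) (d z0 (a (c z3 (b (d (a z7 (c z7 z0)) (a z7 (c (b (d z7 (a (c z3 z7) (c z3 z7))) (d z7 (a z7 (c z3 z7)))) z0))) (d (a z7 (c z7 z0)) (a z7 (c (b (d z7 (a z7 (c z3 z7))) (d z7 (a z7 (c z3 z7)))) z0))))) (c (b (d (a z3 (b (d z0 z3) (d z0 z3))) z3) (d (a z3 (b (d z0 z3) (d z0 z3))) z3)) (b (d (c (a (b (d z0 z7) (d z0 z7)) (b (d z0 z7) (d z0 z7))) z0) (c (a (b (d z7 (c z3 z7)) (d z7 (c z3 z7))) (b (d z7 (c z3 z7)) (d z7 (c z3 z7)))) z0)) (d (a (c (b (d z0 z7) (d z0 z7)) z0) (c (b (d z0 z7) (d z0 z7)) z0)) (a (c (b (d z7 (a (c z3 z7) (c z3 z7))) (d z7 (a (c z3 z7) (c z3 z7)))) z0) (c (b (d z7 (c z3 z7)) (d z7 (a (c z3 z7) (c z3 z7)))) z0))))))))) (a z3 (c z3 (b (d (a z3 (b (d (c z3 z7) z3) (d (c z3 z7) z3))) z3) (d (a z3 (b (d (c z3 z7) z3) (d (c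 z3 z7) z3))) z3))))) _ _ (by decide +kernel)

theorem okA122 : CKA ⟨12288, 24576, 5632, 6144⟩ ⟨4097, 6145, 1024, 1536⟩ :=
  ckA_sound (a (b (d z0 (a z3 (c z3 z7))) (d z0 (a (c z3 z7) (c z3 (b z7 (d (a z7 (c z7 z0)) z7)))))) (b (d z0 (a (c z3 (b (d (a (c z7 z0) (c (b (d z0 z7) (d z0 z7)) z0)) (a z7 (c (b (d z7 (a (c z3 z7) (c z3 z7))) (d z7 (a (c z3 z7) (c z3 z7)))) z0))) (d (a (c z7 z0) (c (b (d z0 z7) (d z0 z7)) z0)) (a z7 (c (b (d z7 (a (c z3 z7) (c z3 z7))) (d z7 (a z7 (c z3 z7)))) z0))))) (c (b (d (a z3 (b (d z0 z3) (d z0 z3))) z3) (d (a z3 (b (d z0 z3) (d z0 z3))) z3)) (b (d (c (a (b (d z0 z7) (d z0 z7)) (b (d z0 z7) (d z0 z7))) z0) (c (a (b (d z7 (c z3 z7)) (d z7 (c z3 z7))) (b (d z7 (c z3 z7)) (d z7 (c z3 z7)))) z0)) (d (a (c (b (d z0 z7) (d z0 z7)) z0) (c (b (d z0 z7) (d z0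 z7)) z0)) (a (c (b (d z7 (a (c z3 z7) (c z3 z7))) (d z7 (a (c z3 z7) (c z3 z7)))) z0) (c (b (d z7 (c z3 z7)) (d z7 (a (c z3 z7) (c z3 z7)))) z0))))))) (d z0 (a (c z3 (b (d (a (c z7 z0) (c (b (d z0 z7) (d z0 z7)) z0)) (a z7 (c (b (d z7 (a (c z3 z7) (c z3 z7))) (d z7 (a z7 (c z3 z7)))) z0))) (d (a (c z7 z0) (c (b (d z0 z7) (d z0 z7)) z0)) (a z7 (c (b (d z7 (a z7 (c z3 z7))) (d z7 (a z7 (c z3 z7)))) z0))))) (c (b (d (a z3 (b (d z0 z3) (d z0 z3))) z3) (d (a z3 (b (d z0 z3) (d z0 z3))) z3)) (b (d (a (c (b (d z0 z7) (d z0 z7)) z0) (c (b (d z0 z7) (d z0 z7)) z0)) (a (c (b (d z7 (a (c z3 z7) (c z3 z7))) (d z7 (a (c z3 z7) (c z3 z7)))) z0) (c (b (d z7 (c z3 z7)) (d z7 (a (c z3 z7) (c z3 z7)))) z0))) (d (a (c (b (d z0 z7) (d z0 z7)) z0) (c (b (d z0 z7) (d z0 z7)) z0)) (a (c (b (d z7 (a (c z3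 z7) (c z3 z7))) (d z7 (a (c z3 z7) (c z3 z7)))) z0) (c (b (d z7 (c z3 z7)) (d z7 (a (c z3 z7) (c z3 z7)))) z0))))))))) _ _ (by decide +kernel)

theorem okA123 : CKA ⟨12288, 24576, 5632, 6144⟩ ⟨4097, 6145, 1536, 2048⟩ :=
  ckA_sound (a z3 (c z3 (b (d (a (b (d (c z3 z7) z3) (d (c z3 z7) z3)) (b (d (c z3 z7) z3) (d (c z3 z7) (c z3 (a (b (d z7 (c z3 z7)) (d z7 (c z3 z7))) (b (d (c (b (d z7 (a (c z3 z7) (c z3 z7))) (d z7 (a (c z3 z7) (c z3 z7)))) z7) (c z3 z7)) (d (c (a (b (d z7 (c z3 z7)) (d z7 (c z3 z7))) (b (d z7 (c z3 z7)) (d z7 (c z3 z7)))) z7) (c z3 z7)))))))) z3) (d (a (b (d (c z3 z7) z3) (d (c z3 z7) z3)) (b (d (c z3 z7) (c z3 (a (b (d z7 (c z3 z7)) (d z7 (c z3 z7))) (b (d (c (b (d z7 (a (c z3 z7) (c z3 z7))) (d z7 (a (c z3 z7) (c z3 z7)))) z7) (c z3 z7)) (d (c (a (b (d z7 (c z3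 z7)) (d z7 (c z3 z7))) (b (d z7 (c z3 z7)) (d z7 (c z3 z7)))) z7) (c z3 z7)))))) (d (c z3 z7) (c z3 (a (b (d z7 (c z3 z7)) (d z7 (c z3 z7))) (b (d (c (a (b (d z7 (c z3 z7)) (d z7 (c z3 z7))) (b (d z7 (c z3 z7)) (d z7 (c z3 z7)))) z7) (c z3 z7)) (d (c (a (b (d z7 (c z3 z7)) (d z7 (c z3 z7))) (b (d z7 (c z3 z7)) (d z7 (c z3 z7)))) z7) (c z3 z7)))))))) z3)))) _ _ (by decide +kernel)

theorem okA124 : CKA ⟨12288, 24576, 5120, 6144⟩ ⟨6145, 8193, 1024, 2048⟩ :=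
  ckA_sound (b (d z0 z7) (d z0 (a z7 z7))) _ _ (by decide +kernel)

theorem okA125 : CKA ⟨12288, 24576, 4096, 5120⟩ ⟨4097, 8193, 2048, 4096⟩ :=
  ckA_sound (d (c z3 (b (d (a (b (d z7 (c (a z7 (b (d z7 (c z3 z7)) (d z7 (c z3 z7)))) z7)) (d z7 (c (a z7 (b (d z7 (c z3 z7)) (d z7 (c z3 z7)))) z7))) (b (d z7 (c (b (d (c (a z7 (b (d z7 (c z3 z7)) (d z7 (c z3 z7)))) z7) (c z3 z7)) (d (a z7 (c (b (d z7 (c z3 z7)) (d z7 (a z7 (c z3 z7)))) z7)) (a (c z3 z7) (c z3 z7)))) z7)) (d z7 (c (a (b (d z7 (c z3 z7)) (d z7 (c z3 z7))) (b (d (c (b (d z7 (c z3 z7)) (d z7 (a z7 (c z3 z7)))) z7) (c z3 z7)) (d (c (b (d z7 (a z7 (c z3 z7))) (d z7 (a z7 (c z3 z7)))) z7) (c z3 z7)))) z7)))) (a (b (d (c (a (b (d (c z1 z5) z1) (d (c z3 z7) z3)) (b (d (c z3 z7) z3) (d (c z3 z7) z3))) z7) (c z3 z7)) (d (c (a (b (d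 (c z3 z7) z3) (d (c z3 z7) z3)) (b (d (c z3 z7) z3) (d (c z3 z7) z3))) z7) (c z3 z7))) (b (d (c (b (d (c z3 z7) z3) (d (a (c z3 z7) (c z3 z7)) z3)) z7) (c z3 z7)) (d (c (a (b (d (c z3 z7) z3) (d (c z3 z7) z3)) (b (d (c z3 z7) z3) (d (c z3 z7) z3))) z7) (c z3 z7))))) (d (a (b (d z7 (c (a z7 (b (d z7 (c z3 z7)) (d z7 (c z3 z7)))) z7)) (d z7 (c (a z7 (b (d z7 (c z3 z7)) (d z7 (c z3 z7)))) z7))) (b (d z7 (c (b (d (a z7 (c (b (d z7 (c z3 z7)) (d z7 (a z7 (c z3 z7)))) z7)) (a (c z3 z7) (c z3 z7))) (d (a z7 (c (b (d z7 (a z7 (c z3 z7))) (d z7 (a z7 (c z3 z7)))) z7)) (a (c z3 z7) (c z3 z7)))) z7)) (d z7 (c (a (b (d z7 (c z3 z7)) (d z7 (c z3 z7))) (b (d (c (b (d z7 (a z7 (c z3 z7))) (d z7 (a z7 (c z3 z7)))) z7) (c z3 z7)) (d (c (a z7 (b (d z7 (c z3 z7)) (d z7 (c z3 z7)))) z7) (c z3 z7)))) z7))))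 (a (b (d (c (a (b (d (c z3 z7) z3) (d (c z3 z7) z3)) (b (d (c z3 z7) z3) (d (c z3 z7) z3))) z7) (c z3 z7)) (d (c (a (b (d (c z3 z7) z3) (d (c z3 z7) z3)) (b (d (c z3 z7) z3) (d (c z3 z7) z3))) z7) (c z3 z7))) (b (d (c (b (d (a (c z3 z7) (c z3 z7)) z3) (d (a (c z3 z7) (c z3 z7)) z3)) z7) (c z3 z7)) (d (c (a (b (d (c z3 z7) z3) (d (c z3 z7) z3)) (b (d (c z3 z7) z3) (d (c z3 z7) z3))) z7) (c z3 z7))))))) z3) _ _ (by decide +kernel)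

theorem okA126 : CKA ⟨12288, 24576, 5120, 6144⟩ ⟨4097, 6145, 2048, 3072⟩ :=
  ckA_sound z3 _ _ (by decide +kernel)

theorem okA127 : CKA ⟨12288, 24576, 5120, 5632⟩ ⟨6145, 8193, 2048, 3072⟩ :=
  ckA_sound (d (a (b (d z7 (c (a z7 (b (d z7 (c z3 z7)) (d z7 (c z3 z7)))) z7)) (d z7 (c (a z7 (b (d z7 (c z3 z7)) (d z7 (c z3 z7)))) z7))) (b (d z7 (c (a (b (d z7 (c z3 z7)) (d z7 (c z3 z7))) (b (d (c (b (d z7 (a z7 (c z3 z7))) (d z7 (a z7 (c z3 z7)))) z7) (c z3 z7)) (d (c (a z7 (b (d z7 (c z3 z7)) (d z7 (c z3 z7)))) z7) (c z3 z7)))) z7)) (d z7 (c (a (b (d z7 (c z3 z7)) (d z7 (c z3 z7))) (b (d (c (a (b (d z7 (c z3 z7)) z7) (b (d z7 (c z3 z7)) (d z7 (c z3 z7)))) z7) (c z3 z7)) (d (c (a (b (d z7 (c z3 z7)) z7) (b (d z7 (c z3 z7)) (d z7 (c z3 z7)))) z7) (c z3 z7)))) z7)))) (a (b (d (c (a (b (d (c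 z3 z7) z3) (d (c z3 z7) z3)) (b (d (c z3 z7) z3) (d (c z3 z7) z3))) z7) (c z3 z7)) (d (c (a (b (d (c z3 z7) z3) (d (c z3 z7) z3)) (b (d (c z3 z7) z3) (d (c z3 z7) z3))) z7) (c z3 z7))) (b (d (c (a (b (d (c z3 z7) z3) (d (c z3 z7) z3)) (b (d (c z3 z7) z3) (d (c z3 z7) z3))) z7) (c z3 z7)) (d (c (a (b (d (c z3 z7) z3) (d (c z3 z7) z3)) (b (d (c z3 z7) z3) (d (c z3 z7) z3))) z7) (c z3 z7))))) _ _ (by decide +kernel)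

theorem okA128 : CKA ⟨12288, 24576, 5632, 6144⟩ ⟨6145, 8193, 2048, 3072⟩ :=
  ckA_sound (d (a (b (d z7 (a z7 (c (b (d z7 (a z7 (c z3 z7))) (d z7 (a z7 (c z3 z7)))) z7))) (d z7 (a z7 (c (b (d z7 (a z7 (c z3 z7))) (d z7 (a z7 (c z3 z7)))) z7)))) (b (d z7 (c (a (b (d z7 (c z3 z7)) (d z7 (c z3 z7))) (b (d (c (a (b (d z7 (c z3 z7)) (d z7 (c z3 z7))) (b (d z7 (c z3 z7)) (d z7 (c z3 z7)))) z7) (c z3 z7)) (d (c (a (b (d z7 (c z3 z7)) (d z7 (c z3 z7))) (b (d z7 (c z3 z7)) (d z7 (c z3 z7)))) z7) (c z3 z7)))) z7)) (d z7 (c (a (b (d z7 (c z3 z7)) (d z7 (c z3 z7))) (b (d (c (a (b (d z7 (c z3 z7)) (d z7 (c z3 z7))) (b (d z7 (c z3 z7)) (d z7 (c z3 z7)))) z7) (c z3 z7)) (d (c (a (b (d z7 (c z3 z7)) (d z7 (c z3 z7))) (b (d z7 (c z3 z7)) (d z7 (c z3 z7)))) z7) (c z3 z7)))) z7)))) (a (b (d (a (c (b (d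 (a (c z3 z7) (c z3 z7)) z3) (d (a (c z3 z7) (c z3 z7)) z3)) z7) (c (b (d (a (c z3 z7) (c z3 z7)) z3) (d (a (c z3 z7) (c z3 z7)) z3)) z7)) (a (c z3 z7) (c z3 z7))) (d (a (c (b (d (a (c z3 z7) (c z3 z7)) z3) (d (a (c z3 z7) (c z3 z7)) z3)) z7) (c (b (d (a (c z3 z7) (c z3 z7)) z3) (d (a (c z3 z7) (c z3 z7)) z3)) z7)) (a (c z3 z7) (c z3 z7)))) (b (d (c (a (b (d (c z3 z7) z3) (d (c z3 z7) z3)) (b (d (c z3 z7) z3) (d (c z3 z7) z3))) z7) (c z3 z7)) (d (c (a (b (d (c z3 z7) z3) (d (c z3 z7) z3)) (b (d (c z3 z7) z3) (d (c z3 z7) z3))) z7) (c z3 z7))))) _ _ (by decide +kernel)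

theorem okA129 : CKA ⟨12288, 24576, 5120, 6144⟩ ⟨4097, 8193, 3072, 4096⟩ :=
  ckA_sound (c z3 (b z3 (d (a z3 (b z3 (d (c z3 z7) z3))) z3))) _ _ (by decide +kernel)

theorem okA130 : CKA ⟨12288, 24576, 6144, 7168⟩ ⟨4097, 8193, 0, 1024⟩ :=
  ckA_sound z0 _ _ (by decide +kernel)

theorem okA131 : CKA ⟨12288, 17067, 6144, 7168⟩ ⟨4097, 8193, 1024, 2048⟩ :=
  ckA_sound (c (b (d (a (b (d z0 (c z3 z7)) (d z0 (c z3 (a z7 (b z7 (d (c z7 z0) z7)))))) (b (d z0 (c z3 (a (b (d (c z7 z0) z7) (d (c z7 z0) z7)) (b (d (c z7 z0) z7) (d (c z7 z0) z7))))) (d z0 (c z3 (a (b (d (c z7 z0) z7) (d (c z7 z0) z7)) (b (d (c (b (d z0 z7) (d z0 z7)) z0) z7) (d (c (b (d z0 z7) (d z0 z7)) z0) z7))))))) (a z3 (c z3 (b (d (a z3 (b (d (c z3 z7) z3) (d (c z3 z7) z3))) z3) (d (a z3 (b (d (c z3 z7) z3) (d (c z3 z7) z3)))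 z3))))) (d (a (b (d z0 (c z3 (a z6 (b (d (c z7 z0) z7) (d (c z7 z0) z7))))) (d z0 (c z2 (a (b (d (a z6 (c z6 z0)) z6) (d (a (c z6 z0) (c z6 z0)) z6)) (b (d (c z7 z0) z7) (d (c z6 z0) z6)))))) (b (d z0 (c z3 (a (b (d (c z7 z0) z7) (d (c z7 z0) z7)) (b (d (c (b (d z0 z7) (d z0 z7)) z0) z7) (d (c (b (d z0 z7) (d z0 z7)) z0) z7))))) (d z0 (c z3 (a (b (d (c z7 z0) z7) (d (c z7 z0) z7)) (b (d (c (b (d z0 z7) (d z0 z7)) z0) z7) (d (c (b (d z0 z7) (d z0 z7)) z0) z7))))))) (a z2 (c z3 (b (d (a (b z3 (d (c z3 z7) z3)) (b (d (c z3 z7) z3) (d (c z3 z7) z3))) z3) (d (a (b (d (c z3 z7) z3) (d (c z3 z7) z3)) (b (d (c z3 z7) z3) (d (c z3 z7) z3))) z3)))))) (b (d z0 (a (b (d z0 z7) (d z0 (c z7 z0))) (b (d z0 z7) (d z0 z7)))) (d z0 (a (b (d z0 (c z7 z0)) (d z0 (c z6 z0))) (b (d z0 (c z7 z0)) (d z0 (c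 z7 z0))))))) _ _ (by decide +kernel)

theorem okA132 : CKA ⟨17067, 24576, 6144, 6656⟩ ⟨4097, 6145, 1024, 1536⟩ :=
  ckA_sound (b (d z0 (c (a z3 (b (d (b (d z0 z3) (d z0 z3)) z3) (d (a (b (d z0 z3) (d z0 z3)) (b (d z0 z3) (d z0 z3))) z3))) (a (b (d (a (c (b (d z0 z7) (d z0 z7)) z0) (c (b (d z0 z7) (d z0 z7)) z0)) (a (c (b (d z7 (a z7 (c z3 z7))) (d z7 (a z7 (c z3 z7)))) z0) (c (b (d z7 (a (c z3 z7) (c z3 z7))) (d z7 (a (c z3 z7) (c z3 z7)))) z0))) (d (a (c (b (d z0 z7) (d z0 z7)) z0) (c (b (d z0 z7) (d z0 z7)) z0)) (a z7 (c (b (d z7 (a (c z3 z7) (c z3 z7))) (d z7 (a (c z3 z7) (c z3 z7)))) z0)))) (b (d (c (b (d z0 z7) (d z0 z7)) z0) (c (b (d z7 (a (c z3 z7) (c z3 z7))) (d z7 (a (c z3 z7) (c z3 z7)))) z0)) (d (c (a (b (d z0 z7) (d z0 z7)) (b (d z0 z7) (d z0 z7))) z0) (c (a (b (d z7 (c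 z3 z7)) (d z7 (c z3 z7))) (b (d z7 (c z3 z7)) (d z7 (c z3 z7)))) z0)))))) (d z0 (a (c z3 (b (d (a (c (b (d z0 z7) (d z0 z7)) z0) (c (b (d z0 z7) (d z0 z7)) z0)) (a z7 (c (b (d z7 (a (c z3 z7) (c z3 z7))) (d z7 (a (c z3 z7) (c z3 z7)))) z0))) (d (a (c (b (d z0 z7) (d z0 z7)) z0) (c (b (d z0 z7) (d z0 z7)) z0)) (a z7 (c (b (d z7 (a (c z3 z7) (c z3 z7))) (d z7 (a (c z3 z7) (c z3 z7)))) z0))))) (c (b (d (a (b (d z0 z3) (d z0 z3)) (b (d z0 z3) (d z0 z3))) z3) (d (a (b (d z0 z3) (d z0 z3)) (b (d z0 z3) (d z0 z3))) z3)) (b (d (c (a (b (d z0 z7) (d z0 z7)) (b (d z0 z7) (d z0 (c z7 z0)))) z0) (c (a (b (d z7 (c z3 z7)) (d z7 (c z3 z7))) (b (d z7 (c z3 z7)) (d z7 (c z3 z7)))) z0)) (d (a (c (b (d z0 z7) (d z0 z7)) z0) (c (b (d z0 (c z7 z0)) (d z0 (a z7 (c z7 z0)))) z0)) (a (c (b (d z7 (a (c z3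 z7) (c z3 z7))) (d z7 (a (c z3 z7) (c z3 z7)))) z0) (c (b (d z7 (c z3 z7)) (d z7 (a (c z3 z7) (c z3 z7)))) z0)))))))) _ _ (by decide +kernel)

theorem okA133 : CKA ⟨17067, 24576, 6144, 6656⟩ ⟨4097, 6145, 1536, 2048⟩ :=
  ckA_sound (c z3 (b (d (a (b (d (c z3 z7) z3) (d (c z3 z7) z3)) (b (d (c z3 z7) (c z3 (b (d (c (a z7 (b (d z7 (c z3 z7)) (d z7 (c z3 z7)))) z7) (c z3 z7)) (d (a z7 (c (b (d z7 (c z3 z7)) (d z7 (a (c z3 z7) (c z3 z7)))) z7)) (a (c z3 z7) (c z3 z7)))))) (d (c z3 z7) (c z3 (a (b (d z7 (c z3 z7)) (d z7 (c z3 z7))) (b (d (c (b (d z7 (c z3 z7)) (d z7 (a (c z3 z7) (c z3 z7)))) z7) (c z3 z7)) (d (c (a (b (d z7 (c z3 z7)) (d z7 (c z3 z7))) (b (d z7 (c z3 z7)) (d z7 (c z3 z7)))) z7) (c z3 z7)))))))) z3) (d (a (b (d (c z3 z7) (c z3 (a (b (d z7 (c z3 z7)) (d z7 (c z3 z7))) (b (d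 z7 (c z3 z7)) (d z7 (c z3 z7)))))) (d (c z3 z7) (c z3 (a (b (d z7 (c z3 z7)) (d z7 (c z3 z7))) (b (d z7 (c z3 z7)) (d z7 (c z3 z7))))))) (b (d (c z3 z7) (c z3 (a (b (d (c (a z7 (b (d z7 (c z3 z7)) z7)) z7) (c z3 z7)) (d z7 (c z3 z7))) (b (d (c (b (d z7 (c z3 z7)) (d z7 (a (c z3 z7) (c z3 z7)))) z7) (c z3 z7)) (d (c (a (b (d z7 (c z3 z7)) (d z7 (c z3 z7))) (b (d z7 (c z3 z7)) (d z7 (c z3 z7)))) z7) (c z3 z7)))))) (d (c z3 z7) (c z3 (a (b (d z7 (c z3 z7)) (d z7 (c z3 z7))) (b (d (c (a (b (d z7 (c z3 z7)) (d z7 (c z3 z7))) (b (d z7 (c z3 z7)) (d z7 (c z3 z7)))) z7) (c z3 z7)) (d (c (a (b (d z7 (c z3 z7)) (d z7 (c z3 z7))) (b (d z7 (c z3 z7)) (d z7 (c z3 z7)))) z7) (c z3 z7)))))))) z3))) _ _ (by decide +kernel)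

theorem okA134 : CKA ⟨17067, 24576, 6656, 7168⟩ ⟨4097, 6145, 1024, 1536⟩ :=
  ckA_sound (b (d z0 (a (c z3 (b (d (a (c (b (d z0 z7) (d z0 z7)) z0) (c (b (d z0 z7) (d z0 z7)) z0)) (a z7 (c (b (d z7 (a (c z3 z7) (c z3 z7))) (d z7 (a (c z3 z7) (c z3 z7)))) z0))) (d (a (c (b (d z0 z7) (d z0 z7)) z0) (c (b (d z0 z7) (d z0 z7)) z0)) (a z7 (c (b (d z7 (a z7 (c z3 z7))) (d z7 (a z7 (c z3 z7)))) z0))))) (c (b (d (a (b (d z0 z3) (d z0 z3)) (b (d z0 z3) (d z0 z3))) z3) (d (a (b (d z0 z3) (d z0 z3)) (b (d z0 z3) (d z0 z3))) z3)) (b (d (a (c (b (d z0 z7) (d z0 z7)) z0) (c (b (d z0 (c z7 z0)) (d z0 (a (c z7 z0) (c z7 z0)))) z0)) (a (c (b (d z7 (a (c z3 z7) (c z3 z7))) (d z7 (a (c z3 z7) (c z3 z7)))) z0) (c (b (d z7 (c z3 z7)) (d z7 (a (c z3 z7) (c z3 z7)))) z0))) (d (a (c (b (d z0 z7) (d z0 z7))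 z0) (c (b (d z0 (a (c z7 z0) (c z7 z0))) (d z0 (a (c z7 z0) (c z7 z0)))) z0)) (a (c (b (d z7 (a (c z3 z7) (c z3 z7))) (d z7 (a (c z3 z7) (c z3 z7)))) z0) (c (b (d z7 (a (c z3 z7) (c z3 z7))) (d z7 (a (c z3 z7) (c z3 z7)))) z0))))))) (d z0 (a (c z3 (b (d (a (c (b (d z0 z7) (d z0 z7)) z0) (c (b (d z0 z7) (d z0 z7)) z0)) (a z7 (c (b (d z7 (a z7 (c z3 z7))) (d z7 (a z7 (c z3 z7)))) z0))) (d (a (c (b (d z0 z7) (d z0 z7)) z0) (c (b (d z0 z7) (d z0 z7)) z0)) (a z7 (c (b (d z7 (a z7 (c z3 z7))) (d z7 (a z7 (c z3 z7)))) z0))))) (c (b (d (a (b (d z0 z3) (d z0 z3)) (b (d z0 z3) (d z0 z3))) z3) (d (a (b (d z0 z3) (d z0 z3)) (b (d z0 z3) (d z0 z3))) z3)) (b (d (a (c (b (d z0 (a z7 (c z7 z0))) (d z0 (a z7 (c z7 z0)))) z0) (c (b (d z0 (a (c z7 z0) (c z7 z0))) (d z0 (a (c z7 z0) (c z7 z0)))) z0)) (a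 (c (b (d z7 (a (c z3 z7) (c z3 z7))) (d z7 (a (c z3 z7) (c z3 z7)))) z0) (c (b (d z7 (a (c z3 z7) (c z3 z7))) (d z7 (a (c z3 z7) (c z3 z7)))) z0))) (d (a (c (b (d z0 (a z7 (c z7 z0))) (d z0 (a (c z7 z0) (c z7 z0)))) z0) (c (b (d z0 (a (c z7 z0) (c z7 z0))) (d z0 (a (c z7 z0) (c z7 z0)))) z0)) (a (c (b (d z7 (a (c z3 z7) (c z3 z7))) (d z7 (a (c z3 z7) (c z3 z7)))) z0) (c (b (d z7 (a (c z3 z7) (c z3 z7))) (d z7 (a (c z3 z7) (c z3 z7)))) z0)))))))) _ _ (by decide +kernel)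

end Vale.Agent.Lib.P154Q5
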