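import Vale.Agent.Lib.P154Q5.CkADefs

namespace Vale.Agent.Lib.P154Q5

set_option maxRecDepth 100000
set_option exponentiation.threshold 1000

open Tr

theorem okA135 : CKA ⟨17067, 24576, 6656, 7168⟩ ⟨4097, 6145, 1536, 2048⟩ :=
  ckA_sound (c z3 (b (d (a (b (d (c z3 z7) (c z3 (a (b (d z7 (c z3 z7)) (d z7 (c z3 z7))) (b (d z7 (c z3 z7)) (d z7 (c z3 z7)))))) (d (c z3 z7) (c z3 (a z7 (b (d z7 (c z3 z7)) (d z7 (c z3 z7))))))) (b (d (c z3 z7) (c z3 (a (b (d z7 (c z3 z7)) (d z7 (c z3 z7))) (b (d (c (a (b (d z7 (c z3 z7)) (d z7 (c z3 z7))) (b (d z7 (c z3 z7)) (d z7 (c z3 z7)))) z7) (c z3 z7)) (d (c (a (b (d z7 (c z3 z7)) (d z7 (c z3 z7))) (b (d z7 (c z3 z7)) (d z7 (c z3 z7)))) z7) (c z3 z7)))))) (d (c z3 z7) (c z3 (a (b (d z7 (c z3 z7)) (d z7 (c z3 z7))) (b (d (c (a (b (d z7 (c z3 z7)) (d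 z7 (c z3 z7))) (b (d z7 (c z3 z7)) (d z7 (c z3 z7)))) z7) (c z3 z7)) (d (c (a (b (d z7 (c z3 z7)) (d z7 (c z3 z7))) (b (d z7 (c z3 z7)) (d z7 (c z3 z7)))) z7) (c z3 z7)))))))) (a z3 (b z3 (d (c z3 (a (b (d (c z3 z7) (c z3 z7)) (d (c z3 z7) (c z3 z7))) (b (d (c z3 z7) (c z3 z7)) (d (c z3 z7) (c z3 z7))))) z3)))) (d (a (b (d (a (c z3 z7) (c z3 z7)) (a (c z3 z7) (c z3 (b (d z7 (a (c z3 z7) (c z3 z7))) (d z7 (a (c z3 z7) (c z3 z7))))))) (d (a (c z3 z7) (c z3 z7)) (a (c z3 z7) (c z3 (b (d z7 (a (c z3 z7) (c z3 z7))) (d z7 (a (c z3 z7) (c z3 z7)))))))) (b (d (c z3 z7) (c z3 (a (b (d z7 (c z3 z7)) (d z7 (c z3 z7))) (b (d (c (a (b (d z7 (c z3 z7)) (d z7 (c z3 z7))) (b (d z7 (c z3 z7)) (d z7 (c z3 z7)))) z7) (c z3 z7)) (d (c (a (b (d z7 (c z3 z7)) (d z7 (c z3 z7))) (b (d z7 (c z3 z7)) (d z7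 (c z3 z7)))) z7) (c z3 z7)))))) (d (c z3 z7) (c z3 (a (b (d z7 (c z3 z7)) (d z7 (c z3 z7))) (b (d (c (a (b (d z7 (c z3 z7)) (d z7 (c z3 z7))) (b (d z7 (c z3 z7)) (d z7 (c z3 z7)))) z7) (c z3 z7)) (d (c (a (b (d z7 (c z3 z7)) z7) (b (d z7 (c z3 z7)) (d z7 (c z3 z7)))) z7) (c z3 z7)))))))) (a z3 (b (d (c z3 (a (b (d (c z3 z7) (c z3 z7)) (d (c z3 z7) (c z3 z7))) (b (d (c z3 z7) (c z3 z7)) (d (c z3 z7) (c z3 z7))))) z3) (d (c z3 (a (b (d (c z3 z7) (c z3 z7)) (d (c z3 z7) (c z3 z7))) (b (d (c z3 z7) (c z3 z7)) (d (c z3 z7) (c z3 z7))))) z3)))))) _ _ (by decide +kernel)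

theorem okA136 : CKA ⟨17067, 24576, 6144, 7168⟩ ⟨6145, 8193, 1024, 2048⟩ :=
  ckA_sound (b (d z0 (b (d z0 z7) (d z0 z7))) (d z0 (b (d z0 z7) (d z0 (a (c z7 z0) z7))))) _ _ (by decide +kernel)

theorem okA137 : CKA ⟨12288, 24576, 7168, 8192⟩ ⟨4097, 8193, 0, 1024⟩ :=
  ckA_sound z0 _ _ (by decide +kernel)

theorem okA138 : CKA ⟨12288, 18432, 7168, 7680⟩ ⟨4097, 6145, 1024, 2048⟩ :=
  ckA_sound (d (a (b (d z0 (a (c z2 (b (d (a (c z6 z0) (c z6 z0)) z6) (d (a (c z6 z0) (c z6 z0)) z6))) (c z2 (b (d (a (c z6 z0) (c z7 z0)) z6) (d (a (c z6 z0) (c (b z7 (d z0 z6)) z0)) z6))))) (d z0 (a (c z2 (b (d (a (c z6 z0) (c z6 z0)) z6) (d (a (c z6 z0) (c z6 z0)) z6))) (c z2 (b (d (a (c z6 z0) (c (b (d z0 z6) (d z0 z6)) z0)) z6) (d (a (c (b (d z0 z6) (d z0 z6)) z0) (c (b (d z0 z6) (d z0 z6)) z0)) z6))))))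 (b (d z0 (a (c z3 (b (d (a (c (b (d z0 z7) (d z0 z7)) z0) (c (b (d z0 z7) (d z0 z7)) z0)) z7) (d (a (c (b (d z0 z7) (d z0 z7)) z0) (c (b (d z0 z7) (d z0 z7)) z0)) z7))) (c z3 (b (d (a (c (b (d z0 z7) (d z0 z7)) z0) (c (b (d z0 z7) (d z0 z7)) z0)) z7) (d (a (c (b (d z0 z7) (d z0 z7)) z0) (c (b (d z0 z7) (d z0 z7)) z0)) (a z7 (c z7 z0))))))) (d z0 (a (c z3 (b (d (a (c (b (d z0 z7) (d z0 z7)) z0) (c (b (d z0 z7) (d z0 z7)) z0)) z7) (d (a (c (b (d z0 z7) (d z0 z6)) z0) (c (b (d z0 z7) (d z0 z7)) z0)) (a (c z6 z0) (c z7 z0))))) (c z3 (b (d (a (c (b (d z0 z7) (d z0 z7)) z0) (c (b (d z0 z7) (d z0 z7)) z0)) (a (c z7 z0) (c z7 z0))) (d (a (c (b (d z0 z7) (d z0 z7)) z0) (c (b (d z0 z7) (d z0 z7)) z0)) (a (c z7 z0) (c z7 z0))))))))) (a (c z2 (b (d (a (b z2 (d (c z2 z6) z2)) (b (d (c z2 z6) z2)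 (d (c z2 z6) z2))) z2) (d (a (b (d (c z2 z6) z2) (d (c z2 z6) z2)) (b (d (c z2 z6) z2) (d (c z2 z6) (c z2 z6)))) z2))) (c z3 (b (d (a (b (d (c z3 z7) z3) (d (c z3 z7) (c z3 z7))) (b (d (c z3 z7) (c z3 z7)) (d (c z3 z7) (c z3 z7)))) z3) (d (a (b (d (c z3 z7) (c z3 z7)) (d (c z3 z7) (c z3 z7))) (b (d (c z3 z7) (c z3 z7)) (d (c z3 z7) (c z3 z7)))) z3))))) _ _ (by decide +kernel)

theorem okA139 : CKA ⟨12288, 18432, 7680, 8192⟩ ⟨4097, 6145, 1024, 1536⟩ :=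
  ckA_sound (a (b (d z0 (a (c z2 (b (d (a (c z6 z0) (c (b z6 (d z0 z6)) z0)) z6) (d (a (c (b z6 (d z0 z6)) z0) (c (b (d z0 z6) (d z0 z6)) z0)) (a (c z6 z0) (c z6 z0))))) (c z2 (b (d (a (c (b (d z0 z6) (d z0 z6)) z0) (c (b (d z0 z6) (d z0 z6)) z0)) (a (c z6 z0) (c z6 z0))) (d (a (c (b (d z0 z6) (d z0 z6)) z0) (c (b (d z0 z6) (d z0 z6)) z0)) (a (c z6 z0) (c z6 z0))))))) (d z0 (a (c z2 (b (d (a (c (b (d z0 z6) (d z0 z6)) z0) (c (b (d z0 z6) (d z0 z6)) z0)) (a (c z6 z0) (c z6 z0))) (d (a (c (b (d z0 z6) (d z0 z4)) z0) (c (b (d z0 z6) (d z0 z6)) z0)) (a (c z6 z0) (c z6 z0))))) (c z2 (b (d (a (c (b (d z0 z6) (d z0 z6)) z0) (c (b (d z0 z6) (d z0 z6)) z0)) (a (c z6 z0) (c z6 z0))) (d (a (c (b (d z0 z6) (d z0 z6)) z0) (c (b (d z0 z6) (d z0 (a z6 (c z6 z0)))) z0)) (a (c z6 z0) (c z6 z0))))))))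 (b (d z0 (a (c z2 (b (d (a (c (b (d z0 z6) (d z0 z6)) z0) (c (b (d z0 z7) (d z0 z7)) z0)) (a (c z6 z0) (c z7 z0))) (d (a (c (b (d z0 z6) (d z0 z6)) z0) (c (b (d z0 z6) (d z0 z6)) z0)) (a (c z6 z0) (c z6 z0))))) (c z3 (b (d (a (c (b (d z0 z7) (d z0 z7)) z0) (c (b (d z0 z7) (d z0 (a z7 (c z7 z0)))) z0)) (a (c z7 z0) (c z7 z0))) (d (a (c (b (d z0 z7) (d z0 (a z7 (c z7 z0)))) z0) (c (b (d z0 (a (c z7 z0) (c z7 z0))) (d z0 (a (c z7 z0) (c z7 z0)))) z0)) (a (c z7 z0) (c z7 z0))))))) (d z0 (a (c z2 (b (d (a (c (b (d z0 z6) (d z0 z6)) z0) (c (b (d z0 z6) (d z0 (a z6 (c z6 z0)))) z0)) (a (c z6 z0) (c z6 z0))) (d (a (c (b (d z0 (a z6 (c z6 z0))) (d z0 (a (c z6 z0) (c z6 z0)))) z0) (c (b (d z0 (a (c z6 z0) (c z6 z0))) (d z0 (a (c z6 z0) (c z6 z0)))) z0)) (a (c z6 z0) (c z6 z0))))) (c z3 (b (d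 (a (c (b (d z0 (a (c z7 z0) (c z7 z0))) (d z0 (a (c z6 z0) (c z7 z0)))) z0) (c (b (d z0 (a (c z7 z0) (c z7 z0))) (d z0 (a (c z7 z0) (c z7 z0)))) z0)) (a (c z7 z0) (c z7 z0))) (d (a (c (b (d z0 (a (c z6 z0) (c z6 z0))) (d z0 (a (c z6 z0) (c z6 z0)))) z0) (c (b (d z0 (a (c z7 z0) (c z7 z0))) (d z0 (a (c z7 z0) (c z7 z0)))) z0)) (a (c z6 z0) (c z7 z0))))))))) _ _ (by decide +kernel)

theorem okA140 : CKA ⟨12288, 18432, 7680, 8192⟩ ⟨4097, 6145, 1536, 2048⟩ :=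
  ckA_sound (a (c z2 (b (d (a (b (d (c z2 z6) (c z2 z6)) (d (c z2 z6) (c z2 z6))) (b (d (c z2 z6) (c z2 z6)) (d (c z2 z6) (c z2 z6)))) z2) (d (a (b (d (c z2 z6) (c z2 z6)) (d (c z2 z6) (c z2 z6))) (b (d (c z2 z6) (c z2 z6)) (d (c z2 z6) (c z2 z6)))) (a z2 (b z2 (d (c z2 z6) z2)))))) (c z2 (b (d (a (b (d (c z2 z6) (c z2 z6)) (d (c z2 z6) (c z2 z6))) (b (d (c z3 z7) (c z3 z7)) (d (c z3 z7) (c z3 z7)))) (a z2 (b z3 (d (c z3 (a (b (d z7 (c z3 z7)) (d z7 (c z3 z7))) (b (d (c z3 z7) (c z3 z7)) (d (c z3 z7) (c z3 z7))))) z3)))) (d (a (b (d (c z2 z6) (c z2 z6)) (d (c z2 z6) (c z2 z6))) (b (d (c z3 z7) (c z3 z7)) (d (c z3 z7) (c z3 z7)))) (a (b (d (c z2 (a (b (d z6 (c z2 z6)) (d z6 (c z2 z6))) (b (d z6 (c z2 z6)) (d z6 (c z2 z6))))) z2) (d (c z2 (a (b (d z6 (c z2 z6)) (d z6 (c z2 z6))) (b (d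 z6 (c z2 z6)) (d z6 (c z2 z6))))) z2)) (b (d (c z3 (a (b (d z7 (c z3 z7)) (d z7 (c z3 z7))) (b (d (c z3 z7) (c z3 z7)) (d (c z3 z7) (c z3 z7))))) z3) (d (c z3 (a (b (d z6 (c z2 z6)) (d z6 (c z2 z6))) (b (d (c z3 z7) (c z3 z7)) (d (c z3 z7) (c z3 z7))))) z3))))))) _ _ (by decide +kernel)

theorem okA141 : CKA ⟨12288, 18432, 7168, 8192⟩ ⟨6145, 8193, 1024, 2048⟩ :=
  ckA_sound (b (d z0 (a (b (d z0 (c z6 z0)) (d z0 (c z6 z0))) (b (d z0 (c z7 z0)) (d z0 (c z7 z0))))) (d z0 (a (b (d z0 (c (a (b z6 (d (c z6 z0) z6)) (b z6 (d (c z6 z0) z6))) z0)) (d z0 (c (a (b (d (c z6 z0) z6) (d (c z6 z0) z6)) (b (d (c z6 z0) z6) (d (c z6 z0) z6))) z0))) (b (d z0 (c (a (b z6 (d (c z6 z0) z6)) (b z7 (d (c z7 z0) z7))) z0)) (d z0 (c (a (b (d (c z6 z0) z6) (d (c z6 z0) z6)) (b (d (c z7 z0) z7) (d (c z7 z0)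 z7))) z0)))))) _ _ (by decide +kernel)

theorem okA142 : CKA ⟨18432, 24576, 7168, 7424⟩ ⟨4097, 6145, 1024, 1536⟩ :=
  ckA_sound (d z0 (a (c z3 (b (d (a (c (b (d z0 z7) (d z0 z7)) z0) (c (b (d z0 (a (c z7 z0) (c z7 z0))) (d z0 (a (c z7 z0) (c z7 z0)))) z0)) (a (c z7 z0) (c (b (d z7 (a (c z3 z7) (c z3 z7))) (d z7 (a (c z3 z7) (c z3 z7)))) z0))) (d (a (c (b (d z0 z7) (d z0 z7)) z0) (c (b (d z0 (a (c z7 z0) (c z7 z0))) (d z0 (a (c z7 z0) (c z7 z0)))) z0)) (a (c z7 z0) (c (b (d z7 (a (c z3 z7) (c z3 z7))) (d z7 (a z7 (c z3 z7)))) z0))))) (c (b (d (a (b (d z0 z3) (d z0 z3)) (b (d z0 z3) (d z0 z3))) z3) (d (a (b (d z0 z3) (d z0 z3)) (b (d z0 z3) (d z0 z3))) z3)) (b (d (c (a (b (d z0 (c z7 z0)) (d z0 (c z7 z0))) (b (d z0 (c z7 z0)) (d z0 (c z7 z0)))) z0) (c (a (b (d z7 (c z3 z7)) (d z7 (c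 z3 z7))) (b (d z7 (c z3 z7)) (d z7 (c z3 z7)))) z0)) (d (a (c (b (d z0 (a (c z7 z0) (c z7 z0))) (d z0 (a (c z7 z0) (c z7 z0)))) z0) (c (b (d z0 (c z7 z0)) (d z0 (a (c z7 z0) (c z7 z0)))) z0)) (a (c (b (d z7 (a (c z3 z7) (c z3 z7))) (d z7 (a (c z3 z7) (c z3 z7)))) z0) (c (b (d z7 (c z3 z7)) (d z7 (a (c z3 z7) (c z3 z7)))) z0))))))) _ _ (by decide +kernel)

theorem okA143 : CKA ⟨18432, 24576, 7424, 7680⟩ ⟨4097, 6145, 1024, 1536⟩ :=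
  ckA_sound (d z0 (a (c z3 (b (d (a (c (b (d z0 (a z7 (c z7 z0))) (d z0 (a z7 (c z7 z0)))) z0) (c (b (d z0 (a (c z7 z0) (c z7 z0))) (d z0 (a (c z7 z0) (c z7 z0)))) z0)) (a (c z7 z0) (c (b (d z7 (a z7 (c z3 z7))) (d z7 (a z7 (c z3 z7)))) z0))) (d (a (c (b (d z0 (a z7 (c z7 z0))) (d z0 (a (c z7 z0) (c z7 z0)))) z0) (c (b (d z0 (a (c z7 z0) (c z7 z0))) (d z0 (a (c z7 z0) (c z7 z0)))) z0)) (a (c z7 z0) (c (b (d z7 (a z7 (c z3 z7))) z7) z0))))) (c (b (d (a (b (d z0 z3) (d z0 z3)) (b (d z0 z3) (d z0 z3))) z3) (d (a (b (d z0 z3) (d z0 z3)) (b (d z0 z3) (d z0 z3))) z3)) (b (d (a (c (b (d z0 (a (c z7 z0) (c z7 z0))) (d z0 (a (c z7 z0) (c z7 z0)))) z0) (c (b (d z0 (c z7 z0)) (d z0 (a (c z7 z0) (c z7 z0)))) z0)) (a (c (b (d z7 (a (c z3 z7) (c z3 z7))) (d z7 (a (c z3 z7) (c z3 z7)))) z0) (c (b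 (d z7 (c z3 z7)) (d z7 (a (c z3 z7) (c z3 z7)))) z0))) (d (a (c (b (d z0 (a (c z7 z0) (c z7 z0))) (d z0 (a (c z7 z0) (c z7 z0)))) z0) (c (b (d z0 (a (c z7 z0) (c z7 z0))) (d z0 (a (c z7 z0) (c z7 z0)))) z0)) (a (c (b (d z7 (a (c z3 z7) (c z3 z7))) (d z7 (a (c z3 z7) (c z3 z7)))) z0) (c (b (d z7 (a (c z3 z7) (c z3 z7))) (d z7 (a (c z3 z7) (c z3 z7)))) z0))))))) _ _ (by decide +kernel)

theorem okA144 : CKA ⟨18432, 24576, 7168, 7680⟩ ⟨4097, 6145, 1536, 2048⟩ :=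
  ckA_sound (c z3 (b (d (a (b (d (c z3 z7) (c z3 (a (b (d z7 (c z3 z7)) (d z7 (c z3 z7))) (b (d z7 (c z3 z7)) (d z7 (c z3 z7)))))) (d (c z3 z7) (c z3 (a (b (d z7 (c z3 z7)) (d z7 (c z3 z7))) (b (d z7 (c z3 z7)) (d z7 (c z3 z7))))))) (b (d (c z3 z7) (c z3 (a (b (d z7 (c z3 z7)) (d z7 (c z3 z7))) (b (d (c (b (d z7 (c z3 z7)) (d z7 (a (c z3 z7) (c z3 z7)))) z7) (c z3 z7)) (d (c (a (b (d z7 (c z3 z7)) (d z7 (c z3 z7))) (b (d z7 (c z3 z7)) (d z7 (c z3 z7)))) z7) (c z3 z7)))))) (d (c z3 z7) (c z3 (a (b (d z7 (c z3 z7)) (d z7 (c z3 z7))) (b (d (c (a (b (d z7 (c z3 z7)) (d z7 (c z3 z7))) (b (d z7 (c z3 z7)) (d z7 (c z3 z7)))) z7) (c z3 z7)) (d (c (a (b (d z7 (c z3 z7)) z7) (b (d z7 (c z3 z7)) (d z7 (c z3 z7)))) z7) (c z3 z7)))))))) (a z3 (b (d (c z3 (a (b (d (c z3 z7) (c z3 z7)) (d (c z3 z7)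 (c z3 z7))) (b (d (c z3 z7) (c z3 z7)) (d (c z3 z7) (c z3 z7))))) z3) (d (c z3 (a (b (d (c z3 z7) (c z3 z7)) (d (c z3 z7) (c z3 z7))) (b (d (c z3 z7) (c z3 z7)) (d (c z3 z7) (c z3 z7))))) z3)))) (d (a (b (d (c z3 z7) (c z3 (a (b (d z7 (c z3 z7)) (d z7 (c z3 z7))) (b (d z7 (c z3 z7)) (d z7 (c z3 z7)))))) (d (c z3 z7) (c z3 (a z7 (b (d z7 (c z3 z7)) (d z7 (c z3 z7))))))) (b (d (c z3 z7) (c z3 (a (b (d z7 (c z3 z7)) (d z7 (c z3 z7))) (b (d (c (a (b (d z7 (c z3 z7)) z7) (b (d z7 (c z3 z7)) (d z7 (c z3 z7)))) z7) (c z3 z7)) (d (c (a z7 (b (d z7 (c z3 z7)) (d z7 (c z3 z7)))) z7) (c z3 z7)))))) (d (c z3 z7) (c z3 (a (b (d z7 (c z3 z7)) (d z7 (c z3 z7))) (b (d (c (a z7 (b (d z7 (c z3 z7)) (d z7 (c z3 z7)))) z7) (c z3 z7)) (d (c (a z7 (b (d z7 (c z3 z7)) (d z7 (c z3 z7)))) z7) (c z3 z7))))))))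 (a (b (d (c z3 (a (b (d (c z3 z7) (c z3 z7)) (d (c z3 z7) (c z3 z7))) (b (d (c z3 z7) (c z3 z7)) (d (c z3 z7) (c z3 z7))))) z3) (d (c z3 (a (b (d (c z3 z7) (c z3 z7)) (d (c z3 z7) (c z3 z7))) (b (d (c z3 z7) (c z3 z7)) (d (c z3 z7) (c z3 z7))))) z3)) (b (d (c z3 (a (b (d (c z3 z7) (c z3 z7)) (d (c z3 z7) (c z3 z7))) (b (d (c z3 z7) (c z3 z7)) (d (c z3 z7) (c z3 z7))))) z3) (d (c z3 (a (b (d (c z3 z7) (c z3 z7)) (d (c z3 z7) (c z3 z7))) (b (d (c z3 z7) (c z3 z7)) (d (c z3 z7) (c z3 z7))))) z3)))))) _ _ (by decide +kernel)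

theorem okA145 : CKA ⟨18432, 21504, 7680, 8192⟩ ⟨4097, 6145, 1024, 1536⟩ :=
  ckA_sound (b (d z0 (c z3 (a (b (d (c (a (b (d z0 (c z7 z0)) (d z0 (c z7 z0))) (b (d z0 (c z7 z0)) (d z0 (c z7 z0)))) z0) (c z7 z0)) (d (c (a (b (d z0 (c z7 z0)) (d z0 (c z7 z0))) (b (d z0 (c z7 z0)) (d z0 (c z7 z0)))) z0) (c z7 z0))) (b (d (c (a (b (d z0 (c z7 z0)) (d z0 (c z7 z0))) (b (d z0 (c z7 z0)) (d z0 (c z7 z0)))) z0) (c (a z7 (b (d z7 (c z3 z7)) (d z7 (c z3 z7)))) z0)) (d (c (a (b (d z0 (c z7 z0)) (d z0 (c z7 z0))) (b (d z0 (c z7 z0)) (d z0 (c z7 z0)))) z0) (c z7 z0)))))) (d z0 (c z3 (a (b (d (c (a (b (d z0 (c z7 z0)) (d z0 (c z7 z0))) (b (d z0 (c z7 z0)) (d z0 (c z7 z0)))) z0) (c z7 z0)) (d (c (a (b (d z0 (c z7 z0)) (d z0 (c z7 z0))) (b (d z0 (c z7 z0)) (d z0 (c z7 z0)))) z0) (c z7 z0))) (b (d (c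 (a (b (d z0 (c z7 z0)) (d z0 (c z7 z0))) (b (d z0 (c z7 z0)) (d z0 (c z7 z0)))) z0) (c z7 z0)) (d (c (a (b (d z0 (c z7 z0)) (d z0 (c z7 z0))) (b (d z0 (c z7 z0)) (d z0 (c z7 z0)))) z0) (c z7 z0))))))) _ _ (by decide +kernel)

theorem okA146 : CKA ⟨21504, 24576, 7680, 8192⟩ ⟨4097, 6145, 1024, 1536⟩ :=
  ckA_sound (b (d z0 (c (b (d (a (b (d z0 z3) (d z0 z3)) (b (d z0 z3) (d z0 z3))) z3) (d (a (b (d z0 z3) (d z0 z3)) (b (d z0 z3) (d z0 z3))) z3)) (b (d (a (c (b (d z0 (a (c z7 z0) (c z7 z0))) (d z0 (a (c z7 z0) (c z7 z0)))) z0) (c (b (d z0 (c z7 z0)) (d z0 (a (c z7 z0) (c z7 z0)))) z0)) (a (c (b (d z7 (a (c z3 z7) (c z3 z7))) (d z7 (a (c z3 z7) (c z3 z7)))) z0) (c (b (d z7 (c z3 z7)) (d z7 (a (c z3 z7) (c z3 z7)))) z0))) (d (a (c (b (d z0 (a (c z7 z0) (c z7 z0))) (d z0 (a (c z7 z0) (c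 z7 z0)))) z0) (c (b (d z0 (a (c z7 z0) (c z7 z0))) (d z0 (a (c z7 z0) (c z7 z0)))) z0)) (a (c (b (d z7 (a (c z3 z7) (c z3 z7))) (d z7 (a (c z3 z7) (c z3 z7)))) z0) (c (b (d z7 (a (c z3 z7) (c z3 z7))) (d z7 (a (c z3 z7) (c z3 z7)))) z0)))))) (d z0 (c (b (d (a (b (d z0 z3) (d z0 z3)) (b (d z0 z3) (d z0 z3))) z3) (d (a (b (d z0 z3) z3) (b (d z0 z3) (d z0 z3))) z3)) (b (d (a (c (b (d z0 (a (c z7 z0) (c z7 z0))) (d z0 (a (c z7 z0) (c z7 z0)))) z0) (c (b (d z0 (a (c z7 z0) (c z7 z0))) (d z0 (a (c z7 z0) (c z7 z0)))) z0)) (a (c (b (d z7 (a (c z3 z7) (c z3 z7))) (d z7 (a z7 (c z3 z7)))) z0) (c (b (d z7 (a (c z3 z7) (c z3 z7))) (d z7 (a (c z3 z7) (c z3 z7)))) z0))) (d (a (c (b (d z0 (a (c z7 z0) (c z7 z0))) (d z0 (a (c z7 z0) (c z7 z0)))) z0) (c (b (d z0 (a (c z7 z0) (c z7 z0))) (d z0 (a (c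 z7 z0) (c z7 z0)))) z0)) (a (c (b (d z7 (a z7 (c z3 z7))) z7) z0) (c (b (d z7 (a (c z3 z7) (c z3 z7))) (d z7 (a (c z3 z7) (c z3 z7)))) z0))))))) _ _ (by decide +kernel)

theorem okA147 : CKA ⟨18432, 21504, 7680, 8192⟩ ⟨4097, 6145, 1536, 2048⟩ :=
  ckA_sound (c z3 (b (d (a (b (d (c z3 z7) (c z3 z7)) (d (c z3 z7) (c z3 z7))) (b (d (c z3 z7) (c z3 (a (b (d z7 (c z3 z7)) (d z7 (c z3 z7))) (b (d z7 (c z3 z7)) (d z7 (c z3 z7)))))) (d (c z3 z7) (c z3 (a (b (d z7 (c z3 z7)) (d z7 (c z3 z7))) (b (d z7 (c z3 z7)) (d z7 (c z3 z7)))))))) (a (b (d (c z3 (a (b (d (c z3 z7) (c z3 z7)) (d (c z3 z7) (c z3 z7))) (b (d (c z3 z7) (c z3 z7)) (d (c z3 z7) (c z3 z7))))) z3) (d (c z3 (a (b (d (c z3 z7) (c z3 z7)) (d (c z3 z7) (c z3 z7))) (b (d (c z3 z7) (c z3 z7)) (d (c z3 z7) (c z3 z7))))) z3)) (b (d (c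 z3 (a (b (d (c z3 z7) (c z3 z7)) (d (c z3 z7) (c z3 z7))) (b (d (c z3 z7) (c z3 z7)) (d (c z3 z7) (c z3 z7))))) z3) (d (c z3 (a (b (d (c z3 z7) (c z3 z7)) (d (c z3 z7) (c z3 z7))) (b (d (c z3 z7) (c z3 z7)) (d (c z3 z7) (c z3 z7))))) z3)))) (d (a (b (d (c z3 z7) (c z3 z7)) (d (c z3 z7) (c z3 z7))) (b (d (c z3 z7) (c z3 (a z7 (b (d z7 (c z3 z7)) (d z7 (c z3 z7)))))) (d (c z3 z7) (c z3 (a z7 (b (d z7 (c z3 z7)) z7)))))) (a (b (d (c z3 (a (b (d (c z3 z7) (c z3 z7)) (d (c z3 z7) (c z3 z7))) (b (d (c z3 z7) (c z3 z7)) (d (c z3 z7) (c z3 z7))))) z3) (d (c z3 (a (b (d (c z3 z7) (c z3 z7)) (d (c z3 z7) (c z3 z7))) (b (d (c z3 z7) (c z3 z7)) (d (c z3 z7) (c z3 z7))))) z3)) (b (d (c z3 (a (b (d (c z3 z7) (c z3 z7)) (d (c z3 z7) (c z3 z7))) (b (d (c z3 z7) (c z3 z7)) (d (c z3 z7) (c z3 z7)))))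 z3) (d (c z3 (a (b (d (c z3 z7) (c z3 z7)) (d (c z3 z7) (c z3 z7))) (b (d (c z3 z7) (c z3 z7)) (d (c z3 z7) (c z3 z7))))) z3)))))) _ _ (by decide +kernel)

theorem okA148 : CKA ⟨21504, 24576, 7680, 8192⟩ ⟨4097, 6145, 1536, 2048⟩ :=
  ckA_sound (c z3 (b (d (b (d (c z3 z7) (c z3 (a (b (d z7 (c z3 z7)) (d z7 (c z3 z7))) (b (d (c (b (d z7 (a z7 (c z3 z7))) z7) z7) (c z3 z7)) (d z7 (c z3 z7)))))) (d (c z3 z7) (c z3 (a (b (d z7 (c z3 z7)) (d z7 (c z3 z7))) (b (d z7 (c z3 z7)) (d z7 (c z3 z7))))))) (b (d (c z3 (a (b (d (c z3 z7) (c z3 z7)) (d (c z3 z7) (c z3 z7))) (b (d (c z3 z7) (c z3 z7)) (d (c z3 z7) (c z3 z7))))) z3) (d (c z3 (a (b (d (c z3 z7) (c z3 z7)) (d (c z3 z7) (c z3 z7))) (b (d (c z3 z7) (c z3 z7)) (d (c z3 z7) (c z3 z7))))) z3))) (d (b (d (c z3 z7) (c z3 (a (b (d z7 (c z3 z7))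 (d z7 (c z3 z7))) (b (d z7 (c z3 z7)) (d z7 (c z3 z7)))))) (d (a (c z3 z7) (c z3 z7)) (a (c z3 (b (d z7 (a (c z3 z7) (c z3 z7))) (d z7 (a (c z3 z7) (c z3 z7))))) (c z3 (b (d z7 (c z3 z7)) (d z7 (a (c z3 z7) (c z3 z7)))))))) (b (d (c z3 (a (b (d (c z3 z7) (c z3 z7)) (d (c z3 z7) (c z3 z7))) (b (d (c z3 z7) (c z3 z7)) (d (c z3 z7) (c z3 z7))))) z3) (d (a (c z3 (b (d (a (c z3 z7) (c z3 z7)) (a (c z3 z7) (c z3 z7))) (d (a (c z3 z7) (c z3 z7)) (a (c z3 z7) (c z3 z7))))) (c z3 (b (d (c z3 z7) (c z3 z7)) (d (a (c z3 z7) (c z3 z7)) (a (c z3 z7) (c z3 z7)))))) z3))))) _ _ (by decide +kernel)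

theorem okA149 : CKA ⟨18432, 24576, 7168, 8192⟩ ⟨6145, 8193, 1024, 2048⟩ :=
  ckA_sound (b (d z0 (b (d z0 (c z7 z0)) (d z0 (a (c z7 z0) (c z7 z0))))) (d z0 (a (b (d z0 (c z7 z0)) (d z0 (c (a (b (d (c z7 z0) z7) (d (c z7 z0) z7)) z7) z0))) (b (d z0 (c z7 z0)) (d z0 (c z7 z0)))))) _ _ (by decide +kernel)

end Vale.Agent.Lib.P154Q5
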