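import Vale.Agent.Lib.P154Q5.CkA0
import Vale.Agent.Lib.P154Q5.CkA1
import Vale.Agent.Lib.P154Q5.CkA2
import Vale.Agent.Lib.P154Q5.CkA3
import Vale.Agent.Lib.P154Q5.CkA4
import Vale.Agent.Lib.P154Q5.CkA5
import Vale.Agent.Lib.P154Q5.CkA6
import Vale.Agent.Lib.P154Q5.CkA7
import Vale.Agent.Lib.P154Q5.CkA8
import Vale.Agent.Lib.P154Q5.CkA9
import Vale.Agent.Lib.P154Q5.CkA10
import Vale.Agent.Lib.P154Q5.CkA11
import Vale.Agent.Lib.P154Q5.CkA12
import Vale.Agent.Lib.P154Q5.CkA13
import Vale.Agent.Lib.P154Q5.CkA14
import Vale.Agent.Lib.P154Q5.CkA15
import Vale.Agent.Lib.P154Q5.CkA16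
import Vale.Agent.Lib.P154Q5.CkA17
import Vale.Agent.Lib.P154Q5.CkA18
import Vale.Agent.Lib.P154Q5.CkA19
import Vale.Agent.Lib.P154Q5.CkA20
import Vale.Agent.Lib.P154Q5.CkA21
import Vale.Agent.Lib.P154Q5.CkA22
import Vale.Agent.Lib.P154Q5.CkA23
import Vale.Agent.Lib.P154Q5.CkA24

namespace Vale.Agent.Lib.P154Q5

set_option maxRecDepth 100000

theorem rootA00 : CKA ⟨0, 49152, 0, 4096⟩ ⟨0, 49152, 0, 4096⟩ :=
  okA0

theorem rootA01 : CKA ⟨0, 49152, 0, 4096⟩ ⟨0, 49152, 4096, 12288⟩ :=
  (split2S (split2S (split1S (split2T (split2S okA1 (split1S okA2 (split1T okA3 okA4))) okA5) (split2T okA6 okA7)) (split1S (split2T (split1S okA8 (split1T (split2T (split1T okA9 (split2T okA10 (split1S (split1T (split2T okA11 okA12) okA13) okA14))) (split1T okA15 (split2T (split2S okA16 (split1S (split1T (split2T okA17 okA18) (split2T okA19 okA20)) okA21)) (split2S (split1S (split1T (split2T okA22 okA23) okA24) okA25) (split1S (split1T (split2T okA26 okA27) (split2T okA28 (split2S okA29 okA30))) okA31))))) (split2T (split1T (split2T okA32 okA33) okA34) (split1T (split2T (split2S okA35 okA36) (split2S okA37 okA38)) okA39)))) (split1S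 okA40 (split1T (split2T (split1T okA41 (split2T (split2S (split1S (split1T (split2T (split2S okA42 okA43) okA44) (split2T okA45 okA46)) okA47) (split1S (split1T (split2T okA48 (split2S okA49 okA50)) (split2T (split2S okA51 okA52) (split2S (split1S okA53 okA54) okA55))) okA56)) (split1S (split1T (split2T (split1T okA57 (split2T okA58 okA59)) okA60) (split2T okA61 okA62)) okA63))) okA64) (split2T (split1T (split2T (split2S (split1S okA65 (split1T okA66 okA67)) (split1S okA68 (split1T okA69 okA70))) (split1S okA71 (split1T okA72 okA73))) (split2T (split2S (split1S okA74 (split1T okA75 okA76)) okA77) okA78)) okA79)))) (split2T okA80 (split1T okA81 (split2T (split1T okA82 (split2T (split2S (split1S okA83 okA84) okA85) (split1S okA86 okA87))) okA88))))) (split1S (split2T okA89 (split1S okA90 (split1T (split2T (split1T okA91 (split2T (split1S (split1T okA92 okA93) okA94) (split1S (split1T (split2T okA95 okA96) okA97) okA98))) okA99) (split2T (split1T okA100 okA101) okA102)))) (split2T okA103 (split1T okA104 (split2T okA105 (split1T okA106 (split2T (split1S okA107 okA108) okA109)))))))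

theorem rootA10 : CKA ⟨0, 49152, 4096, 12288⟩ ⟨0, 49152, 0, 4096⟩ :=
  (split1S (split1S (split2S (split1T (split1S okA110 (split2S okA111 (split1T okA112 (split2T okA113 okA114)))) okA115) (split1T okA116 okA117)) (split2S (split1T (split2S okA118 (split1T (split2T (split1T okA119 (split2T okA120 (split2S (split1T okA121 (split2T okA122 okA123)) okA124))) (split1T okA125 (split2T (split2S okA126 (split1T okA127 okA128)) okA129))) (split2T (split1T (split2T okA130 (split1S okA131 (split2S (split1T (split2T okA132 okA133) (split2T okA134 okA135)) okA136))) (split2T okA137 (split1S (split2S (split1T okA138 (split2T okA139 okA140)) okA141) (split2S (split1T (split2T (split1T okA142 okA143) okA144) (split2T (split1S okA145 okA146) (split1S okA147 okA148))) okA149)))) (split1T (split2T (split1S okA150 okA151) okA152) (split2T (split1S okA153 okA154) okA155))))) (split2S okA156 (split1T (split2T (split1T (split2T okA157 (split1S (split2S (split1T (split2T (split1S okA158 okA159) okA160) (split2T okA161 okA162)) okA163) (split2S (split1T (split2T okA164 (split1S okA165 okA166)) (split2T (split1S okA167 okA168)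 (split1S (split2S okA169 (split1T okA170 okA171)) okA172))) okA173))) (split2T okA174 (split2S (split1T (split2T (split1T okA175 okA176) okA177) okA178) okA179))) (split1T (split2T (split1S (split2S okA180 (split1T okA181 okA182)) (split2S okA183 (split1T okA184 (split2T okA185 okA186)))) (split1S (split2S okA187 (split1T okA188 okA189)) okA190)) (split2T (split2S okA191 (split1T (split2T okA192 okA193) okA194)) okA195))) okA196))) (split1T okA197 (split1T (split2T okA198 (split1T (split2T okA199 (split1S (split2S okA200 okA201) okA202)) (split2T okA203 okA204))) okA205)))) (split2S (split1T okA206 (split2S okA207 (split1T (split2T (split1T (split2T okA208 (split2S (split1T okA209 okA210) okA211)) (split2T okA212 (split2S (split1T okA213 (split2T okA214 okA215)) okA216))) (split1T okA217 okA218)) (split2T okA219 okA220)))) (split1T okA221 (split1T okA222 (split2T okA223 (split1T (split2T okA224 okA225) okA226))))))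

theorem rootA11 : CKA ⟨0, 49152, 4096, 12288⟩ ⟨0, 49152, 4096, 12288⟩ :=
  (split1S (split2S (split1S (split2S (split1T (split2T (split1S okA227 (split2S okA228 (split1T (split2T okA229 okA230) okA231))) okA232) okA233) (split1T (split2T (split1S okA234 (split1T (split2T okA235 (split1T okA236 (split2T okA237 (split2S okA238 okA239)))) (split2T (split1T okA240 (split2T okA241 okA242)) okA243))) (split1S okA244 (split1T (split2T (split1T (split2T (split2S okA245 okA246) okA247) (split2T (split2S okA248 okA249) okA250)) okA251) okA252))) okA253)) (split2S (split1T (split2T (split2S okA254 (split1T (split2T okA255 (split1T okA256 okA257)) (split2T (split1T okA258 (split2T okA259 (split1S okA260 okA261))) (split1T okA262 okA263)))) (split1T okA264 okA265)) (split2T (split2S okA266 (split1T (split2T (split1T (split2T (split1S okA267 okA268) (split1S okA269 okA270)) okA271) okA272) okA273)) okA274)) (split1T (split2T (split1T okA275 (split2T okA276 (split1T (split2T okA277 okA278) (split2T okA279 okA280)))) (split1T (split2T (split1T (split2T (split2S (split1T (split2T okA281 (split1S okA282 (split1T okA283 okA284)))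 (split2T okA285 (split1S okA286 (split1T okA287 okA288)))) okA289) (split1T (split2T (split1S okA290 (split1T okA291 okA292)) okA293) (split2T okA294 okA295))) (split2T (split2S (split1T (split2T okA296 okA297) okA298) okA299) (split1T okA300 okA301))) okA302) (split2T (split1T (split2T (split2S (split1S okA303 okA304) okA305) okA306) (split2T okA307 okA308)) okA309))) (split2T (split1T (split2T (split1T (split2T (split1S (split1T (split2T okA310 okA311) (split2T okA312 okA313)) okA314) (split1S (split1T okA315 okA316) okA317)) (split2T (split1T okA318 okA319) okA320)) (split1T (split2T okA321 okA322) okA323)) okA324) okA325)))) (split1S (split1T (split2T okA326 (split1S okA327 (split1T okA328 okA329))) okA330) (split1T (split2T okA331 (split1T (split2T okA332 (split1T (split2T (split1T (split2T (split1S okA333 okA334) okA335) (split2T okA336 okA337)) (split1T okA338 okA339)) (split2T (split1T okA340 okA341) okA342))) (split2T okA343 okA344))) okA345))) (split2S (split2S (split1T okA346 (split2T (split2S okA347 okA348) okA349)) (split1T okA350 (split2T (split1T (split2T okA351 okA352) (split2T (split1T (split2T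 (split1T (split2T okA353 okA354) okA355) okA356) (split2T okA357 okA358)) okA359)) okA360))) okA361))

end Vale.Agent.Lib.P154Q5
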