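import Vale.Agent.Lib.P154Q5.CkBDefs

namespace Vale.Agent.Lib.P154Q5

set_option maxRecDepth 100000
set_option exponentiation.threshold 1000

open Tr

theorem okB0 : CKB ⟨0, 4097, 0, 4096⟩ ⟨0, 4097, 0, 4096⟩ :=
  ckB_sound (b (d (b z0 (d z0 (b z0 z0))) (c (b z0 z0) (b z0 z0))) (d (a (b (d z0 z0) (d z0 z0)) (b (d z0 z0) (d z0 z0))) z0)) _ _ (by decide +kernel)

theorem okB1 : CKB ⟨0, 4097, 0, 2048⟩ ⟨4097, 8193, 0, 4096⟩ :=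
  ckB_sound (d (b z0 (d z0 (c (b z0 (d (b (d z0 z0) (d z0 z0)) z0)) (b z0 (d z0 z4))))) (b z0 (d (c z0 (b z0 (d z4 (b (d (c (b z0 (d z4 z0)) z4) (c z0 z4)) (d z4 (c z0 z4)))))) z0))) _ _ (by decide +kernel)

theorem okB2 : CKB ⟨0, 4097, 2048, 4096⟩ ⟨4097, 8193, 0, 2048⟩ :=
  ckB_sound (a (b (d z0 (c z0 (b (d z0 z4) (d z0 z4)))) (d z0 (a (c (b (d (b (d z0 z0) (d z0 z0)) z0) (d (a (b (d z0 z0) (d z0 z0)) (b (d z0 z0) (d z0 z0))) z0)) (b (d z0 z4) (d z0 (a (b (d z0 z4) (d z0 z4)) (b (d z0 z4) (d z0 z4)))))) (c (b (d (b (d z0 z0) (d z0 z0)) z0) (d (b (d z0 z0) (d z0 z0)) z0)) (b (d z0 (b z4 (d z0 z4))) (d z0 (b (d z0 z4) (d z0 z4)))))))) (b (d z0 (c (b (d (a z0 (b (d z0 z0) (d z0 z0))) z0) (d (a (b z0 (d z0 z0)) (b (d z0 z0) (d z0 z0))) z0)) (b (d z0 z4) (d z0 (a (b z4 (d z0 z4)) (b (d z0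 z4) (d z0 z4))))))) (d z0 (c (b (d (a (b (d z0 z0) (d z0 z0)) (b (d z0 z0) (d z0 z0))) z0) (d (a (b (d z0 z0) (d z0 z0)) (b (d z0 z0) (d z0 z0))) z0)) (b (d z0 (a (b (d z0 z4) (d z0 z4)) (b (d z0 z4) (d z0 z4)))) (d z0 (a (b (d z0 z4) (d z0 z4)) (b (d z0 z4) (d z0 (c z4 z0)))))))))) _ _ (by decide +kernel)

theorem okB3 : CKB ⟨0, 4097, 2048, 4096⟩ ⟨4097, 8193, 2048, 4096⟩ :=
  ckB_sound (a (b (d (c z0 (b (d z4 (b z0 (d z4 (c z0 z4)))) (d z4 (a (b (d z4 (c z0 z4)) (d z4 (c z0 z4))) (b (d z4 (c z0 z4)) (d z4 (c z0 z4))))))) z0) (d (a (c z0 (b (d z4 (b (d z4 (c z0 z4)) (d z4 (c z0 z4)))) (d z4 (a (b (d (c (b (d z4 z0) (d z4 z0)) z4) (c z0 z4)) (d (c (a (b (d z4 z0) (d z4 z0)) (b (d z4 z0) (d z4 z0))) z4) (c z0 z4))) (b (d (c (b (d z4 z0) (d z4 z0)) z4) (c z0 z4)) (d (c (b (d z4 z0) (d z4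 z0)) z4) (c z0 z4))))))) (c z0 (b (d z4 (b (d z4 (a (c z0 z4) (c z0 z4))) (d z4 (a (c z0 z4) (c z0 z4))))) (d z4 (b (d (a (c (b (d z4 z0) (d z4 z0)) z4) (c (b z4 (d z4 z0)) z4)) (a (c z0 z4) (c z0 z4))) (d (a (c (b (d z4 z0) (d z4 z0)) z4) (c (b (d z4 z0) (d z4 z0)) z4)) (a (c z0 z4) (c z0 z4)))))))) z0)) (b (d (c z0 (b (d z4 (a (b (d z4 (c z0 z4)) (d z4 (c z0 z4))) (b (d z4 (c z0 z4)) (d z4 (c z0 z4))))) (d z4 (a (b (d z4 (c z0 z4)) (d z4 (c z0 z4))) (b (d z4 (c z0 z4)) (d z4 (c z0 z4))))))) z0) (d (c z0 (b (d z4 (a (b (d z4 (c z0 z4)) (d z4 (c z0 z4))) (b (d z4 (c z0 z4)) (d z4 (c z0 z4))))) (d z4 (a (b (d (c (a (b z4 (d z4 z0)) (b z4 (d z4 z0))) z4) (c z0 z4)) (d (c (a (b (d z4 z0) (d z4 z0)) (b (d z4 z0) (d z4 z0))) z4) (c z0 z4))) (b (d (c (a (b z4 (d z4 z0)) (b (d z4 z0) (d z4 z0)))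 z4) (c z0 z4)) (d (c (a (b (d z4 z0) (d z4 z0)) (b (d z4 z0) (d z4 z0))) z4) (c z0 z4))))))) z0))) _ _ (by decide +kernel)

theorem okB4 : CKB ⟨4097, 8193, 0, 4096⟩ ⟨0, 4097, 0, 4096⟩ :=
  ckB_sound (b (d (b z0 (d z0 (a (b (d z0 (b z0 z0)) z0) (b z0 z1)))) (c (b z0 (d (a z0 (b z0 z1)) (c (a (b (d (b z0 z0) (c (b z0 z0) (b z0 z0))) z0) (b z0 (d z1 (c (b z0 z1) (b z0 z1))))) (a (b (d (b z0 z0) (b z0 z0)) z0) (b z0 (d (b z0 z1) (b z0 z1))))))) (b z0 (d (a (b (d (c z0 (b z0 z0)) (c (b z0 z0) (b z0 z0))) z0) (b z0 (d z1 (c (b z0 z1) (b z0 z1))))) (a (b (d (c (b z0 z0) (b z0 z0)) (c (b z0 z0) (b z0 z0))) z0) (b z0 (d (c (b z0 z1) (b z0 z1)) (c (b z0 z1) (b z0 (d z1 (a z1 z0))))))))))) (d (b (d z0 (a z0 (b (d z0 z1) (d z0 (b (d (a (b z1 z0) z1) z1) (d (a z0 z1) (a z0 z1))))))) (d z0 z0)) (c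 (b (d (a z0 (b z1 (d (b z1 (d z0 (a z0 z1))) (c (b z1 (d (a z0 z1) (a z0 z1))) (b z1 (d (a z0 z1) (a z0 z1))))))) (c (a z0 (b z1 (d (b z1 (d (a z0 z1) (a z0 z1))) (c (b (d (a (b z1 z0) z1) (a (c (b z1 z0) (b z1 z0)) z1)) (d (a z0 z1) (a z0 z1))) (b (d (a (b z1 z0) z1) (a (b z1 z0) z1)) (d (a z0 z1) (a z0 z1))))))) (a z0 (b z1 (d (b z1 (d (c (a z0 z1) (a z0 z1)) (c (a z0 z1) (a z0 z1)))) (b (d (c (a (b z1 z0) z1) (a (b z1 z0) z1)) (c (a (b z1 z0) z1) (a (b z1 z0) z1))) (d (c (a z0 z1) (a z0 z1)) (c (a z0 z1) (a z0 z1))))))))) z0) (b (d (a z0 (b z1 (d (c (b z1 (d (a z0 z1) (a z0 z1))) (b z1 (d (a z0 z1) (a z0 z1)))) (c (b z1 (d (a z0 z1) (a z0 z1))) (b z1 (d (a z0 z1) (a z0 z1))))))) (a z0 (b z1 (d (c (b z1 (d (a z0 z1) (a z0 z1))) (b z1 (d (a z0 z1) (a z0 z1)))) (c (b (d (a (c (b z1 z0)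 (b z1 z0)) z1) (a (c (b z1 z0) (b z1 z0)) z1)) (d (a z0 z1) (a z0 z1))) (b (d (a (c (b z1 z0) (b z1 z0)) z1) (a (c (b z1 z0) (b z1 z0)) z1)) (d (a z0 z1) (a z0 z1)))))))) z0)))) _ _ (by decide +kernel)

theorem okB5 : CKB ⟨4097, 8193, 0, 1024⟩ ⟨4097, 8193, 0, 2048⟩ :=
  ckB_sound z0 _ _ (by decide +kernel)

theorem okB6 : CKB ⟨4097, 8193, 1024, 2048⟩ ⟨4097, 8193, 0, 1024⟩ :=
  ckB_sound z0 _ _ (by decide +kernel)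

theorem okB7 : CKB ⟨4097, 6145, 1024, 1536⟩ ⟨4097, 6145, 1024, 1536⟩ :=
  ckB_sound (b z0 (d z0 (a (c (b (d (b z0 (d z0 z0)) (c z0 (b z0 z0))) (d (a z0 (b (d z0 z0) (d z0 z0))) z0)) (b (d (c (b z0 (d z0 (c (b (d (c (b z0 z4) z0) z4) (d (a z4 (c z4 z0)) z4)) z0))) z0) (c (b z0 (d (c (b (d (c (b z0 z4) z4) (c z0 z4)) (d z4 (a z4 (c z0 z4)))) z0) (c z0 z4))) z0)) (d (a (c (b (d z0 z4) z4) z0) (c (b (d z0 (a z4 (c z4 z0))) (d z0 (a z4 (c z4 z0)))) z0)) (a z4 (c (b (d z4 (a z4 (c z0 z4))) (d z4 (a z4 (c z0 z4)))) z0))))) (c (b (d (a (b z0 (d z0 (a (b (d (a (b z0 z1) z0) (c z1 (a z1 z0))) z1) z0))) z0) (c (a (b z0 z1) z0) (a (b z0 (d (c z1 (a z1 z0)) (c z1 (a z1 z0)))) z0))) (d (a (b (d z0 (a (b (d (a (b z1 (d z0 z1)) z1) z1) (d (a z0 z1) (c z1 (a z0 z1)))) z0)) (d z0 (a z0 z1))) z0) (c z1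 (a (b z1 (d (c z1 (a z0 z1)) (c z1 (a z0 z1)))) z0)))) (b (d (a (c (b z0 (d z0 (a (c (b (d (a (c (b z0 (d z0 z5)) z0) z0) (a (c (b z0 z5) z0) z0)) (d (a (c (b z5 (d z0 z5)) z0) z0) (a z5 z0))) z0) z0))) z0) z0) (a (c (b z0 (d (a (c (b (d (a (c (b z0 (d z5 (a (c z1 z5) z0))) z5) z0) (a (c z1 z5) z0)) (d (a (c (b z5 (d z5 (a (c z1 z5) z5))) z5) z0) (a (c z1 z5) z0))) z0) z0) (a (c (b (d (a (c z1 z5) z0) (a (c z1 (b z0 z5)) z0)) z1) z5) z0))) z0) z0)) (d (a (c (b (d z0 (a (c (b (d (a (c (b (d z0 z5) (d z0 (a z4 z5))) z0) (c z5 z0)) (a (c (b z5 (d z5 (a z4 z5))) z0) z5)) (d (a (c z4 z0) z5) (a z4 z5))) z0) z0)) (d z0 (a (c (b (d (a (c z4 z0) (c z5 z0)) (a z4 z5)) (d (a z4 (c (b z5 (d z0 z5)) z0)) z4)) z0) (c z5 z0)))) z0) z0) (a (c (b (d (a (c (b (d (a (c (b (d (a z4 z5) (a z4 z5)) (d (a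 z4 z5) (a z4 z5))) z5) z5) (a (c z1 z5) z5)) (d (a z4 z5) (a (c z0 z4) z5))) z0) z0) (a (c (b (d (a (c z1 z5) (c z1 z5)) z1) (d (a (c z0 z4) (c z1 z5)) (a z0 z1))) z5) z0)) (d (a (c (b (d (a z4 z5) (a (c z0 z4) (c z1 z5))) (d z4 (a z4 (c z1 z5)))) z0) z5) (a (c (b (d (a (c z0 z4) (c z1 z5)) (a z0 z1)) z0) z4) z5))) z0) z0))))))) _ _ (by decide +kernel)

theorem okB8 : CKB ⟨4097, 6145, 1024, 1536⟩ ⟨4097, 5121, 1536, 2048⟩ :=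
  ckB_sound (b z0 (d (a z0 (c z1 (b (d (a z1 z0) z1) z1))) (a z0 z1))) _ _ (by decide +kernel)

theorem okB9 : CKB ⟨4097, 6145, 1024, 1536⟩ ⟨5121, 6145, 1536, 2048⟩ :=
  ckB_sound (b z0 (d (a (b (d (c (b z0 z0) (b z0 (d z4 (c (b (d z4 (c (b z0 z4) z4)) z4) z0)))) (c z0 (b z0 (d (c (b (d (c z0 z4) (c z0 z4)) (d (c z0 z4) (c z0 z4))) z4) (c z0 z4))))) (d (c z0 z4) (c z0 (a z4 (b (d (c (a z4 (b (d z4 (c z0 z4)) (d z4 (c z0 z4)))) z4) (c z0 z4)) (d z4 (c z0 z4))))))) (b (d (c (a (b z0 (d (c z1 (a (b (d (c z1 (a z1 z0)) z1) z1) z0)) (c z1 (a z1 z0)))) z0) (a (b z0 (d (c (a z5 z0) z0) (c (a (b (d (c (a z5 z0) z5) (c (a (b z0 (d z5 (c z1 z5))) z0) z5)) (d z5 (c (a z5 z0) z5))) z0) z0))) z0)) (c (a (b z0 (d (c z1 (a z1 z0)) z1)) z0) (a (b z0 (d (c (a (b (d (c (a z1 z0) z5) (c z1 z5)) (d (c z1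 z5) (c z1 z5))) z0) z5) (c (a (b (d (c z1 z5) (c z1 z5)) z1) z0) z5))) z0))) (d (c (a (b (d (c z1 (a (b z1 (d (c z1 (a z0 z1)) z1)) z0)) z1) (d (c z1 (a z0 z1)) (c z1 (a z0 z1)))) z0) (a (b (d z5 (c (a (b (d z5 (c (a (b (d z5 (c z1 z5)) (d (c z1 z5) (c z1 z5))) z5) z5)) (d (c (a z4 z5) z5) (c (a z4 z5) z5))) z0) z0)) (d (c (a z4 z5) z0) (c (a (b (d (c (a z4 z5) z5) (c (a z4 z5) z5)) z4) z5) z0))) z0)) (c (a (b z1 (d (c z1 (a z0 z1)) z1)) z0) (a (b (d (c (a (b (d (c z1 z5) (c z1 z5)) (d (c (a z0 z1) z5) (c z1 z5))) z0) z5) (c (a (b (d (c z1 z5) z1) (d (c z1 z5) (c z1 (a z4 z5)))) z0) z5)) (d (c (a (b (d (c (a z0 z1) z5) (c (a z0 z1) z5)) (d (c z0 z4) (c z0 z4))) z5) z5) (c (a z0 z1) z5))) z0))))) (a (b (d (c z0 (b z0 (d (c z0 z4) (c z0 z4)))) (c z0 (b z0 z0))) (d (c z0 (a (b (d (c z0 z4)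 (c z0 z4)) (d z4 (c z0 z4))) (b (d (c z0 z4) (c z0 z4)) (d (c z0 z4) (c z0 z4))))) z0)) (b (d (c (a (b z0 z1) z0) (a (b z0 (d (c (a (b (d (c z1 (a (b z0 z5) z0)) z1) z1) z0) z5) (c (a z1 z0) (a z5 z0)))) z0)) (c (a z1 z0) (a (b z0 (d (c z1 (a (b (d z5 (c (a z5 z0) z5)) z5) z0)) (c z1 (a (b (d (c z1 z5) (c z1 z5)) (d (c z1 z5) (c z1 z5))) z0)))) z0))) (d (c z1 (a (b (d (c z1 z5) (c z1 z5)) (d (c (a z0 z1) z5) (c (a z0 z1) (a z4 z5)))) z0)) (c z1 (a (b (d (c z1 (a (b z5 (d z5 (c (a z4 z5) z5))) z0)) (c z1 (a (b (d (c z1 z5) (c z1 z5)) (d (c z1 z5) (c z1 z5))) z0))) (d (c z1 (a z4 z5)) (c z1 (a (b (d (c z1 z5) (c z1 z5)) (d z4 (c z0 z4))) z5)))) z0))))))) _ _ (by decide +kernel)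

theorem okB10 : CKB ⟨4097, 5121, 1536, 2048⟩ ⟨4097, 6145, 1024, 1536⟩ :=
  ckB_sound (b (d z0 (c z0 (a z4 (b (d (c z4 z0) z4) z4)))) (d z0 (c z0 z4))) _ _ (by decide +kernel)

theorem okB11 : CKB ⟨5121, 6145, 1536, 1792⟩ ⟨4097, 6145, 1024, 1536⟩ :=
  ckB_sound (d z0 (c (b (d (a (b (d z0 z0) (d z0 z0)) (b (d z0 z1) (d z0 (a (b z1 (d (a (b z1 (d z0 z1)) z1) z1)) z0)))) (a z0 z1)) (d (a z0 (b (d z0 (a (b (d (a z0 z1) (a z0 z1)) (d (a z0 z1) (a z0 z1))) z1)) (d z0 (a z0 z1)))) (a z0 (c z1 (b (d (a (c z1 (b z1 (d (a z0 z1) (a z0 z1)))) z1) z1) (d (a z0 z1) (a z0 z1))))))) (b (d (a (c (b (d z0 (a z4 (c (b (d (a z4 (c z4 z0)) z4) z4) z0))) (d z0 (a z4 (c z4 z0)))) z0) (c (b (d z0 (a (c z5 z0) z0)) (d z0 (a (c (b (d (a (c z5 z0) z5) z5) (d (a (c (b (d z0 z5) (d z0 (a z4 z5))) z0) z5) (a (c z5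 z0) z5))) z0) z0))) z0)) (a (c (b (d (a z4 (c (b (d z4 (a z4 (c z0 z4))) z4) z0)) (a z4 (c z0 z4))) (d z4 (a z4 (c z0 z4)))) z0) (c (b (d z5 (a (c z1 z5) z0)) (d (a (c (b (d z5 (a (c z1 z5) z5)) (d (a (c (b (d z5 (a z4 z5)) (d (a z4 z5) (a z4 z5))) z5) z5) (a (c z1 z5) z5))) z0) z0) (a (c (b z1 (d (a (c z1 z5) z5) z1)) z5) z0))) z0))) (d (a (c (b (d z0 (a z4 (c z4 z0))) (d z0 z4)) z0) (c (b (d z0 (a (c (b (d (a (c z4 z0) z5) (a z4 z5)) (d (a z4 z5) (a z4 z5))) z0) z5)) (d z0 (a (c (b (d (a z4 z5) (a z4 z5)) (d (a z4 z5) z4)) z0) z5))) z0)) (a (c (b (d z4 (a z4 (c z0 z4))) z4) z0) (c (b (d (a (c (b (d (a z4 z5) (a (c z0 z4) z5)) (d (a z4 z5) (a z4 z5))) z0) z5) (a (c (b (d (a (c z0 z4) z5) (a z0 z1)) (d (a (c z0 z4) z5) (a z0 z1))) z5) z5)) (d (a (c (b (d (a z4 z5) (a z4 z5)) (d z4 (a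 z4 (c z1 z5)))) z0) z5) (a (c z0 z4) z5))) z0)))))) _ _ (by decide +kernel)

theorem okB12 : CKB ⟨5121, 6145, 1792, 2048⟩ ⟨4097, 6145, 1024, 1536⟩ :=
  ckB_sound (d z0 (c (b (d (a z0 (b (d z0 (a z0 z1)) (d z0 (a z0 z1)))) (a z0 (c (b (d (a z0 z1) z1) (d (a z0 z1) (a z0 z1))) (b (d (a z0 z1) (a z0 z1)) (d (a z0 z1) (a z0 z1)))))) (d (a z0 (b (d z0 z0) (d z0 z0))) z0)) (b (d (a (c (b (d z0 z4) (d z0 z4)) z0) (c (b (d z0 (a (c (b (d (a z4 (c (b z5 (d z0 z5)) z0)) z4) z4) z0) z5)) (d z0 (a (c z4 z0) (c z5 z0)))) z0)) (a z4 (c (b (d (a z4 z5) (a (c z0 z4) z5)) (d (a z4 z5) (a (c z0 z4) (c z1 z5)))) z0))) (d (a (c z4 z0) (c (b (d z0 (a z4 (c (b z5 (d (a (c z5 z0) z5) z5)) z0))) (d z0 (a z4 (c (b (d (a z4 z5) (a z4 z5)) (d (a z4 z5) (a z4 z5))) z0)))) z0)) (a z4 (c (b (d (a z4 (c (b z5 (d z5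 (a (c z1 z5) z5))) z0)) (a z4 (c z1 z5))) (d (a z4 (c (b (d (a z4 z5) (a z4 z5)) (d (a z4 z5) (a z4 z5))) z0)) (a z4 (c (b (d (a z4 z5) z1) (d (a z4 z5) (a z0 z1))) z5)))) z0)))))) _ _ (by decide +kernel)

theorem okB13 : CKB ⟨4097, 5121, 1536, 2048⟩ ⟨4097, 6145, 1536, 2048⟩ :=
  ckB_sound z0 _ _ (by decide +kernel)

theorem okB14 : CKB ⟨5121, 6145, 1536, 2048⟩ ⟨4097, 5121, 1536, 2048⟩ :=
  ckB_sound z0 _ _ (by decide +kernel)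

end Vale.Agent.Lib.P154Q5
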