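import Vale.Agent.Lib.P154Q5.CkBDefs

namespace Vale.Agent.Lib.P154Q5

set_option maxRecDepth 100000
set_option exponentiation.threshold 1000

open Tr

theorem okB15 : CKB ⟨5121, 6145, 1536, 1792⟩ ⟨5121, 6145, 1536, 2048⟩ :=
  ckB_sound (d (b (d (a (c z0 z4) (c z1 (b z5 (d z5 (a (c (b z5 (d z5 (a (c (b (d z5 (a z4 z5)) (d (a z4 z5) (a z4 z5))) z5) z5))) z0) z0))))) (a (c z0 (b (d (a z4 (c (b (d (a z4 (c z0 z4)) (a z4 (c z0 z4))) (d z4 (a z4 (c z0 z4)))) z4)) (a z4 (c z0 z4))) (d (a z4 (c (b (d z4 (a z4 (c z0 z4))) z4) z4)) (a z4 (c z0 z4))))) (c z1 (b (d (a (c (b z5 (d z5 (a (c z1 z5) z5))) z5) z0) (a (c z1 z5) z0)) (d (a (c (b (d (a (c z1 z5) z5) (a (c z1 z5) z5)) (d (a (c z1 z5) z5) (a (c z1 z5) z5))) z5) z0) (a (c (b z1 (d (a (c z1 z5) z5) z1)) z5) z0)))))) (d (a (c z0 z4) (c (b (d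 (c z1 (a (b (d (c z1 (a z0 z1)) z1) (d (c z1 (a z0 z1)) (c z1 (a z0 z1)))) z1)) (c z1 (a (b z1 (d (c z1 (a z0 z1)) z1)) z1))) (d (c z1 (a z0 z1)) (c z1 (a z0 z1)))) (b (d (a (c (b z5 (d z5 (a z4 z5))) z0) z5) (a (c (b (d (a z4 z5) (a z4 z5)) (d (a z4 z5) (a z4 z5))) z0) z5)) (d (a z4 z5) (a (c (b (d (a z4 z5) (a z4 z5)) z4) z0) z5))))) (a (c z0 (b (d z4 (a z4 (c z0 z4))) (d z4 (a z4 (c z0 z4))))) (c (b z1 (d (c z1 (a z0 z1)) (c z1 (a z0 z1)))) (b (d (a (c (b (d (a (c z0 z4) z5) (a (c z0 z4) z5)) (d (a z4 z5) (a (c z0 z4) z5))) z5) z5) (a (c (b (d (a (c z0 z4) z5) (a z0 z1)) (d (a (c z0 z4) z5) (a z0 z1))) z5) z5)) (d (a (c (b (d (a z4 z5) (a (c z0 z4) (c z1 z5))) (d (a z4 (c z1 z5)) (a z4 (c z1 z5)))) z4) z5) (a (c z0 z4) z5))))))) (b (d (a (c z0 (b (d (a (c z0 z4) (c z0 z4)) (a (c z0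 z4) (c z0 z4))) (d (a (c z0 z4) (c z0 z4)) (a (c z0 z4) (c z0 z4))))) (c z1 (b (d (a (c z1 z5) z0) (a (c z1 z5) z0)) (d (a (c z1 z5) z0) (a (c z1 z5) z0))))) (a z0 (c z1 (b z1 (d (a (c z1 z5) z0) z1))))) (d (a z0 (c z1 (b (d (a (c (b (d (a z0 z1) z1) (d (a z0 z1) (a z0 z1))) z5) z5) (a (c (b z1 (d (a z0 z1) z1)) z5) z5)) (d (a (c z0 z4) z5) (a (c z0 z4) z5))))) (a z0 (c z1 (b (d (a (c z1 (b (d z5 (a z4 z5)) (d (a z4 z5) (a z4 z5)))) z1) (a (c z1 (b (d (a z4 z5) (a (c z0 z4) z5)) (d (a z4 z5) (a (c z0 z4) z5)))) z1)) (d (a (c z0 z4) z1) (a z0 z1)))))))) _ _ (by decide +kernel)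

theorem okB16 : CKB ⟨5121, 6145, 1792, 2048⟩ ⟨5121, 6145, 1536, 2048⟩ :=
  ckB_sound (d (b (d (a (c z0 z4) (c (b (d (c (a z0 z1) (a z0 z1)) (c (a z0 z1) (a z0 z1))) (d (c (a z0 z1) (a z0 z1)) (c (a z0 z1) (a z0 z1)))) (b (d (a z4 z5) (a z4 z5)) (d (a z4 z5) (a z4 z5))))) (a (c z0 z4) (c (b (d (c (a z0 z1) (a z0 z1)) (c z1 (a z0 z1))) (d (c (a z0 z1) (a z0 z1)) (c (a z0 z1) (a z0 z1)))) (b (d (a (c (b (d (a z4 (c z1 z5)) (a z4 (c z1 z5))) (d z4 (a z4 (c z0 z4)))) z4) z5) (a (c z0 z4) z5)) (d (a (c (b (d z4 (a z4 (c z0 z4))) z4) z4) z5) (a (c z0 z4) (c z1 z5))))))) (d (a (c z0 z4) (c z0 (b (d z4 (a z4 z5)) z4))) (a z0 (c z0 (b (d (a z4 (c (b (d z5 (c z1 z5)) (d (c z1 z5) (c z1 z5))) z5)) (a (c z0 z4) (c z1 z5))) (d (a z4 (c (b (d (c z1 z5) (c z1 z5)) (d (c (a z0 z1) z5) (c (a z0 z1) z5)))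 z5)) (a (c z0 z4) (c (b (d (c z1 z5) z1) (d (c z1 z5) (c z1 (a z4 z5)))) z5)))))))) (b (d (a z0 (c (b (d (c z1 (a z0 z1)) (c z1 (a z0 z1))) (d (c (a z0 z1) (a z0 z1)) (c (a z0 z1) (a z0 z1)))) (b (d (a (c z0 z4) (c z1 z5)) (a (c z0 z4) (c z1 z5))) (d (a (c z0 z4) (c z1 z5)) (a (c z0 z4) (c z1 z5)))))) (a z0 (c (b (d (c z1 (a z0 z1)) z1) (d (c z1 (a z0 z1)) (c z1 (a z0 z1)))) (b (d (a z0 z1) (a z0 z1)) (d (a z0 z1) (a z0 z1)))))) (d (a z0 (c z0 (b (d (a (c z0 z4) (c z1 z5)) (a (c z0 z4) (c z1 z5))) (d (a (c z0 z4) (c (b z1 (d (c z1 (a z4 z5)) (c z1 (a z0 z1)))) z5)) (a (c z0 z4) (c z1 z5)))))) (a z0 (c z0 (b (d (a z0 (c z1 z5)) (a z0 z1)) (d (a z0 (c z1 (b (d z5 (a z4 z5)) (d (a z4 z5) (a z4 z5))))) z0))))))) _ _ (by decide +kernel)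

theorem okB17 : CKB ⟨4097, 6145, 1024, 2048⟩ ⟨6145, 8193, 1024, 2048⟩ :=
  ckB_sound (b (d z0 (b z0 (d z0 (c (a z4 (b (d z5 (c (a z5 z0) z0)) z5)) z0)))) (d z0 (a z4 (b (d z0 z4) (d z0 z4))))) _ _ (by decide +kernel)

theorem okB18 : CKB ⟨6145, 8193, 1024, 2048⟩ ⟨4097, 8193, 1024, 2048⟩ :=
  ckB_sound (c (b z0 (d (b z0 (d z0 (a (c z1 (b z5 (d (a (c z5 z0) z0) z5))) z0))) (c z1 (b z0 z1)))) (b z0 (d z0 (b z0 (d z0 (a (c z5 z0) z0)))))) _ _ (by decide +kernel)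

theorem okB19 : CKB ⟨4097, 8193, 0, 1024⟩ ⟨4097, 8193, 2048, 4096⟩ :=
  ckB_sound z0 _ _ (by decide +kernel)

theorem okB20 : CKB ⟨4097, 6145, 1024, 2048⟩ ⟨4097, 6145, 2048, 3072⟩ :=
  ckB_sound (b (d (c (b z0 z0) (b z0 (d (a (b (d (c z0 (b z0 z0)) z0) z0) (b (d (c (a z1 z0) (a (b z0 (d (c z1 (a z1 z0)) (c z1 (a z1 z0)))) z0)) (c (a z1 z0) (a (b z0 z1) z0))) (d (c z1 (a (b z1 (d (c z1 (a z0 z1)) (c z1 (a z0 z1)))) z0)) (c z1 (a z1 z0))))) (a z0 (b (d (c z1 (a (b z0 z1) z0)) (c z1 (a z1 z0))) z1))))) (c (b z0 z0) (b z0 (d (a z0 (b (d (c z1 (a z1 z0)) (c z1 (a z1 z0))) z1)) (a z0 z1))))) (d (a z0 (c z0 (b (d (b (d (a z0 z1) (a z0 z1)) (d (a z0 (c z1 (b (d (a (c z1 (b z1 (d (a z0 z1) (a z0 z1)))) z1) z1) (d (a z0 z1) (a z0 z1))))) (a z0 (c z1 (b z1 (d (a z0 z1) z1)))))) (b (d (a z0 z1)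 (a z0 z1)) (d (a z0 z1) z0))) (d (b (d (a z0 (c (b z1 (d (c z1 (a z0 z1)) (c z1 (a z0 z1)))) (b (d (a z0 z1) (a z0 z1)) (d (a z0 z1) (a z0 z1))))) (a z0 (c z1 (b (d (a z0 z1) (a z0 z1)) (d (a z0 z1) (a z0 z1)))))) z0) z0)))) z0)) _ _ (by decide +kernel)

theorem okB21 : CKB ⟨4097, 6145, 1024, 1536⟩ ⟨6145, 8193, 2048, 3072⟩ :=
  ckB_sound (d (b z0 (d (c (a (b (d z4 (c (b z0 z4) z4)) z4) (b (d (c (a (b z0 z5) z0) z5) (c (a (b z0 (d z5 (c (a (b (d z5 (c z1 z5)) z5) z0) z5))) z0) z5)) (d z5 (c (a (b (d z5 (c (a (b z5 (d z5 (c z1 z5))) z0) z5)) (d (c (a z4 z5) z5) (c (a z4 z5) z5))) z0) z5)))) z0) (c (a (b (d (c (b z0 (d (c (b (d z4 (c z0 z4)) z4) z4) (c z0 z4))) z4) (c (b z0 z0) z4)) (d (c (a z4 (b (d z4 (c z0 z4)) (d z4 (c z0 z4)))) z4) (c z0 z4))) (b (d (c (a (b z0 (d (c (a (b (d (c z1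 z5) (c z1 z5)) (d z5 (c z1 z5))) z0) z5) (c z1 z5))) z0) z5) (c (a (b z0 (d (c z1 z5) (c z1 (a z5 z0)))) z0) z5)) (d (c (a (b (d (c (a (b (d (c z1 z5) (c z1 z5)) (d (c z1 z5) (c z1 z5))) z0) z5) (c z1 z5)) (d (c (a (b (d (c z1 z5) (c z1 z5)) (d z4 (c z0 z4))) z5) z5) (c z1 z5))) z0) z5) (c (a (b z1 (d (c z1 z5) (c z1 (a z4 z5)))) z0) z5)))) z4))) (b z0 (d (c (a (b (d (c z0 z4) (c z0 z4)) (d (c z0 z4) z0)) (b (d (c (a (b z0 z1) z0) (a z5 z0)) (c (a (b z0 z1) z0) (a (b z0 z5) z0))) (d (c (a z1 z0) z5) (c z1 z5)))) z4) (c (a z0 (b (d (c (a z1 z0) (a (b z0 (d (c (a z5 z0) z5) (c z1 z5))) z0)) (c (a z1 z0) (a (b z0 z1) z0))) (d (c z1 (a (b (d z5 (c z1 z5)) (d (c (a z4 z5) z5) (c z1 z5))) z0)) (c z1 (a z1 z0))))) z4)))) _ _ (by decide +kernel)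

theorem okB22 : CKB ⟨4097, 6145, 1536, 2048⟩ ⟨6145, 8193, 2048, 2560⟩ :=
  ckB_sound (a z4 (b (d (c (b (d (a z4 z5) (a z4 z5)) (d (a z4 z5) (a z4 (c (b (d z5 (a (c (b (d z5 (a z4 z5)) (d (a z4 z5) (a z4 z5))) z5) z5)) (d (a z4 z5) (a z4 z5))) z5)))) z0) (c (b (d (a (c (b (d (a z4 (c (b (d z4 (a z4 (c z0 z4))) z4) z4)) (a z4 (c z0 z4))) (d z4 (a z4 (c z0 z4)))) z4) (c (b (d z5 (a (c z1 z5) z0)) (d (a (c (b (d z5 (a (c z1 z5) z5)) (d (a (c z1 z5) z5) (a (c z1 z5) z5))) z5) z0) (a (c z1 z5) z0))) z5)) (a (c z0 z4) (c z1 z5))) (d (a (c (b (d z4 (a z4 (c z0 z4))) z4) z4) (c (b (d (a (c (b (d (a z4 z5) (a (c z0 z4) z5)) (d (a z4 z5) (a (c z0 z4) z5))) z5) z5) (a (c z1 z5) z5)) (d (a (c (b (d (a z4 z5) (a z4 z5)) (d (a z4 z5) (a z4 (c z1 z5)))) z4) z5) (a (c z0 z4) z5))) z5)) (a (c z0 z4)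 (c (b (d (a (c z1 z5) z5) (a (c z1 (b z5 (d z5 (a z4 z5)))) z1)) (d (a (c z0 z4) z5) (a z0 z1))) z5)))) z4)) (d (c (b (d z4 (a z4 (c (b (d (a z4 z5) (a z4 z5)) (d (a z4 z5) (a z4 z5))) z5))) (d z4 (a z4 (c (b (d z4 (a z4 z5)) z4) z4)))) z0) (c (b (d (a z4 (c (b (d (a (c (b (d z4 (a z4 (c z1 z5))) (d z4 (a z4 (c z0 z4)))) z4) z5) (a (c z0 z4) z5)) (d (a z4 z5) (a (c z0 z4) (c z1 z5)))) z5)) (a (c z0 z4) (c (b (d (a (c z0 z4) (c z1 z5)) (a z0 z1)) (d (a (c z0 z4) (c z1 z5)) (a z0 z1))) z5))) (d (a z4 (c (b (d (a z4 (c (b (d z5 (a (c z1 z5) z5)) (d (a (c z1 z5) z5) (a (c z1 z5) z5))) z5)) (a (c z0 z4) (c z1 z5))) (d (a z4 (c (b (d (a z4 z5) (a z4 z5)) (d (a z4 z5) (a z4 z5))) z5)) (a (c z0 z4) (c z1 z5)))) z4)) (a (c z0 z4) (c (b (d (a (c z0 z4) (c z1 z5)) (a z0 z1)) (d (a (c z0 z4) (c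 z1 z5)) z0)) z4)))) z4)))) _ _ (by decide +kernel)

theorem okB23 : CKB ⟨4097, 6145, 1536, 2048⟩ ⟨6145, 8193, 2560, 3072⟩ :=
  ckB_sound (a (b (d (c (a (b (d (c z0 z4) z0) (d z4 z0)) (b (d (c z0 z4) z0) (d (c z0 z4) z0))) z4) (c z0 z4)) (d (c (a (b (d z4 z0) (d z4 z0)) (b (d (c z0 z4) z0) (d (c z0 z4) z0))) z4) (c z0 z4))) (b (d (c (b (d (a (c z0 z4) (c z1 z5)) (a z0 (c z1 z5))) (d (a (c z0 z4) (c (b z1 (d (a z0 z1) (a z0 z1))) z5)) (a z0 (c z1 (b z5 (d z5 (a z4 z5))))))) z4) (c (b (d (a z0 z1) (a z0 z1)) (d (a z0 (c z1 (b (d (a (c (b (d z5 (a z4 z5)) (d (a z4 z5) (a z4 z5))) z5) z5) (a (c z1 z5) z5)) (d (a z4 z5) (a (c z0 z4) z5))))) (a z0 (c z1 (b z1 (d (a (c z0 z4) z5) z1)))))) z4)) (d (c (b (d (a (c z0 z4) (c (b (d (a z0 z1) (a z0 z1)) (d (a z0 z1) (a z0 z1))) z5)) (a z0 (c (b (d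 (a z0 z1) (a z0 z1)) (d (a z0 z1) (a z0 z1))) (b (d z5 (a z4 z5)) (d (a z4 z5) (a z4 z5)))))) (d (a (c z0 z4) (c z0 z4)) (a z0 (c z0 z4)))) z4) (c (b (d (a z0 (c (b z1 (d (a z0 z1) (a z0 z1))) (b (d (a z4 z5) (a (c z0 z4) z5)) (d (a z4 z5) (a z4 z5))))) (a z0 (c (b z1 (d (a z0 z1) z1)) (b (d (a (c z0 z4) z5) (a z0 z1)) (d (a (c z0 z4) (c z1 z5)) (a z0 z1)))))) (d (a z0 (c z0 (b (d (a z4 z5) (a z4 (c z1 z5))) (d (a z4 (c (b (d z5 (a z4 z5)) (d (a z4 z5) (a z4 z5))) z5)) (a z4 (c z1 z5)))))) z0)) z4)))) _ _ (by decide +kernel)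

theorem okB24 : CKB ⟨6145, 8193, 1024, 2048⟩ ⟨4097, 8193, 2048, 3072⟩ :=
  ckB_sound (c (b z0 (d (c (b z0 z1) (b z0 z1)) (c (b z0 z1) (b z0 z1)))) (b z0 (d (b z0 (d (a z5 z0) (a z5 z0))) (b z0 (d (a (c (b z5 (d (a (c z1 z5) z0) z1)) z5) z0) (a (c z1 z5) z0)))))) _ _ (by decide +kernel)

theorem okB25 : CKB ⟨4097, 8193, 1024, 2048⟩ ⟨4097, 8193, 3072, 4096⟩ :=
  ckB_sound (a (c (b (d (c (b z0 z0) (b z0 z0)) (c (b z0 z0) (b z0 z0))) z0) (b (d (b z0 (d (c (a z0 (b (d (c (a z1 z0) (a z1 z0)) (c z1 (a z1 z0))) z1)) (a z4 (b (d (c (a z5 z0) z5) (c (a (b z0 z5) z0) z5)) z5))) (c (a z0 (b (d (c z1 (a z1 z0)) z1) z1)) (a (b (d (c (b z0 z4) z4) (c z0 z4)) (d z4 (c z0 z4))) (b (d (c (a (b z0 (d (c (a z5 z0) z5) (c z1 z5))) z0) z5) (c (a z1 z0) z5)) (d (c (a (b (d z5 (c z1 z5)) (d (c (a z4 z5) z5)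 (c z1 z5))) z0) z5) (c z1 z5))))))) (b z0 (d (c (a z0 z1) (a z0 (b (d (c (a z1 z0) (a z5 z0)) (c z1 (a (b z0 z5) z0))) z1))) (c z0 (a z0 (b (d (c z1 (a z1 z0)) z1) z1)))))) (d (a z0 (b (d (c (b (d (a z0 z1) (a z0 z1)) (d (a z0 z1) z0)) (b (d z4 (a z4 z5)) (d z4 (a z4 (c (b z5 (d z5 (a z4 z5))) z5))))) (c z0 (b (d (a z4 (c (b z5 (d z5 (a (c z1 z5) z0))) z5)) (a (c z0 z4) (c z1 z5))) (d (a z4 (c (b (d (a (c (b (d z5 z1) (d z5 z1)) z5) z5) (a (c z1 z5) z5)) (d (a z4 z5) (a (c z0 z4) z5))) z5)) (a (c z0 z4) (c z1 z5)))))) (d (c z0 (b (d z4 (a z4 (c (b (d z5 (a z4 z5)) (d (a z4 z5) (a z4 z5))) z5))) z4)) (c z0 (b (d (a z4 (c (b (d (a z4 z5) (a (c z0 z4) z5)) (d (a z4 z5) (a z4 z5))) z5)) (a (c z0 z4) (c (b z1 (d (a z0 z1) (a z0 z1))) z5))) (d (a z4 (c (b (d (a z4 z5) (a z4 (c z1 z5))) (d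 (a z4 (c (b (d z5 z1) (d (a z4 z5) z1)) z5)) (a z4 (c z1 z5)))) z4)) (a (c z0 z4) (c z0 z4)))))))) (a z0 (b (d (c z0 (b (d (a (c z0 z4) (c z1 z5)) (a z0 z1)) (d (a (c z0 z4) (c z1 z5)) (a z0 z1)))) z0) (d (c z0 (b (d (a (c z0 z4) (c (b z1 (d (a z0 z1) z1)) (b z5 (d z5 (a z4 z5))))) z0) z0)) z0)))))) (c (b z0 (d (c (b z0 z1) (b z0 z1)) (c (b z0 (d z1 (a z1 z0))) (b z0 (d z1 (a z1 z0)))))) (b z0 (d (b z0 (d (a (c z1 z5) z0) (a z1 z0))) (b z0 z1))))) _ _ (by decide +kernel)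

theorem okB26 : CKB ⟨4097, 8193, 2048, 3072⟩ ⟨4097, 8193, 0, 1024⟩ :=
  ckB_sound z0 _ _ (by decide +kernel)

theorem okB27 : CKB ⟨4097, 6145, 2048, 3072⟩ ⟨4097, 8193, 1024, 2048⟩ :=
  ckB_sound (c (b (d (a (b (d z0 z0) (d z0 z0)) (b (d z0 (c (b (d (a z0 (b (d z0 z0) z0)) z0) z0) (b (d (a (c z4 z0) (c (b (d z0 (a z4 (c z4 z0))) (d z0 (a z4 (c z4 z0)))) z0)) (a z4 (c (b (d z4 (a z4 (c z0 z4))) (d z4 (a z4 (c z0 z4)))) z0))) (d (a (c z4 z0) (c (b (d z0 z4) (d z0 z4)) z0)) (a z4 (c z4 z0)))))) (d z0 (c z0 (b (d (a z4 (c (b (d z0 z4) z4) z0)) z4) (d (a z4 (c z4 z0)) z4)))))) (a z0 (c z0 (b (d (b (d (a z0 (c z0 z4)) (a z0 (c z0 (b (d (a z4 (c (b (d z4 (c z0 z4)) (d z4 (c z0 z4))) z4)) (a z4 (c z0 z4))) (d z4 (a z4 (c z0 z4))))))) (d (a z0 (c z0 z4)) (a z0 (c z0 (b (d z4 (a z4 (c z0 z4)))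 z4))))) (b (d (a z0 (c z0 (b (d (a (c z0 z4) (c z0 z4)) (a (c z0 z4) (c z0 z4))) (d (a (c z0 z4) (c z0 z4)) (a (c z0 z4) (c z0 z4)))))) z0) (d (a z0 (c z0 (b (d (a z4 (c z0 z4)) (a (c z0 z4) (c z0 z4))) (d (a z4 (c z0 z4)) (a (c z0 z4) (c z0 z4)))))) z0))) (d (b (d (a z0 (c z0 z4)) (a z0 (c z0 z4))) (d (a z0 (c z0 z4)) z0)) z0))))) (d (a (b (d z0 z0) (d z0 z0)) (b (d z0 (c z0 (b (d (a z4 (c z4 z0)) z4) (d (a z4 (c z4 z0)) z4)))) (d z0 (c z0 z4)))) z0)) (b (d z0 (a (b z4 (d z0 z4)) (b (d z0 z4) (d z0 z4)))) (d z0 (a (b (d z0 z4) (d z0 z4)) (b (d z0 z4) (d z0 z4)))))) _ _ (by decide +kernel)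

theorem okB28 : CKB ⟨6145, 8193, 2048, 2560⟩ ⟨4097, 6145, 1024, 1536⟩ :=
  ckB_sound (b (d z0 (a (c (b z1 (d (a (b z1 (d z0 z1)) z1) z1)) (b (d (a (c (b z5 (d z0 z5)) z0) z5) z5) (d (a (c (b (d z0 z5) (d z0 (a (c (b z5 (d (a z4 z5) z5)) z0) z5))) z0) z5) (a (c (b (d z5 (a (c z1 z5) z5)) (d (a (c (b z5 (d z5 (a z4 z5))) z0) z5) (a (c z1 z5) z5))) z0) z5)))) z0)) (d z0 (a (c (b (d (a (b (d z0 (a (b z1 (d (a z0 z1) z1)) z1)) (d z0 (a z0 z1))) z1) (a (c z1 (b z1 (d (a z0 z1) (a z0 z1)))) z1)) (d (a (b (d z0 (a z0 z1)) z0) z1) (a z0 z1))) (b (d (a (c (b (d z0 (a (c (b (d (a z4 z5) z5) (d (a z4 z5) (a z4 z5))) z0) z5)) (d z0 (a z4 z5))) z0) z5) (a (c (b (d (a (c (b (d (a z4 z5) (a z4 z5)) (d (a z4 z5) (a z4 z5))) z0) z5) (a (c (b (d (a z4 z5) z1) (d (a z4 z5) (a z0 z1))) z5) z5)) (d (a z4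 z5) (a z4 z5))) z0) z5)) (d (a (c (b (d z0 (a z4 z5)) (d z0 (a z4 (c z5 z0)))) z0) z5) (a (c (b (d (a z4 z5) (a z4 z5)) (d z4 (a z4 (c z1 z5)))) z0) z5)))) z1))) _ _ (by decide +kernel)

theorem okB29 : CKB ⟨6145, 8193, 2048, 2560⟩ ⟨4097, 6145, 1536, 2048⟩ :=
  ckB_sound (c z1 (b (d (a (b (d (c z1 z5) (c z1 z5)) (d (c z1 z5) (c z1 (a (b (d z5 (c z1 z5)) (d (c (a (b (d z5 (c z1 z5)) (d (c z1 z5) (c z1 z5))) z5) z5) (c z1 z5))) z5)))) z0) (a (b z1 (d (c z1 (a (b (d (c z1 z5) (c z1 z5)) (d (c z1 z5) (c z1 z5))) z5)) (c z1 (a (b z1 (d (c z1 z5) z1)) z1)))) z0)) (d (a (b (d (c (a (b (d (c z1 (a (b z1 (d (c z1 (a z0 z1)) z1)) z1)) z1) (d (c z1 (a z0 z1)) (c z1 (a z0 z1)))) z1) (a (b (d z5 (c (a (b (d z5 (c (a z4 z5) z5)) (d (c (a z4 z5) z5) (c (a z4 z5) z5))) z5) z0)) (d (c (a z4 z5) z0) (c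 (a z4 z5) z0))) z5)) (c (a (b z1 (d (c z1 (a z0 z1)) z1)) z1) (a (b (d (c (a (b (d (c z1 z5) (c z1 z5)) (d (c (a z0 z1) z5) (c (a z0 z1) z5))) z5) z5) (c (a (b (d (c z1 z5) (c z1 z5)) (d (c z1 z5) (c z1 (a z4 z5)))) z1) z5)) (d (c (a z4 z5) z5) (c (a z0 z1) z5))) z5))) (d (c (a z0 z1) (a z4 z5)) (c (a z0 z1) (a (b (d (c (a z4 z5) z5) (c (a z0 z1) z5)) (d (c (a z4 (b z5 (d z5 (c z1 z5)))) z4) (c z0 z4))) z5)))) z1) (a (b (d (c z1 (a (b (d (c (a (b z1 (d (c z1 (a z4 z5)) (c z1 (a z0 z1)))) z1) z5) (c z1 z5)) (d (c (a z0 z1) z5) (c (a z0 z1) (a z4 z5)))) z5)) (c z1 (a (b (d (c z1 (a (b (d z5 (c (a z4 z5) z5)) (d (c (a z4 z5) z5) (c (a z4 z5) z5))) z5)) (c z1 (a (b (d (c z1 z5) (c z1 z5)) (d (c z1 z5) (c z1 z5))) z5))) (d (c (a z0 z1) (a z4 z5)) (c (a z0 z1) (a z4 z5)))) z1))) (d (c (a z0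 z1) (a (b (d (c (a z0 z1) (a z4 z5)) (c (a z0 z1) (a z4 z5))) (d (c z0 z4) (c z0 z4))) z5)) (c (a z0 z1) (a (b (d (c (a z0 z1) (a z4 z5)) (c (a z0 z1) (a z4 z5))) (d (c z0 z4) z0)) z1)))) z1)))) _ _ (by decide +kernel)

end Vale.Agent.Lib.P154Q5
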