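import Vale.Agent.Lib.P154Q5.CkBDefs

namespace Vale.Agent.Lib.P154Q5

set_option maxRecDepth 100000
set_option exponentiation.threshold 1000

open Tr

theorem okB150 : CKB ⟨0, 4097, 0, 2048⟩ ⟨12288, 24576, 4096, 8192⟩ :=
  ckB_sound (d z12 (b z0 (d (c (b z0 (d z12 (c z8 z12))) z12) (c (b z0 z8) z12)))) _ _ (by decide +kernel)

theorem okB151 : CKB ⟨0, 4097, 2048, 4096⟩ ⟨12288, 24576, 4096, 6144⟩ :=
  ckB_sound z12 _ _ (by decide +kernel)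

theorem okB152 : CKB ⟨0, 2049, 2048, 3072⟩ ⟨12288, 24576, 6144, 8192⟩ :=
  ckB_sound (d (c (b (d z12 (c z8 z12)) (d z12 (c z8 z12))) z12) (c (b (d (c z8 (b z0 z12)) (c z8 (b z0 (d (c z8 z12) z8)))) (d (c z8 (a (b z12 z12) z12)) (c z8 (a (b (d (c z8 z12) z8) (d (c z8 z12) (c z8 (a (b (d z12 (c z8 z12)) (d z12 (c z8 z12))) (b (d z12 (c z8 z12)) (d z12 (c z8 z12))))))) (b (d (c z8 z12) z8) (d (c z8 z12) z8)))))) z12)) _ _ (by decide +kernel)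

theorem okB153 : CKB ⟨0, 2049, 3072, 4096⟩ ⟨12288, 24576, 6144, 7168⟩ :=
  ckB_sound (c (a (b (d z12 (c (b (d (c z8 z12) z8) (d (a (c z8 z12) (c z8 z12)) z8)) z12)) (d (c (a (b (d z12 (c (b z12 (d z12 (a (c z8 z12) z12))) z12)) (d z12 (c (a (b (d z12 (c z8 z12)) (d z12 (c z8 z12))) (b (d z12 (c z8 z12)) (d z12 (c z8 z12)))) z12))) (b z12 (d z12 (c (b (d z12 (a (c z8 z12) z12)) (d z12 (a (c z8 z12) (c z8 z12)))) z12)))) z12) (c (a (b (d (c z8 z12) (c z8 (b (d z12 z8) (d z12 z8)))) (d (c z8 z12) (c z8 (a (b (d z12 z8) (d (c z8 z12) z8)) (b (d z12 z8) (d z12 z8)))))) (b (d (c z8 z12) z8) (d (c z8 z12) (c z8 (b (d z12 z8) (d z12 z8)))))) z12))) (b (d z12 (c (b z8 (d (a (c z8 z12) (c z8 z12)) z8)) z12)) (d z12 (c (b (d (a (c z8 z12) (c z8 z12)) z8) (d (a (c z8 z12) (c z8 z12)) z8)) z12)))) z12) _ _ (by decide +kernel)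

theorem okB154 : CKB ⟨0, 2049, 3072, 4096⟩ ⟨12288, 24576, 7168, 8192⟩ :=
  ckB_sound (c (a (b (d (c z8 (b z12 (d z12 (a (c (b z12 (d z12 (a (c z8 z12) z12))) z12) z12)))) (c z8 (b (d (c z8 z12) (c z8 (a (b (d z12 (c z8 z12)) (d z12 (c z8 z12))) (b (d z12 (c z8 z12)) (d z12 (c z8 z12)))))) (d (a (c z8 z12) (c z8 z12)) (a (c z8 (b (d z12 (c z8 z12)) (d z12 (a (c z8 z12) (c z8 z12))))) (c z8 (b (d z12 (a (c z8 z12) (c z8 z12))) (d z12 (a (c z8 z12) (c z8 z12)))))))))) (d (c (a (b (d (c z8 (b z8 (d (a (c z8 z12) z8) z8))) z8) (d (c z8 (a (b (d (c z8 z12) z8) (d (c z8 z12) z8)) (b (d (c z8 z12) z8) (d (c z8 z12) z8)))) z8)) (b z8 (d (c z8 (b z8 (d (a (c z8 z12) z8) z8))) z8))) (a (b (d z12 (c (b (d z12 (a (c z8 z12) z12)) (d z12 (a (c z8 z12) (c z8 z12)))) z12)) (d z12 (c (a (b (d z12 (c z8 z12)) (d z12 (c z8 z12))) (b (d z12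 (c z8 z12)) (d z12 (c z8 z12)))) z12))) (b z12 (d z12 (c (b z12 (d z12 (a (c z8 z12) z12))) z12))))) (c z8 (a (b (d (c (b z8 (d (a (c z8 z12) z8) z8)) z12) (c z8 (b (d z12 (a (c z8 z12) (c z8 z12))) (d z12 (a (c z8 z12) (c z8 z12)))))) (d (c (a (b (d (c z8 z12) z8) (d (c z8 z12) z8)) (b (d (c z8 z12) z8) (d (c z8 z12) z8))) z12) (c z8 (a (b (d z12 (c z8 z12)) (d z12 (c z8 z12))) (b (d z12 (c z8 z12)) (d z12 (c z8 z12))))))) (b (d (c z8 z12) (c z8 (b (d z12 (a (c z8 z12) (c z8 z12))) (d z12 (a (c z8 z12) (c z8 z12)))))) (d (c (b z8 (d (a (c z8 z12) z8) z8)) z12) (c z8 (b (d z12 (a (c z8 z12) (c z8 z12))) (d z12 (a (c z8 z12) (c z8 z12))))))))))) (b (d (c z8 z12) (c z8 (b (d (a (c z8 z12) (c z8 z12)) (a (c z8 (b (d z12 (a (c z8 z12) (c z8 z12))) (d z12 (a (c z8 z12) (c z8 z12))))) z8)) (d (a (c z8 z12) (c z8 z12)) (a (c z8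 (b (d z12 (a (c z8 z12) (c z8 z12))) (d z12 (a (c z8 z12) (c z8 z12))))) z8))))) (d (c z8 z12) (c z8 (b (d (a (c z8 z12) (c z8 z12)) (a (c z8 (b (d z12 (a (c z8 z12) (c z8 z12))) (d z12 (a (c z8 z12) (c z8 z12))))) z8)) (d (a (c z8 z12) (c z8 z12)) (a (c z8 (b (d z12 (a (c z8 z12) (c z8 z12))) (d z12 (a (c z8 z12) (c z8 z12))))) (c z8 z12)))))))) z12) _ _ (by decide +kernel)

theorem okB155 : CKB ⟨2049, 4097, 2048, 4096⟩ ⟨12288, 24576, 6144, 8192⟩ :=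
  ckB_sound (b (d (c (b (d z12 (a (c z8 z12) (c z8 z12))) (d z12 (a (c z8 z12) (c z8 z12)))) z12) (c (b (d (c z8 (a (b z12 z12) z12)) z8) (d (c z8 z12) (c z8 (a (b z8 (d (a (c z8 z12) (c z8 z12)) z8)) z8)))) z12)) (d (c (b (d z12 (a (c z8 z12) (c z8 z12))) (d z12 (a (c (b z8 (d (a (c z8 z12) (c z8 z12)) z8)) z12) (c z8 z12)))) z12) (c (b (d (c z8 z12) (c z8 (a (b (d (a (c z8 z12) (c z8 z12)) z8) (d (a (c z8 z12) (c z8 z12)) z8)) z8))) (d (c z8 z12) (c z8 (a (b (d (a (c z8 z12) (c z8 z12)) z8) (d (a (c z8 z12) (c z8 z12)) z8)) (b (d (c z8 z12) z8) (d (c z8 z12) z8)))))) z12))) _ _ (by decide +kernel)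

theorem okB156 : CKB ⟨4097, 8193, 0, 2048⟩ ⟨12288, 24576, 4096, 8192⟩ :=
  ckB_sound (d (b z0 (d z12 (a z12 z13))) (b z0 (d (c (a (b (d (c (b z0 (d z12 (a z12 (c (b z13 (d z13 (c z9 z13))) z13)))) z12) (c (b z0 z8) z12)) (d (c (a z12 (b (d z12 (c (b (d z12 (a z12 (c z9 z13))) (d z12 (a z12 (c z9 z13)))) z12)) z12)) z12) (c z8 z12))) (b z0 (d z13 (c z9 z13)))) z12) (c (a (b (d (c (b z0 z8) (b z0 z12)) (c (b z0 (d (c (a z8 (b z9 (d z9 (c (a (b z9 (d z9 (c (a z8 z9) z9))) z0) z9)))) z8) (c (a (b (d (c (b z0 z8) z8) (c (b z0 z8) (b z0 z8))) z8) (b (d (c (a (b z0 z9) z0) z9) (c (a (b z0 z9) z0) z9)) (d (c (a (b z9 (d (c (a z8 z9) (a z8 z9)) (c (a z8 z9) (a z8 z9)))) z0) z9) (c (a (b (d (c (a (b z9 (d z9 (c (a z0 z1) z9))) z0) z9) (c (a (b z1 (d (c (a z0 z1) (a z0 z1)) (c (a z0 z1) (a z0 z1)))) z0) (a (b z9 (d z9 (c (a z0 z1)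 z9))) z0))) (d (c (a z8 z9) (a z8 z9)) (c (a z0 z1) (a z8 z9)))) z0) (a (b z9 (d (c (a z8 z9) z9) (c (a z8 z9) (a z8 z9)))) z0))))) z8))) (b z0 z8))) z8) (b z0 z9)) z12)))) _ _ (by decide +kernel)

theorem okB157 : CKB ⟨4097, 8193, 2048, 4096⟩ ⟨12288, 24576, 4096, 6144⟩ :=
  ckB_sound z12 _ _ (by decide +kernel)

theorem okB158 : CKB ⟨4097, 8193, 2048, 3072⟩ ⟨12288, 24576, 6144, 8192⟩ :=
  ckB_sound (d (c (a (b (d z12 (c z8 z12)) (d z12 (c z8 z12))) (b (d (c (b (d z13 (a (c (b z13 (d z13 (a (c z9 z13) z13))) z13) z0)) (d z13 (a (c (b (d (a (c (b z13 (d z13 (a z12 z13))) z13) z13) (a (c z9 z13) z13)) (d (a z12 z13) (a (c z8 z12) z13))) z13) z13))) z13) (c z9 z13)) (d (c (b (d (a (c (b (d z13 (a z12 z13)) z12) z13) z13) (a (c (b (d (a z12 z13) (a (c z8 z12) z13)) (d z12 (a (c z8 z12) (c z9 z13)))) z13) z13)) (d (a z12 z13)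 (a (c (b (d z12 (a z12 (c z9 z13))) (d z12 (a z12 (c z8 z12)))) z12) z13))) z13) (c (b (d (a (c (b (d (a z8 z9) (a z8 z9)) z8) (b (d z13 (a z12 z13)) z12)) z13) (a (c (b (d (a z8 z9) (a z8 z9)) z8) (b (d (a z12 z13) (a z8 z9)) (d z12 z8))) z9)) (d (a (c z8 z12) (c z9 z13)) (a z8 z9))) (b z13 (d z13 (a z12 z13))))))) z12) (c (a (b z8 (d (c z8 z12) z8)) (b (d z9 (c (b z9 (d (a (c (b z9 (d z9 (a z8 z9))) z9) z9) (a (c (b z9 (d (a z8 z9) (a z8 z9))) z9) z9))) z9)) (d (c (b (d (a (c (b (d (a z8 z9) (a z8 z9)) z8) (b z9 z8)) z9) (a (c (b (d (a z8 z9) (a z8 z9)) z8) (b (d (a z8 z9) (a z8 z9)) z8)) z9)) (d (a z8 z9) (a z8 z9))) (b (d z13 (a (c (b (d (a z12 z13) (a z12 z13)) z12) z13) z13)) (d (a z12 z13) (a z12 z13)))) (c (b (d (a (c (b (d (a z8 z9) (a z8 z9)) z8) (b (d (a z8 z9) (a z8 z9)) z8)) z9) (a (c (b (d (a z8 z9) (a z8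 z9)) z8) (b (d (a z8 z9) (a z8 z9)) z8)) z9)) (d (a z8 z9) (a z8 z9))) (b (d (a (c (b z9 z8) (b z13 z12)) z13) (a (c (b z9 z8) (b (d (a z12 z13) (a z12 z13)) z12)) z9)) (d (a (c z8 z12) z13) (a z8 z9))))))) z12)) _ _ (by decide +kernel)

theorem okB159 : CKB ⟨4097, 8193, 3072, 4096⟩ ⟨12288, 24576, 6144, 8192⟩ :=
  ckB_sound (d (c (a (b (d z12 (c z8 z12)) (d z12 (c z8 z12))) (b (d (c (b (d z12 (a (c (b (d z12 (a z12 (c z8 z12))) (d z12 (a z12 (c z8 z12)))) z12) (c (b z13 (d z13 (a (c z9 z13) z13))) z13))) (d z12 (a (c (b (d z12 (a z12 (c z8 z12))) (d z12 (a z12 (c z8 z12)))) z12) (c (b (d (a (c (b (d z13 (a (c z9 z13) z13)) (d (a z12 z13) (a z12 z13))) z13) z13) (a (c z9 z13) z13)) (d (a z12 z13) (a (c z8 z12) z13))) z13)))) z12) (c (b (d (a (c z8 z12) (c z9 z13)) z8) (d (a (c z8 z12) (c (b z9 (d (a z8 z9) z9)) (b z13 (d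 z13 (a z12 z13))))) z8)) z12)) (d (c (b (d z12 (a (c (b (d z12 (a z12 (c z8 z12))) z12) z12) (c (b (d (a z12 z13) (a (c z8 z12) (c z9 z13))) (d (a z12 (c (b (d z13 (a (c z9 z13) z13)) (d (a z12 z13) (a z12 z13))) z13)) (a (c z8 z12) (c z9 z13)))) z12))) (d z12 (a z12 (c (b (d z12 (a (c z8 z12) (c z8 z12))) (d z12 (a (c z8 z12) (c z8 z12)))) z12)))) z12) (c (b (d (a (c z8 z12) (c z8 z12)) z8) (d (a (c z8 z12) (c z8 z12)) z8)) z12)))) z12) (c (a (b (d (c z8 z12) z8) (d (c z8 z12) z8)) (b (d (c z8 z12) z8) (d (c z8 z12) z8))) z12)) _ _ (by decide +kernel)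

theorem okB160 : CKB ⟨0, 4097, 0, 1024⟩ ⟨12288, 24576, 8192, 10240⟩ :=
  ckB_sound z0 _ _ (by decide +kernel)

theorem okB161 : CKB ⟨0, 4097, 1024, 2048⟩ ⟨12288, 24576, 8192, 9216⟩ :=
  ckB_sound (c (b z0 (d (c (b (d z8 (b z0 (d (c (b z0 z0) z8) (b z0 (d z0 z0))))) (d z8 (a (b (d (c (b z0 z0) z8) (b z0 (d z0 z0))) (d z0 (a (b z0 z0) z0))) (b (d z0 (a (b (d z0 z0) z0) z0)) (d z0 z0))))) (b z8 z8)) (b (d (c (b z0 (d (c (b z0 (d z0 z0)) z8) (b z0 (d z0 z0)))) (b z0 z8)) (b z0 (d (b z0 (d z8 (b (d z0 z0) z0))) (b z0 (d (b (d z0 z0) (d z0 z0)) z0))))) (d z8 (a (b (d (b z0 (d z8 z0)) (b z0 (d (b z0 z0) z0))) (d (a (b (d z8 z0) (d z8 z0)) (b (d z8 z0) (d z8 z0))) (a (b (d z0 z0) (d z0 z0)) (b (d z0 z0) (d z0 z0))))) (b (d (a (b (d z8 (b z0 z0)) (d z8 z0)) (b (d z8 z0) (d z8 z0))) (a (b (d (b (d z0 z0) z0) z0) (d z0 z0)) (b (d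 z0 z0) (d z0 z0)))) (d (a (b (d z8 z0) (d z8 z0)) (b (d z8 z0) (d z8 z0))) (a (b (d z0 z0) (d z0 z0)) (b (d z0 z0) (d z0 z0)))))))))) (b z0 (d (c (b (d z12 (c z8 z12)) (d (a (c (b z12 z12) z12) z12) (a (c z8 z12) (c z8 z12)))) z12) (c (b (d z8 (c (b z0 z8) (b z0 z8))) z8) (b (d z12 (b z0 (d z12 (c z8 z12)))) (d z12 (a (b (d z12 (c z8 z12)) (d z12 (c z8 z12))) (b (d z12 (c z8 z12)) (d z12 (c z8 z12)))))))))) _ _ (by decide +kernel)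

theorem okB162 : CKB ⟨0, 4097, 1024, 1536⟩ ⟨12288, 24576, 9216, 10240⟩ :=
  ckB_sound z0 _ _ (by decide +kernel)

theorem okB163 : CKB ⟨0, 4097, 1536, 2048⟩ ⟨12288, 24576, 9216, 9728⟩ :=
  ckB_sound (b (d (c (b z0 (d z8 z8)) (b z0 z8)) (c (b z0 (d (c (b z0 (d z8 (b (d z0 z0) (d z0 z0)))) z8) (b z0 (d (b (d z8 (c (b z0 z0) z8)) (d z8 (a (c (b z0 z0) z8) z0))) (b (d (b z0 z0) z0) (d (a (b z0 z0) z0) z0)))))) (b z0 z8))) (d (c (a (b (d z8 z8) z8) (b (d z8 z8) z8)) (a (b z8 z8) z8)) (a (c (b (d z8 (b z0 (d (b (d z8 z0) (d z8 z0)) (b (d z0 z0) (d z0 z0))))) (d z8 (a (b (d (b z0 (d z8 z0)) (b z0 (d z0 z0))) (d (a (b (d z8 z0) (d z8 z0)) (b (d z8 z0) (d z8 z0))) (a (b (d z0 z0) (d z0 z0)) (b (d z0 z0) (d z0 z0))))) (b (d (a (b (d z8 z0) (d z8 z0)) (b (d z8 z0) (d z8 z0))) (a (b (d z0 z0) (d z0 z0)) (b (d z0 z0) (d z0 z0)))) (d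 (a (b (d z8 z0) (d z8 z0)) (b (d z8 z0) (d z8 z0))) (a (b (d z0 z0) (d z0 z0)) (b (d z0 z0) (d z0 z0)))))))) (b z8 z8)) (c (b (d z8 (a (b (d (b (d z8 z0) (d z8 z0)) (b (d z0 z0) (d z0 z0))) (d (a (b (d z8 z0) (d z8 z0)) (b (d z8 z0) (d z8 z0))) (a (b (d z0 z0) (d z0 z0)) (b (d z0 z0) (d z0 z0))))) (b (d (a (b (d z8 z0) (d z8 z0)) (b (d z8 z0) (d z8 z0))) (a (b (d z0 z0) (d z0 z0)) (b (d z0 z0) (d z0 z0)))) (d (a (b (d z8 z0) (d z8 z0)) (b (d z8 z0) (d z8 z0))) (a (b (d z0 z0) (d z0 z0)) (b (d z0 z0) (d z0 z0))))))) (d z8 (a (b (d (a (b (d z8 z0) (d z8 z0)) (b (d z8 z0) (d z8 z0))) (a (b (d z0 z0) (d z0 z0)) (b (d z0 z0) (d z0 z0)))) (d (a (b (d z8 z0) (d z8 z0)) (b (d z8 z0) (d z8 z0))) (a (b (d z0 z0) (d z0 z0)) (b (d z0 z0) (d z0 z0))))) (b (d (a (b (d z8 z0) (d z8 z0)) (b (d z8 z0) (d z8 z0))) (a (b (d z0 z0) (d z0 z0))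 (b (d z0 z0) (d z0 z0)))) (d (a (b (d z8 z0) (d z8 z0)) (b (d z8 z0) z0)) (a (b (d z0 z0) (d z0 z0)) (b (d z0 z0) (d z0 z0)))))))) z8)))) _ _ (by decide +kernel)

theorem okB164 : CKB ⟨0, 4097, 1536, 2048⟩ ⟨12288, 24576, 9728, 10240⟩ :=
  ckB_sound (b (d (b z0 (d (b z0 z8) (b z0 (d (b (d (b (d z0 z0) (d z0 z0)) (b (d z0 z0) (d z0 z0))) (d (a (b (d z0 z0) (d z0 z0)) z0) (a (b (d z0 z0) (d z0 z0)) z0))) z0)))) z0) (d (a (b (d (b z0 z8) (b z0 (d (b (d (b z0 z0) (b z0 z0)) (d z0 z0)) z0))) (d z8 (a (b (d (b z0 (d z0 z0)) z0) (d (a (b (d z0 z0) (d z0 z0)) (b (d z0 z0) (d z0 z0))) z0)) (b (d (a (b (d z0 z0) (d z0 z0)) (b (d z0 z0) (d z0 z0))) z0) (d (a (b (d z0 z0) (d z0 z0)) (b (d z0 z0) (d z0 z0))) z0))))) (b (d z8 (a (b (d (b (d (b z0 z0) (b (d z0 z0) z0)) (d (a (b z0 z0) z0) (a (b z0 z0) z0))) z0) (d (a (b (d z0 (a (b z0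 z0) z0)) (d z0 z0)) (b (d z0 z0) (d z0 z0))) z0)) (b (d (a (b (d z0 z0) (d z0 z0)) (b (d z0 z0) (d z0 z0))) z0) (d (a (b (d z0 z0) (d z0 z0)) (b (d z0 z0) (d z0 z0))) z0)))) (d z8 (a (b (d (a (b (d z0 z0) (d z0 z0)) (b (d z0 z0) (d z0 z0))) z0) (d (a (b (d z0 z0) (d z0 z0)) (b (d z0 z0) (d z0 z0))) z0)) (b (d (a (b (d z0 z0) (d z0 z0)) (b (d z0 z0) (d z0 z0))) z0) (d (a (b (d z0 z0) (d z0 z0)) (b (d z0 z0) (d z0 z0))) z0)))))) z0)) _ _ (by decide +kernel)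

end Vale.Agent.Lib.P154Q5
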