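import Vale.Agent.Lib.P154Q5.CkBDefs

namespace Vale.Agent.Lib.P154Q5

set_option maxRecDepth 100000
set_option exponentiation.threshold 1000

open Tr

theorem okB1500 : CKB ⟨24576, 49152, 10240, 10752⟩ ⟨24576, 49152, 11776, 12288⟩ :=
  ckB_sound (a (b (d (a (b (d z14 z14) (d (b z14 z12) (b z14 z12))) (b (d z15 z15) (d z15 z15))) (a (b (d (a (b (d z14 z14) (d z12 z12)) (b (d z14 z14) (d z14 z14))) (a (b (d z6 z2) (d (b z6 z4) (b z2 z0))) (b (d z6 z2) (d z6 z2)))) (d (b (d z14 z14) (d z12 z12)) (b (d z6 z2) (d z4 z0)))) (b (d (b (d z15 z15) (d z15 z15)) (b (d z7 z3) (d z7 z3))) (d (b (d z15 z15) (d z14 z14)) (b (d z7 z3) (d z6 z2)))))) (d (b (d (b z14 z14) (b z14 z14)) (d (b (d z12 z12) z0) (b z12 z0))) (b (d (b (d z14 z14) (d z14 z14)) (b (d z6 z2) (d z6 z2))) (d (b (d z12 z12) z0) (b (d (b z6 z4) (b z2 z0)) z0))))) (b (d (b (d z15 z15) (d z15 z15))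 (b (d (b (d z15 z15) (d z15 z15)) (b (d z7 z3) (d z7 z3))) (d (a (b (d z15 z15) (d z15 z15)) (b (d z15 z15) (d z15 z15))) (a (b (d z7 z3) (d z7 z3)) (b (d z7 z3) (d z7 z3)))))) (d (b (d z15 z15) (d z15 z15)) (b (d (a (b (d z15 z15) (d z15 z15)) (b (d z15 z15) (d z15 z15))) (a (b (d z7 z3) (d z7 z3)) (b (d z7 z3) (d z7 z3)))) (d (a (b (d z15 z15) (d z14 z14)) (b (d z15 z15) (d z15 z15))) (a (b (d z7 z3) (d z6 z2)) (b (d z7 z3) (d z7 z3)))))))) _ _ (by decide +kernel)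

theorem okB1501 : CKB ⟨24576, 49152, 10752, 11264⟩ ⟨24576, 49152, 11264, 11776⟩ :=
  ckB_sound (b (d (a (b (d (a (c (b (d (a (c (b (d z10 z2) (d z8 (b z2 z0))) z12) z14) (a (b (d z10 z2) (d z8 (b z2 z0))) (b (d z11 z3) (d z10 z2)))) (d (c (b (d z10 z2) (d z8 (b z2 z0))) z12) (b (d z10 z2) (d z8 (b z2 z0))))) (b z14 z12)) z15) (a (b (d z14 z14) (d (c (b z10 (d z12 z8)) z12) (c (b z10 (d z12 z8)) z12))) z15)) (d (c (b (d (a (c (b (d z10 z2) (d z8 (b z2 z0))) z12) z15) (a (b (d z10 z2) (d z8 (b z2 z0))) (b (d z11 z3) (d z10 z2)))) (d (c (b (d z10 z2) (d z8 (b z2 z0))) z12) (b (d z10 z2) (d z8 (b z2 z0))))) (b z14 z12)) (b (d z14 z14) (d (c (b z10 (d z12 z8)) z12) (c (b z10 (d z12 z8)) z12))))) (b z15 (d z15 z15))) (a (b (d (a (b (d z14 z14) (d (c (b z10 z8) z12) z12)) z15) (a (b (d z14 z14) (d z12 z12)) z15)) (d (b (d z14 z14) (d (c (b z10 z8) z12)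 (c (b z10 z8) z12))) (b (d z14 z14) (d z12 z12)))) (b z15 (d z15 z15)))) (d (b (d (a (c (b (d z15 (a (b (d z10 z2) (d z10 z2)) (b z3 (d z11 z3)))) (d (c (b (d z10 z2) (d z10 z2)) z14) (b (d z10 z2) (d z10 z2)))) z14) z15) (a (b (d z15 z15) (d z14 z14)) z15)) (d (a (c (b (d z15 (a (b (d z10 z2) (d z10 z2)) (b z3 (d z11 z3)))) (d z14 (b (d z10 z2) (d z10 z2)))) z14) z15) (a (b (d z15 z15) (d z14 z14)) z15))) (b (d (a (b (d z15 z15) (d z14 z14)) z15) (a (b (d z15 z15) (d z14 z14)) z15)) (d (a (b (d z15 z15) (d z14 z14)) z15) (a (b (d z15 z15) (d z14 z14)) z15))))) _ _ (by decide +kernel)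

theorem okB1502 : CKB ⟨24576, 49152, 10752, 11264⟩ ⟨24576, 49152, 11776, 12288⟩ :=
  ckB_sound (b (d (a (b (d (a (b z14 (d z12 z12)) z15) (a (b z14 (d z12 z12)) z15)) (d (b (d z14 z14) (d z12 z12)) (b z14 (d z12 z12)))) (b (d z15 z15) (d z15 z15))) (a (b (d (a (b (d z14 z14) (d z12 z12)) (b (d z15 z15) (d z15 z15))) (a (b (d (a (b z6 (d z12 z4)) z6) z2) (d (b z6 (d z12 z4)) (b z2 (d z4 z0)))) (b (d z7 z3) (d z7 z3)))) (d (b (d z14 z14) (d z12 z12)) (b (d (a (b z6 (d z12 z4)) z7) (a (b z2 (d z4 z0)) z3)) (d (b z6 (d z12 z4)) (b z2 (d z4 z0)))))) (b (d (b (d z15 z15) (d z15 z15)) (b (d z7 z3) (d z7 z3))) (d (a (b (d z15 z15) (d z15 z15)) (b (d z15 z15) (d z15 z15))) (a (b (d z7 z3) (d z7 z3)) (b (d z7 z3) (d z7 z3))))))) (d (b (d (a (b z15 (d z14 z14)) z15) (a (b z15 z14) z15)) (d (a (b z15 (d z14 z14)) z15) (a (b z15 z14) z15))) (b (d (a (b (d z15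 z15) (d z14 z14)) (b (d z15 z15) (d z15 z15))) (a (b (d z7 z3) (d (b (d z14 z6) (d z14 z6)) (b z2 (d z6 z2)))) (b (d z7 z3) (d z7 z3)))) (d (a (b (d z15 z15) (d z14 z14)) (b (d z15 z15) (d z15 z15))) (a (b (d (a (b (d z14 z6) (d z14 z6)) z7) (a (b (d z6 z2) (d z6 z2)) z3)) (d (b (d z14 z6) (d z14 z6)) (b (d z6 z2) (d z6 z2)))) (b (d z7 z3) (d z7 z3))))))) _ _ (by decide +kernel)

theorem okB1503 : CKB ⟨24576, 49152, 11264, 11776⟩ ⟨24576, 49152, 10240, 11264⟩ :=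
  ckB_sound (d (c (b (d (c (b (d (a (c (b (d z11 z3) (d (c (b z2 (d z8 z0)) (b z10 z8)) (b z2 z0))) (b z11 (d z8 (b z10 z8)))) z11) (a (b (d z11 z3) (d (b z10 z8) (b z2 z0))) z3)) (d (c (b (d z11 z3) z3) z11) (b (d z11 z3) (d z11 z3)))) (b (d z15 (a (b z15 (d (c (b z10 z8) z12) (c (b z10 z8) z12))) z15)) (d z15 (b z15 z15)))) (b (d (a (b (d z11 z11) (d (c (b z10 z8) (b z10 z8)) (c (b z2 (d z8 z0)) (b z10 z8)))) z11) (a (b (d (a (b z2 (d z8 z0)) z3) z0) (d (b z2 (d z8 z0)) z0)) z3)) (d (b (d z11 z11) (d z11 z11)) (b (d z3 z0) (d z3 z0))))) (d (c (b (d (c (b z3 z3) z11) (b z3 z3)) (d (c (b z3 z3) z11) (b z3 z3))) (b z15 z15)) (b (d (b z11 z11) (b (d z3 z0) z3)) (d (b z11 z11) (b z3 z3))))) (b (d z15 (b (d z15 (c (a (b z15 (d (c (b z10 z8) z12) (c (b z10 (d z8 z8)) (b z14 z12)))) z15) z15)) (d z15 (c (b z15 z15) z15)))) (d z15 (b (d z15 (c (b z15 z15)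 z15)) (d z15 (c (b z15 z15) z15)))))) (b (d (c (b (d (c (a (b (d (c (a (b (d z10 z2) (d z8 (b z2 z0))) z3) z11) (a (b (d z10 z2) (d z8 (b z2 z0))) z3)) (d (c (b (d z10 z2) (d z8 (b z2 z0))) (b z10 z8)) (b (d z10 z2) (d z8 (b z2 z0))))) (b z3 (d z11 z3))) z15) (a (b (d (c (a (b (d z10 z2) (d z8 (b z2 z0))) z3) z15) (a (b (d z10 z2) (d z8 (b z2 z0))) z3)) (d (c (b (d z10 z2) (d z8 (b z2 z0))) (b z14 z12)) (b (d z10 z2) (d z8 (b z2 z0))))) (b (d z11 z3) (d z11 z3)))) (d (c (b (d z11 (a (b z3 (d z10 z2)) z3)) (d z11 (a (b z3 (d z10 z2)) z3))) z15) (b (d z11 (a (b (d z11 z3) (d z10 z2)) z3)) (d z11 (a (b z3 (d z10 z2)) z3))))) (b z15 z15)) (b (d (c (a (b (d z15 (a (b z10 (d z8 z8)) z11)) (d (c (b z10 (d z8 z8)) (b z14 z12)) (b z10 (d z8 z8)))) z11) z15) (c (a (b (d z15 z11) (d (c (b z10 (d z8 z8)) (b z14 z12)) (b z10 (d z8 z8)))) z11) z15)) (d (c (b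 (d z15 z11) (d z15 z11)) z15) (c (b (d z15 z11) (d z15 z11)) z15)))) (d (c (b (d (c (b (d z11 (a (b z3 z2) z3)) (d z11 z3)) z15) (b (d z11 (a (b z3 (d z10 z2)) z3)) (d z11 (a (b z3 z2) z3)))) (d (c (b (d z11 z3) (d z11 z3)) z15) (b (d z11 z3) (d z11 z3)))) (b z15 z15)) (b (d (c (b (d z15 z11) (d z15 z11)) z15) (c (b (d z15 z11) (d z15 z11)) z15)) (d (c (b (d z15 z11) z11) z15) (c (b (d z15 z11) z11) z15)))))) _ _ (by decide +kernel)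

theorem okB1504 : CKB ⟨24576, 49152, 11776, 12288⟩ ⟨24576, 49152, 10240, 11264⟩ :=
  ckB_sound (d (c (b (d (c (b (d z11 (b z3 z3)) (d z11 (b z3 z3))) (b z15 z15)) (b (d (b z11 z11) (b z3 z3)) (d (b z11 z11) (b z3 z3)))) (d (c (b (d (c (b z3 z3) (b z11 z11)) (b z3 z3)) (d (c (b (d z9 (b z3 z1)) (d z8 (b z1 z0))) (b z9 z8)) (b (d z9 z1) (d z8 z0)))) (b (d (b z15 z15) (b z15 z15)) (d (b z13 z12) (b z13 z12)))) (b (d (b z11 z11) (b z3 z3)) (d (b (d z9 z9) (d z8 z8)) (b (d (b z3 z1) z0) (d (b z1 z0) z0)))))) (b (d (b z15 z15) (b z15 z15)) (d (b (d (b z15 z15) (c (b z15 z15) (b z15 z15))) (d (b z13 z12) (c (b z13 z12) (b z13 z12)))) (b (d (c (b z15 z15) (b z15 z15)) (c (b z15 z15) (b z15 z15))) (d (c (b z13 z12) (b z13 z12)) (c (b z13 z12) (b z13 z12))))))) (b (d (c (b (d (c (b (d z11 z3) (d z11 z3)) z15) (b (d z11 z3) (d z11 z3))) (d (c (b (d z11 z3)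 z3) z15) (b (d z11 z3) (d z11 z3)))) (b z15 z15)) (b (d (c (b z11 z11) z15) (c (b z11 z11) z15)) (d (c (b z11 z11) z15) (c (b z11 z11) z15)))) (d (c (b (d (c (b z3 z3) (b z15 z15)) (b (d z11 z3) z3)) (d (c (b (d (c (b z3 z1) z9) (b z3 z1)) (d z8 (b z1 z0))) (b z13 z12)) (b (d (c (b z3 (d z9 z1)) z13) (b z3 (d z9 z1))) (d (c (b z1 z0) z12) (b (d z9 z1) z0))))) (b (d (b z15 z15) (c (b z15 z15) (b z15 z15))) (d (b z13 z12) (c (b z13 z12) (b z13 z12))))) (b (d (c (b z11 z11) (b z15 z15)) (c (b z11 z11) (b z15 z15))) (d (c (b (d z13 (b z11 z9)) (d z12 (b z9 z8))) (b z13 z12)) (c (b (d (c (b z11 z9) z13) (b z11 z9)) (d (c (b z9 z8) z12) (b z9 z8))) (b z13 z12))))))) _ _ (by decide +kernel)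

theorem okB1505 : CKB ⟨24576, 49152, 11264, 11776⟩ ⟨24576, 49152, 11264, 12288⟩ :=
  ckB_sound (d (b (d (b (d (a (c (b (d z15 (a (b (d z10 z2) (d z8 (b z2 z0))) (b z3 (d z11 z3)))) (d (c (b (d z10 z2) (d z8 (b z2 z0))) (b z14 z12)) (b (d z10 z2) (d z8 (b z2 z0))))) (b z15 (d z12 (c (b z14 z12) z12)))) z15) (a (b (d z15 z15) (d (c (b z10 (d z12 z8)) z12) (c (b z10 (d z12 z8)) z12))) z15)) (d (c (b (d z15 (a (b (d z11 z3) (d z10 z2)) z3)) (d z15 (a (b (d z11 z3) (d z10 z2)) z3))) z15) (b (d z15 z15) z15))) (b (d (a (b (d z15 z15) (d (c (b z10 (d z12 z8)) z12) (c (b z10 (d z12 z8)) z12))) z15) (a (b z15 (d (b z14 z12) (b z14 z12))) z15)) (d (b z15 z15) (b z15 z15)))) (d (b (d (c (b (d z15 (a (b (d z11 z3) (d z10 z2)) z3)) (d z15 (a (b (d z11 z3) (d z10 z2)) z3))) z15) (b z15 z15)) (d (c (b (d z15 (b (d z11 z3) (d z11 z3))) (d z15 (b z3 z3))) z15)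 (b z15 z15))) (b (d (b z15 z15) (b z15 z15)) (d (b z15 z15) (b z15 z15))))) (b (d (b (d (a (b z15 (d (b z14 z12) (b z14 z12))) z15) (a (b z15 (d z12 z12)) z15)) (d (b z15 z15) (b z15 z15))) (b (d (a (b (d z15 z15) (d z12 z12)) (b (d z15 z15) (d z15 z15))) (a (b (d (a (b (d z14 z6) (d z12 (b z6 z4))) (b z7 (d z15 z7))) (a (b (d z6 z2) (d z4 z0)) z3)) (d (b (d z14 z6) (d z12 (b z6 z4))) (b (d z6 z2) (d (b z6 z4) (b z2 z0))))) (b (d z7 z3) (d (a (b z7 (d z15 z7)) z7) (a (b z3 (d z7 z3)) z3))))) (d (b (d z15 z15) (d z15 z15)) (b (d (a (b (d z15 z7) (d z14 z6)) (b (d z15 z7) (d z15 z7))) (a (b (d z7 z3) (d z6 z2)) (b z3 (d z7 z3)))) (d (a (b (d z15 z7) (d z14 z6)) (b (d z15 z7) (d z15 z7))) (a (b (d z7 z3) (d z6 z2)) (b (d z7 z3) (d z7 z3)))))))) (d (b (d (b z15 z15) (b z15 z15)) (d (b z15 z15) (b z15 z15))) (b (d (b (d z15 z15) (d z15 z15)) (b (d (a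 (b (d z15 z7) (d z14 z6)) (b (d z15 z7) (d z15 z7))) (a (b (d z7 z3) (d z6 z2)) (b (d z7 z3) (d z7 z3)))) (d (a (b (d z15 z7) (d z14 z6)) (b (d z15 z7) (d z15 z7))) (a (b (d z7 z3) (d z6 z2)) (b (d z7 z3) (d z7 z3)))))) (d (b (d z15 z15) (d z15 z15)) (b (d (b (d z15 z7) (d z15 z7)) (b (d z7 z3) (d z7 z3))) (d (b (d z15 z7) (d z15 z7)) (b (d z7 z3) (d z7 z3))))))))) _ _ (by decide +kernel)

theorem okB1506 : CKB ⟨24576, 49152, 11776, 12288⟩ ⟨24576, 49152, 11264, 12288⟩ :=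
  ckB_sound (d (b (d (b (d (c (b (d z15 (b z3 z3)) (d z15 (b z3 z3))) z15) (b z15 z15)) (d (c (b (d z15 z3) (d z15 z3)) z15) (b z15 z15))) (b (d (b z15 z15) (b z15 z15)) (d (b z15 z15) (b z15 z15)))) (d (b (d (c (b (d z15 z3) (d z15 z3)) (b z15 z15)) (b z15 z15)) (d (c (b (d (c (b z3 (d z9 (b z3 z3))) (b z15 z13)) (b z3 (d z9 (b z3 z3)))) (d (c (b (d z9 z1) (d z8 z0)) z12) (b (d z9 (b z3 z1)) (d z8 (b z1 z1))))) (b (d z13 (c (b z15 z13) z13)) (d z12 (c (b z13 z12) z12)))) (b (d (c (b z11 z9) (b z15 z13)) (c (b z11 z9) (b z15 z13))) (d (c (b z9 z8) (b z13 z12)) (c (b z9 z8) (b z13 z12)))))) (b (d (b z15 z15) (b z15 z15)) (d (b (d (c (b z11 z9) (b z15 z13)) (c (b z11 z9) (b z15 z13))) (d (c (b z9 z8) (b z13 z12)) (c (b z9 z8) (b z13 z12)))) (b (d (b z15 z13) (b z15 z13)) (d (b z13 z12) (b z13 z12))))))) (b (d (b (d (b z15 z15) (b z15 z15)) (d (b z15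 z15) (b z15 z15))) (b (d (b (d z15 z15) (d z15 z15)) (b (d (b (d z15 z7) (d z15 z7)) (b (d z7 z3) (d z7 z3))) (d (b (d z15 z7) (d z15 z7)) (b (d z7 z3) (d z7 z3))))) (d (b (d z15 z15) (d z15 z15)) (b (d (b (d z15 z7) (d z15 z7)) (b (d z7 z3) (d z7 z3))) (d (b (d z15 z7) (d z15 z7)) (b (d z7 z3) (d z7 z3))))))) (d (b (d (b z15 z15) (b z15 z15)) (d (b (d (b z15 z13) (b z15 z13)) (d (b z13 z12) (b z13 z12))) (b (d (b z15 z13) (b z15 z13)) (d (b z13 z12) (b z13 z12))))) (b (d (b (d z15 z15) (d z15 z15)) (b (d (b (d z15 z7) (d z15 z7)) (b (d z7 z3) (d z7 z3))) (d (b (d z15 z7) (d z15 (b z7 z7))) (b (d (b z7 z7) (b z3 (d z7 z7))) (d (b z7 (d z15 z7)) (b (d z7 z7) (d z7 z7))))))) (d (b (d (b z15 (d z13 z13)) (b z15 (d z13 (b z15 z15)))) (d (b (d z13 z13) (d z12 z12)) (b (d (b z15 z13) (b z15 z13)) (d (b z13 z13) (b z13 z13))))) (b (d (b (d z15 (b z7 (d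 z15 z15))) (d (b z15 z15) (b (d z15 z15) (d z15 z15)))) (b (d (b (d z15 z7) (d z15 z7)) (b (d z7 z7) (d z7 z7))) (d (b (d z15 z7) (d z15 z7)) (b (d z7 z7) (d z7 z7))))) (d (b (d (b z15 z13) (b (d z15 z15) (d z13 z13))) (d (b z13 z13) (b (d z13 z13) (d z13 z13)))) (b (d (b (d z15 z7) (d z13 (b z7 z7))) (b (d z7 z7) (d (b z7 z7) (b z7 z7)))) (d (b (d z13 (b (d z13 z13) (d z13 z13))) (d z13 (b (d z13 z13) (d z13 z13)))) (b (d (b (d z5 z5) (d z5 z5)) (b (d z5 z5) (d z5 z5))) (d (b (d z5 z5) (d z5 z5)) (b (d z5 z5) (d z5 z5))))))))))))) _ _ (by decide +kernel)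

end Vale.Agent.Lib.P154Q5
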