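import Vale.Agent.Lib.P154Q5.CkBDefs

namespace Vale.Agent.Lib.P154Q5

set_option maxRecDepth 100000
set_option exponentiation.threshold 1000

open Tr

theorem okB165 : CKB ⟨0, 4097, 0, 2048⟩ ⟨12288, 24576, 10240, 12288⟩ :=
  ckB_sound z0 _ _ (by decide +kernel)

theorem okB166 : CKB ⟨0, 2049, 2048, 3072⟩ ⟨12288, 24576, 8192, 10240⟩ :=
  ckB_sound (d (c (b (d z8 (b z0 (d z8 (b (d (b z0 (d z8 z0)) (b z0 (d z0 z0))) (d (b (d z8 z0) (d z8 z0)) (b (d z0 z0) (d z0 z0))))))) (d z8 (a (b (d z8 (b z0 (d (b z0 z0) (b (d z0 z0) (d z0 z0))))) (d z8 (a (b (d z0 (b (d z0 z0) z0)) (d z0 (a (b z0 z0) z0))) (b (d z0 (b (d z0 z0) z0)) (d z0 z0))))) (b (d z8 (b (d (a (b (d z8 z0) z0) z0) (a (b (d z0 z0) (d z0 z0)) (b (d z0 z0) (d z0 z0)))) (d z0 (a (b (d z0 z0) z0) z0)))) (d z8 (b (d z0 z0) (d z0 z0))))))) (b (d (c (b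 z0 (d (c (b z12 z12) z12) (c z8 z12))) z12) (c (b z0 (d (c z8 (b (d (c z8 z12) z8) (d (c z8 z12) z8))) z8)) (b z0 (d z12 (b (d z12 (c z8 z12)) (d z12 (c z8 z12))))))) (d (c (a (b (d (c (b z0 z12) z12) (c z8 z12)) (d (c (a (b z12 z12) z12) z12) (c (a (b z8 z8) z8) z12))) (b (d z12 (c z8 z12)) (d z12 (c z8 z12)))) z12) (c (a (b (d (c z8 (b z0 (d (c z8 z12) z8))) z8) (d (c z8 (a (b (d (c z8 z12) z8) (d (a (c z8 z12) z12) z8)) (b (d z12 z8) (d z12 z8)))) z8)) z8) (a (b (d z12 (b z0 (d z12 (c z8 z12)))) (d z12 (a (b (d z12 (c z8 z12)) (d z12 (c z8 z12))) (b (d z12 (c z8 z12)) (d z12 (c z8 z12)))))) (b (d z12 (b (d z12 (c z8 z12)) (d z12 (c z8 z12)))) (d z12 (b (d z12 (c z8 z12)) z12)))))))) (b (d (b z0 (d (c z8 (b z8 z8)) z8)) (b z0 (d (b (d z8 (b z0 (d (b z0 (d z0 z0)) z0))) (d z8 (b (d (b (d z0 z0) (d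 z0 z0)) z0) (d (a (b z0 z0) z0) z0)))) z0))) (d (a (b (d (c z8 (b z0 (d (c z8 z12) z8))) z8) (d (c z8 (a (b (d (c z8 z12) z8) (d (c z8 z12) z8)) (b (d (c z8 z12) z8) z8))) z8)) (b (d (c z8 (b (d (a (c z8 z12) (c z8 z12)) z8) z8)) z8) z8)) (a (b (d (b z0 (d z8 (b (d z0 z0) (d z0 z0)))) z0) (d (a (b (d z8 (b (d z0 z0) (d z0 z0))) (d z8 (a (b (d z0 z0) (d z0 z0)) (b (d z0 z0) (d z0 z0))))) (b (d z8 (b (d z0 z0) (d z0 z0))) (d z8 (b (d z0 z0) (d z0 z0))))) z0)) (b (d (b (d z8 (a (b (d z0 z0) (d z0 z0)) (b (d z0 z0) (d z0 z0)))) (d z8 (a (b (d z0 z0) (d z0 z0)) (b (d z0 z0) (d z0 z0))))) z0) (d (b (d z8 (a (b (d z0 z0) (d z0 z0)) (b (d z0 z0) (d z0 z0)))) (d z8 (a (b (d z0 z0) (d z0 z0)) (b (d z0 z0) (d z0 z0))))) z0)))))) _ _ (by decide +kernel)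

theorem okB167 : CKB ⟨0, 2049, 3072, 4096⟩ ⟨12288, 24576, 8192, 9216⟩ :=
  ckB_sound (c (a (b (d z8 (b (d z8 (a (b (d z0 z0) (d z0 z0)) (b (d z0 z0) (d z0 z0)))) (d z8 (a (b (d z0 z0) (d z0 z0)) (b (d z0 z0) (d z0 z0)))))) (d z8 (a (b (d z8 (b (d z0 z0) (d z0 z0))) (d z8 (a (b (d z0 z0) (d z0 z0)) (b (d z0 z0) (d z0 z0))))) (b (d z8 (b (d z0 z0) (d z0 z0))) (d z8 (b (d z0 z0) (d z0 z0))))))) (b (d z8 (b (d z8 (a (b (d z0 z0) (d z0 z0)) (b (d z0 z0) (d z0 z0)))) (d z8 (a (b (d z0 z0) (d z0 z0)) (b (d z0 z0) (d z0 z0)))))) (d z8 (b (d z8 (a (b (d z0 z0) (d z0 z0)) (b (d z0 z0) (d z0 z0)))) (d z8 (a (b (d z0 z0) (d z0 z0)) (b (d z0 z0) (d z0 z0)))))))) (a (b (d (c (b (d (c (a (b z12 z12) z12) z12) (c (a (b z8 (d (c z8 z12) z8)) z8) z12)) (d z12 (a (c (b (d (a (c z8 z12) z8) z8) (d (a (c z8 z12) z8) z8))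 z12) (c z8 z12)))) z12) (c (b (d (c z8 (a (b (d (c z8 z12) z8) (d (a (c z8 z12) z12) z8)) (b (d z12 z8) (d z12 z8)))) z8) (d (a (c z8 (b (d z12 z8) (d z12 z8))) (c z8 (b (d z12 z8) (d z12 z8)))) z8)) (b (d z12 (a (b (d z12 (c z8 z12)) (d z12 (c z8 z12))) (b (d z12 (c z8 z12)) z12))) (d z12 (a (b (d z12 (c z8 z12)) (d z12 (c z8 z12))) z12))))) (d (c (a (b (d z12 (c (b (d (a (c z8 z12) z8) z8) (d (a (c z8 z12) z8) z8)) z12)) (d z12 (c (a (b (d (c z8 z12) z8) (d (c z8 z12) z8)) (b (d (c z8 z12) z8) (d (c z8 z12) z8))) z12))) (b (d z12 (c z8 z12)) (d z12 (c z8 z12)))) z12) (c (a (b (d (c z8 (b (d z12 z8) (d z12 z8))) z8) (d (c z8 (a (b (d z12 z8) (d z12 z8)) (b (d z12 z8) (d z12 z8)))) z8)) (b (d (c z8 (b (d z12 z8) (d z12 z8))) z8) (d (c z8 (b (d z12 z8) z12)) z8))) (a (b z12 z12) z12)))) (b (d (c (b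 (d z12 (a (c z8 z12) (c z8 z12))) (d z12 (a (c z8 z12) (c z8 z12)))) z12) (c z8 z12)) (d (c (b (d z12 (a (c z8 z12) (c z8 z12))) (d z12 (a (c z8 z12) (c z8 z12)))) z12) (c z8 z12))))) _ _ (by decide +kernel)

theorem okB168 : CKB ⟨0, 2049, 3072, 4096⟩ ⟨12288, 24576, 9216, 10240⟩ :=
  ckB_sound (a (b (d (b (d (c z8 (a (b (d (c z8 z12) z8) (d (c z8 z12) z8)) (b (d (c z8 z12) z8) (d (c z8 z12) z8)))) z8) (d (c z8 (a (b (d (c z8 z12) z8) (d (c z8 z12) z8)) (b (d (c z8 z12) z8) (d z12 z8)))) z8)) (b (d (a (b (d z8 (b (d z0 z0) (d z0 z0))) (d z8 (a (b (d z0 z0) (d z0 z0)) (b (d z0 z0) (d z0 z0))))) (b (d z8 (b (d z0 z0) (d z0 z0))) (d z8 (b (d z0 z0) (d z0 z0))))) z0) (d (a (b (d z8 (a (b (d z0 z0) z0) z0)) (d z8 z0)) (b (d z8 z0) (d z8 z0))) z0))) (d (a (b (d (c z8 (b (d (c z8 z12) z8) (d z12 z8))) z8)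 (d (c z8 (a (b (d z12 z8) (d z12 z8)) (b (d z12 z8) (d z12 z8)))) z8)) (b (d (c z8 (b (d z12 z8) (d z12 z8))) z8) (d (c z8 (b (d z12 z8) (d z12 z8))) z8))) (a (b (d (b (d z8 z0) (d z8 z0)) z0) (d (a (b (d z8 z0) (d z8 z0)) (b (d z8 z0) (d z8 z0))) z0)) (b (d (b (d z8 z0) (d z8 z0)) z0) (d (b (d z8 z0) (d z8 z0)) z0))))) (b (d z8 (b (d (a (b (d z8 (a (b (d z0 z0) (d z0 z0)) (b (d z0 z0) (d z0 z0)))) (d z8 (a (b (d z0 z0) z0) (b (d z0 z0) z0)))) (b (d z8 (a (b (d z0 z0) (d z0 z0)) (b (d z0 z0) (d z0 z0)))) (d z8 z0))) z0) (d (a (b (d z8 z0) (d z8 z0)) (b (d z8 z0) (d z8 z0))) z0))) (d z8 (b (d (a (b (d z8 z0) (d z8 z0)) (b (d z8 z0) (d z8 z0))) z0) (d (a (b (d z8 z0) (d z8 z0)) (b (d z8 z0) (d z8 z0))) z0))))) _ _ (by decide +kernel)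

theorem okB169 : CKB ⟨2049, 4097, 2048, 3072⟩ ⟨12288, 24576, 8192, 9216⟩ :=
  ckB_sound (c (b (d z8 (a (b (d z8 (b (d (b (d z8 z0) (d z8 z0)) (b (d z0 z0) (d z0 z0))) (d (a (b (d z8 z0) (d z8 z0)) (b (d z8 z0) (d z8 z0))) (a (b (d z0 z0) (d z0 z0)) (b (d z0 z0) (d z0 z0)))))) (d z8 (a (b (d (a (b (d z8 z0) (d z8 z0)) (b (d z8 z0) (d z8 z0))) (a (b (d z0 z0) (d z0 z0)) (b (d z0 z0) (d z0 z0)))) (d z0 (a (b (d z0 z0) (d z0 z0)) (b (d z0 z0) (d z0 z0))))) (b (d (a (b (d z8 z0) z0) (b (d z8 z0) z0)) (a (b (d z0 z0) (d z0 z0)) (b (d z0 z0) (d z0 z0)))) (d z0 (a (b (d z0 z0) (d z0 z0)) (b (d z0 z0) z0))))))) (b (d z8 (a (b (d (a (b (d z8 z0) (d z8 z0)) (b (d z8 z0) (d z8 z0))) (a (b (d z0 z0) (d z0 z0)) (b (d z0 z0) (d z0 z0)))) (d (a (b (d z8 z0) (d z8 z0)) (b (d z8 z0) (d z8 z0))) (a (b (d z0 z0) (d z0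 z0)) (b (d z0 z0) (d z0 z0))))) (b (d (a (b (d z8 z0) (d z8 z0)) (b (d z8 z0) (d z8 z0))) (a (b (d z0 z0) (d z0 z0)) (b (d z0 z0) (d z0 z0)))) (d (a (b (d z8 z0) z0) (b (d z8 z0) z0)) (a (b (d z0 z0) (d z0 z0)) (b (d z0 z0) (d z0 z0))))))) (d z8 (a (b (d z0 (a (b (d z0 z0) (d z0 z0)) (b (d z0 z0) (d z0 z0)))) (d z0 (a (b (d z0 z0) z0) z0))) (b (d z0 (a (b (d z0 z0) (d z0 z0)) (b (d z0 z0) z0))) (d z0 z0))))))) (d z8 (a (b (d z8 (a (b (d z0 (a (b (d z0 z0) z0) (b (d z0 z0) z0))) (d z0 z0)) (b (d z0 z0) (d z0 z0)))) (d z8 (a (b (d z0 z0) (d z0 z0)) (b (d z0 z0) (d z0 z0))))) (b (d z8 (a (b (d z0 z0) (d z0 z0)) (b (d z0 z0) (d z0 z0)))) (d z8 (a (b (d z0 z0) (d z0 z0)) (b (d z0 z0) (d z0 z0)))))))) (b (d (a (c (b (d (c (b z12 z12) z12) (c z8 z12)) (d z12 (a (c z8 z12) (c z8 z12)))) z12) (c (b (d z12 (a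 (c z8 z12) (c z8 z12))) (d z12 (a (c z8 z12) (c z8 z12)))) z12)) (a (c (b z8 z8) (b (d z12 (b (d z12 (c z8 z12)) (d z12 (c z8 z12)))) (d z12 (a (b (d z12 (c z8 z12)) (d z12 (c z8 z12))) (b (d z12 (c z8 z12)) (d z12 (c z8 z12))))))) z8)) (d (a (c (b (d z12 (a (c z8 z12) (c z8 z12))) (d z12 (a (c z8 z12) (c z8 z12)))) z12) (c (b (d z12 (a (c z8 z12) (c z8 z12))) (d z12 (a (c z8 z12) (c z8 z12)))) z12)) (a (c z8 (b (d z12 (a (b (d z12 (c z8 z12)) (d z12 (c z8 z12))) z12)) z12)) (c z8 z12))))) _ _ (by decide +kernel)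

theorem okB170 : CKB ⟨2049, 4097, 2048, 2560⟩ ⟨12288, 24576, 9216, 9728⟩ :=
  ckB_sound (a (b (d (c (b z8 z8) z8) (c (b (d z8 (b (d (b (d z8 z0) (d z8 z0)) (b (d z0 z0) (d z0 z0))) (d (a (b (d z8 z0) (d z8 z0)) (b (d z8 z0) (d z8 z0))) (a (b (d z0 z0) (d z0 z0)) (b (d z0 z0) (d z0 z0)))))) (d z8 (a (b (d (b (d z8 z0) (d z8 z0)) (b (d z0 z0) (d z0 z0))) (d (a (b (d z8 z0) (d z8 z0)) (b (d z8 z0) z0)) (a (b (d z0 z0) (d z0 z0)) (b (d z0 z0) (d z0 z0))))) (b (d (a (b (d z8 z0) (d z8 z0)) (b (d z8 z0) z0)) (a (b (d z0 z0) (d z0 z0)) (b (d z0 z0) (d z0 z0)))) (d z0 (a (b (d z0 z0) z0) z0)))))) z8)) z8) (b (d z8 z8) z8)) _ _ (by decide +kernel)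

theorem okB171 : CKB ⟨2049, 4097, 2048, 2560⟩ ⟨12288, 24576, 9728, 10240⟩ :=
  ckB_sound (a (b (d (b (d z8 (b (d (b (d z0 z0) (d z0 z0)) z0) (d (a (b (d z0 z0) (d z0 z0)) (b (d z0 z0) (d z0 z0))) z0))) (d z8 (a (b (d (b (d z0 z0) (d z0 z0)) z0) (d (a (b (d z0 z0) (d z0 z0)) (b (d z0 z0) (d z0 z0))) z0)) (b (d (a (b (d z0 z0) (d z0 z0)) (b (d z0 z0) (d z0 z0))) z0) (d (a (b (d z0 z0) (d z0 z0)) (b (d z0 z0) (d z0 z0))) z0))))) z0) (d (a (b (d z8 (a (b (d (b (d z0 z0) (d z0 z0)) z0) (d (a (b (d z0 z0) (d z0 z0)) (b (d z0 z0) z0)) z0)) (b (d (a (b (d z0 z0) (d z0 z0)) (b (d z0 z0) (d z0 z0))) z0) (d (a (b (d z0 z0) z0) z0) z0)))) (d z8 (a (b (d z0 z0) (d z0 z0)) (b (d z0 z0) (d z0 z0))))) (b (d z8 (a (b (d (a (b (d z0 z0) z0) (b (d z0 z0) z0)) z0) (d z0 z0)) (b (d z0 z0) (d z0 z0)))) (d z8 (a (b (d z0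 z0) (d z0 z0)) (b (d z0 z0) (d z0 z0)))))) z0)) (b (d (a (b (d z8 (a (b (d (a (b (d z0 z0) (d z0 z0)) (b (d z0 z0) (d z0 z0))) z0) (d (a (b (d z0 z0) (d z0 z0)) (b (d z0 z0) (d z0 z0))) z0)) (b (d (a (b (d z0 z0) (d z0 z0)) (b (d z0 z0) (d z0 z0))) z0) (d (a (b (d z0 z0) (d z0 z0)) (b (d z0 z0) (d z0 z0))) z0)))) (d z8 (a (b (d (a (b (d z0 z0) (d z0 z0)) (b (d z0 z0) (d z0 z0))) z0) (d (a (b (d z0 z0) z0) z0) z0)) (b (d (a (b (d z0 z0) z0) (b (d z0 z0) z0)) z0) (d z0 z0))))) (b (d z8 (a (b (d (a (b (d z0 z0) (d z0 z0)) (b (d z0 z0) (d z0 z0))) z0) (d (a (b (d z0 z0) (d z0 z0)) (b (d z0 z0) z0)) z0)) (b (d (a (b (d z0 z0) (d z0 z0)) (b (d z0 z0) z0)) z0) (d z0 z0)))) (d z8 (a (b (d z0 z0) (d z0 z0)) (b (d z0 z0) (d z0 z0)))))) z0) (d (a (b (d z8 (a (b (d z0 z0) (d z0 z0)) (b (d z0 z0) (d z0 z0)))) (d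 z8 (a (b (d z0 z0) (d z0 z0)) (b (d z0 z0) (d z0 z0))))) (b (d z8 (a (b (d z0 z0) (d z0 z0)) (b (d z0 z0) (d z0 z0)))) (d z8 (a (b (d z0 z0) (d z0 z0)) (b (d z0 z0) (d z0 z0)))))) z0))) _ _ (by decide +kernel)

theorem okB172 : CKB ⟨2049, 4097, 2560, 3072⟩ ⟨12288, 24576, 9216, 10240⟩ :=
  ckB_sound (d z8 (a (b (d (a (b (d z8 (a (b (d z0 z0) (d z0 z0)) (b (d z0 z0) (d z0 z0)))) (d z8 (a (b (d z0 z0) (d z0 z0)) (b (d z0 z0) (d z0 z0))))) (b (d z8 (a (b (d z0 z0) (d z0 z0)) (b (d z0 z0) (d z0 z0)))) (d z8 (a (b (d z0 z0) (d z0 z0)) (b (d z0 z0) (d z0 z0)))))) z0) (d (a (b (d z8 (a (b (d z0 z0) (d z0 z0)) (b (d z0 z0) (d z0 z0)))) (d z8 (a (b (d z0 z0) (d z0 z0)) (b (d z0 z0) (d z0 z0))))) (b (d z8 (a (b (d z0 z0) (d z0 z0)) (b (d z0 z0) (d z0 z0)))) (d z8 (a (b (d z0 z0) (d z0 z0)) (b (d z0 z0) (d z0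 z0)))))) z0)) (b (d (a (b (d z8 (a (b (d z0 z0) (d z0 z0)) (b (d z0 z0) (d z0 z0)))) (d z8 (a (b (d z0 z0) (d z0 z0)) (b (d z0 z0) (d z0 z0))))) (b (d z8 (a (b (d z0 z0) (d z0 z0)) (b (d z0 z0) (d z0 z0)))) (d z8 (a (b (d z0 z0) (d z0 z0)) (b (d z0 z0) (d z0 z0)))))) z0) (d (a (b (d z8 (a (b (d z0 z0) (d z0 z0)) (b (d z0 z0) (d z0 z0)))) (d z8 (a (b (d z0 z0) z0) z0))) (b (d z8 (a (b (d z0 z0) z0) (b (d z0 z0) z0))) (d z8 z0))) z0)))) _ _ (by decide +kernel)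

theorem okB173 : CKB ⟨2049, 4097, 3072, 4096⟩ ⟨12288, 24576, 8192, 10240⟩ :=
  ckB_sound (d (c (b (d z8 (a (b (d z8 (a (b (d z0 z0) (d z0 z0)) (b (d z0 z0) (d z0 z0)))) (d z8 (a (b (d z0 z0) (d z0 z0)) (b (d z0 z0) (d z0 z0))))) (b (d z8 (a (b (d z0 z0) (d z0 z0)) (b (d z0 z0) (d z0 z0)))) (d z8 (a (b (d z0 z0) (d z0 z0)) (b (d z0 z0) (d z0 z0))))))) (d z8 (a (b (d z8 (a (b (d z0 z0) (d z0 z0)) (b (d z0 z0) (d z0 z0)))) (d z8 (a (b (d z0 z0) (d z0 z0)) (b (d z0 z0) (d z0 z0))))) (b (d z8 (a (b (d z0 z0) (d z0 z0)) (b (d z0 z0) (d z0 z0)))) (d z8 (a (b (d z0 z0) (d z0 z0)) (b (d z0 z0) z0))))))) (b (d (a (c (b (d z12 (a (c z8 z12) (c z8 z12))) (d z12 (a (c z8 z12) (c z8 z12)))) z12) (c (b (d z12 (a (c z8 z12) (c z8 z12))) (d z12 (a (c z8 z12) z12))) z12)) (a (c z8 z12) (c z8 z12))) (d (a (c (b (d z12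 (a (c z8 z12) (c z8 z12))) (d z12 (a (c z8 z12) z12))) z12) z12) (a (c z8 z12) (c z8 z12))))) (b (d z8 (a (b (d (a (b (d z8 (a (b (d z0 z0) z0) (b (d z0 z0) z0))) (d z8 z0)) (b (d z8 z0) (d z8 z0))) z0) (d (a (b (d z8 z0) (d z8 z0)) (b (d z8 z0) (d z8 z0))) z0)) (b (d (a (b (d z8 z0) (d z8 z0)) (b (d z8 z0) (d z8 z0))) z0) (d (a (b (d z8 z0) (d z8 z0)) (b (d z8 z0) (d z8 z0))) z0)))) (d z8 (a (b (d (a (b (d z8 z0) (d z8 z0)) (b (d z8 z0) (d z8 z0))) z0) (d (a (b (d z8 z0) (d z8 z0)) (b (d z8 z0) (d z8 z0))) z0)) (b (d (a (b (d z8 z0) (d z8 z0)) (b (d z8 z0) (d z8 z0))) z0) (d (a (b (d z8 z0) (d z8 z0)) (b (d z8 z0) (d z8 z0))) z0)))))) _ _ (by decide +kernel)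

theorem okB174 : CKB ⟨0, 4097, 2048, 4096⟩ ⟨12288, 24576, 10240, 12288⟩ :=
  ckB_sound z0 _ _ (by decide +kernel)

theorem okB175 : CKB ⟨4097, 8193, 0, 1024⟩ ⟨12288, 24576, 8192, 10240⟩ :=
  ckB_sound z0 _ _ (by decide +kernel)

theorem okB176 : CKB ⟨4097, 6145, 1024, 1280⟩ ⟨12288, 15360, 8192, 8704⟩ :=
  ckB_sound z0 _ _ (by decide +kernel)

theorem okB177 : CKB ⟨4097, 5473, 1280, 1536⟩ ⟨12288, 13824, 8192, 8448⟩ :=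
  ckB_sound (b (d (c (b z0 (d (c (b (d (c (b z0 z0) z0) (b z0 (d z0 z0))) (d z0 z0)) z0) (b (d (c (b z0 (d z0 z0)) z0) (b z0 (d z0 z0))) (d z0 z0)))) (b z0 z8)) (b z0 (d (c (b (d (c (b z0 (d z0 z0)) z0) (b z0 (d z0 z0))) (d z0 z0)) z0) (b (d (c (b z0 (d z0 z0)) z0) (b z0 (d z0 z0))) (d z0 z0))))) (d (c (a (b (d (c (b z0 z0) z0) (b z0 z0)) (d z0 z0)) (b (d (c (a (b (d z0 z0) z0) (b (d z0 z0) (d z0 z0))) z0) (a (b (d z0 z0) z0) (b (d z0 z0) (d z0 z0)))) (d z0 (a z0 (b (d z0 z0) z0))))) z8) (a (b (d (c (b z0 z0) z0) (b z0 (d z0 z0))) (d z0 z0)) (b (d (c (a (b (d z0 z0) z0) (b (d z0 z0) (d z0 z0))) z0) (a (b (d z0 z0) (d z0 z0)) (b (d z0 z0) (d z0 z0)))) (d (c (a z0 (b (d z0 z0) z0)) z0) (a z0 (b (d z0 z0) z0))))))) _ _ (by decide +kernel)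

theorem okB178 : CKB ⟨5473, 6145, 1280, 1536⟩ ⟨12288, 13824, 8192, 8448⟩ :=
  ckB_sound (b (d (c (a (b z0 (d (c (a (b (d (c (a (b z0 z1) z0) z1) (a (b z0 z1) z0)) (d (c (a (b z1 (d z1 z1)) z0) z1) (a (b z1 (d z1 z1)) z0))) z0) z1) (a (b (d (c (a (b z0 z1) z0) z1) (a (b z0 z1) z0)) (d (c (a (b z1 (d z1 z1)) z0) z1) (a (b z1 (d z1 z1)) z0))) z0))) z0) (a (b z0 z9) z0)) (a (b z0 (d (c (a (b (d (c (a (b z0 z1) z0) z1) (a (b z0 z1) z0)) (d (c (a (b z1 (d z1 z1)) z0) z1) (a (b z1 (d z1 z1)) z0))) z0) z1) (a (b (d (c (a (b z0 z1) z0) z1) (a (b z0 z1) z0)) (d (c (a (b z1 (d z1 z1)) z0) z1) (a (b z1 (d z1 z1)) z0))) z0))) z0)) (d (c (a (b (d (c (a (b (d (c (a (b (d (c (a z0 z1) z1) (a z0 z1)) (d (c (a z0 z1) z1) (a z0 z1))) z1) z1) (a (b (d (c (a z0 z1) z1) (a z0 z1)) (d (c (a z0 z1) z1) (a z0 z1))) z1)) (d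 (c (a z0 z1) (a z0 z1)) (a z0 z1))) z0) (a (b z1 (d (c (a z0 z1) z9) (c (a z0 z1) (a z0 z1)))) z0)) (a (b (d (c (a (b (d (c (a z0 z1) z1) (a z0 z1)) (d (c (a z0 z1) z1) (a z0 z1))) z1) z1) (a (b (d (c (a z0 z1) z1) (a z0 z1)) (d (c (a z0 z1) z1) (a z0 z1))) z1)) (d (c (a z0 z1) (a z0 z1)) (a z0 z1))) z0)) (d (c (a (b (d (c (a z0 z1) (a z0 z1)) (a z0 z1)) (d z0 z0)) z1) (a z0 z1)) (a (b (d (c (a z0 z1) (a z0 z1)) (a z0 z1)) (d z0 z0)) z1))) z0) (a (b (d z9 (c (a (b z1 (d (c (a z0 z1) z9) (c (a z0 z1) (a z0 z1)))) z0) z9)) (d (c (a z8 z9) (a z8 z9)) (c (a z0 z1) (a z8 z9)))) z0)) (a (b (d (c (a (b (d (c (a (b (d (c (a z0 z1) z1) (a z0 z1)) (d (c (a z0 z1) z1) (a z0 z1))) z1) z1) (a (b (d (c (a z0 z1) z1) z1) (d (c (a z0 z1) z1) (a z0 z1))) z1)) (d (c (a z0 z1) (a z0 z1)) (a z0 z1))) z0) (a (b z1 (d (c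 (a z0 z1) z9) (c (a z0 z1) (a z0 z1)))) z0)) (a (b (d (c (a (b (d z1 z1) (d (c (a z0 z1) z1) (a z0 z1))) z1) z1) (a (b (d z1 z1) (d (a z0 z1) (a z0 z1))) z1)) (d (c (a z0 z1) (a z0 z1)) (a z0 z1))) z0)) (d (c (a (b (d (c (a z0 z1) (a z0 z1)) (a z0 z1)) (d z0 z0)) z1) (a z0 z1)) (a (b (d (c (a z0 z1) (a z0 z1)) (a z0 z1)) (d z0 z0)) z1))) z0))) _ _ (by decide +kernel)

theorem okB179 : CKB ⟨4097, 6145, 1280, 1536⟩ ⟨13824, 15360, 8192, 8448⟩ :=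
  ckB_sound (a (b (d (c (b z0 z8) z8) (c (b z0 z8) (b z0 z8))) z8) (b (d z9 (c (a (b z0 z9) z0) z9)) (d (c (a (b z9 (d (c (a z8 z9) z9) (c (a z8 z9) (a z8 z9)))) z0) z9) (c (a (b (d z9 (c (a (b z1 (d (c (a z0 z1) z9) (c (a z0 z1) (a z0 z1)))) z0) z9)) (d (c (a z8 z9) (a z8 z9)) (c (a z0 z1) (a z8 z9)))) z0) (a (b z9 (d z9 (c (a z8 z9) z9))) z0))))) _ _ (by decide +kernel)

end Vale.Agent.Lib.P154Q5
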