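import Vale.Agent.Lib.P154Q5.CkBDefs

namespace Vale.Agent.Lib.P154Q5

set_option maxRecDepth 100000
set_option exponentiation.threshold 1000

open Tr

theorem okB180 : CKB ⟨4097, 5473, 1280, 1536⟩ ⟨12288, 15360, 8448, 8704⟩ :=
  ckB_sound (b (d (c (b z0 (d (c (b (d (c (b z0 (d z0 z0)) z0) (b z0 (d z0 z0))) (d z0 z0)) z0) (b (d (c (b z0 (d z0 z0)) z0) (b z0 (d z0 z0))) (d z0 (a (b z0 z0) z0))))) (b z0 z8)) (b z0 (d (c (b (d (c (b z0 (d z0 z0)) z0) (b z0 (d z0 z0))) (d (a (c (b z0 z0) z0) z0) (a (b z0 z0) z0))) (b z0 z0)) (b (d (b z0 (d z0 z0)) (b z0 (d z0 z0))) (d (a (b z0 z0) z0) (a (b z0 z0) z0)))))) (d (c (a (b (d (c (b z0 (d z0 z0)) z0) (b z0 (d z0 z0))) (d (c (a (b z0 z0) z0) z0) (a (b z0 z0) z0))) (b (d (c (a (b (d z0 z0) (d z0 z0)) (b (d z0 z0) (d z0 z0))) z0) (a (b (d z0 z0) (d z0 z0))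 (b (d z0 z0) (d z0 z0)))) (d (c (a z0 (b (d z0 z0) z0)) z0) (a (b (d z0 z0) z0) (b (d z0 z0) (d z0 z0)))))) z8) (a (b (d (c (b z0 (d z0 z0)) z0) (b z0 (d z0 z0))) (d (a (c (b (d z0 z0) z0) z0) (c (b (d z0 z0) z0) z0)) (a (b (d z0 z0) (d z0 z0)) (b (d z0 z0) z0)))) (b (d (a (c (b (d z0 z0) (d z0 z0)) z0) (c (b (d z0 z0) (d z0 z0)) z0)) (a (b (d z0 z0) (d z0 z0)) (b (d z0 z0) (d z0 z0)))) (d (a (c (b (d z0 z0) z0) z0) (c (b (d z0 z0) (d z0 z0)) z0)) (a (b (d z0 z0) z0) (b (d z0 z0) (d z0 z0)))))))) _ _ (by decide +kernel)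

theorem okB181 : CKB ⟨5473, 6145, 1280, 1536⟩ ⟨12288, 15360, 8448, 8704⟩ :=
  ckB_sound (b (d (c (a (b z0 (d (c (a (b (d (c (a (b z0 z1) z0) z1) (a (b z0 z1) z0)) (d (c (a (b z1 (d z1 z1)) z0) z1) (a (b z1 (d z1 z1)) z0))) z0) z1) (a (b (d (c (a (b z0 z1) z0) z1) (a (b z0 z1) z0)) (d (c (a (b z1 (d z1 z1)) z0) z1) (a (b z1 (d z1 z1)) z0))) z0))) z0) (a (b z0 z9) z0)) (a (b z0 (d (a (c (b (d (a (c (b z0 z1) z1) z0) (a (b z0 z1) z0)) (d (a (c (b z1 (d z1 z1)) z1) z0) (a (b z1 (d z1 z1)) z0))) z1) z0) (a (b (d (a (b z0 z1) z0) (a (b z0 z1) z0)) (d (a (b z1 (d z1 z1)) z0) (a (b z1 (d z1 z0)) z0))) z0))) z0)) (d (c (a (b (d (c (a (b (d (c (a (b (d z1 z1) (d (c (a z0 z1) z1) (a z0 z1))) z1) z1) (a (b (d z1 z1) (d (c (a z0 z1) z1) (a z0 z1))) z1)) (d (c (a z0 z1) (a z0 z1)) (a z0 z1))) z0) (a (b z1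 (d z9 (c (a z0 z1) z1))) z0)) (a (b (d (c (a (b (d z1 z1) (d (c (a z0 z1) z1) (a z0 z1))) z1) z1) (a (b (d z1 z1) (d (a z0 z1) (a z0 z1))) z1)) (d (c (a z0 z1) (a z0 z1)) (a z0 z1))) z0)) (d (c (a (b (d (c (a z0 z1) (a z0 z1)) (a z0 z1)) (d z0 z0)) z1) (a z0 z1)) (a (b (d (c (a z0 z1) (a z0 z1)) (a z0 z1)) (d z0 z0)) z1))) z0) (a (b (d z9 (c (a (b (d z1 (c (a (b z1 (d z1 (c (a z0 z1) z1))) z1) z1)) (d z1 (c (a z0 z1) z1))) z0) z9)) (d (c (a z8 z9) (a z8 z9)) (c (a z0 z1) (a z8 z9)))) z0)) (a (b (d (a (c (b (d (a (c (b (d z1 z1) (d (a z0 z1) (a z0 z1))) z1) z1) (a (b (d z1 z1) (d (a z0 z1) (a z0 z1))) z1)) (d (a z0 z1) (a z0 z1))) (b (d z1 (a (c (b z1 (d z1 (a z0 z1))) z1) z1)) (d z1 (a z0 z1)))) z0) (a (b (d (a (b (d z1 z1) (d (c (a z0 z1) z1) (a z0 z1))) z1) (a (b (d z1 z0) (d (a z0 z1) z0))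 z1)) (d (a z0 z1) (a z0 z1))) z0)) (d (a (c (b (d (a z0 z1) (a z0 z1)) (d z0 z0)) z0) z1) (a (b (d (a z0 z1) (a z0 z1)) (d z0 z0)) z1))) z0))) _ _ (by decide +kernel)

theorem okB182 : CKB ⟨4097, 6145, 1024, 1536⟩ ⟨15360, 18432, 8192, 8704⟩ :=
  ckB_sound (b z0 (d (c (a (b z8 z8) z9) z8) (c (a (b (d (c (b z0 z8) z8) (c (b z0 z8) (b z0 z8))) z8) (b (d z9 (c (a (b z0 z9) z0) z9)) (d (c (a (b z9 (d z9 (c (a z8 z9) z9))) z0) z9) (c (a (b (d z9 (c (a (b (d z1 (c (a (b (d z1 z1) (d z1 (a z0 z1))) z1) z1)) (d z1 (c (a z0 z1) z1))) z0) z9)) (d (c (a z8 z9) (a z8 z9)) (c (a z0 z1) (a z8 z9)))) z0) (a (b z9 (d z9 (c (a z8 z9) z9))) z0))))) (a (b z8 z8) z9)))) _ _ (by decide +kernel)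

theorem okB183 : CKB ⟨4097, 6145, 1024, 1280⟩ ⟨12288, 18432, 8704, 9216⟩ :=
  ckB_sound z0 _ _ (by decide +kernel)

theorem okB184 : CKB ⟨4097, 5473, 1280, 1536⟩ ⟨12288, 18432, 8704, 8960⟩ :=
  ckB_sound (c (b (d (c (b z0 (d (c (b (d (c (b z0 (d z0 z0)) z0) (b z0 (d z0 z0))) (d (a (c (b z0 z0) z0) z0) (a (b z0 z0) z0))) z0) (b (d (b z0 (d z0 z0)) (b z0 (d z0 z0))) (d (a (b z0 z0) z0) (a (b z0 z0) z0))))) (b z0 z8)) (b z0 (d (b (d (c (b z0 (d z0 z0)) z8) (c (b z0 (d z0 z0)) z0)) (d (c (a (b z0 z0) z0) z8) (a (c (b (d z0 z0) z0) z0) z0))) (b (d (b z0 (d z0 z0)) z0) (d (a (b (d z0 z0) z0) z0) z0))))) (d (a (c (b (d (c (b z0 (d z0 z0)) z0) (b z0 (d z0 z0))) (d (a (c (b (d z0 z0) (d z0 z0)) z0) (c (b (d z0 z0) z0) z0)) (a (b (d z0 z0) (d z0 z0)) (b (d z0 z0) (d z0 z0))))) z8) (c (b (d (c (a (b (d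 z0 z0) (d z0 z0)) (b (d z0 z0) (d z0 z0))) z0) (a (b (d z0 z0) (d z0 z0)) (b (d z0 z0) (d z0 z0)))) (d (c (a (b (d z0 z0) (d z0 z0)) (b (d z0 z0) (d z0 z0))) z0) (a (b (d z0 z0) (d z0 z0)) (b (d z0 z0) (d z0 z0))))) z8)) (a (b (d (b z0 (d z0 z0)) (b z0 (d z0 z0))) (d (a (b (d z0 z0) (d z0 z0)) (b (d z0 z0) (d z0 z0))) (a (b (d z0 z0) (d z0 z0)) (b (d z0 z0) (d z0 z0))))) (b (d (a (b (d z0 z0) (d z0 z0)) (b (d z0 z0) (d z0 z0))) (a (b (d z0 z0) (d z0 z0)) (b (d z0 z0) (d z0 z0)))) (d (a (b (d z0 z0) (d z0 z0)) (b (d z0 z0) (d z0 z0))) (a (b (d z0 z0) (d z0 z0)) (b (d z0 z0) (d z0 z0)))))))) (b (d (c (b z0 z8) z8) (c (b z0 z8) (b z0 z8))) (d z8 (a (c (b z8 z8) z8) z8)))) _ _ (by decide +kernel)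

theorem okB185 : CKB ⟨5473, 6145, 1280, 1536⟩ ⟨12288, 18432, 8704, 8960⟩ :=
  ckB_sound (c (b (d (c (a (b z0 (d (c (a (b (d (c (a (b z0 z1) z0) z1) (a (b z0 z1) z0)) (d (c (a (b z1 (d z1 z1)) z0) z1) (a (b z1 (d z1 z1)) z0))) z0) z1) (a (b (d (a (b z0 z1) z0) (a (b z0 z1) z0)) (d (a (b z1 (d z1 z1)) z0) (a (b z1 (d z1 z0)) z0))) z0))) z0) (a (b z0 z9) z0)) (a (b z0 (d (a (b (d (c (a (b z0 z1) z0) z9) (a (c (b z0 z1) z1) z0)) (d (c (a (b z1 (d z1 z1)) z0) z9) (a (c (b z1 (d z1 z1)) z1) z0))) z0) (a (b (d (a (b z0 z1) z0) z0) (d (a (b z1 (d z1 z1)) z0) z0)) z0))) z0)) (d (c (a (b (d (c (a (b (d (c (a (b (d z1 z1) (d (c (a z0 z1) z1) (a z0 z1))) z1) z1) (a (b (d z1 z1) (d (a z0 z1) (a z0 z1))) z1)) (d (c (a z0 z1) (a z0 z1)) (a z0 z1))) z0) (a (b z1 (d z9 (c (a z0 z1) z1))) z0)) (a (b (d (a (b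 (d z1 z1) (d (c (a z0 z1) z1) (a z0 z1))) z1) (a (b (d z1 z0) (d z1 z0)) z1)) (d (a z0 z1) (a z0 z1))) z0)) (d (c (a (b (d (c (a z0 z1) (a z0 z1)) (a z0 z1)) (d z0 z0)) z1) (a z0 z1)) (a (b (d (a z0 z1) (a z0 z1)) (d z0 z0)) z1))) z0) (a (b z9 (d (c (a z8 z9) z9) (c (a z0 z1) (a z8 z9)))) z0)) (a (b (d (a (b (d (c (a (b (d z1 z1) (d z1 z1)) z1) z9) (a (c (b (d z1 z1) (d z1 z1)) z1) z1)) (d (c (a z0 z1) z9) (a z0 z1))) z0) (a (b (d (a (b (d z1 z1) (d z1 z1)) z1) z0) (d (a z0 z1) z0)) z0)) (d (a (b (d (c (a z0 z1) (a z8 z9)) (a z0 z1)) (d z0 z0)) z1) (a (b (d (a z0 z1) z0) (d z0 z0)) z1))) z0))) (b (d z9 (a (c (b z0 z9) z9) z0)) (d z9 (a (c (b z9 (d (a z8 z9) (a z0 z1))) z9) z0)))) _ _ (by decide +kernel)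

theorem okB186 : CKB ⟨4097, 6145, 1280, 1536⟩ ⟨12288, 18432, 8960, 9216⟩ :=
  ckB_sound (a (b (d (b z0 (d z8 (b (d (c (b z0 (d z0 z0)) z8) (c (b z0 (d z0 z0)) z0)) (d (c (a (b (d z0 z0) z0) z0) z8) (a (c (b (d z0 z0) z0) z0) z0))))) (b z0 (d (b (d (b z0 (d z0 z0)) z0) (d (a (b (d z0 z0) z0) z0) z0)) z0))) (d (a (b (d z8 (b z0 (d z0 z0))) (d z8 (a (b (d z0 z0) (d z0 z0)) (b (d z0 z0) (d z0 z0))))) (b (d z8 (a (b (d (c (b z0 z0) z8) (c (b z0 z0) z0)) (d z0 z0)) (b (d z0 z0) (d z0 z0)))) (d z8 (a (b (d z0 z0) (d z0 z0)) (b (d z0 z0) (d z0 z0)))))) (a (b (d (b z0 (d z0 z0)) z0) (d (a (b (d z0 z0) (d z0 z0)) (b (d z0 z0) (d z0 z0))) z0)) (b (d (a (b (d (b z0 z0) z0) (d z0 z0)) (b (d z0 z0) (d z0 z0))) z0) (d (a (b (d z0 z0) (d z0 z0)) (b (d z0 z0) (d z0 z0))) z0))))) (b (d (a (b z0 (d z9 (a (b (d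 (c (a (b z0 z1) z0) z9) (c (a (b z0 z1) z0) z1)) (d (c (a (b z1 (d z1 z1)) z0) z9) (c (a (b z1 (d z1 z1)) z0) z1))) z0))) z0) (a (b z0 (d (a (b (d (a (b z0 z1) z0) z0) (d (a (b z1 (d z1 z1)) z0) z0)) z0) z0)) z0)) (d (a (b (d (c (a (b (d (c (a (b (d z1 z1) (d z1 z1)) z1) z9) (a (b (d z1 z1) (d z1 z1)) z1)) (d (c (a z0 z1) z9) (a z0 z1))) z0) z9) (a (b (d (c (a (b (d z1 z1) (d z1 z1)) z1) z9) (c (a (b (d z1 z1) (d z1 z1)) z1) z1)) (d (c (a z0 z1) z9) (c (a z0 z1) z1))) z0)) (d (c (a (b (d (c (a z0 z1) z9) (a z0 z1)) (d z0 z0)) z1) (a z8 z9)) (a (b (d (c (a z0 z1) z9) (c (a z0 z1) (a z0 z1))) (d z0 z0)) z1))) z0) (a (b (d (a (b (d (a (b (d z1 z1) (d z1 z1)) z1) z0) (d (a z0 z1) z0)) z0) z0) (d (a (b (d (a z0 z1) z0) (d z0 z0)) z1) z0)) z0)))) _ _ (by decide +kernel)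

theorem okB187 : CKB ⟨4097, 5121, 1536, 2048⟩ ⟨12288, 15360, 8192, 8704⟩ :=
  ckB_sound (b (d z8 (a (b (d (c (b (d z0 z0) (d z0 z0)) z8) (b (d z0 (b z0 z0)) (d z0 z0))) (d (c (a (b (d z0 z0) z0) (b (d z0 z0) z0)) z8) (a (b (d z0 z0) (d z0 z0)) (b (d z0 z0) (d z0 z0))))) (b (d (c (b (d z0 z0) (d z0 z0)) z8) (b (d z0 z0) (d z0 z0))) (d (c (b (d z0 z0) (d z0 z0)) z8) (b (d z0 z0) (d z0 z0)))))) (d z8 (a (b (d z0 (a z0 (b (d z0 z0) z0))) (d z0 z0)) (b (d z0 (b (d z0 z0) z0)) (d z0 z0))))) _ _ (by decide +kernel)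

theorem okB188 : CKB ⟨5121, 6145, 1536, 2048⟩ ⟨12288, 15360, 8192, 8704⟩ :=
  ckB_sound (b (d (c (b (d (a (c (b (d z0 (a z0 (b (d z0 z0) z0))) (d z0 z0)) z8) (c (b (d z1 z1) (d (a (c (b (d z1 z1) (d z1 z1)) z1) z0) (a (b (d z1 z1) (d z1 z1)) z0))) z9)) (a (b (d (a z0 (c (b (d z0 z0) z0) z0)) (a z0 (b (d z0 z0) z0))) (d z0 z0)) (b (d z1 z1) (d (a (c (b (d z1 z1) (d z1 z1)) z1) z0) (a (b (d z1 z1) (d z1 z1)) z0))))) (d (a (c (b (d z0 z0) (d z0 z0)) z8) (c (b (d (a (c (b (d (a z0 z1) (a z0 z1)) (d (a z0 z1) (a z0 z1))) (b z1 (d z1 (a z0 z1)))) z1) (a (b (d (a z0 z1) (a z0 z1)) (d (a z0 z1) (a z0 z1))) z1)) (d (a z0 z1) (a z0 z1))) (b z9 (d (a z8 z9) (a z8 z9))))) (a (b (d z0 z0) (d z0 z0)) (b (d (a (c (b (d (a z0 z1) (a z0 z1)) (d (a z0 z1) (a z0 z1))) z1) z1) (a (b (d (a z0 z1) (a z0 z1)) (d (a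 z0 z1) (a z0 z1))) z1)) (d (a z0 z1) (a z0 z1)))))) z8) (b (d (a (c (b (d (a z0 (c (b (d z0 z0) z0) z0)) (a z0 (b (d z0 z0) z0))) (d z0 z0)) z8) (c (b (d z1 z1) (d (a (c (b (d z1 z1) (d z1 z1)) z1) z0) (a (b (d z1 z1) (d z1 z1)) z0))) z9)) (a (b (d (a z0 (c (b (d z0 z0) z0) z0)) (a z0 (b (d z0 z0) z0))) (d z0 z0)) (b (d z1 z1) (d (a (c (b (d z1 z1) (d z1 z1)) z1) z0) (a (b (d z1 z1) (d z1 z1)) z0))))) (d (a (c (b (d z0 z0) (d z0 z0)) z8) (c (b (d (a (c (b (d (a z0 z1) (a z0 z1)) (d (a z0 z1) (a z0 z1))) z1) z1) (a (b (d (a z0 z1) (a z0 z1)) (d (a z0 z1) (a z0 z1))) z1)) (d (a z0 z1) (a z0 z1))) (b z9 (d (a z8 z9) (a z8 z9))))) (a (b (d z0 z0) (d z0 z0)) (b (d (a (c (b (d (a z0 z1) (a z0 z1)) (d (a z0 z1) (a z0 z1))) z1) z1) (a (b (d (a z0 z1) (a z0 z1)) (d (a z0 z1) (a z0 z1))) z1)) (d (a z0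 z1) (a z0 z1))))))) (d z8 (b (d (a (c (b (d z0 z0) (d z0 z0)) z8) (c (b (d (a z0 z1) (a z0 z1)) (d (a z0 z1) (a z0 z1))) (b (d (a z8 z9) (a z8 z9)) (d (a z8 z9) (a z8 z9))))) (a (b (d z0 z0) (d z0 z0)) (b (d (a z0 z1) (a z0 z1)) (d (a z0 z1) (a z0 z1))))) (d (a z0 (c (b (d z0 z0) z0) z8)) (a z0 (b (d z0 z0) z0)))))) _ _ (by decide +kernel)

theorem okB189 : CKB ⟨4097, 6145, 1536, 2048⟩ ⟨15360, 18432, 8192, 8704⟩ :=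
  ckB_sound z8 _ _ (by decide +kernel)

theorem okB190 : CKB ⟨4097, 5121, 1536, 2048⟩ ⟨12288, 18432, 8704, 9216⟩ :=
  ckB_sound (b (d (c (a (b (d (c (b (d (c (b z0 z0) z0) (b z0 z0)) (d z0 (a (b z0 z0) z0))) z8) (b (d (b z0 (d z0 z0)) (b z0 (d z0 z0))) (d (a (b z0 z0) z0) (a (b (d z0 z0) (d z0 z0)) (b (d z0 z0) z0))))) (d (c (a (b (d z0 z0) (d z0 z0)) (b (d z0 z0) (d z0 z0))) z8) (a (b (d z0 (b z0 z0)) (d z0 z0)) (b (d z0 z0) (d z0 z0))))) (b (d (c (b (d (a (c (b z0 z0) z0) z0) (a (b (d z0 z0) z0) z0)) (d z0 z0)) z8) (b (d (a (b (d z0 z0) (d z0 z0)) (b (d z0 z0) z0)) (a (b (d z0 z0) (d z0 z0)) (b (d z0 z0) z0))) (d z0 z0))) (d (c (b (d z0 z0) (d z0 z0)) z8) (b (d z0 z0) (d z0 z0))))) z8) (a (b (d (b (d z8 (b z0 (d z0 z0))) (d z8 (a (b (d z0 z0) (d z0 z0)) (b (d z0 z0) (d z0 z0))))) (b (d (b z0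 (d z0 z0)) z0) (d (a (b (d z0 z0) (d z0 z0)) (b (d z0 z0) (d z0 z0))) z0))) (d (a (b (d z8 (b (d z0 z0) (d z0 z0))) (d z8 z0)) (b (d z8 z0) (d z8 z0))) (a (b (d (b (d z0 z0) (d z0 z0)) z0) (d z0 z0)) (b (d (b (d z0 z0) z0) z0) (d z0 z0))))) (b (d (b (d z8 (a (b (d z0 z0) (d z0 z0)) (b (d z0 z0) (d z0 z0)))) (d z8 (a (b (d z0 z0) (d z0 z0)) (b (d z0 z0) z0)))) (b (d (a (b (d z0 z0) (d z0 z0)) (b (d z0 z0) (d z0 z0))) z0) (d (a (b (d z0 z0) (d z0 z0)) (b (d z0 z0) (d z0 z0))) z0))) (d (b (d z8 z0) (d z8 z0)) (b (d (a (b (d z0 z0) z0) z0) z0) (d z0 z0)))))) (d z8 (a (b (d (a (b (d z8 z0) (d z8 z0)) (b (d z8 z0) (d z8 z0))) (a (b (d z0 z0) (d z0 z0)) (b (d z0 z0) (d z0 z0)))) (d (a (b (d z8 z0) (d z8 z0)) (b (d z8 z0) (d z8 z0))) (a (b (d z0 z0) (d z0 z0)) (b (d z0 z0) (d z0 z0))))) (b (d (b (d z8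 z0) (d z8 z0)) (b (d z0 z0) (d z0 z0))) (d (b (d z8 z0) (d z8 z0)) (b (d z0 z0) (d z0 z0))))))) _ _ (by decide +kernel)

theorem okB191 : CKB ⟨5121, 6145, 1536, 2048⟩ ⟨12288, 18432, 8704, 9216⟩ :=
  ckB_sound (b (d z8 (b (d (a (b (d z8 (a (b (d z0 z0) (d z0 z0)) (b (d z0 z0) (d z0 z0)))) (d z8 z0)) (b (d z9 z1) (d z9 (a (b (d z1 z1) (d z1 z1)) z0)))) (a (b (d (a (b (d z0 z0) (d z0 z0)) (b (d z0 z0) (d z0 z0))) z0) (d (a (b (d z0 z0) z0) z0) z0)) (b (d z1 z0) (d (a (b (d z1 z0) (d z1 z0)) z0) z0)))) (d (a (b (d z8 z0) (d z8 z0)) (b (d z9 (a (b (d z1 z1) (d (c (a z0 z1) z9) (a z0 z1))) z1)) (d z9 (a z0 z1)))) (a (b (d z0 z0) (d z0 z0)) (b (d (a (b (d z1 z0) (d (a z0 z1) z0)) z1) z0) (d (a z0 z1) z0)))))) (d z8 (b (d (a (b (d z8 z0) (d z8 z0)) (b (d (a z8 z9) (a z0 z1)) (d (a z8 z9) (a z0 z1))))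 (a (b (d z0 z0) (d z0 z0)) (b (d (a z0 z1) z0) (d (a z0 z1) z0)))) (d (a (b (d z8 z0) (d z8 z0)) (b (d z8 z0) (d z8 z0))) (a (b (d z0 z0) (d z0 z0)) (b (d z0 z0) (d z0 z0))))))) _ _ (by decide +kernel)

theorem okB192 : CKB ⟨6145, 8193, 1024, 2048⟩ ⟨12288, 18432, 8192, 9216⟩ :=
  ckB_sound (b z0 (d z9 (b z0 (d z9 (a (b z1 (d z1 z1)) z0))))) _ _ (by decide +kernel)

theorem okB193 : CKB ⟨4097, 8193, 1024, 2048⟩ ⟨18432, 24576, 8192, 9216⟩ :=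
  ckB_sound (a (b (d (c (b z0 (d z12 (a (c z8 z12) (c z9 z13)))) z12) (c (b z0 (d (a (c (b z8 z8) (b (d z12 z8) (d z12 z8))) z9) (a (c (b (d (c (b z0 z8) z8) (c (b z0 (d z8 (b (d (c (b z0 (d z0 z0)) z8) (b z0 (d z0 z0))) (d (c (a (b (d z0 z0) (d z0 z0)) z0) z8) (a (b (d z0 z0) (d z0 z0)) z0))))) (b z0 z8))) (d z8 (a (c (b (d z8 (b z0 (d (c (b z0 z0) z8) (b z0 z0)))) (d z8 (a (b (d z0 z0) (d z0 z0)) (b (d z0 z0) (d z0 z0))))) z8) z8))) (b z8 z8)) (c (b (d z9 (a (c (b z0 (d z9 (a (b (d (c (a (b z0 z1) z0) z9) (a (b z0 z1) z0)) (d (c (a (b z1 (d z1 z1)) z0) z9) (a (b z1 (d z1 z1)) z0))) z0))) z9) z0)) (d (a (c (b z9 (d z9 (a z8 z9))) z9) z0) (a (c (b (d z9 (a (b (d (c (a (b (d z1 z1) (d z1 z1)) z1) z9) (a (b (d z1 z1) (d z1 z1)) z1)) (d (c (a z0 z1) z9) (a z0 z1))) z0)) (d (a z8 z9) (a (b (d (c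 (a z0 z1) z9) (a z0 z1)) (d z0 z0)) z1))) (b z9 (d z9 (a z8 z9)))) z0))) z9)))) (b z0 (d z12 (a (b (d z12 (c z8 z12)) (d z12 (c z8 z12))) (b (d z13 (c z9 z13)) (d z13 (c z9 z13)))))))) (d (c (a (b (d z12 (c z8 z12)) (d z12 (c z8 z12))) (b (d z12 (c z8 z12)) (d z12 (c z8 z12)))) z12) (c (a (b (d z8 (c (a (b z8 z8) z8) z8)) z8) z8) (a (b (d z12 (a (b (d z12 (c z8 z12)) (d z12 (c z8 z12))) (b (d z12 (c z8 z12)) (d z12 (c z8 z12))))) (d z12 (a (b (d z12 (c z8 z12)) (d z12 (c z8 z12))) z12))) z12)))) (b z0 (d z13 z9))) _ _ (by decide +kernel)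

theorem okB194 : CKB ⟨4097, 6145, 1024, 1280⟩ ⟨12288, 24576, 9216, 9728⟩ :=
  ckB_sound z0 _ _ (by decide +kernel)

end Vale.Agent.Lib.P154Q5
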