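import Vale.Agent.Lib.P154Q5.CkBDefs

namespace Vale.Agent.Lib.P154Q5

set_option maxRecDepth 100000
set_option exponentiation.threshold 1000

open Tr

theorem okB195 : CKB ⟨4097, 6145, 1280, 1536⟩ ⟨12288, 24576, 9216, 9472⟩ :=
  ckB_sound (c (a (b (d (c (b z0 (d z8 (c (b (d (c (b z0 (d z0 z0)) z8) (b z0 (d z0 z0))) (d (a (c (b (d z0 z0) (d z0 z0)) z8) (c (b (d z0 z0) z0) z8)) (a (b (d z0 z0) (d z0 z0)) (b (d z0 z0) z0)))) z8))) z8) (c (b z0 (d z8 (b (d (b z0 (d z0 z0)) (b z0 (d z0 z0))) (d (a (b (d z0 z0) (d z0 z0)) (b (d z0 z0) z0)) (a (b (d z0 z0) (d z0 z0)) (b (d z0 z0) z0)))))) (b z0 z8))) (d (c (a (b (d z8 (c (b z0 (d (c (b z0 z0) z8) (b z0 z0))) z8)) (d z8 (a (c (b (d (c (b z0 z0) z8) (b z0 z0)) (d (a (c (b z0 z0) z8) z0) (a (b z0 z0) z0))) z8) (c (b (d z0 z0) (d z0 z0)) z8)))) (b (d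 z8 (a (c (b (d (c (b (d z0 z0) (d z0 z0)) z8) (b (d z0 z0) (d z0 z0))) (d z0 z0)) z8) (c (b (d z0 z0) (d z0 z0)) z8))) (d z8 (a (c (b (d z0 z0) (d z0 z0)) z8) (c (b (d z0 z0) (d z0 z0)) z8))))) z8) (a (c (b (d z8 (b z0 (d (b (d z0 z0) (d z0 z0)) (b (d z0 z0) (d z0 z0))))) (d z8 (a (b (d (b z0 z0) (b z0 (d z0 z0))) (d (a (b z0 z0) z0) (a (b z0 z0) z0))) (b (d (a (b (d z0 z0) z0) z0) (a (b (d z0 z0) z0) z0)) (d z0 z0))))) (b z8 z8)) z8))) (b (d (c (a (b z0 (d z9 (c (a (b (d (c (a (b z0 z1) z0) z9) (a (b z0 z1) z0)) (d (c (a (b z1 (d z1 z1)) z0) z9) (a (b z1 (d z1 z1)) z0))) z0) z9))) z0) z9) (c (a (b z0 (d z9 (a (b (d (a (b z0 z1) z0) (a (b z0 z1) z0)) (d (a (b z1 (d z1 z1)) z0) (a (b z1 (d z1 z0)) z0))) z0))) z0) z9)) (d (c (a (b (d z9 (c (a (b (d (c (a (b (d z1 z1) (d z1 z1)) z1) z9) (a (b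 (d z1 z1) (d z1 z1)) z1)) (d (c (a z0 z1) z9) (a z0 z1))) z0) z9)) (d (c (a (b (d z9 (c (a z0 z1) z9)) (d z8 z0)) z1) z9) (c (a (b (d (c (a z0 z1) z9) (a z0 z1)) (d z0 z0)) z1) z9))) z0) z9) (c (a (b (d z9 (a (b (d (a (b (d z1 z1) (d z1 z1)) z1) (a (b (d z1 z0) (d z1 z0)) z1)) (d (a z0 z1) (a z0 z1))) z0)) (d (c (a (b (d (c (a z0 z1) z9) (a z0 z1)) (d z0 z0)) z1) z9) (a (b (d (a z0 z1) (a z0 z1)) (d z0 z0)) z1))) z0) z9)))) (a (b z8 z8) z9)) _ _ (by decide +kernel)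

theorem okB196 : CKB ⟨4097, 5473, 1280, 1536⟩ ⟨12288, 24576, 9472, 9728⟩ :=
  ckB_sound (c (b (d (c (b z0 (d z8 (b (d (b z0 (d z0 z0)) (b z0 (d z0 z0))) (d (a (b (d z0 z0) (d z0 z0)) (b (d z0 z0) z0)) (a (b (d z0 z0) (d z0 z0)) (b (d z0 z0) z0)))))) (b z0 z8)) (b z0 (d (b (d z8 (c (b z0 (d z0 z0)) z8)) (d z8 (a (c (b (d z0 z0) (d z0 z0)) z8) (c (b (d z0 z0) z0) z8)))) (b (d (b z0 (d z0 z0)) z0) (d (a (b (d z0 z0) (d z0 z0)) (b (d z0 z0) z0)) z0))))) (d (a (c (b (d z8 (b z0 (d (b (d z0 z0) (d z0 z0)) (b (d z0 z0) (d z0 z0))))) (d z8 (a (b (d (b z0 (d z0 z0)) (b z0 (d z0 z0))) (d (a (b (d z0 z0) (d z0 z0)) z0) (a (b (d z0 z0) (d z0 z0)) (b (d z0 z0) z0)))) (b (d (a (b (d z0 z0) z0) z0) (a (b (d z0 z0) z0) z0)) (d z0 z0))))) (b z8 z8)) z8) (a (b (d (b z0 (d z8 (c (b (d z0 z0) (d z0 z0)) z8)))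 (b z0 (d (b (d z0 z0) (d z0 z0)) z0))) (d (a (b (d z8 (c (b z0 (d z0 z0)) z8)) (d z8 (a (c (b (d z0 z0) (d z0 z0)) z8) (c (b (d z0 z0) z0) z8)))) (b (d z8 (a (c (b (d z0 z0) (d z0 z0)) z8) z0)) (d z8 z0))) (a (b (d (b z0 (d z0 z0)) z0) (d (a (b (d z0 z0) (d z0 z0)) (b (d z0 z0) z0)) z0)) (b (d (a (b (d z0 z0) (d z0 z0)) z0) z0) (d z0 z0))))) (b (d (a (b (d z8 (c (b (d z0 z0) (d z0 z0)) z8)) (d z8 (a (c (b (d z0 z0) z0) z8) z0))) (b (d z8 z0) (d z8 z0))) (a (b (d (b (d z0 z0) (d z0 z0)) z0) (d (a (b (d z0 z0) z0) z0) z0)) (b (d z0 z0) (d z0 z0)))) (d (a (b (d z8 z0) (d z8 z0)) (b (d z8 z0) (d z8 z0))) (a (b (d z0 z0) (d z0 z0)) (b (d z0 z0) (d z0 z0)))))))) (b (d z8 (c (b z0 z8) z8)) (d z8 (a (c (b z8 z8) z8) z8)))) _ _ (by decide +kernel)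

theorem okB197 : CKB ⟨5473, 6145, 1280, 1536⟩ ⟨12288, 24576, 9472, 9728⟩ :=
  ckB_sound (c (b (d (a (c (b z0 (d z9 (a (b (d (a (b z0 z1) z0) (a (b z0 z1) z0)) (d (a (b z1 (d z1 z1)) z0) (a (b z1 (d z1 z0)) z0))) z0))) z9) z0) (a (b z0 (d (a (b (d z9 (a (c (b z0 (d z1 z1)) z9) z0)) (d z9 (a (c (b z1 (d z1 z1)) z9) z0))) z0) (a (b (d (a (b z0 (d z1 z1)) z0) z0) (d (a (b z1 (d z1 z1)) z0) z0)) z0))) z0)) (d (a (c (b (d z9 (a (b (d (a (b (d z1 z1) (d z1 z1)) z1) (a (b (d z1 z0) (d z1 z0)) z1)) (d (a z0 z1) (a z0 z1))) z0)) (d (a z8 z9) (a (b (d (a z0 z1) (a z0 z1)) (d z0 z0)) z1))) z9) z0) (a (b (d (a (b (d z9 (a (c (b (d z1 z1) (d z1 z1)) z9) z1)) (d z9 (a z0 z1))) z0) (a (b (d (a (b (d z1 z1) (d z1 z1)) z1) z0) (d (a z0 z1) z0)) z0)) (d (a (b (d z9 (a z0 z1)) (d z8 z0)) z1) (a (b (d (a z0 z1)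 z0) (d z0 z0)) z1))) z0))) z9) _ _ (by decide +kernel)

theorem okB198 : CKB ⟨4097, 6145, 1024, 1536⟩ ⟨12288, 24576, 9728, 10240⟩ :=
  ckB_sound (b z0 (d (a (b (d (b z0 (d z8 z8)) (b z0 (d (b (d (b z0 (d z0 z0)) (b z0 (d z0 z0))) (d (a (b (d z0 z0) (d z0 z0)) (b (d z0 z0) (d z0 z0))) (a (b (d z0 z0) (d z0 z0)) (b (d z0 z0) (d z0 z0))))) z0))) (d (a (b (d z8 z8) (d z8 z8)) (b (d z8 z8) z8)) (a (b (d (b z0 (d (b (d z0 z0) (d z0 z0)) (b (d z0 z0) (d z0 z0)))) z0) (d (a (b (d (b z0 (d z0 z0)) (b z0 (d z0 z0))) (d (a (b (d z0 z0) (d z0 z0)) (b (d z0 z0) (d z0 z0))) (a (b (d z0 z0) (d z0 z0)) (b (d z0 z0) (d z0 z0))))) (b (d (a (b (d z0 z0) (d z0 z0)) (b (d z0 z0) z0)) (a (b (d z0 z0) (d z0 z0)) (b (d z0 z0) (d z0 z0)))) (d (a (b (d z0 z0) z0) z0) (a (b (d z0 z0) z0) z0)))) z0)) (b (d (a (b (d (b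 (d z0 z0) (d z0 z0)) (b (d z0 z0) (d z0 z0))) (d (a (b (d z0 z0) (d z0 z0)) (b (d z0 z0) z0)) (a (b (d z0 z0) (d z0 z0)) (b (d z0 z0) z0)))) (b (d (a (b (d z0 z0) z0) z0) (a (b (d z0 z0) z0) z0)) (d z0 z0))) z0) (d (a (b (d z0 z0) (d z0 z0)) (b (d z0 z0) (d z0 z0))) z0))))) (b (d (a (b z0 z9) z0) (a (b z0 (d (a (b (d (a (b z0 (d z1 z1)) z0) (a (b z0 (d z1 z0)) z0)) (d (a (b (d z1 z1) (d z1 z1)) z0) (a (b (d z1 z0) (d z1 z0)) z0))) z0) z0)) z0)) (d (a (b (d z9 z9) (d z9 z9)) z0) (a (b (d (a (b (d (a (b (d z1 z1) (d z1 z1)) z1) (a (b (d z1 z0) (d z1 z0)) z1)) (d (a z0 z1) (a z0 z1))) z0) z0) (d (a (b (d (a z0 z1) (a z0 z1)) (d z0 z0)) z1) z0)) z0)))) z0)) _ _ (by decide +kernel)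

theorem okB199 : CKB ⟨4097, 5121, 1536, 2048⟩ ⟨12288, 24576, 9216, 9728⟩ :=
  ckB_sound (b (d (c (a (b (d (c (b (d z8 (c (b z0 (d z0 z0)) z8)) (d z8 (c (a (b (d z0 z0) (d z0 z0)) (b (d z0 z0) (d z0 z0))) z8))) z8) (c (b (d z8 (b z0 (d (b z0 z0) (b z0 z0)))) (d z8 (a (b (d z0 (b z0 z0)) (d z0 z0)) (b (d z0 z0) (d z0 z0))))) z8)) (d z8 z8)) (b (d z8 z8) z8)) (a (b z8 z8) z8)) (c (a (b (d (c (b (d z8 (b z0 (d (b z0 z0) (b z0 (d z0 z0))))) (d z8 (a (b (d (b z0 z0) (b z0 z0)) (d (a (b z0 z0) z0) (a (b z0 z0) z0))) (b (d (a (b z0 z0) z0) (a (b (d z0 z0) z0) z0)) (d z0 z0))))) z8) (b (d (b z0 (d z8 (c (b z0 (d z0 z0)) z8))) (b z0 (d (b z0 (d z0 z0)) z0))) (d (a (b (d z8 (c (b z0 (d z0 z0)) z8)) (d z8 (a (c (b (d z0 z0) (d z0 z0)) z8) z0))) (b (d z8 (a (c (b (d z0 z0) z0) z8) z0)) (d z8 z0))) (a (b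 (d (b z0 (d z0 z0)) z0) (d (a (b (d z0 z0) (d z0 z0)) (b (d z0 z0) z0)) z0)) (b (d (a (b (d z0 z0) z0) z0) z0) (d z0 z0)))))) (d z8 (a (b (d (b (d z8 (a (c (b z0 z0) z8) z0)) (d z8 (a (c (b z0 z0) z8) z0))) (b (d (a (b (d z0 z0) z0) z0) z0) (d (a (b z0 z0) z0) z0))) (d (a (b (d z8 z0) (d z8 z0)) (b (d z8 z0) (d z8 z0))) (a (b (d z0 z0) (d z0 z0)) (b (d z0 z0) (d z0 z0))))) (b (d (b (d z8 z0) (d z8 z0)) (b (d z0 z0) (d z0 z0))) (d (b (d z8 z0) (d z8 z0)) (b (d z0 z0) (d z0 z0))))))) (b (d z8 (b (d (a (b (d z8 (a (c (b (d z0 z0) (d z0 z0)) z8) (c (b (d z0 z0) z0) z8))) (d z8 (a (c (b (d z0 z0) z0) z8) z0))) (b (d z8 z0) (d z8 z0))) (a (b (d (a (b (d z0 z0) (d z0 z0)) (b (d z0 z0) z0)) z0) (d (a (b (d z0 z0) z0) z0) z0)) (b (d z0 z0) (d z0 z0)))) (d (a (b (d z8 z0) (d z8 z0)) (b (d z8 z0) (d z8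 z0))) (a (b (d z0 z0) (d z0 z0)) (b (d z0 z0) (d z0 z0)))))) (d z8 (b (d (a (b (d z8 z0) (d z8 z0)) (b (d z8 z0) (d z8 z0))) (a (b (d z0 z0) (d z0 z0)) (b (d z0 z0) (d z0 z0)))) (d (a (b (d z8 z0) (d z8 z0)) (b (d z8 z0) (d z8 z0))) (a (b (d z0 z0) (d z0 z0)) (b (d z0 z0) (d z0 z0)))))))) (a (b (d z8 (c (b z8 z8) z8)) z8) z8))) (d z8 z8)) _ _ (by decide +kernel)

theorem okB200 : CKB ⟨5121, 6145, 1536, 2048⟩ ⟨12288, 24576, 9216, 9728⟩ :=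
  ckB_sound (b (d (c (b (d z8 z8) z8) z8) (c (b (d z8 (a (b (d (a (b (d z8 z0) (d z8 z0)) (b (d z8 z0) (d z8 z0))) (a (b (d z0 z0) (d z0 z0)) (b (d z0 z0) (d z0 z0)))) (d (a (b (d z8 z0) (d z8 z0)) (b (d z8 z0) (d z8 z0))) (a (b (d z0 z0) (d z0 z0)) (b (d z0 z0) (d z0 z0))))) (b (d (a (b z1 (d z9 z1)) z0) (a (b z1 (d z1 z0)) z0)) (d (a (b (d z9 z1) (d z9 z1)) z0) (a (b (d z1 z0) (d z1 z0)) z0))))) (d z8 (a (b (d (a (b (d z8 z0) (d z8 z0)) (b (d z8 z0) z0)) (a (b (d z0 z0) (d z0 z0)) (b (d z0 z0) z0))) (d (a (b (d z8 z0) z0) z0) (a (b (d z0 z0) z0) z0))) (b (d (a (b (d z9 z1) (d z9 z1)) z1) (a (b (d z1 z0) (d z1 z0)) z1)) (d (a z0 z1) (a z0 z1)))))) z8)) (d z8 z8)) _ _ (by decide +kernel)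

theorem okB201 : CKB ⟨4097, 5121, 1536, 2048⟩ ⟨12288, 24576, 9728, 10240⟩ :=
  ckB_sound (b (d (a (b (d (b (d z8 z8) (d z8 z8)) (b (d (b z0 (d (b z0 (d z0 z0)) (b z0 (d z0 z0)))) z0) (d (a (b (d (b z0 (d z0 z0)) (b z0 (d z0 z0))) (d (a (b (d z0 z0) (d z0 z0)) (b (d z0 z0) z0)) (a (b (d z0 z0) (d z0 z0)) (b (d z0 z0) (d z0 z0))))) (b (d (a (b (d z0 z0) (d z0 z0)) (b (d z0 z0) z0)) (a (b (d z0 z0) (d z0 z0)) (b (d z0 z0) (d z0 z0)))) (d z0 (a (b (d z0 z0) z0) z0)))) z0))) (d z8 (a (b (d (b (d (a (b (d z0 z0) (d z0 z0)) (b (d z0 z0) z0)) (a (b (d z0 z0) (d z0 z0)) (b (d z0 z0) z0))) (d (a (b (d z0 z0) (d z0 z0)) z0) (a (b (d z0 z0) (d z0 z0)) z0))) z0) (d (a (b (d z0 z0) (d z0 z0)) (b (d z0 z0) (d z0 z0))) z0)) (b (d (b (d z0 z0) (d z0 z0)) z0) (d (b (d z0 z0) (d z0 z0)) z0))))) (b (d (b (d z8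 z8) z8) (b (d (a (b (d (a (b (d z0 z0) (d z0 z0)) (b (d z0 z0) (d z0 z0))) (a (b (d z0 z0) (d z0 z0)) (b (d z0 z0) (d z0 z0)))) (d (a (b (d z0 z0) (d z0 z0)) z0) (a (b (d z0 z0) (d z0 z0)) (b (d z0 z0) z0)))) (b (d z0 (a (b (d z0 z0) z0) z0)) (d z0 z0))) z0) (d (a (b (d z0 (a (b (d z0 z0) z0) z0)) (d z0 z0)) (b (d z0 z0) (d z0 z0))) z0))) (d z8 (b (d (a (b (d z0 z0) (d z0 z0)) (b (d z0 z0) (d z0 z0))) z0) (d (a (b (d z0 z0) (d z0 z0)) (b (d z0 z0) (d z0 z0))) z0))))) z0) (d (a (b (d z8 (a (b (d (a (b (d z0 z0) (d z0 z0)) (b (d z0 z0) (d z0 z0))) z0) (d (a (b (d z0 z0) (d z0 z0)) (b (d z0 z0) (d z0 z0))) z0)) (b (d (b (d z0 z0) (d z0 z0)) z0) (d (b (d z0 z0) (d z0 z0)) z0)))) (d z8 (a (b (d (a (b (d z0 z0) (d z0 z0)) (b (d z0 z0) (d z0 z0))) z0) (d (a (b (d z0 z0) (d z0 z0)) (b (d z0 z0) (d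 z0 z0))) z0)) (b (d (b (d z0 z0) (d z0 z0)) z0) (d (b (d z0 z0) z0) z0))))) (b (d z8 (b (d (a (b (d z0 z0) (d z0 z0)) (b (d z0 z0) (d z0 z0))) z0) (d (a (b (d z0 z0) (d z0 z0)) (b (d z0 z0) z0)) z0))) (d z8 (b (d (a (b (d z0 z0) z0) z0) z0) (d z0 z0))))) z0)) _ _ (by decide +kernel)

theorem okB202 : CKB ⟨5121, 6145, 1536, 2048⟩ ⟨12288, 24576, 9728, 10240⟩ :=
  ckB_sound (b (d (b (d z8 (a (b (d (a (b (d z0 z0) (d z0 z0)) (b (d z0 z0) (d z0 z0))) z0) (d (a (b (d z0 z0) (d z0 z0)) (b (d z0 z0) (d z0 z0))) z0)) (b (d (a (b z1 (d z1 z1)) z0) z0) (d (a (b (d z1 z1) (d z1 z1)) z0) z0)))) (d z8 (a (b (d (a (b (d z0 z0) (d z0 z0)) (b (d z0 z0) (d z0 z0))) z0) (d (a (b (d z0 z0) (d z0 z0)) z0) z0)) (b (d (a (b (d z1 z1) (d z1 z1)) z1) z0) (d (a z0 z1) z0))))) z0) (d (b (d z8 (a (b (d z0 z0) (d z0 z0))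 (b (d (a z0 z1) z0) (d (a z0 z1) z0)))) (d z8 (a (b (d z0 z0) (d z0 z0)) (b (d z0 z0) (d z0 z0))))) z0)) _ _ (by decide +kernel)

theorem okB203 : CKB ⟨6145, 8193, 1024, 2048⟩ ⟨12288, 24576, 9216, 10240⟩ :=
  ckB_sound (b z0 (d z9 (b z0 (d (a (b (d z9 z1) (d z9 z1)) z0) z0)))) _ _ (by decide +kernel)

theorem okB204 : CKB ⟨4097, 8193, 0, 2048⟩ ⟨12288, 24576, 10240, 12288⟩ :=
  ckB_sound z0 _ _ (by decide +kernel)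

theorem okB205 : CKB ⟨4097, 8193, 2048, 3072⟩ ⟨12288, 18432, 8192, 9216⟩ :=
  ckB_sound (a (b (d z8 (a (b (d z8 (a (b (d (a (b (d z8 z0) (d z8 z0)) (b (d z8 z0) (d z8 z0))) (a (b (d z0 z0) (d z0 z0)) (b (d z0 z0) (d z0 z0)))) (d (a (b (d z8 z0) z0) z0) (a (b (d z0 z0) (d z0 z0)) (b (d z0 z0) (d z0 z0))))) (b (d (b (d z8 z0) (d z8 z0)) (b (d z0 z0) (d z0 z0))) (d z0 (b (d z0 z0) z0))))) (d z8 (a (b (d z0 z0) (d z0 z0)) (b (d z0 z0) (d z0 z0))))) (b (d z8 (b (d (a (b (d z8 z0) z0) z0) (a (b (d z0 z0) (d z0 z0)) (b (d z0 z0) z0))) (d z0 z0))) (d z8 (b (d z0 z0) (d z0 z0)))))) (d z8 (a (b (d z8 (a (b (d z0 z0) (d z0 z0)) (b (d z0 z0) (d z0 z0)))) (d z8 (a (b (d z0 z0) (d z0 z0)) (b (d z0 z0) (d z0 z0))))) (b (d z8 (b (d z0 z0) (d z0 z0))) (d z8 (b (d z0 z0) (d z0 z0))))))) (b (d (c (b (d z9 (a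 (b (d z1 z1) (d (a (c (b z1 (d z1 z1)) z9) z1) (a (b z1 (d z1 z1)) z1))) z0)) (d (a (c (b (d (a (c (b (d z1 z1) (d (a z0 z1) (a z0 z1))) z9) z1) (a (b (d z1 z1) (d (a z0 z1) (a z0 z1))) z1)) (d (a z0 z1) (a z0 z1))) z9) z9) (a (b (d (a (c (b (d z1 z1) (d (a z0 z1) (a z0 z1))) z9) z1) (a (b (d z1 z1) (d z1 z1)) z1)) (d (a z0 z1) (a z0 z1))) z1))) z9) (b (d z9 (a (b (d z1 z1) (d (a (b z1 (d z9 z1)) z1) (a (b z1 (d z1 z0)) z1))) z0)) (d z9 (a (b (d (a (b (d z9 z1) (d z9 z1)) z1) (a (b (d z1 z0) (d z1 z0)) z1)) (d (a z0 z1) (a z0 z1))) z1)))) (d (c (b (d (a (c (b (d (a z0 z1) (a z0 z1)) (d z0 z0)) (b (d (a z8 z9) (a z8 z9)) z8)) z9) (a (b (d (a z0 z1) (a z0 z1)) (d z0 z0)) z1)) (d (a z8 z9) (a (b (d z0 z0) z0) z1))) (b (d (a (c (b (d z9 (a z8 z9)) z8) (b z9 z8)) z9) (a (c (b (d (a z8 z9) (a z8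 z9)) z8) (b z9 z8)) z9)) (d (a z8 z9) (a z8 z9)))) (b (d (a (c (b (d (a z0 z1) (a z0 z1)) (d z0 z0)) (b z9 z8)) z9) (a (b (d (a z0 z1) (a z0 z1)) (d z0 z0)) z1)) (d (a z8 z9) (a (b (d z0 z0) (d z0 z0)) z1)))))) _ _ (by decide +kernel)

theorem okB206 : CKB ⟨4097, 8193, 2048, 3072⟩ ⟨18432, 24576, 8192, 9216⟩ :=
  ckB_sound (a (b (d (c (a (b (d z12 (c z8 z12)) (d z12 (c z8 z12))) (b (d z12 (c z8 z12)) (d z12 (c z8 z12)))) z12) z8) (d (c (a (b (d z12 (c z8 z12)) (d z12 (c z8 z12))) z12) z12) z8)) (b (d (c (b (d z13 (a (c z9 z13) z0)) (d z13 (a (c z9 z13) z13))) z13) z9) (d (c (b (d (a (c (b (d z13 (a z12 z13)) z12) z13) z13) (a (c z9 z13) z13)) (d (a z12 z13) (a z12 z13))) z13) (c (b (d (a (c (b z9 z8) (b (d (a z12 z13) z9) z12)) z9) (a (c (b z9 z8) z9) z9)) (d (a z8 z9) (a z8 z9))) (b (d z13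 (a (b (d z13 (c z9 z13)) z12) z13)) (d (a z12 z13) (a z12 z13))))))) _ _ (by decide +kernel)

theorem okB207 : CKB ⟨4097, 8193, 2048, 3072⟩ ⟨12288, 24576, 9216, 10240⟩ :=
  ckB_sound (a (b (d z8 (a (b (d (a (b (d z8 (a (b (d (a (b (d z0 z0) z0) z0) z0) (d z0 z0)) (b (d z0 z0) (d z0 z0)))) (d z8 (a (b (d z0 z0) (d z0 z0)) (b (d z0 z0) (d z0 z0))))) (b (d z8 (b (d z0 z0) (d z0 z0))) (d z8 (b (d z0 z0) (d z0 z0))))) z0) (d (a (b (d z8 (a (b (d z0 z0) (d z0 z0)) (b (d z0 z0) (d z0 z0)))) (d z8 (a (b (d z0 z0) (d z0 z0)) (b (d z0 z0) (d z0 z0))))) (b (d z8 (b (d z0 z0) (d z0 z0))) (d z8 (b (d z0 z0) (d z0 z0))))) z0)) (b (d (b (d z8 (a (b (d z0 z0) (d z0 z0)) (b (d z0 z0) (d z0 z0)))) (d z8 (a (b (d z0 z0) (d z0 z0)) (b (d z0 z0) (d z0 z0))))) z0) (d (b (d z8 (a (b (d z0 z0) (d z0 z0)) (b (d z0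 z0) z0))) (d z8 (a (b (d z0 z0) (d z0 z0)) z0))) z0)))) (d z8 (a (b (d (a (b (d z8 (a (b (d z0 z0) (d z0 z0)) (b (d z0 z0) (d z0 z0)))) (d z8 (a (b (d z0 z0) (d z0 z0)) (b (d z0 z0) z0)))) (b (d z8 (b (d z0 z0) (d z0 z0))) (d z8 z0))) z0) (d (a (b (d z8 z0) (d z8 z0)) (b (d z8 z0) (d z8 z0))) z0)) (b (d (b (d z8 z0) (d z8 z0)) z0) (d (b (d z8 z0) (d z8 z0)) z0))))) (b (d (b z9 (d z9 z9)) (b (d (a (b (d z9 z1) (d z9 (a (b (d z1 z0) (d z1 z0)) z1))) z0) z0) (d (a (b (d z9 (a (b (d z1 z0) (d z1 z0)) z1)) (d z9 (a z0 z1))) z1) z0))) (d (b (d (c (a (b (d z9 z9) z8) z9) z9) (a (c (b (d z9 (a z0 z1)) (d z8 z0)) z9) z9)) (d (c (a z8 z9) (a z8 z9)) (a z8 z9))) (b (d (a (b (d z9 (a z0 z1)) (d z8 z0)) z1) z0) (d (a (b (d z8 z0) (d z8 z0)) z1) z0))))) _ _ (by decide +kernel)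

theorem okB208 : CKB ⟨4097, 8193, 3072, 4096⟩ ⟨12288, 24576, 8192, 10240⟩ :=
  ckB_sound (d (c (a (b (d z8 (a (b (d z8 (a (b (d z0 z0) (d z0 z0)) (b (d z0 z0) (d z0 z0)))) (d z8 (a (b (d z0 z0) (d z0 z0)) (b (d z0 z0) (d z0 z0))))) (b (d z8 (b (d z0 z0) (d z0 z0))) (d z8 (b (d z0 z0) z0))))) (d z8 (a (b (d z8 (a (b (d z0 z0) z0) z0)) (d z8 z0)) (b (d z8 z0) (d z8 z0))))) (b (d z8 (b (d z8 (a (b (d z0 z0) z0) (b z1 (d z1 z1)))) (d z8 z0))) (d z8 (b (d z8 z0) (d z8 z0))))) (a (b (d z12 (c z8 z12)) (d z12 (c z8 z12))) (b (d z12 z8) (d z12 z8)))) (a (b (d z8 (a (b (d (a (b (d z8 z0) (d z8 z0)) (b (d z8 z0) (d z8 z0))) z0) (d (a (b (d z8 z0) (d z8 z0)) (b (d z8 z0) (d z8 z0))) z0)) (b (d (b (d z8 z0) (d z8 z0)) z0) (d (b (d z8 z0) (d z8 z0)) z0)))) (d z8 (a (b (d (a (b (d z8 z0) (d z8 z0)) (b (d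 z8 z0) (d z8 z0))) z0) (d (a (b (d z8 z0) (d z8 z0)) (b (d z8 z0) (d z8 z0))) z0)) (b (d (b (d z8 z0) (d z8 z0)) z0) (d (b (d z8 z0) (d z8 z0)) z0))))) (b (d z8 (b (d (a (b (d z8 z0) (d z8 z0)) (b z1 (d z9 z1))) z0) (d (a (b (d z8 z0) (d z8 z0)) (b (d z9 z1) (d z9 z1))) z0))) (d z8 (b (d (a (b (d z8 z0) (d z8 z0)) z0) z0) (d z0 z0)))))) _ _ (by decide +kernel)

theorem okB209 : CKB ⟨4097, 8193, 2048, 4096⟩ ⟨12288, 24576, 10240, 12288⟩ :=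
  ckB_sound z0 _ _ (by decide +kernel)

end Vale.Agent.Lib.P154Q5
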