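import Vale.Agent.Lib.P154Q5.CkBDefs

namespace Vale.Agent.Lib.P154Q5

set_option maxRecDepth 100000
set_option exponentiation.threshold 1000

open Tr

theorem okB210 : CKB ⟨8193, 49152, 0, 4096⟩ ⟨12288, 24576, 4096, 12288⟩ :=
  ckB_sound (d (b z0 (d (b (d (a (b z0 (d (c (a z13 z0) (a z13 z0)) (c (a z13 z0) z13))) z0) (a (b z0 (d (c z13 z13) (c z13 z13))) z0)) (d (a (b (d (a z13 (c (b z0 (d (c (a z13 z0) (a z13 z0)) z13)) z13)) (c (a z13 (b z0 z13)) z13)) (d (a z13 (c z13 z13)) z13)) (b z0 (d (c (a (b z0 (d (c (a z13 (b (d (c (b z0 (d z5 z13)) (b z0 (d (a z5 z0) z13))) (c z13 z13)) z13)) (a z13 (b (d (c (b z0 (d (a z5 z0) z13)) (b z0 z13)) z13) z13))) (c z13 z13))) (b z0 (d (c (b z0 (d (a (c (b z0 (d z5 z13)) z13) (c (b z0 z5) z13)) z13)) (b z0 (d (a z13 z13) z13))) (c z13 z13)))) (a (b z0 z13) (b z0 z13))) (c (a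 (b z0 z13) (b z0 z13)) (a z13 z13))))) (a (b (d (c z13 z13) z13) z13) (b z0 (d (c z13 z13) (c z13 z13)))))) (b (d (c (a (b z0 z13) z0) (a z13 z0)) (c (a z9 z0) (a z13 z0))) (d (a (c (b z13 (d (a (c (b z13 (d z13 (a (c (b z13 (d z13 (a (c z9 z13) z13))) z13) z13))) z13) z13) (a (c z9 z13) z13))) z13) (c (b z0 z13) (b z0 z13))) (c (a (b z9 (d (c z9 z13) z9)) (b z0 z9)) (a z13 (b z0 z13))))))) (b z0 (d (b (d (c (a (b z0 z1) z0) (a z13 z0)) (a (b z0 z1) z0)) (d (c (a (b z1 (d z9 (a (b z1 (d z9 z1)) z1))) (b z0 (d z9 (a z1 (b z0 (d z9 z1)))))) (a (b z13 (d z13 z9)) (b z0 z13))) (a (b (d z9 z1) (d z9 (a (b (d z1 z0) (d z1 z0)) z1))) (b z0 (d (a z9 (b z0 z9)) (a z1 (b z0 (d (b z0 z1) z0)))))))) z0))) _ _ (by decide +kernel)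

theorem okB211 : CKB ⟨0, 8193, 0, 4096⟩ ⟨24576, 49152, 4096, 8192⟩ :=
  ckB_sound (a (b z12 (d z0 z12)) z12) _ _ (by decide +kernel)

theorem okB212 : CKB ⟨0, 4097, 0, 2048⟩ ⟨24576, 49152, 8192, 10240⟩ :=
  ckB_sound (b z0 (d z12 (b z0 (d (b (d z12 (c (b z0 (d z12 (c (b z0 (d z12 z8)) z12))) z12)) (d z12 (c (a (b (d z12 (c (b z0 (d z12 z8)) z12)) (d z12 (c (a (b (d z12 z8) (d z12 z8)) (b (d z12 z8) (d z12 z8))) z12))) (b (d z12 (c (a (b (d z12 z8) (d z12 z8)) (b (d z12 z8) (d z12 z8))) z12)) (d z12 (c (a (b (d z12 z8) z12) z12) z12)))) z12))) (c (b (d (c (b z0 (d z8 (c (b z0 z8) z8))) (b z0 (d z12 (c (b z0 z12) z12)))) (b z0 (d (c (b z0 z8) (b z0 (d z12 z8))) (c (b z0 (d z8 (b (d z8 (b (d z0 z0) (d z0 z0))) (d z8 (a (b (d z0 z0) (d z0 z0)) z0))))) z8)))) (d (a (c (b (d z8 (c (b z0 z8) z8)) z8) (b (d z12 (c (b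 z0 z12) z12)) (d z12 (a (c (b z12 z12) z12) z12)))) (c z8 (b (d z12 (a (c (b z12 z12) z12) z12)) z12))) (a (b (d (c (b z0 z8) (b z0 (d z12 z8))) (c (b z0 (d z8 (b (d z8 (b z0 z0)) (d z8 z0)))) z8)) (d z8 z8)) (b (d (c (a (b z8 z8) z8) (a (b (d z12 z8) (d z12 z8)) (b (d z12 z8) (d z12 z8)))) (c (a (b (d z8 (b (d z8 (b (d z0 z0) z0)) (d z8 (a (b z0 z0) z0)))) (d z8 (a (b (d z8 z0) (d z8 z0)) (b (d z8 z0) (d z8 z0))))) (b (d z8 (a (b (d z8 z0) (d z8 z0)) (b (d z8 z0) (d z8 z0)))) (d z8 (a (b (d z8 z0) (d z8 z0)) (b (d z8 z0) (d z8 z0)))))) z8)) z8)))) (b (d z12 (c (b z0 z12) z12)) (d z12 (a (c (b z12 z12) z12) z12)))))))) _ _ (by decide +kernel)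

theorem okB213 : CKB ⟨0, 4097, 0, 1024⟩ ⟨24576, 49152, 10240, 12288⟩ :=
  ckB_sound z0 _ _ (by decide +kernel)

theorem okB214 : CKB ⟨0, 4097, 1024, 1536⟩ ⟨24576, 49152, 10240, 11264⟩ :=
  ckB_sound z0 _ _ (by decide +kernel)

theorem okB215 : CKB ⟨0, 4097, 1536, 2048⟩ ⟨24576, 31698, 10240, 10752⟩ :=
  ckB_sound (b (d (c (b z0 (d (c (b z0 (d z8 (b (d z8 (b (d z0 z0) (d z0 z0))) (d z8 (a (b z0 z0) z0))))) z8) (b z0 (d z8 (b (d (b z0 z0) z0) (d (a (b z0 z0) z0) z0)))))) (b z0 (d z12 (b z0 (d z12 z8))))) (b z0 (d (b z0 z8) (b z0 (d (b (d z8 z0) (d z8 z0)) z0))))) (d (a (c (b (d (c (b z0 (d z8 (b (d z8 z0) (d z8 z0)))) z8) (b z0 (d z8 (b (d z0 z0) (d z0 z0))))) (d z8 (a (b (d z8 (b z0 (d z0 z0))) (d z8 (a (b (d z0 z0) (d z0 z0)) (b (d z0 z0) (d z0 z0))))) (b (d z8 (a (b (d z0 z0) (d z0 z0)) (b (d z0 z0) (d z0 z0))))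 (d z8 (a (b (d z0 z0) (d z0 z0)) (b (d z0 z0) (d z0 z0)))))))) (b (d z12 (b z0 (d z12 z8))) (d z12 (a (b (d z12 z8) (d z12 z8)) (b (d z12 z8) z12))))) (c (b (d z8 (a (b (d z8 (b (d z0 z0) (d z0 z0))) (d z8 (a (b (d z0 z0) (d z0 z0)) (b (d z0 z0) (d z0 z0))))) (b (d z8 (a (b (d z0 z0) (d z0 z0)) (b (d z0 z0) (d z0 z0)))) (d z8 (a (b (d z0 z0) (d z0 z0)) (b (d z0 z0) (d z0 z0))))))) (d z8 (a (b (d z8 (a (b (d z0 z0) (d z0 z0)) (b (d z0 z0) (d z0 z0)))) (d z8 (a (b (d z0 z0) (d z0 z0)) (b (d z0 z0) (d z0 z0))))) (b (d z8 (a (b (d z0 z0) (d z0 z0)) (b (d z0 z0) (d z0 z0)))) (d z8 (a (b (d z0 z0) (d z0 z0)) (b (d z0 z0) (d z0 z0)))))))) (b (d z12 (a (b (d z12 z8) (d z12 z8)) (b (d z12 z8) (d z12 z8)))) z12))) (a (b (d z8 (b z0 (d (b (d z8 z0) (d z8 z0)) z0))) (d z8 (a (b (d (b z0 (d z8 z0)) z0) (d (a (b (d z8 z0) (d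 z8 z0)) (b (d z8 z0) (d z8 z0))) z0)) (b (d (a (b (d z8 z0) (d z8 z0)) (b (d z8 z0) (d z8 z0))) z0) (d (a (b (d z8 z0) (d z8 z0)) (b (d z8 z0) (d z8 z0))) z0))))) (b (d z8 (a (b (d (b (d z8 z0) (d z8 z0)) z0) (d (a (b (d z8 z0) (d z8 z0)) (b (d z8 z0) (d z8 z0))) z0)) (b (d (a (b (d z8 z0) (d z8 z0)) (b (d z8 z0) (d z8 z0))) z0) (d (a (b (d z8 z0) (d z8 z0)) (b (d z8 z0) (d z8 z0))) z0)))) (d z8 (a (b (d (a (b (d z8 z0) (d z8 z0)) (b (d z8 z0) (d z8 z0))) z0) (d (a (b (d z8 z0) (d z8 z0)) (b (d z8 z0) (d z8 z0))) z0)) (b (d (a (b (d z8 z0) (d z8 z0)) (b (d z8 z0) (d z8 z0))) z0) (d (a (b (d z8 z0) (d z8 z0)) (b (d z8 z0) (d z8 z0))) z0)))))))) _ _ (by decide +kernel)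

theorem okB216 : CKB ⟨0, 4097, 1536, 2048⟩ ⟨31698, 49152, 10240, 10752⟩ :=
  ckB_sound (b (d z12 (b z0 (d z12 (c (b z0 (d z12 z8)) z12)))) (d z12 (a (b (d z12 (c (b z0 (d z12 z8)) z12)) (d z12 (c (a (b z12 z12) z12) z12))) (b (d z12 (c (a (b (d z12 z8) z12) (b (d z12 z8) z12)) z12)) z12)))) _ _ (by decide +kernel)

theorem okB217 : CKB ⟨0, 4097, 1536, 2048⟩ ⟨24576, 49152, 10752, 11264⟩ :=
  ckB_sound (b (d (c (b z0 (d (c (b z0 (d z8 (b (d z8 z0) (d z8 z0)))) z12) (b z0 (d z8 (b (d z8 z0) (d z8 z0)))))) (b z0 z12)) (b z0 (d (c z8 z12) (c z8 z12)))) (d (a (c (b (d z8 (b z0 (d z8 (b (d z8 z0) (d z8 z0))))) (d z8 (a (b (d z8 (b z0 (d z8 z0))) (d z8 (a (b (d z8 z0) (d z8 z0)) (b (d z8 z0) z0)))) (b (d z8 (a (b (d z8 z0) (d z8 z0)) (b (d z8 z0) (d z8 z0)))) (d z8 (a (b (d z8 z0) z0) (b (d z8 z0) z0))))))) z12) (c (b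 (d z8 (a (b (d z8 (b (d z8 z0) (d z8 z0))) (d z8 (a (b (d z8 z0) (d z8 z0)) (b (d z8 z0) (d z8 z0))))) (b (d z8 (a (b (d z8 z0) (d z8 z0)) (b (d z8 z0) (d z8 z0)))) (d z8 (a (b (d z8 z0) (d z8 z0)) (b (d z8 z0) (d z8 z0))))))) (d z8 (a (b (d z8 (a (b (d z8 z0) (d z8 z0)) (b (d z8 z0) (d z8 z0)))) (d z8 (a (b (d z8 z0) z0) (b (d z8 z0) z0)))) (b (d z8 (a (b (d z8 z0) (d z8 z0)) (b (d z8 z0) (d z8 z0)))) (d z8 z0))))) z12)) (a (b (d z12 z12) (d z12 z12)) (b (d z12 z12) (d z12 z12))))) _ _ (by decide +kernel)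

theorem okB218 : CKB ⟨0, 4097, 1024, 2048⟩ ⟨24576, 49152, 11264, 12288⟩ :=
  ckB_sound (b z0 (d (b (d (b z0 (d z12 z12)) (b z0 (d z12 z12))) (d (a (b (d z12 z12) z12) (b (d z12 z12) z12)) z12)) (b (d (b z0 (d z12 z12)) (b z0 (d (b z0 (d z12 z12)) (b z0 (d z4 z0))))) (d (a (b (d z12 z12) (d z12 z12)) (b (d z12 z12) (d z12 z12))) (a (b (d (b z0 (d z12 z12)) (b z0 (d z4 z0))) (d (a (b (d z12 z12) (d z12 z12)) (b (d z12 z12) (d z12 z12))) (a (b (d z4 z0) (d z4 z0)) (b (d z4 z0) (d z4 z0))))) (b (d (a (b (d z12 z12) (d z12 z12)) (b (d z12 z12) (d z12 z12))) (a (b (d z4 z0) (d z4 z0)) (b (d z4 z0) (d z4 z0)))) (d (a (b (d z12 z12) (d z12 z12)) (b (d z12 z12) (d z12 z12))) (a (b (d z4 z0) (d z4 z0)) (b (d z4 z0) (d z4 z0)))))))))) _ _ (by decide +kernel)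

theorem okB219 : CKB ⟨0, 4097, 2048, 4096⟩ ⟨24576, 49152, 8192, 10240⟩ :=
  ckB_sound (a (b (d z12 (b (d (b z0 (d z12 (c (b (d z12 (c (b z0 (d z12 z8)) z12)) (d z12 (c (b (d z12 z8) (d z12 z8)) z12))) z12))) (c (b z0 (d (c z8 (b z12 z12)) (b z8 z8))) (b z0 z12))) (d (a (b (d z12 (c (b z0 (d z12 (c (b z12 z12) z12))) z12)) (d z12 (c (a (b z12 z12) z12) z12))) (b (d z12 (c (b (d z12 (a (c (b (d z12 z8) z12) z12) z12)) z12) z12)) z12)) (c (a (b (d (c z8 z12) z8) (d (c z8 z12) z8)) (b (d (c z8 z12) z8) z8)) z12)))) (d z12 (a (b (d (b z12 z12) (c (b (d (c z8 z12) z8) (d (a (c z8 z12) (c z8 z12)) z8)) z12)) (d z12 (c (a (b (d z12 z8) (d z12 z8)) (b (d z12 z8) (d z12 z8))) z12))) (b (d z12 (c (b (d (a (c z8 z12) (c z8 z12)) z8) z8) z12)) (d z12 (c (b z8 (d z12 z8)) z12)))))) (b (d z12 (b (d (a (b (d z12 (c (b (d z12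 (c (b (d z12 z8) (d z12 z8)) z12)) (d z12 (a (c (b (d z12 z8) (d z12 z8)) z12) (c (b (d z12 z8) z12) z12)))) z12)) (d z12 (c (a (b (d z12 (c (a (b (d z12 z8) (d z12 z8)) (b (d z12 z8) z12)) z12)) z12) z12) z12))) (b (d z12 (c (a (b (d z12 (c (a (b (d z12 z8) (d z12 z8)) (b (d z12 z8) z12)) z12)) z12) z12) z12)) z12)) (a (c (b (d (c (b z8 z8) (b (d z12 (c (b z12 z12) z12)) z12)) (b (d z8 z8) z8)) z8) (b (d z12 (c (b z12 z12) z12)) z12)) (c (b (d (a (c z8 z12) (c z8 z12)) z8) z8) z12))) (d z12 (a (c z8 z12) (c z8 z12))))) (d z12 (b (d z12 (a (c z8 z12) (c z8 z12))) (d z12 (a (c z8 z12) z12)))))) _ _ (by decide +kernel)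

theorem okB220 : CKB ⟨0, 2049, 2048, 3072⟩ ⟨24576, 49152, 10240, 12288⟩ :=
  ckB_sound (d (b (d (c (b z0 (d z8 (b (d z8 (b z0 (d z0 z0))) (d z8 (b (d z0 z0) (d z0 z0)))))) (b z0 z12)) (b z0 (d (c (b (d z8 (b z0 (d z8 z0))) (d z8 (b (d z8 z0) (d z8 z0)))) z12) z12))) (d (a (c (b (d z8 (b z0 (d z8 (b (d z0 z0) (d z0 z0))))) (d z8 (a (b (d z8 (b (d z0 z0) (d z0 z0))) (d z8 (a (b (d z0 z0) (d z0 z0)) (b (d z0 z0) (d z0 z0))))) (b (d z8 (b (d z0 z0) (d z0 z0))) (d z8 (b (d z0 z0) (d z0 z0))))))) z12) (c (b (d z8 (b (d z8 (a (b (d z0 z0) (d z0 z0)) (b (d z0 z0) (d z0 z0)))) (d z8 (a (b (d z0 z0) (d z0 z0)) (b (d z0 z0) (d z0 z0)))))) (d z8 (b (d z8 (a (b (d z0 z0) (d z0 z0)) (b (d z0 z0) (d z0 z0)))) (d z8 (a (b (d z0 z0) (d z0 z0)) (b (d z0 z0) (d z0 z0))))))) z12)) (a (b (d z12 z12) z12) (b (d z12 z12) z12)))) (b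 (d z8 (b z0 (d (b (d z12 z12) (d z12 z12)) (b (d z4 z0) (d z4 z0))))) (d z8 (a (b (d (b z0 (d z12 z12)) (b z0 (d z4 z0))) (d (a (b (d z12 z12) (d z12 z12)) (b (d z12 z12) (d z12 z12))) (a (b (d z4 z0) (d z4 z0)) (b (d z4 z0) (d z4 z0))))) (b (d (b (d z12 z12) (d z12 z12)) (b (d z4 z0) (d z4 z0))) (d (b (d z12 z12) (d z12 z12)) (b (d z4 z0) (d z4 z0)))))))) _ _ (by decide +kernel)

theorem okB221 : CKB ⟨0, 2049, 3072, 4096⟩ ⟨24576, 49152, 10240, 12288⟩ :=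
  ckB_sound (d (a (b (d (c (b (d z8 (a (b (d z8 (b (d z0 z0) (d z0 z0))) (d z8 (a (b (d z0 z0) z0) z0))) (b (d z8 (b (d z0 z0) (d z0 z0))) (d z8 z0)))) (d z8 (a (b (d z8 z0) (d z8 z0)) (b (d z8 z0) (d z8 z0))))) z12) z12) (d z12 z12)) (b (d (c (b (d z8 (a (b (d z8 (a (b (d z0 z0) (d z0 z0)) (b (d z0 z0) z0))) (d z8 z0)) (b (d z8 (a (b (d z0 z0) z0) (b (d z0 z0) z0))) (d z8 z0)))) (d z8 (a (b (d z8 z0) (d z8 z0)) (b (d z8 z0) (d z8 z0))))) z12) z12) (d z12 z12))) (a (b (d z8 (b (d (a (b (d z12 z12) (d z12 z12)) (b (d z12 z12) (d z12 z12))) (a (b (d z4 z0) (d z4 z0)) (b (d z4 z0) (d z4 z0)))) (d (a (b (d z12 z12) (d z12 z12)) (b (d z12 z12) (d z12 z12))) (a (b (d z4 z0) (d z4 z0)) (b (d z4 z0) (d z4 z0)))))) (d (a (b (d z12 z12) (d z12 z12)) (b z8 (d z12 z12))) (a (b (d (b (d z12 z12) (d z12 z12)) (b (d z4 z0) (d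 z4 z0))) (d (a (b (d z12 z12) z4) (b (d z12 z12) z4)) z0)) (b (d (b (d z12 z12) (d z12 z12)) (b (d z4 z0) (d z4 z0))) (d (b (d z12 z12) z4) z0))))) (b (d z8 (b (d (a (b (d z12 z12) (d z12 z12)) (b (d z12 z12) (d z12 z12))) (a (b (d z4 z0) (d z4 z0)) (b (d z4 z0) (d z4 z0)))) (d (a (b (d z12 z12) (d z12 z12)) (b (d z12 z12) (d z12 z12))) (a (b (d z4 z0) (d z4 z0)) (b (d z4 z0) (d z4 z0)))))) (d z8 (b (d (a (b (d z12 z12) (d z12 z12)) (b (d z12 z12) (d z12 z12))) (a (b (d z4 z0) (d z4 z0)) (b (d z4 z0) (d z4 z0)))) (d (a (b (d z12 z12) z4) (b (d z12 z12) z4)) z0)))))) _ _ (by decide +kernel)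

theorem okB222 : CKB ⟨2049, 4097, 2048, 2560⟩ ⟨24576, 49152, 10240, 10752⟩ :=
  ckB_sound (a (c (b (d (c (b (d z8 (b (d z8 (b (d z0 z0) (d z0 z0))) (d z8 (a (b (d z0 z0) (d z0 z0)) (b (d z0 z0) (d z0 z0)))))) (d z8 (a (b (d z8 (b (d z0 z0) (d z0 z0))) (d z8 (a (b (d z0 z0) (d z0 z0)) (b (d z0 z0) (d z0 z0))))) (b (d z8 (a (b (d z0 z0) (d z0 z0)) (b (d z0 z0) (d z0 z0)))) (d z8 (a (b (d z0 z0) (d z0 z0)) (b (d z0 z0) z0))))))) (b (d z12 (b (d z12 z8) z12)) (d z12 (a (b z12 z12) z12)))) (b (d z8 (b (d (b (d z8 z0) (d z8 z0)) z0) (d (a (b (d z8 z0) (d z8 z0)) (b (d z8 z0) (d z8 z0))) z0))) (d z8 (a (b (d (b (d z8 z0) (d z8 z0)) z0) (d (a (b (d z8 z0) (d z8 z0)) z0) z0)) (b (d (a (b (d z8 z0) z0) (b (d z8 z0) z0)) z0) (d z0 z0)))))) (d z8 (a (b (d z8 (a (b (d (b z0 z0) z0) (d z0 z0)) (b (d z0 z0) (d z0 z0)))) (d z8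 (a (b (d z0 z0) (d z0 z0)) (b (d z0 z0) (d z0 z0))))) (b (d z8 (a (b (d z0 z0) (d z0 z0)) (b (d z0 z0) (d z0 z0)))) (d z8 (a (b (d z0 z0) (d z0 z0)) (b (d z0 z0) (d z0 z0)))))))) (b (d z12 (b z12 z12)) z12)) (c (b (d z8 (a (b (d z8 (a (b (d (a (b (d z8 z0) (d z8 z0)) (b (d z8 z0) (d z8 z0))) z0) (d (a (b (d z8 z0) (d z8 z0)) (b (d z8 z0) (d z8 z0))) z0)) (b (d (a (b (d z8 z0) (d z8 z0)) (b (d z8 z0) (d z8 z0))) z0) (d (a (b (d z8 z0) z0) (b (d z8 z0) z0)) z0)))) (d z8 (a (b (d z0 z0) (d z0 z0)) (b (d z0 z0) (d z0 z0))))) (b (d z8 (a (b (d (a (b (d z8 z0) (d z8 z0)) (b (d z8 z0) (d z8 z0))) z0) (d (a (b (d z8 z0) z0) z0) z0)) (b (d (a (b (d z8 z0) (d z8 z0)) (b (d z8 z0) z0)) z0) (d z0 z0)))) (d z8 (a (b (d z0 z0) (d z0 z0)) (b (d z0 z0) (d z0 z0))))))) (d z8 (a (b (d z8 (a (b (d z0 z0) (d z0 z0)) (b (d z0 z0) (d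 z0 z0)))) (d z8 (a (b (d z0 z0) (d z0 z0)) (b (d z0 z0) (d z0 z0))))) (b (d z8 (a (b (d z0 z0) (d z0 z0)) (b (d z0 z0) (d z0 z0)))) (d z8 (a (b (d z0 z0) (d z0 z0)) (b (d z0 z0) (d z0 z0)))))))) z12)) _ _ (by decide +kernel)

theorem okB223 : CKB ⟨2049, 4097, 2048, 2560⟩ ⟨24576, 49152, 10752, 11264⟩ :=
  ckB_sound (a (b (d (c (b (d z8 (b (d z8 (b (d z8 z0) z0)) (d z8 z0))) (d z8 (a (b (d z8 z0) (d z8 z0)) (b (d z8 z0) (d z8 z0))))) z12) (b (d z12 z12) z12)) (d (a (c (b (d z8 (a (b (d z8 z0) (d z8 z0)) (b (d z8 z0) (d z8 z0)))) (d z8 (a (b (d z8 z0) (d z8 z0)) (b (d z8 z0) (d z8 z0))))) z12) z12) z12)) (b (d (a (c (b (d z8 (a (b (d z8 z0) (d z8 z0)) (b (d z8 z0) (d z8 z0)))) (d z8 (a (b (d z8 z0) (d z8 z0)) (b (d z8 z0) (d z8 z0))))) z12) (c (b (d z8 (a (b (d z8 z0) (d z8 z0)) (b (d z8 z0) (d z8 z0)))) (d z8 (a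 (b (d z8 z0) (d z8 z0)) (b (d z8 z0) (d z8 z0))))) z12)) z12) (d z12 z12))) _ _ (by decide +kernel)

theorem okB224 : CKB ⟨2049, 4097, 2560, 3072⟩ ⟨24576, 49152, 10240, 11264⟩ :=
  ckB_sound (d (a (c (b (d z8 (a (b (d z8 (a (b (d z0 z0) (d z0 z0)) (b (d z0 z0) (d z0 z0)))) (d z8 (a (b (d z0 z0) (d z0 z0)) (b (d z0 z0) (d z0 z0))))) (b (d z8 (a (b (d z0 z0) (d z0 z0)) (b (d z0 z0) (d z0 z0)))) (d z8 (a (b (d z0 z0) (d z0 z0)) (b (d z0 z0) (d z0 z0))))))) (d z8 (a (b (d z8 (a (b (d z0 z0) (d z0 z0)) (b (d z0 z0) (d z0 z0)))) (d z8 (a (b (d z0 z0) (d z0 z0)) (b (d z0 z0) (d z0 z0))))) (b (d z8 (a (b (d z0 z0) (d z0 z0)) (b (d z0 z0) (d z0 z0)))) (d z8 (a (b (d z0 z0) (d z0 z0)) (b (d z0 z0) z0))))))) z12) (c (b (d z8 (a (b (d z8 (a (b (d z0 z0) (d z0 z0)) (b (d z0 z0) (d z0 z0)))) (d z8 (a (b (d z0 z0) (d z0 z0))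 (b (d z0 z0) (d z0 z0))))) (b (d z8 (a (b (d z0 z0) (d z0 z0)) (b (d z0 z0) (d z0 z0)))) (d z8 (a (b (d z0 z0) (d z0 z0)) (b (d z0 z0) (d z0 z0))))))) (d z8 (a (b (d z8 (a (b (d z0 z0) (d z0 z0)) (b (d z0 z0) (d z0 z0)))) (d z8 (a (b (d z0 z0) z0) (b (d z0 z0) z0)))) (b (d z8 (a (b (d z0 z0) (d z0 z0)) (b (d z0 z0) (d z0 z0)))) (d z8 z0))))) z12)) (a (b (d z12 z12) z12) (b (d z12 z12) z12))) _ _ (by decide +kernel)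

end Vale.Agent.Lib.P154Q5
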