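import Vale.Agent.Lib.P154Q5.CkBDefs

namespace Vale.Agent.Lib.P154Q5

set_option maxRecDepth 100000
set_option exponentiation.threshold 1000

open Tr

theorem okB225 : CKB ⟨2049, 4097, 2048, 3072⟩ ⟨24576, 49152, 11264, 12288⟩ :=
  ckB_sound (b (d z8 (a (b (d (b (d z12 z12) (d z12 z12)) (b (d (b (d z12 z12) (d z12 z12)) (b (d z4 z0) z0)) (d (a (b z4 z4) z4) z0))) (d (a (b (d z12 z12) (d z12 z12)) (b (d z12 z12) (d z12 z12))) (a (b (d z4 z0) (d z4 z0)) (b (d z4 z0) (d z4 z0))))) (b (d (a (b (d z12 z12) (d z12 z12)) (b (d z12 z12) (d z12 z12))) (a (b (d (a (b (d z12 z12) (d z12 z12)) (b (d z12 z12) (d z12 z12))) (a (b (d z4 z0) z0) (b (d z4 z0) (d z4 z0)))) (d (a (b (d z12 z12) z4) (b (d z12 z12) (d z12 z12))) (a z0 (b (d z4 z0) z0)))) (b (d (a (b (d z12 z12) (d z12 z12)) (b (d z12 z12) (d z12 z12))) (a (b (d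 z4 z0) (d z4 z0)) (b (d z4 z0) (d z4 z0)))) (d (a (b (d z12 z12) (d z12 z12)) (b (d z12 z12) (d z12 z12))) (a (b (d z4 z0) (d z4 z0)) (b (d z4 z0) (d z4 z0))))))) (d (a (b (d z12 z12) (d z12 z12)) (b (d z12 z12) (d z12 z12))) (a (b (d z4 z0) (d z4 z0)) (b (d (a (b (d z12 z12) (d z12 z12)) (b (d z12 z12) (d z12 z12))) (a z0 (b (d z4 z0) (d z4 z0)))) (d (a z4 (b (d z12 z12) z4)) z0))))))) (d z8 (a (b (d (a (b (d z12 z12) (d z12 z12)) (b (d z12 z12) (d z12 z12))) (a (b (d z4 z0) (d z4 z0)) (b (d z4 z0) (d z4 z0)))) (d (a (b (d z12 z12) (d z12 z12)) (b (d z12 z12) (d z12 z12))) (a (b (d z4 z0) (d z4 z0)) (b (d z4 z0) (d z4 z0))))) (b (d (a (b (d z12 z12) (d z12 z12)) (b (d z12 z12) (d z12 z12))) (a (b (d z4 z0) (d z4 z0)) (b (d z4 z0) (d z4 z0)))) (d (a (b (d z12 z12) (d z12 z12)) (b (d z12 z12) (d z12 z12)))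 (a (b (d z4 z0) (d z4 z0)) (b (d z4 z0) (d z4 z0)))))))) _ _ (by decide +kernel)

theorem okB226 : CKB ⟨2049, 4097, 3072, 4096⟩ ⟨24576, 49152, 10240, 12288⟩ :=
  ckB_sound (d (b (d (a (c (b (d z8 (a (b (d z8 z0) (d z8 z0)) (b (d z8 z0) (d z8 z0)))) (d z8 (a (b (d z8 z0) (d z8 z0)) (b (d z8 z0) (d z8 z0))))) z12) (c (b (d z8 (a (b (d z8 z0) (d z8 z0)) (b (d z8 z0) (d z8 z0)))) (d z8 (a (b (d z8 z0) (d z8 z0)) (b (d z8 z0) (d z8 z0))))) z12)) z12) (d z12 z12)) (b (d z8 (a (b (d (a (b (d z12 z12) (d z12 z12)) (b (d z12 z12) (d z12 z12))) (a (b (d z4 z0) (d z4 z0)) (b (d z4 z0) (d z4 z0)))) (d (a (b (d z12 z12) (d z12 z12)) (b (d z12 z12) (d z12 z12))) (a (b (d z4 z0) (d z4 z0)) (b (d z4 z0) (d z4 z0))))) (b (d (a (b (d z12 z12) (d z12 z12)) (b (d z12 z12) (d z12 z12))) (a (b (d z4 z0) (d z4 z0)) (b (d z4 z0)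 (d z4 z0)))) (d (a (b (d z12 z12) (d z12 z12)) (b (d z12 z12) (d z12 z12))) (a (b (d z4 z0) (d z4 z0)) (b (d z4 z0) (d z4 z0))))))) (d z8 (a (b (d (a (b (d z12 z12) (d z12 z12)) (b (d z12 z12) (d z12 z12))) (a (b (d z4 z0) (d z4 z0)) (b (d z4 z0) (d z4 z0)))) (d (a (b (d z12 z12) (d z12 z12)) (b (d z12 z12) (d z12 z12))) (a (b (d z4 z0) z0) (b (d z4 z0) (d z4 z0))))) (b (d (a (b (d z12 z12) (d z12 z12)) (b (d z12 z12) (d z12 z12))) (a (b (d z4 z0) (d z4 z0)) (b (d z4 z0) (d z4 z0)))) (d (a (b (d z12 z12) (d z12 z12)) (b (d z12 z12) (d z12 z12))) (a (b (d z4 z0) (d z4 z0)) (b (d z4 z0) (d z4 z0))))))))) _ _ (by decide +kernel)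

theorem okB227 : CKB ⟨4097, 8193, 0, 1024⟩ ⟨24576, 49152, 8192, 10240⟩ :=
  ckB_sound z0 _ _ (by decide +kernel)

theorem okB228 : CKB ⟨4097, 8193, 1024, 2048⟩ ⟨24576, 49152, 8192, 9216⟩ :=
  ckB_sound z12 _ _ (by decide +kernel)

theorem okB229 : CKB ⟨4097, 6145, 1024, 1536⟩ ⟨24576, 49152, 9216, 10240⟩ :=
  ckB_sound (d (b z0 (d z12 (c (a (b (d z12 (c (b z0 (d z12 z8)) z12)) (d z12 (c (a (b (d z12 z8) (d z12 z8)) (b (d z12 z8) z12)) z12))) (b (d z13 (c (a (b z0 z13) z0) z13)) (d z13 (c (a (b (d z13 z9) (d z13 z9)) z0) z13)))) z12))) (c (b z0 (d (a (c (b (d z8 (c (b z0 (d z8 z8)) z8)) (d z8 (a (c (b (d z8 z8) (d z8 z8)) z8) z8))) (b (d z12 (c (b z0 z12) z12)) (d z12 (a (c (b z12 z12) z12) z12)))) (c (b (d z9 (c (a (b z0 z9) z0) z9)) (d z9 (c (a (b z9 (d z9 z9)) z0) z9))) z13)) (a (b (d (c (b z0 (d z8 z8))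 (b z0 (d z12 z8))) (c (b z0 (d z8 (b (d z8 (b z0 (d z0 z0))) (d z8 (a (b (d z0 z0) (d z0 z0)) (b (d z0 z0) (d z0 z0))))))) (b z0 z8))) (d (c (a (b (d z8 z8) (d z8 z8)) (b (d z8 z8) z8)) (a (b (d z12 z8) (d z12 z8)) (b (d z12 z8) (d z12 z8)))) (a (c (b (d z8 (b z0 (d z8 (b (d z0 z0) (d z0 z0))))) (d z8 (a (b (d z8 (b z0 (d z0 z0))) (d z8 (a (b (d z0 z0) (d z0 z0)) (b (d z0 z0) (d z0 z0))))) (b (d z8 (a (b (d z0 z0) (d z0 z0)) (b (d z0 z0) (d z0 z0)))) (d z8 (a (b (d z0 z0) (d z0 z0)) (b (d z0 z0) z0))))))) (b z8 z8)) (c (b (d z8 (a (b (d z8 (b (d z0 z0) (d z0 z0))) (d z8 (a (b (d z0 z0) (d z0 z0)) (b (d z0 z0) (d z0 z0))))) (b (d z8 (a (b (d z0 z0) (d z0 z0)) (b (d z0 z0) (d z0 z0)))) (d z8 (a (b (d z0 z0) z0) z0))))) (d z8 (a (b (d z8 (a (b (d z0 z0) (d z0 z0)) z0)) (d z8 z0)) (b (d z8 z0) (d z8 z0))))) z8))))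 (b (d (c (a (b z0 (d z9 z9)) z0) (a (b z0 (d z13 z9)) z0)) (c (a (b z0 (d z9 (a (b (d z9 (a (b z0 (d z1 z1)) z0)) (d z9 (a (b (d z1 z1) (d z1 z1)) z0))) z0))) z0) z9)) (d (c (a (b (d z9 z9) (d z9 z9)) z0) (a (b (d z13 z9) (d (c z9 z13) z9)) z0)) (c (a (b (d z9 (a (b (d z9 (a (b (d z1 z1) (d z1 z1)) z1)) (d z9 (a z0 z1))) z0)) (d z9 (a (b (d z9 (a z0 z1)) (d z8 z0)) z1))) z0) z9)))))) (b z0 (d z12 (a (c (b z12 z12) z12) z13))))) _ _ (by decide +kernel)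

theorem okB230 : CKB ⟨4097, 6145, 1536, 2048⟩ ⟨24576, 49152, 9216, 10240⟩ :=
  ckB_sound (d (a (b (d z12 (c (a (b (d z12 (c (b (d z12 z8) (d z12 z8)) z12)) (d z12 (c (a (b (d z12 z8) (d z12 z8)) (b (d z12 z8) z12)) z12))) (b (d z12 (c (b (d z12 z8) (d z12 z8)) z12)) z12)) z12)) (d z12 (c (a (b (d z12 (c (a (b (d z12 z8) z12) z12) z12)) z12) z12) z12))) z12) (c (a (b (d (c (a (b (d z8 (c (b z8 z8) z8)) z8) z8) (a (b (d z12 (c (b z12 z12) z12)) z12) z12)) (a (b (d (c (b (d z8 z8) (d z8 z8)) (b (d z12 z8) (d z12 z8))) (c (b (d z8 (b z0 (d z8 (b z0 (d z0 z0))))) (d z8 (a (b (d z8 (b z0 (d z0 z0))) (d z8 (a (b (d z0 z0) (d z0 z0)) (b (d z0 z0) (d z0 z0))))) (b (d z8 (a (b (d z0 z0) (d z0 z0)) (b (d z0 z0) (d z0 z0)))) (d z8 (a (b (d z0 z0) z0) z0)))))) z8)) (d (c (a (b (d z8 z8) z8) z8) (a (b (d z12 z8) (d z12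 z8)) (b (d z12 z8) (d z12 z8)))) (c (a (b (d z8 (b (d z8 (a (b (d z0 z0) (d z0 z0)) (b (d z0 z0) (d z0 z0)))) (d z8 (a (b (d z0 z0) (d z0 z0)) z0)))) (d z8 (a (b (d z8 z0) (d z8 z0)) (b (d z8 z0) (d z8 z0))))) (b (d z8 (b (d z8 (a (b (d z0 z0) z0) z0)) (d z8 z0))) (d z8 (b (d z8 z0) (d z8 z0))))) z8))) (b (d (c (b (d z8 z8) z8) (b (d z12 z8) (d z12 z8))) (c (b (d z8 (a (b (d z8 (a (b (d z0 z0) (d z0 z0)) (b (d z0 z0) (d z0 z0)))) (d z8 (a (b (d z0 z0) (d z0 z0)) (b (d z0 z0) (d z0 z0))))) (b (d z8 (a (b (d z0 z0) (d z0 z0)) z0)) (d z8 z0)))) (d z8 (a (b (d z8 (a (b (d z0 z0) (d z0 z0)) z0)) (d z8 z0)) (b (d z8 z0) (d z8 z0))))) z8)) (d z8 z8)))) (d (c z8 z12) (a (b (d z8 z8) z8) z8))) (b (d (c z8 z12) (b (d z8 z8) z8)) (d (c z8 z12) z8))) (a (b (d z12 (a (c (b z12 z12) z12) z12)) z12) z12))) _ _ (by decide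 +kernel)

theorem okB231 : CKB ⟨6145, 8193, 1024, 2048⟩ ⟨24576, 49152, 9216, 10240⟩ :=
  ckB_sound (b z0 (d z13 (c z9 z13))) _ _ (by decide +kernel)

theorem okB232 : CKB ⟨4097, 8193, 0, 1024⟩ ⟨24576, 49152, 10240, 12288⟩ :=
  ckB_sound z0 _ _ (by decide +kernel)

theorem okB233 : CKB ⟨4097, 6145, 1024, 1280⟩ ⟨24576, 31698, 10240, 10752⟩ :=
  ckB_sound z0 _ _ (by decide +kernel)

theorem okB234 : CKB ⟨4097, 5473, 1280, 1536⟩ ⟨24576, 31698, 10240, 10496⟩ :=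
  ckB_sound (c (b (d (c (b z0 (d z8 (b (d z8 (b z0 (d z0 z0))) (d z8 (a (b (d z0 z0) (d z0 z0)) (b (d z0 z0) (d z0 z0))))))) (b z0 z8)) (b z0 (d (b z8 z8) (b (d (b z0 (d z8 z0)) z0) (d (a (b (d z8 z0) (d z8 z0)) (b (d z8 z0) (d z8 z0))) z0))))) (d (a (c (b (d z8 (b z0 (d z8 (b (d z0 z0) (d z0 z0))))) (d z8 (a (b (d z8 (b z0 (d z0 z0))) (d z8 (a (b (d z0 z0) (d z0 z0)) (b (d z0 z0) (d z0 z0))))) (b (d z8 (a (b (d z0 z0) (d z0 z0)) (b (d z0 z0) (d z0 z0)))) (d z8 (a (b (d z0 z0) (d z0 z0)) (b (d z0 z0) z0))))))) (b z8 z8)) (c (b (d z8 (a (b (d z8 (b (d z0 z0) (d z0 z0))) (d z8 (a (b (d z0 z0) (d z0 z0)) (b (d z0 z0) (d z0 z0))))) (b (d z8 (a (b (d z0 z0) (d z0 z0)) (b (d z0 z0) (d z0 z0)))) (d z8 (a (b (d z0 z0) (d z0 z0)) z0))))) (d z8 (a (b (d z8 (a (b (d z0 z0) (d z0 z0)) (b (d z0 z0) z0))) (d z8 z0)) (b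 (d z8 z0) (d z8 z0))))) z8)) (a (b (d z8 (b z0 (d (b (d z8 z0) (d z8 z0)) z0))) (d z8 (a (b (d (b z0 (d z8 z0)) z0) (d (a (b (d z8 z0) (d z8 z0)) (b (d z8 z0) (d z8 z0))) z0)) (b (d (a (b (d z8 z0) (d z8 z0)) (b (d z8 z0) (d z8 z0))) z0) (d (a (b (d z8 z0) (d z8 z0)) (b (d z8 z0) (d z8 z0))) z0))))) (b (d z8 (a (b (d (b (d z8 z0) (d z8 z0)) z0) (d (a (b (d z8 z0) (d z8 z0)) (b (d z8 z0) (d z8 z0))) z0)) (b (d (a (b (d z8 z0) (d z8 z0)) (b (d z8 z0) (d z8 z0))) z0) (d (a (b (d z8 z0) (d z8 z0)) (b (d z8 z0) z0)) z0)))) (d z8 (a (b (d (a (b (d z8 z0) (d z8 z0)) (b (d z8 z0) z0)) z0) (d (a (b (d z8 z0) z0) z0) z0)) (b (d z0 z0) (d z0 z0)))))))) (b (d z12 (b z0 (d (c z8 z12) z8))) (d z12 (a (b (d (c z8 z12) z8) (d (c z8 z12) z8)) (b (d (c z8 z12) z8) (d z12 z8)))))) _ _ (by decide +kernel)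

theorem okB235 : CKB ⟨5473, 6145, 1280, 1536⟩ ⟨24576, 31698, 10240, 10496⟩ :=
  ckB_sound (c (b (d (a (c (b z0 (d z9 (a (b (d z9 (a (b z0 (d z1 z0)) z0)) (d z9 (a (b (d z1 z0) (d z1 z0)) z0))) z0))) z9) z0) (a (b z0 (d z9 (a (b (d (a (b z0 (d z9 z1)) z0) z0) (d (a (b (d z9 z1) (d z9 z1)) z0) z0)) z0))) z0)) (d (a (c (b (d z9 (a (b (d z9 (a (b (d z1 z0) (d z1 z0)) z1)) (d z9 (a z0 z1))) z0)) (d (a z8 z9) (a (b (d z9 (a z0 z1)) (d z8 z0)) (b (d z9 z1) (d z9 z1))))) z9) z0) (a (b (d z9 (a (b (d (a (b (d z9 z1) (d z9 z1)) z1) z0) (d (a z0 z1) z0)) z0)) (d (a z8 z9) (a (b (d (a z0 z1) z0) (d z0 z0)) (b (d z1 z0) (d z1 z0))))) z0))) (b (d z13 (a (b z0 (d z13 z9)) z0)) (d z13 (a (b (d (c z9 z13) z9) (d (c z9 z13) z9)) z0)))) _ _ (by decide +kernel)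

theorem okB236 : CKB ⟨4097, 6145, 1280, 1536⟩ ⟨24576, 31698, 10496, 10752⟩ :=
  ckB_sound (a (b (d (b z0 (d (c (b z8 z8) z8) (c (b (d z8 (b z0 (d z8 z0))) (d z8 (a (b (d z8 z0) (d z8 z0)) (b (d z8 z0) (d z8 z0))))) z8))) (b z0 (d (b (d z8 (b z0 (d z0 z0))) (d z8 (a (b (d z0 z0) (d z0 z0)) (b (d z0 z0) (d z0 z0))))) z0))) (d (a (b (d z8 z8) (d z8 z8)) (b (d z8 z8) z8)) (a (b (d (b z0 (d z8 (b (d z0 z0) (d z0 z0)))) z0) (d (a (b (d z8 (b z0 (d z0 z0))) (d z8 (a (b (d z0 z0) (d z0 z0)) (b (d z0 z0) (d z0 z0))))) (b (d z8 (a (b (d z0 z0) (d z0 z0)) (b (d z0 z0) (d z0 z0)))) (d z8 (a (b (d z0 z0) (d z0 z0)) (b (d z0 z0) (d z0 z0)))))) z0)) (b (d (a (b (d z8 (b (d z0 z0) (d z0 z0))) (d z8 (a (b (d z0 z0) (d z0 z0)) (b (d z0 z0) (d z0 z0))))) (b (d z8 (a (b (d z0 z0) (d z0 z0)) (b (d z0 z0) (d z0 z0)))) (d z8 (a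 (b (d z0 z0) (d z0 z0)) (b (d z0 z0) (d z0 z0)))))) z0) (d (a (b (d z8 (a (b (d z0 z0) (d z0 z0)) (b (d z0 z0) (d z0 z0)))) (d z8 (a (b (d z0 z0) z0) z0))) (b (d z8 (a (b (d z0 z0) (d z0 z0)) (b (d z0 z0) z0))) (d z8 z0))) z0))))) (b (d (a (b z0 (d z9 z9)) z0) (a (b z0 (d (a (b (d z9 (a (b z0 (d z1 z1)) z0)) (d z9 (a (b (d z1 z1) (d z1 z1)) z0))) z0) z0)) z0)) (d (a (b (d z9 z9) (d (c (a z8 z9) z9) (a z8 z9))) z0) (a (b (d (a (b (d z9 (a (b (d z1 z1) (d z1 z1)) z1)) (d z9 (a (b (d z0 z0) (d z0 z0)) z1))) z0) z0) (d (a (b (d z9 (a z0 z1)) (d z8 z0)) (b (d z9 z1) (d z9 z1))) z0)) z0)))) _ _ (by decide +kernel)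

theorem okB237 : CKB ⟨4097, 6145, 1024, 1536⟩ ⟨31698, 49152, 10240, 10752⟩ :=
  ckB_sound (b z0 (d z12 (a (b (d (c (b z0 z12) z12) (c (b z0 (d (c z8 z12) (c (b z8 z8) z12))) z12)) (d z12 (c (a (b (d (c z8 z12) z8) (d (c z8 z12) z8)) (b (d (c z8 z12) z8) (d z12 z8))) z12))) (b (d z13 (c (a (b z0 (d (c z9 z13) z9)) z0) z13)) (d z13 (c (a (b (d (c z9 z13) z9) (d (c z9 z13) (c (a z8 z9) z13))) z0) z13)))))) _ _ (by decide +kernel)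

theorem okB238 : CKB ⟨4097, 6145, 1024, 1280⟩ ⟨24576, 49152, 10752, 11264⟩ :=
  ckB_sound z0 _ _ (by decide +kernel)

theorem okB239 : CKB ⟨4097, 5473, 1280, 1536⟩ ⟨24576, 49152, 10752, 11008⟩ :=
  ckB_sound (c (b (d (c (b z0 (d (c (b (d z8 (b z0 (d z8 z0))) (d z8 (a (b (d z8 z0) (d z8 z0)) (b (d z8 z0) (d z8 z0))))) z8) (b (d z8 (b z0 (d z8 z0))) (d z8 (a (b (d z8 z0) (d z8 z0)) (b (d z8 z0) (d z8 z0))))))) (b z0 (d z12 (c z8 z12)))) (b z0 (d (c (b (d z8 (b z0 (d z8 z0))) (d z8 (a (b (d z8 z0) (d z8 z0)) (b (d z8 z0) (d z8 z0))))) (b z12 z12)) (b (d z8 (b z0 (d z8 z0))) (d z8 (a (b (d z8 z0) (d z8 z0)) (b (d z8 z0) (d z8 z0)))))))) (d (a (c (b (d z8 (b z0 (d z8 (b (d z8 z0) (d z8 z0))))) (d z8 (a (b (d z8 (b z0 (d z8 z0))) (d z8 (a (b (d z8 z0) (d z8 z0)) (b (d z8 z0) (d z8 z0))))) (b (d z8 (a (b (d z8 z0)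 (d z8 z0)) (b (d z8 z0) (d z8 z0)))) (d z8 (a (b (d z8 z0) (d z8 z0)) (b (d z8 z0) (d z8 z0)))))))) (b z12 z12)) (c (b (d z8 (a (b (d z8 (b (d z8 z0) (d z8 z0))) (d z8 (a (b (d z8 z0) (d z8 z0)) (b (d z8 z0) (d z8 z0))))) (b (d z8 (a (b (d z8 z0) (d z8 z0)) (b (d z8 z0) (d z8 z0)))) (d z8 (a (b (d z8 z0) (d z8 z0)) (b (d z8 z0) (d z8 z0))))))) (d z8 (a (b (d z8 (a (b (d z8 z0) (d z8 z0)) (b (d z8 z0) (d z8 z0)))) (d z8 (a (b (d z8 z0) (d z8 z0)) (b (d z8 z0) z0)))) (b (d z8 (a (b (d z8 z0) (d z8 z0)) (b (d z8 z0) (d z8 z0)))) (d z8 (a (b (d z8 z0) z0) z0)))))) z12)) (a (b (d z8 (b z0 (d z8 (b (d z8 z0) (d z8 z0))))) (d z8 (a (b (d z8 (b z0 (d z8 z0))) (d z8 (a (b (d z8 z0) (d z8 z0)) (b (d z8 z0) (d z8 z0))))) (b (d z8 (a (b (d z8 z0) (d z8 z0)) (b (d z8 z0) (d z8 z0)))) (d z8 (a (b (d z8 z0) (d z8 z0)) (b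 (d z8 z0) (d z8 z0)))))))) (b (d z8 (a (b (d z8 (b (d z8 z0) (d z8 z0))) (d z8 (a (b (d z8 z0) (d z8 z0)) (b (d z8 z0) (d z8 z0))))) (b (d z8 (a (b (d z8 z0) (d z8 z0)) (b (d z8 z0) (d z8 z0)))) (d z8 (a (b (d z8 z0) (d z8 z0)) (b (d z8 z0) (d z8 z0))))))) (d z8 (a (b (d z8 (a (b (d z8 z0) (d z8 z0)) (b (d z8 z0) (d z8 z0)))) (d z8 (a (b (d z8 z0) (d z8 z0)) (b (d z8 z0) z0)))) (b (d z8 (a (b (d z8 z0) (d z8 z0)) (b (d z8 z0) (d z8 z0)))) (d z8 (a (b (d z8 z0) z0) (b (d z8 z0) z0)))))))))) (b (d z12 (c (b z0 (d z12 (c (b z12 z12) z12))) z12)) (d z12 (a (c (b z12 z12) z12) z12)))) _ _ (by decide +kernel)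

end Vale.Agent.Lib.P154Q5
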