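import Vale.Agent.Lib.P154Q5.CkBDefs

namespace Vale.Agent.Lib.P154Q5

set_option maxRecDepth 100000
set_option exponentiation.threshold 1000

open Tr

theorem okB240 : CKB ⟨5473, 6145, 1280, 1536⟩ ⟨24576, 49152, 10752, 11008⟩ :=
  ckB_sound (c (b (d (a (c (b z0 (d z9 (a (b (d z9 (a (b z0 (d z9 z1)) z0)) (d z9 (a (b (d z9 z1) (d z9 z1)) z0))) z0))) (b z0 z13)) z0) (a (b z0 (d z9 (a (b (d z9 (a (b z0 (d z9 z1)) z0)) (d z9 (a (b (d z9 z1) (d z9 z1)) z0))) z0))) z0)) (d (a (c (b (d z9 (a (b (d z9 (a (b (d z9 z1) (d z9 (a z0 z1))) z1)) (d z9 (a (b (d z8 z0) (d z8 z0)) z1))) z0)) (d (a z8 z9) (a (b (d z9 (a (b (d z8 z0) (d z8 z0)) (b z1 (d z9 z1)))) (d z8 z0)) (b (d z9 z1) (d z9 z1))))) (b (d z13 (a (c z9 z13) z0)) (d z13 (a z12 z13)))) z0) (a (b (d (a (c (b (d z9 (a (b (d z9 z1) (d z9 (a z0 z1))) (b z0 z1)))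 (d z9 (a (b (d z8 z0) (d z8 z0)) z1))) z13) z0) (a (b (d z9 (a (b (d z9 (a z0 z1)) (d z9 (a z0 z1))) (b z0 z1))) (d z9 (a (b (d z8 z0) (d z8 z0)) z1))) z0)) (d (a z8 z9) (a (b (d z9 (a (b (d z8 z0) (d z8 z0)) (b (d z9 z1) (d z9 z1)))) (d z8 (a (b (d z8 z0) z0) (b (d z9 z1) (d z9 z1))))) (b (d z9 z1) (d z9 z1))))) z0))) (b (d z13 (a (c (b z0 z13) z13) z0)) (d z13 (a (c (b z13 (d z13 (a z12 z13))) z13) z0)))) _ _ (by decide +kernel)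

theorem okB241 : CKB ⟨4097, 6145, 1280, 1536⟩ ⟨24576, 49152, 11008, 11264⟩ :=
  ckB_sound (a (b (d (c (b z0 (d (c (b (d z8 z8) z8) z12) (b (d z8 z8) z8))) z12) (c (b z0 (d (c (b (d z8 z8) z8) z12) (b (d z8 z8) z8))) (b z0 z12))) (d (c (a (b (d (c z8 z12) z8) (d (c z8 z12) z8)) (b (d (c z8 z12) z8) z8)) z12) (a (c (b (d (c z8 z12) z8) (d (a (c z8 z12) z12) z8)) z12) (c (b (d (c z8 z12) z8) z8) z12)))) (b (d (c (a (b z0 (d (c (a (b (d z9 z9) z9) z0) z13) (a (b (d z9 z9) z9) z0))) z0) z13) (c (a (b z0 (d (c (a (b (d z9 z9) z9) z0) z13) (a (b (d z9 z9) z9) z0))) z0) (a (b z0 z13) z0))) (d (c (a (b (d (c (a (b z9 (d z9 z9)) z0) z13) (a (b (d z9 z9) (d z9 z9)) z0)) (d (c (a z8 z9) z13) (a z8 z9))) z0) z13) (c (a (b (d (c (a (b (d z9 z9) (d z9 z9)) z0) z13) (a (b (d z9 z9) (d z9 z9)) z0)) (d (c (a z8 z9) z13)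 (a z8 z9))) z0) z13)))) _ _ (by decide +kernel)

theorem okB242 : CKB ⟨4097, 5121, 1536, 1792⟩ ⟨24576, 31698, 10240, 10496⟩ :=
  ckB_sound (c (a (b (d (c (b (d z8 (b z0 (d z8 (b z0 (d z0 z0))))) (d z8 (a (b (d z8 (b z0 (d z0 z0))) (d z8 (a (b (d z0 z0) (d z0 z0)) (b (d z0 z0) (d z0 z0))))) (b (d z8 (a (b (d z0 z0) (d z0 z0)) (b (d z0 z0) (d z0 z0)))) (d z8 (a (b (d z0 z0) z0) z0)))))) z8) (b (d z8 (b z0 (d (b z0 (d z8 z0)) z0))) (d z8 (a (b (d (b z0 (d z8 z0)) z0) (d (a (b (d z8 z0) (d z8 z0)) (b (d z8 z0) z0)) z0)) (b (d (a (b (d z8 z0) (d z8 z0)) (b (d z8 z0) (d z8 z0))) z0) (d z0 z0)))))) (d (c (a (b (d z8 (b (d z8 (a (b (d z0 z0) (d z0 z0)) (b (d z0 z0) z0))) (d z8 (a (b (d z0 z0) (d z0 z0)) z0)))) (d z8 (a (b (d z8 z0) (d z8 z0)) (b (d z8 z0) (d z8 z0))))) (b (d z8 (b (d z8 z0) (d z8 z0))) (d z8 (b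 (d z8 z0) (d z8 z0))))) z8) (a (b (d z8 (b (d (a (b (d z8 z0) (d z8 z0)) (b (d z8 z0) z0)) z0) (d (a (b (d z8 z0) (d z8 z0)) z0) z0))) (d z8 (a (b (d z0 z0) (d z0 z0)) (b (d z0 z0) (d z0 z0))))) (b (d z8 (b (d z0 z0) (d z0 z0))) (d z8 (b (d z0 z0) (d z0 z0))))))) (b (d (c (b (d z8 (a (b (d z8 (a (b (d z0 z0) (d z0 z0)) (b (d z0 z0) (d z0 z0)))) (d z8 (a (b (d z0 z0) (d z0 z0)) (b (d z0 z0) (d z0 z0))))) (b (d z8 (a (b (d z0 z0) (d z0 z0)) z0)) (d z8 z0)))) (d z8 (a (b (d z8 (a (b (d z0 z0) z0) z0)) (d z8 z0)) (b (d z8 z0) (d z8 z0))))) z8) (b (d z8 (a (b (d (a (b (d z8 z0) (d z8 z0)) (b (d z8 z0) (d z8 z0))) z0) (d (a (b (d z8 z0) (d z8 z0)) (b (d z8 z0) z0)) z0)) (b (d (a (b (d z8 z0) (d z8 z0)) z0) z0) (d z0 z0)))) (d z8 (a (b (d (a (b (d z8 z0) z0) z0) z0) (d z0 z0)) (b (d z0 z0) (d z0 z0)))))) (d z8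 (b (d z8 (a (b (d z0 z0) (d z0 z0)) (b (d z0 z0) (d z0 z0)))) (d z8 (a (b (d z0 z0) (d z0 z0)) (b (d z0 z0) (d z0 z0)))))))) (a (b (d z12 (b (d (c z8 z12) z8) (d (c z8 z12) z8))) (d z12 (a (b (d (c z8 z12) z8) (d z12 z8)) (b (d z12 z8) (d z12 z8))))) (b (d z12 (b (d (c z8 z12) z8) (d z12 z8))) (d z12 (b (d z12 z8) (d z12 z8)))))) _ _ (by decide +kernel)

theorem okB243 : CKB ⟨4097, 5121, 1536, 1792⟩ ⟨24576, 31698, 10496, 10752⟩ :=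
  ckB_sound (a (b (d (b (d z8 z8) (d z8 z8)) (b (d (b z0 (d z8 (b z0 (d z0 z0)))) z0) (d (a (b (d z8 (b z0 (d z0 z0))) (d z8 (a (b (d z0 z0) z0) z0))) (b (d z8 (a (b (d z0 z0) z0) (b (d z0 z0) z0))) (d z8 z0))) z0))) (d z8 (a (b (d (b (d z8 (a (b z0 z0) z0)) (d z8 z0)) z0) (d (a (b (d z8 z0) (d z8 z0)) (b (d z8 z0) (d z8 z0))) z0)) (b (d (b (d z8 z0) (d z8 z0)) z0) (d (b (d z8 z0) (d z8 z0)) z0))))) (b (d (b (d z8 z8) z8) (b (d (a (b (d z8 (a (b (d z0 z0) (d z0 z0)) (b (d z0 z0) (d z0 z0)))) (d z8 (a (b (d z0 z0) (d z0 z0)) (b (d z0 z0) z0)))) (b (d z8 (a (b (d z0 z0) (d z0 z0)) z0)) (d z8 z0))) z0) (d (a (b (d z8 z0) (d z8 z0)) (b (d z8 z0) (d z8 z0))) z0))) (d z8 (b (d (a (b (d z8 z0) (d z8 z0)) (b (d z8 z0) (d z8 z0))) z0) (d (a (b (d z8 z0) (d z8 z0)) (b (d z8 z0) (d z8 z0))) z0))))) _ _ (by decide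 +kernel)

theorem okB244 : CKB ⟨4097, 5121, 1792, 2048⟩ ⟨24576, 31698, 10240, 10752⟩ :=
  ckB_sound (d (c (a (b (d z8 (a (b (d z8 (a (b (d z0 z0) (d z0 z0)) (b (d z0 z0) (d z0 z0)))) (d z8 (a (b (d z0 z0) (d z0 z0)) (b (d z0 z0) (d z0 z0))))) (b (d z8 (b (d z0 z0) (d z0 z0))) (d z8 (b (d z0 z0) (d z0 z0)))))) (d z8 (a (b (d z8 (a (b (d z0 z0) (d z0 z0)) (b (d z0 z0) (d z0 z0)))) (d z8 (a (b (d z0 z0) (d z0 z0)) (b (d z0 z0) (d z0 z0))))) (b (d z8 (b (d z0 z0) (d z0 z0))) (d z8 (b (d z0 z0) (d z0 z0))))))) (b (d z8 (b (d z8 (a (b (d z0 z0) (d z0 z0)) (b (d z0 z0) (d z0 z0)))) (d z8 (a (b (d z0 z0) (d z0 z0)) (b (d z0 z0) (d z0 z0)))))) (d z8 (b (d z8 (a (b (d z0 z0) (d z0 z0)) (b (d z0 z0) z0))) (d z8 z0))))) (a (b (d z12 (a (b (d z12 z8) z12) z12)) z12) z12)) (a (b (d z8 (a (b (d (a (b (d z8 z0) (d z8 z0))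 (b (d z8 z0) (d z8 z0))) z0) (d (a (b (d z8 z0) (d z8 z0)) (b (d z8 z0) (d z8 z0))) z0)) (b (d (b (d z8 z0) (d z8 z0)) z0) (d (b (d z8 z0) (d z8 z0)) z0)))) (d z8 (a (b (d (a (b (d z8 z0) (d z8 z0)) (b (d z8 z0) (d z8 z0))) z0) (d (a (b (d z8 z0) (d z8 z0)) (b (d z8 z0) (d z8 z0))) z0)) (b (d (b (d z8 z0) (d z8 z0)) z0) (d (b (d z8 z0) z0) z0))))) (b (d z8 (b (d (a (b (d z8 z0) (d z8 z0)) (b (d z8 z0) (d z8 z0))) z0) (d (a (b (d z8 z0) (d z8 z0)) (b (d z8 z0) (d z8 z0))) z0))) (d z8 (b (d (a (b (d z8 z0) (d z8 z0)) (b (d z8 z0) z0)) z0) (d z0 z0)))))) _ _ (by decide +kernel)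

theorem okB245 : CKB ⟨5121, 6145, 1536, 2048⟩ ⟨24576, 31698, 10240, 10752⟩ :=
  ckB_sound (b (d (c (b (d z8 (a (b (d z8 (a (b (d z0 z0) (d z0 z0)) (b (d z0 z0) (d z0 z0)))) (d z8 (a (b (d z0 z0) (d z0 z0)) (b (d z0 z0) (d z0 z0))))) (b (d z9 (a (b (d z1 z0) (d z1 z0)) z0)) (d z9 (a (b (d z1 z0) (d z1 z0)) z0))))) (d z8 (a (b (d z8 (a (b (d z0 z0) (d z0 z0)) (b (d z0 z0) (d z0 z0)))) (d z8 (a (b (d z0 z0) (d z0 z0)) (b (d z0 z0) (d z0 z0))))) (b (d z9 (a (b (d z1 z0) (d z1 z0)) z1)) (d z9 (a (b (d (a z0 z1) z0) z0) z1)))))) (b (d z12 (a (b (d z12 z8) (d z12 z8)) (b z13 (d z13 z9)))) z12)) (b (d z8 (a (b (d (a (b (d z8 z0) (d z8 z0)) (b (d z8 z0) (d z8 z0))) z0) (d (a (b (d z8 z0) (d z8 z0)) (b (d z8 z0) (d z8 z0))) z0)) (b (d (a (b (d z9 z1) (d z9 z1)) z0) z0) (d (a (b (d z9 z1) (d z9 z1)) z0) z0)))) (d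 z8 (a (b (d (a (b (d z8 z0) (d z8 z0)) (b (d z8 z0) (d z8 z0))) z0) (d (a (b (d z8 z0) (d z8 z0)) (b (d z8 z0) (d z8 z0))) z0)) (b (d (a (b (d z9 z1) (d z9 (a z0 z1))) z1) z0) (d (a (b (d z9 (a z0 z1)) (d z8 z0)) z1) z0)))))) (d z8 (b (d z8 (a (b (d (a (b (d z8 z0) (d z8 z0)) (b (d z8 z0) (d z8 z0))) z0) (d (a (b (d z8 z0) (d z8 z0)) z0) z0)) (b (d (a (b (d z8 z0) z0) z1) z0) (d (a z0 z1) z0)))) (d z8 (a (b (d z0 z0) (d z0 z0)) (b (d z0 z0) (d z0 z0))))))) _ _ (by decide +kernel)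

theorem okB246 : CKB ⟨4097, 6145, 1536, 2048⟩ ⟨31698, 49152, 10240, 10752⟩ :=
  ckB_sound (a (b (d z12 (a (b (d z12 (c (b (d (c z8 z12) z8) (d (c z8 z12) z8)) z12)) (d z12 (c (a (b (d z12 z8) (d z12 z8)) (b (d z12 z8) (d z12 z8))) z12))) (b (d z12 (c (b (d (a (c z8 z12) z12) z8) (d z12 z8)) z12)) (d z12 (c (b (d z12 z8) z12) z12))))) z12) (b (d z12 (b (d z12 (c (a (b (d z12 z8) (d z12 z8)) (b z13 (d z13 z9))) z12)) z12)) z12)) _ _ (by decide +kernel)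

theorem okB247 : CKB ⟨4097, 5121, 1536, 2048⟩ ⟨24576, 49152, 10752, 11264⟩ :=
  ckB_sound (b (d (c (a (b (d (c (b (d z8 (b z0 (d z8 (b z0 z0)))) (d z8 (a (b (d z8 (b z0 z0)) (d z8 z0)) (b (d z8 z0) (d z8 z0))))) z12) (b (d z8 (b z0 (d z8 (b z0 z0)))) (d z8 (a (b (d z8 z0) (d z8 z0)) (b (d z8 z0) (d z8 z0)))))) (d z8 (a (b (d z8 (b (d z8 z0) (d z8 z0))) (d z8 (a (b (d z8 z0) (d z8 z0)) (b (d z8 z0) (d z8 z0))))) (b (d z8 (b (d z8 z0) (d z8 z0))) (d z8 (b (d z8 z0) (d z8 z0))))))) (b (d (c (b (d z8 (a (b (d z8 (a (b (d z8 z0) (d z8 z0)) (b (d z8 z0) z0))) (d z8 (a (b (d z8 z0) z0) z0))) (b (d z8 (a (b (d z8 z0) z0) z0)) (d z8 z0)))) (d z8 (a (b (d z8 z0) (d z8 z0)) (b (d z8 z0) (d z8 z0))))) z12) (b (d z8 (a (b (d z8 (a (b (d z8 z0) (d z8 z0)) (b (d z8 z0) z0))) (d z8 z0)) (b (d z8 z0) (d z8 z0)))) (d z8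 (a (b (d z8 z0) (d z8 z0)) (b (d z8 z0) (d z8 z0)))))) (d z8 (b (d z8 (a (b (d z8 z0) (d z8 z0)) (b (d z8 z0) (d z8 z0)))) (d z8 (a (b (d z8 z0) (d z8 z0)) (b (d z8 z0) (d z8 z0)))))))) z12) (a (b (d (c (b z8 z8) z12) (c (b z8 z8) z12)) (d (c z8 z12) z12)) (b (d (c z8 z12) (c z8 z12)) (d z12 z12)))) (d (c (a (b (d z8 (a (b (d z8 (a (b (d z8 z0) (d z8 z0)) (b (d z8 z0) (d z8 z0)))) (d z8 (a (b (d z8 z0) (d z8 z0)) (b (d z8 z0) (d z8 z0))))) (b (d z8 (b (d z8 z0) (d z8 z0))) (d z8 (b (d z8 z0) (d z8 z0)))))) (d z8 (a (b (d z8 (a (b (d z8 z0) (d z8 z0)) (b (d z8 z0) (d z8 z0)))) (d z8 z0)) (b (d z8 (b (d z8 z0) (d z8 z0))) (d z8 z0))))) (b (d z8 (b (d z8 (a (b (d z8 z0) (d z8 z0)) (b (d z8 z0) (d z8 z0)))) (d z8 (a (b (d z8 z0) (d z8 z0)) (b (d z8 z0) (d z8 z0)))))) (d z8 (b (d z8 (a (b (d z8 z0) z0) (b (d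 z8 z0) z0))) (d z8 z0))))) z12) (a (b (d z12 z12) (d z12 z12)) (b (d z12 z12) (d z12 z12))))) _ _ (by decide +kernel)

theorem okB248 : CKB ⟨5121, 6145, 1536, 2048⟩ ⟨24576, 49152, 10752, 11264⟩ :=
  ckB_sound (b (d (c (b (d z8 (a (b (d z8 (a (b (d z8 z0) (d z8 z0)) (b (d z8 z0) (d z8 z0)))) (d z8 (a (b (d z8 z0) (d z8 z0)) (b (d z8 z0) (d z8 z0))))) (b (d z9 (a (b (d z9 z1) (d z9 z1)) z0)) (d z9 (a (b (d z9 z1) (d z9 (a (b z1 (d z9 z1)) z1))) z0))))) (d z8 (a (b (d z8 (a (b (d z8 z0) (d z8 z0)) (b (d z8 z0) (d z8 z0)))) (d z8 (a (b (d z8 z0) (d z8 z0)) (b (d z8 z0) (d z8 z0))))) (b (d z9 (a (b (d z9 (a z0 z1)) (d z9 (a z0 z1))) z1)) (d z9 (a (b (d z9 (a z0 z1)) (d z8 z0)) z1)))))) z12) (b (d (a (c z8 z12) (c z9 z13)) (a (c z8 z12) (c z9 z13))) (d z12 z12))) (d (c (b (d z8 (a (b (d z8 (a (b (d z8 z0) (d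 z8 z0)) (b (d z8 z0) (d z8 z0)))) (d z8 (a (b (d z8 z0) (d z8 z0)) (b (d z8 z0) (d z8 z0))))) (b (d z9 (a (b (d z8 z0) (d z8 z0)) z1)) (d z9 (a (b (d z8 z0) z0) z1))))) (d z8 (a (b (d z8 z0) (d z8 z0)) (b (d z8 z0) (d z8 z0))))) z12) (b (d z12 z12) (d z12 z12)))) _ _ (by decide +kernel)

theorem okB249 : CKB ⟨6145, 8193, 1024, 2048⟩ ⟨24576, 49152, 10240, 11264⟩ :=
  ckB_sound (b z0 (d (c (b z0 (d z9 (a (b (d z9 z1) (d z9 z1)) z0))) z13) (b z0 z13))) _ _ (by decide +kernel)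

theorem okB250 : CKB ⟨4097, 6145, 1024, 1280⟩ ⟨24576, 49152, 11264, 11776⟩ :=
  ckB_sound z0 _ _ (by decide +kernel)

theorem okB251 : CKB ⟨4097, 5473, 1280, 1536⟩ ⟨24576, 49152, 11264, 11520⟩ :=
  ckB_sound (b (d (c (b z0 (d (c (b (d z8 (b z0 (d z8 (b (d z9 z1) (d z8 z0))))) (d z8 (a (b (d z8 (b z0 z0)) (d z8 z0)) (b (d z8 (a (b (d z8 z0) z0) (b (d z8 z0) z0))) (d z8 z0))))) z12) (b (d z8 (b z0 (d z8 (b (d z9 z1) (d z8 z0))))) (d z8 (a (b (d z8 (b z0 z0)) (d z8 z0)) (b (d z8 (a (b (d z8 z0) z0) (b (d z8 z0) (d z8 z0)))) (d z8 z0))))))) (b z0 z12)) (b z0 (d (c (b (d (c z8 z12) z8) z8) z12) (c (b (d (c z8 z12) z8) z8) z12)))) (d (a (c (b (d (c (b z0 (d z8 (b (d z8 z0) (d z8 z0)))) z12) (b z0 (d z8 (b (d z8 z0) (d z8 z0))))) (d z12 (a (b (d z8 (b z0 (d z8 z0))) (d z8 (a (b z0 z0) z0))) (b (d z8 (a (b (d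 z8 z0) (d z8 z0)) (b (d z8 z0) (d z8 z0)))) (d z8 (a z0 (b (d z8 z0) z0))))))) z12) (c (b (d (a (c (b (d z8 (b (d z8 z0) (d z8 z0))) (d z8 (a (b (d z8 z0) (d z8 z0)) (b (d z8 z0) (d z8 z0))))) z12) (c (b (d z8 (a (b (d z8 z0) (d z8 z0)) (b (d z8 z0) (d z8 z0)))) (d z8 (a (b (d z8 z0) (d z8 z0)) (b (d z8 z0) (d z8 z0))))) z12)) (a (b (d z8 (b (d z8 z0) (d z8 z0))) (d z8 (a (b (d z8 z0) (d z8 z0)) (b (d z8 z0) (d z8 z0))))) (b (d z8 (a (b (d z8 z0) (d z8 z0)) (b (d z8 z0) (d z8 z0)))) (d z8 (a (b (d z8 z0) (d z8 z0)) (b (d z8 z0) (d z8 z0))))))) (d z12 (a (b (d z8 (a (b (d z8 z0) (d z8 z0)) (b (d z8 z0) (d z8 z0)))) (d z8 (a (b (d z8 z0) (d z8 z0)) (b (d z8 z0) (d z8 z0))))) (b (d z8 (a (b (d z8 z0) (d z8 z0)) (b (d z8 z0) (d z8 z0)))) (d z8 (a (b (d z8 z0) (d z8 z0)) (b (d z8 z0) (d z8 z0)))))))) z12)) (a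 (b (d (c z8 z12) (c z8 z12)) (d z12 z12)) (b (d (c z8 z12) (c z8 z12)) (d z12 z12))))) _ _ (by decide +kernel)

theorem okB252 : CKB ⟨5473, 6145, 1280, 1536⟩ ⟨24576, 49152, 11264, 11520⟩ :=
  ckB_sound (b (d (a (c (b z0 (d (a (c (b (d z9 (a (b z0 (d z9 (a (b z0 (d z9 z1)) z0))) z0)) (d z9 (a (b (d z9 (a (b (d z9 z1) (d z9 z1)) z0)) (d z9 (a (b (d z9 z1) (d z9 z1)) z1))) z0))) z13) z0) (a (b (d z9 (a (b z0 (d z9 (a (b z0 (d z9 z1)) z0))) z0)) (d z9 (a (b (d z9 (a (b (d z9 z1) (d z9 z1)) z0)) (d z9 (a (b (d z9 z1) (d z9 z1)) z1))) z0))) z0))) (b z0 z13)) z0) (a (b z0 (d (c (a (b (d (c z9 z13) z9) (d z13 z9)) z0) z13) (c (a (b (d (c z9 z13) z9) (d z13 z9)) z0) z13))) z0)) (d (a (c (b (d (a (c (b (d z9 (a (b (d z9 (a z0 z1)) (d z9 (a z0 z1))) (b z0 (d z9 z1)))) (d z9 (a (b (d z8 z0) (d z8 z0)) (b (d z9 z1)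 (d z9 z1))))) z13) z0) (a (b (d z9 (a (b (d z9 (a z0 z1)) (d z9 (a z0 z1))) (b z0 (d z9 z1)))) (d z9 (a (b (d z8 z0) (d z8 z0)) (b (d z9 z1) (d z9 z1))))) z0)) (d (a z12 z13) (a (b (d (a z8 z9) (a (b (d z8 z0) (d z8 z0)) (b (d z9 z1) (d z9 z1)))) (d z8 (a (b (d z8 z0) (d z8 z0)) (b (d z9 z1) (d z9 z1))))) (b (d z9 z1) (d z9 z1))))) (b z13 (d z13 (a z12 z13)))) z0) (a (b (d (c (a (b (d (c z9 z13) z9) (d (c z9 z13) z9)) z0) z13) (c (a (b (d (c z9 z13) z9) (d (c (a z8 z9) z13) (a z8 z9))) z0) z13)) (d (c (a z8 z9) z13) (c (a z8 z9) z13))) z0))) _ _ (by decide +kernel)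

theorem okB253 : CKB ⟨4097, 6145, 1280, 1536⟩ ⟨24576, 49152, 11520, 11776⟩ :=
  ckB_sound (a (b (d (b z0 (d (c (b (d (c z8 z12) z8) (d z12 z8)) z12) (c (b (d (c z8 z12) z8) (d z12 z8)) z12))) (b z0 (d (b (d (c (b z0 z12) z12) (c (b z0 z12) z12)) (d z12 z12)) (b (d (c (b z0 z8) z12) (c (b z0 z8) z12)) (d z12 z12))))) (d (a (b (d z12 z12) (d z12 z12)) (b (d (a z12 (c z8 z12)) (a z12 (c z8 z12))) (d z12 z12))) (a (b (d z12 z12) (d z12 z12)) (b (d (a z12 (b (d z12 z12) z12)) (a z12 (b (d z12 z12) z12))) (d z12 z12))))) (b (d (a (b z0 (d (c (a (b (d (c z9 z13) z9) (d z13 z9)) z0) z13) (a (c (b (d (a (c z9 z13) z0) (a (b z0 z9) z0)) (d z13 z9)) z13) z0))) z0) (a (b z0 (d (a (b (d (c (a (b z0 z13) z0) z13) (c (a (b z0 z13) z0) z13)) (d z13 z13)) z0) (a (b (d (c (a (b z0 z9) z0) z13) (c (a (b z0 z9) z0) z13))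 (d z13 z13)) z0))) z0)) (d (a (b (d (c (a (b (d (c z9 z13) z9) (d (c (a z8 z9) z13) (a z8 z9))) z0) z13) (a (c (b (d (a (c z9 z13) z13) z9) (d (a z12 z13) (a z8 z9))) z13) z0)) (d (c (a z8 z9) z13) (a z12 z13))) z0) (a (b (d (a (b (d (c (a (b z13 (d z13 z13)) z13) z13) (c (a (b (d z13 z13) (d z13 z13)) z13) z13)) (d (c (a z12 z13) z13) (c (a z12 z13) z13))) z0) (a (b (d (c z9 z13) (c z9 z13)) (d (c (a z8 z9) z13) (c (a z8 z9) z13))) z0)) (d (a z12 z13) (a z12 z13))) z0)))) _ _ (by decide +kernel)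

theorem okB254 : CKB ⟨4097, 6145, 1024, 1280⟩ ⟨24576, 49152, 11776, 12288⟩ :=
  ckB_sound z0 _ _ (by decide +kernel)

end Vale.Agent.Lib.P154Q5
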