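import Vale.Agent.Lib.P154Q5.CkBDefs

namespace Vale.Agent.Lib.P154Q5

set_option maxRecDepth 100000
set_option exponentiation.threshold 1000

open Tr

theorem okB255 : CKB ⟨4097, 6145, 1280, 1536⟩ ⟨24576, 49152, 11776, 12032⟩ :=
  ckB_sound (a (b (d (b z0 (d (b (d (c (b z0 z8) z12) (c (b z0 z8) z12)) (d z12 z12)) (b (d (b z0 z12) (b z0 z12)) (d z12 z12)))) (b z0 (d (b (d (b z0 z12) (b z0 z12)) (d z12 z12)) (b (d (b z0 z12) (b z0 z12)) (d z12 z12))))) (d (a (b (d z12 z12) z12) (b (d (a z12 (b (d z12 z12) z12)) (a z12 (b (d z12 z12) z12))) (d z12 z12))) (a (b (d z12 z12) z12) (b (d (a z12 (b (d z12 z12) z12)) (a z12 (b (d z12 z12) z12))) (d z12 z12))))) (b (d (a (b z0 (d (a (b (d (a (c (b z0 z9) z13) z0) (a (c (b z0 z9) z13) z0)) (d z13 z13)) z0) (a (b (d (a (b z0 z13) z0) (a (b z0 z13) z0)) (d z13 z13)) z0))) z0) (a (b z0 (d (a (b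 (d (a (b z0 (d z13 z13)) z0) (a (b z0 (d z13 z13)) z0)) (d z13 z13)) z0) (a (b (d (a (b z0 (d z13 z13)) z0) (a (b z0 (d z13 z13)) z0)) (d z13 z13)) z0))) z0)) (d (a (b (d (a (b (d (a (c (b z9 (d z13 z9)) z13) z13) (a (c (b z9 (d z13 z9)) z13) z13)) (d (a z12 z13) (a z12 z13))) z0) (a (b (d (a (b (d z13 z13) (d z13 z13)) z13) (a (b (d z13 z13) (d z13 z13)) z13)) (d (a z12 z13) (a z12 z13))) z0)) (d (a (b (d (a z12 z13) (a z12 z13)) z12) z13) (a (b (d (a z12 z13) (a z12 z13)) z12) z13))) z0) (a (b (d (a (b (d (a (b (d z13 z13) (d z13 z13)) z13) (a (b (d z13 z13) (d z13 z13)) z13)) (d (a z12 z13) (a z12 z13))) z0) (a (b (d (a (b (d z13 z13) (d z13 z13)) z13) (a (b (d z13 z13) (d z13 z13)) z13)) (d (a z12 z13) (a z12 z13))) z0)) (d (a (b (d (a z12 z13) (a z12 z13)) z12) z13) (a (b (d (a z12 z13) (a z12 z13)) z12) z13))) z0)))) _ _ (by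 decide +kernel)

theorem okB256 : CKB ⟨4097, 5473, 1280, 1408⟩ ⟨24576, 49152, 12032, 12288⟩ :=
  ckB_sound (d (b z0 (d (b (d (b z0 z12) (b z0 z12)) (d z12 z12)) (b (d (b z0 z12) (b z0 z12)) (d z12 z12)))) (b z0 (d (b (d (b z0 z12) (b z0 (d z12 z12))) (d z12 (a (b (d z12 z12) (d z12 z12)) (b (d z12 z12) (d z12 z12))))) (b (d (b z0 (d z12 (b (d z13 z13) (d z12 z12)))) (b z0 (d (b (d (b z0 (d z13 z13)) z5) (d z4 z4)) (b (d z5 z5) (d z4 z4))))) (d (a (b (d z12 (b z0 z4)) (d z12 z4)) (b (d z12 (a (b (d z12 z12) (d z12 z12)) (b (d z12 z12) (d z12 z12)))) (d z12 (a (b (d z12 z12) z4) (b (d z12 z12) (d z12 z12)))))) (a (b (d (b z0 z4) (b z0 z4)) (d z4 z4)) (b (d (a (b (d z4 z4) (d z4 z4)) (b (d z4 z4) (d z4 z4))) (a (b (d z4 z4) (d z4 z4)) (b (d z4 z4) (d z4 z4)))) (d (a (b (d z4 z4) z4) (b (d z4 z4) (d z4 z4))) (a (b (d z4 z4) z4) (b (d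 z4 z4) (d z4 z4))))))))))) _ _ (by decide +kernel)

theorem okB257 : CKB ⟨4097, 5473, 1408, 1536⟩ ⟨24576, 49152, 12032, 12288⟩ :=
  ckB_sound (d (a (b (d z12 z12) (d z12 z12)) (b (d (a z12 (b (d z12 z12) z12)) z12) (d z12 z12))) (a (b (d (b z0 (d z12 z4)) (b z0 (d z4 z0))) (d (a (b (d z12 z4) (d z12 z4)) (b (d z12 z4) (d z12 z4))) (a (b (d z4 z0) (d z4 z0)) (b (d z4 z0) (d z4 z0))))) (b (d (a (b (d z12 (b (d z12 z12) (d z12 z12))) (d z12 (a (b (d z12 z12) z4) (b (d z12 z12) (d z12 z12))))) (b (d z12 (a (b (d z12 z12) (d z12 z12)) (b (d z12 z12) (d z12 z12)))) (d z12 (a (b (d z12 z12) (d z12 z12)) (b (d z12 z12) (d z12 z12)))))) (a (b (d (b (d z12 z4) (d z12 z4)) (b (d z4 z4) (d z4 z4))) (d (a (b (d z12 z4) z4) (b (d z12 z4) (d z12 z4))) (a (b (d z4 z4) z0) (b (d z4 z4) (d z4 z4))))) (b (d (a (b (d z12 z4) (d z12 z4)) (b (d z12 (a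 z4 (b (d z12 z12) (d z12 z12)))) (d z12 (a z4 (b (d z12 z12) z4))))) (a (b (d z4 z4) (d z4 z4)) (b (d (a z4 (b (d z4 z4) (d z4 z4))) (a z4 (b (d z4 z4) (d z4 z4)))) (d (a z4 (b (d z4 z4) z4)) (a z4 (b (d z4 z4) z4)))))) (d (a (b (d z12 z4) (d z12 z4)) (b (d z12 z4) (d z12 z4))) (a (b (d z4 z4) (d z4 z4)) (b (d z4 z4) (d z4 z4))))))) (d (a (b (d z12 (a z4 (b (d z12 z12) (d z12 z12)))) (d z12 (a z4 (b (d z12 z12) z4)))) (b (d z12 (a (b (d z12 z12) (d z12 z12)) (b (d z12 z12) (d z12 z12)))) (d z12 (a (b (d z12 z12) (d z12 z12)) (b (d z12 z12) (d z12 z12)))))) (a (b (d (a z4 (b (d z12 z4) (d z12 z4))) (a z0 (b (d z4 z4) (d z4 z4)))) (d z4 z0)) (b (d (a (b (d z12 z4) (d z12 z4)) (b (d z12 z4) (d z12 z4))) (a (b (d z4 z4) (d z4 z4)) (b (d z4 z4) (d z4 z4)))) (d (a (b (d z12 z4) (d z12 z4)) (b (d z12 z4) (d z12 z4))) (a (b (d z4 z4) (d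 z4 z4)) (b (d z4 z4) (d z4 z4)))))))))) _ _ (by decide +kernel)

theorem okB258 : CKB ⟨5473, 6145, 1280, 1408⟩ ⟨24576, 49152, 12032, 12288⟩ :=
  ckB_sound (d (a (b z0 (d (a (b (d (a (b z0 (d z13 z13)) z0) (a (b z0 (d z13 z13)) z0)) (d z13 z13)) z0) (a (b (d (a (b z0 (d z13 z13)) z0) (a (b z0 (d z13 z13)) z0)) (d z13 z13)) z0))) z0) (a (b z0 (d (a (b (d (a (b z0 (d z13 z13)) z0) (a (b z0 (d z13 z13)) z0)) (d z13 (a (b (d z13 z13) (d z13 z13)) z0))) z0) (a (b (d (a (b z0 (d z13 (a (b z0 (d z13 z13)) z0))) z0) (a (b z0 (d (a (b z0 (d z5 z5)) z0) (a (b z0 (d z5 z5)) z0))) z0)) (d (a (b (d z13 (a (b (d z13 z13) (d z13 z13)) z0)) (d z13 (a (b (d z13 z13) (d z13 z13)) (b z0 (d z13 z13))))) z0) (a (b (d (a (b (d z5 z5) (d z5 z5)) z0) (a (b (d z5 z5) (d z5 z5)) z0)) (d (a (b (d z5 z5) (d z5 z5)) (b z0 (d z5 z5))) (a (b (d z5 z5) (d z5 z5))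 (b z0 (d z5 z5))))) z0))) z0))) z0)) _ _ (by decide +kernel)

theorem okB259 : CKB ⟨5473, 6145, 1408, 1536⟩ ⟨24576, 49152, 12032, 12288⟩ :=
  ckB_sound (d (a (b (d (a (b (d (a (b (d z13 z13) (d z13 z13)) z13) (a (b (d z13 z13) (d z13 z13)) z13)) (d (a z12 z13) (a z12 z13))) z0) (a (b (d (a (b z13 (d z13 z13)) z13) (a (b z13 (d z13 z13)) z13)) (d (a z12 z13) (a z12 z13))) z0)) (d (a (b (d (a z12 z13) (a z12 z13)) z12) z13) (a (b (d (a z12 z13) (a z12 z13)) z12) z13))) z0) (a (b (d (a (b (d (a (b z13 (d z13 z13)) z13) (a (b (d z13 z13) (d z13 z13)) (b z0 (d z13 z13)))) (d (a z12 z13) (a (b (d z12 z12) (d z12 z12)) (b (d z13 z13) (d z13 z13))))) z0) (a (b (d (a (b (d z13 (a (b (d z12 z12) (d z12 z12)) (b z5 (d z13 z13)))) (d z13 (a (b (d z12 z12) (d z12 z12)) (b (d z13 z13) (d z13 z13))))) (b z0 (d z13 z5))) (a (b (d (a (b (d z4 z4)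 (d z4 z4)) z5) (a (b (d z4 z4) (d z4 z4)) z5)) (d (a (b (d z4 z4) (d z4 z4)) (b (d z5 z5) (d z5 z5))) (a (b (d z4 z4) (d z4 z4)) (b (d z5 z5) (d z5 z5))))) (b z0 (d z5 z5)))) (d (a (b (d z12 (a (b (d z12 z12) (d z12 z12)) (b (d z13 z13) (d z13 z13)))) (d z12 (a z4 (b (d z13 z13) (d z12 z12))))) (b (d z13 z5) (d z13 z5))) (a (b (d (a (b (d z4 z4) (d z4 z4)) (b (d z5 z5) (d z5 z5))) (a (b (d z4 z4) (d z4 z4)) (b (d z5 z5) (d z5 z5)))) (d (a z4 (b (d z5 z5) (d z4 z4))) (a z4 (b (d z5 z5) (d z4 z4))))) (b (d z5 z5) (d z5 z5))))) z0)) (d (a (b (d (a z12 z13) (a (b (d z12 z12) (d z12 z12)) (b (d z13 z13) (d z13 z13)))) (d z12 (a (b (d z12 z12) (d z12 z12)) (b (d z13 z13) (d z13 z13))))) (b (d z13 (a (b z0 (d z13 z13)) z0)) (d z13 (a (b z5 (d z13 z13)) z0)))) (a (b (d (a (b (d z12 (a z4 (b (d z12 z12) (d z12 z12)))) (d z12 z4)) (b (d z13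 z5) (d z13 (a (b z5 (d z13 z13)) z5)))) (a (b (d (a z4 (b (d z4 z4) z4)) (a z4 (b (d z4 z4) z4))) (d z4 z4)) (b (d z5 z5) (d z5 z5)))) (d (a (b (d z12 z4) (d z12 z4)) (b (d z13 (a (b (d z13 z13) (d z13 z13)) z5)) (d z13 (a z4 z5)))) (a (b (d z4 z4) (d z4 z4)) (b (d (a (b (d z5 z5) (d z5 z5)) z5) (a (b (d z5 z5) (d z5 z5)) z5)) (d (a z4 z5) (a z4 z5)))))) (b (d (a (b z0 (d z13 z5)) z0) (a (b z0 (d z5 z5)) z0)) (d (a (b z5 (d z13 z5)) z0) (a (b z1 (d z5 z5)) z0)))))) z0)) _ _ (by decide +kernel)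

theorem okB260 : CKB ⟨4097, 6145, 1536, 2048⟩ ⟨24576, 49152, 11264, 11776⟩ :=
  ckB_sound (a (b (d (a (b (d (c (b (d z12 (b z0 (d z8 z0))) (d z12 (a (b (d z8 z0) (d z8 z0)) (b (d z8 z0) (d z8 z0))))) z12) (b z12 z12)) (d z12 z12)) (b (d (c (b (d z12 (a (b (d z8 z0) (d z8 z0)) (b (d z8 z0) (d z8 z0)))) (d z12 (a (b (d z8 z0) (d z8 z0)) (b (d z8 z0) (d z8 z0))))) z12) z12) (d z12 z12))) (a (b (d z12 z12) (d z12 z12)) (b (d z12 z12) (d z12 z12)))) (d (a (b (d z12 z12) z12) (b (d z12 z12) z12)) z12)) (b (d (b (d (a (c (b (d z12 (a (b (d z8 (a z0 (b (d z8 z0) (d z8 z0)))) (d z8 z0)) (b (d z8 (a (b (d z8 z0) (d z8 z0)) (b (d z8 z0) (d z8 z0)))) (d z8 (a (b (d z8 z0) z0) (b (d z8 z0) (d z8 z0))))))) (d z12 (a (b (d z8 z0) (d z8 z0)) (b (d z8 z0) (d z8 z0))))) z12) (c (b (d z13 (a (b (d z9 z1) (d z9 (a (b z1 (d z9 z1)) z1))) z0)) (d z13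 (a (b (d z9 (a (b (d z9 z1) (d z9 z1)) z1)) (d z9 (a (b (d z9 z1) (d z9 z1)) z1))) z0))) z13)) (a (b (d z12 z12) z12) (b (d z13 z13) (d z13 z13)))) (d z12 (a z12 (b (d z13 z13) (d (a z12 z13) (a z12 z13)))))) (b (d (a (b (d z12 z12) z12) (b (d z13 z13) (d z13 z13))) (a (b (d z12 z12) z12) (b (d z13 z13) (d z13 z13)))) (d (a z12 (b (d z13 z13) (d (a z12 z13) (a z12 z13)))) (a z12 (b (d z13 z13) (d (a z12 z13) (a z12 z13))))))) (d (b (d z12 z12) z12) (b (d z12 z12) z12)))) _ _ (by decide +kernel)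

theorem okB261 : CKB ⟨4097, 5121, 1536, 2048⟩ ⟨24576, 49152, 11776, 12288⟩ :=
  ckB_sound (b (d (a (b (d z12 z12) (d z12 z12)) (b (d z12 z12) (d z12 z12))) (a (b (d (b (d z12 z12) (d z12 z12)) (b (d (b z0 (d z12 z4)) (b z0 z0)) (d z4 z0))) (d (a (b (d z12 z12) (d z12 z12)) (b (d z12 z12) (d z12 z12))) (a (b (d z4 z0) (d z4 z0)) (b (d z4 z0) (d z4 z0))))) (b (d (b (d z12 z12) (d z12 z12)) (b (d (a (b (d z12 z4) (d z12 z4)) (b (d z12 z4) (d z12 z4))) (a (b (d z4 z0) (d z4 z0)) (b (d z4 z0) (d z4 z0)))) (d (a (b (d z12 z4) (d z12 z4)) (b (d z12 z4) (d z12 z4))) (a (b (d z4 z0) (d z4 z0)) (b (d z4 z0) (d z4 z0)))))) (d (b (d z12 z12) (d z12 z12)) (b (d (a (b (d z12 z4) z4) (b (d z12 z4) (d z12 z4))) (a z0 (b (d z4 z0) (d z4 z0)))) (d (a z4 (b (d z12 z4) (d z12 z4))) (a z0 (b (d z4 z0) (d z4 z0))))))))) (d (a (b (d z12 z12) (d z12 z12))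 (b (d z12 z12) (d z12 z12))) (a (b (d (a (b (d z12 z12) (d z12 z12)) (b (d z12 z12) (d z12 z12))) (a (b (d z4 z0) (d z4 z0)) (b (d z4 z0) (d z4 z0)))) (d (a (b (d z12 z12) (d z12 z12)) (b (d z12 z12) (d z12 z12))) (a (b (d z4 z0) (d z4 z0)) (b (d z4 z0) (d z4 z0))))) (b (d (b (d z12 z12) (d z12 z12)) (b (d (a z4 (b (d z12 z4) (d z12 z4))) (a z0 (b (d z4 z0) z0))) (d z4 z0))) (d (b (d z12 z12) (d z12 z12)) (b (d z4 z0) (d z4 z0))))))) _ _ (by decide +kernel)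

theorem okB262 : CKB ⟨5121, 6145, 1536, 1792⟩ ⟨24576, 49152, 11776, 12032⟩ :=
  ckB_sound (b (d (a (b (d z12 z12) z12) (b (d z13 z13) (d z13 z13))) (a (b (d z12 z12) z12) (b (d z13 z13) (d z13 z13)))) (d (a z12 (b (d z13 (a (b z13 (d z13 z13)) z13)) (d (a z12 z13) (a z12 z13)))) (a z12 (b (d (a (b z13 (d z13 z13)) z13) (a (b z13 (d z13 z13)) z13)) (d (a z12 z13) (a z12 z13)))))) _ _ (by decide +kernel)

theorem okB263 : CKB ⟨5121, 6145, 1536, 1664⟩ ⟨24576, 49152, 12032, 12288⟩ :=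
  ckB_sound (d (a (b (d z12 z12) (d z12 z12)) (b (d z13 z13) (d z13 z13))) (a (b (d (a (b (d z12 (a z4 (b (d z12 z12) z4))) (d z12 z4)) (b (d z12 (a (b (d z12 z12) (d z12 z12)) (b (d z12 z12) (d z12 z12)))) (d z12 (a (b (d z12 z12) (d z12 z12)) (b (d z12 z12) (d z12 z12)))))) (a (b (d (a z4 (b (d z12 z4) z4)) (a z0 (b (d z4 z4) z0))) (d z4 z0)) (b (d (a (b (d z12 z4) (d z12 z4)) (b (d z12 z4) (d z12 z4))) (a (b (d z4 z4) (d z4 z4)) (b (d z4 z4) (d z4 z4)))) (d (a (b (d z12 z4) (d z12 z4)) (b (d z12 z4) (d z12 z4))) (a (b (d z4 z4) (d z4 z4)) (b (d z4 z4) (d z4 z4))))))) (d (a (b (d z12 z4) (d z12 z4)) (b (d z12 (a (b (d z12 z12) (d z12 z12)) (b (d z12 z12) (d z12 z12)))) (d z12 (a z4 (b (d z12 z12) (d z12 z12)))))) (a (b (d z4 z0) (d z4 z0)) (b (d (a (b (d z12 z4) (d z12 z4)) (b (d z12 z4) (d z12 z4))) (a (b (d z4 z4) (d z4 z4))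 (b (d z4 z4) (d z4 z4)))) (d (a z4 (b (d z12 z4) (d z12 z4))) (a z0 (b (d z4 z4) (d z4 z4)))))))) (b (d (a (b (d z13 (a (b (d z13 z13) (d z13 z13)) z0)) (d z13 (a (b (d z13 z13) (d z13 z13)) z5))) z0) (a (b (d (a (b (d z13 z5) (d z13 z5)) z0) (a (b (d z5 z5) (d z5 z5)) z0)) (d (a (b (d z13 z5) (d z13 z5)) z5) (a (b (d z5 z5) (d z5 z5)) z1))) z0)) (d (a (b (d z13 (a (b (d z13 z13) (d z13 z13)) z5)) (d z13 (a (b (d z13 z13) (d z13 z13)) z5))) z0) (a (b (d (a (b (d z13 z5) (d z13 z5)) z5) (a (b (d z5 z5) (d z5 z5)) z1)) (d (a (b (d z13 (a z4 z5)) (d z13 (a z4 z5))) z5) (a (b (d (a z4 z5) (a z4 z5)) (d (a z4 z5) (a z4 z5))) z1))) z0))))) _ _ (by decide +kernel)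

theorem okB264 : CKB ⟨5121, 6145, 1664, 1792⟩ ⟨24576, 49152, 12032, 12288⟩ :=
  ckB_sound (d (a (b (d z12 z12) (d z12 z12)) (b (d (a (b z13 (d z13 z13)) z13) (a (b z13 (d z13 z13)) z13)) (d (a z12 z13) (a z12 z13)))) (a (b (d (a (b (d z12 z4) (d z12 z4)) (b (d z12 (a z4 (b (d z12 z12) (d z12 z12)))) (d z12 (a z4 (b (d z12 z12) z4))))) (a (b (d z4 z0) (d z4 z0)) (b (d (a z4 (b (d z12 z4) (d z12 z4))) (a z0 (b (d z4 z4) (d z4 z4)))) (d (a z4 (b (d z12 z4) z4)) (a z0 (b (d z4 z4) z0)))))) (d (a (b (d z12 z4) (d z12 z4)) (b (d z12 z4) (d z12 z4))) (a (b (d z4 z0) (d z4 z0)) (b (d z4 z0) (d z4 z0))))) (b (d (a (b (d z13 (a (b (d z13 z13) (d z12 z12)) z5)) (d z13 (a (b (d z12 z12) (d z12 z12)) z5))) (b z5 (d z13 z5))) (a (b (d (a (b (d z13 (a z4 z5)) (d z12 z4)) z5) (a (b (d (a z4 z5) (a z4 z5)) (d z4 z4)) z1)) (d (a (b (d z12 z4) (d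 z12 z4)) z5) (a (b (d z4 z4) (d z4 z4)) z1))) (b z1 (d z5 z1)))) (d (a (b (d z13 (a (b (d z12 z12) (d z12 z12)) (b (d z13 z13) (d z13 z13)))) (d z12 (a (b (d z12 z12) (d z12 z12)) (b (d z13 z13) (d z13 z13))))) (b (d z13 z5) (d z13 z5))) (a (b (d (a (b (d z12 z4) (d z12 z4)) (b (d z13 z5) (d z13 z5))) (a (b (d z4 z4) (d z4 z4)) (b (d z5 z5) (d z5 z5)))) (d (a (b (d z12 z4) (d z12 z4)) (b (d z13 z5) (d z13 z5))) (a (b (d z4 z4) (d z4 z4)) (b (d z5 z5) (d z5 z5))))) (b (d z5 z1) (d z5 z1))))))) _ _ (by decide +kernel)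

theorem okB265 : CKB ⟨5121, 6145, 1792, 2048⟩ ⟨24576, 49152, 11776, 12288⟩ :=
  ckB_sound (d (b (d z12 z12) (d z12 z12)) (b (d (a (b (d z12 z12) (d z12 z12)) (b (d (a z12 z13) (a z12 z13)) (d (a z12 z13) (a z12 z13)))) (a (b (d (a (b (d z12 z4) (d z12 z4)) (b (d z12 z4) (d z12 z4))) (a (b (d z4 z0) (d z4 z0)) (b (d z4 z0) (d z4 z0)))) (d (a (b (d z12 z4) (d z12 z4)) (b (d z12 z4) (d z12 z4))) (a (b (d z4 z0) (d z4 z0)) (b (d z4 z0) (d z4 z0))))) (b (d (a (b (d z12 (a z4 (b (d z13 z13) (d z13 z13)))) (d z12 (a z4 (b (d z13 z13) (d z12 z12))))) (b (d z13 z5) (d z13 z5))) (a (b (d (a z4 (b (d z13 z5) (d z13 z5))) (a z0 (b (d z5 z5) (d z5 z5)))) (d (a z4 (b (d z13 z5) (d z12 z4))) (a z0 (b (d z5 z5) (d z4 z4))))) (b (d z5 z1) (d z5 z1)))) (d (a (b (d z12 (a z4 (b (d z12 z12) z4))) (d z12 z4)) (b (d z13 z5) (d z13 z5))) (a (b (d (a z4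 (b (d z12 z4) z4)) (a z0 (b (d z4 z4) z0))) (d z4 z0)) (b (d z5 z1) (d z5 z1))))))) (d (a (b (d z12 z12) (d z12 z12)) (b (d z12 z12) (d z12 z12))) (a (b (d (a (b (d z12 z4) (d z12 z4)) (b (d z12 z4) (d z12 z4))) (a (b (d z4 z0) (d z4 z0)) (b (d z4 z0) (d z4 z0)))) (d (a z4 (b (d z12 z4) (d z12 z4))) (a z0 (b (d z4 z0) (d z4 z0))))) (b (d (a (b (d z12 z4) (d z12 z4)) (b (d z13 (a (b z5 (d z13 z13)) z5)) (d z13 (a (b (d z13 z13) (d z13 z13)) z5)))) (a (b (d z4 z0) (d z4 z0)) (b (d (a (b z5 (d z13 z5)) z5) (a (b z1 (d z5 z5)) z1)) (d (a (b (d z13 z5) (d z13 z5)) z5) (a (b (d z5 z5) (d z5 z5)) z1))))) (d (a (b (d z12 z4) (d z12 z4)) (b (d z13 (a z4 z5)) (d z13 (a z4 z5)))) (a (b (d z4 z0) (d z4 z0)) (b (d (a z4 z5) (a z0 z1)) (d (a z4 z5) (a z0 z1)))))))))) _ _ (by decide +kernel)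

theorem okB266 : CKB ⟨6145, 8193, 1024, 2048⟩ ⟨24576, 49152, 11264, 12288⟩ :=
  ckB_sound (b z0 (d (b z0 z9) (b z0 (d (a (b (d z13 z13) (d z13 z13)) z0) (a (b (d (a (b (d z13 z13) (d z13 z13)) z0) (a (b (d z5 z1) (d z5 z1)) z0)) (d (a (b (d z13 z13) (d z13 z13)) z0) (a (b (d z5 z1) (d z5 z1)) z0))) z0))))) _ _ (by decide +kernel)

theorem okB267 : CKB ⟨4097, 8193, 2048, 4096⟩ ⟨24576, 49152, 8192, 10240⟩ :=
  ckB_sound (b (d z12 (a (b (d z12 (c z8 z12)) (d z12 (c z8 z12))) (b (d z13 (c z9 z13)) (d (b (d z13 (a (c (b (d z13 (a z12 z13)) z12) z13) z13)) (d z13 (a z12 z13))) (c (b (d (a (c z9 z13) z13) z9) (d (a z12 z13) (a z8 z9))) (b z13 (d z13 (a z12 z13)))))))) (d z12 (a (b (d z12 (c z8 z12)) z12) z12))) _ _ (by decide +kernel)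

theorem okB268 : CKB ⟨4097, 6145, 2048, 3072⟩ ⟨24576, 49152, 10240, 11264⟩ :=
  ckB_sound (b (d (c (a (b (d z8 (a (b (d z8 (a (b (d (a (b (d z8 z0) z0) z0) z0) (d z0 z0)) (b (d z0 z0) (d z0 z0)))) (d z8 (a (b (d z0 z0) (d z0 z0)) (b (d z0 z0) (d z0 z0))))) (b (d z8 (b (d z0 z0) (d z0 z0))) (d z8 (b (d z0 z0) (d z0 z0)))))) (d z8 (a (b (d z8 (a (b (d z0 z0) (d z0 z0)) (b (d z0 z0) (d z0 z0)))) (d z8 (a (b (d z0 z0) (d z0 z0)) (b (d z0 z0) (d z0 z0))))) (b (d z8 (b (d z0 z0) (d z0 z0))) (d z8 (b (d z0 z0) (d z0 z0))))))) (b (d z8 (b (d z8 (a (b (d z0 z0) (d z0 z0)) (b (d z0 z0) (d z0 z0)))) (d z8 (a (b (d z0 z0) (d z0 z0)) (b (d z0 z0) (d z0 z0)))))) (d z8 (b (d z8 (a (b (d z0 z0) (d z0 z0)) (b (d z0 z0) (d z0 z0)))) (d z8 (a (b (d z0 z0) (d z0 z0)) (b (d z0 z0) (d z0 z0)))))))) z12) (a (b (d (c (a (b (d z8 (a (b (d z8 z0) (d z8 z0))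 (b (d z8 z0) (d z8 z0)))) (d z8 (a (b (d z8 z0) (d z8 z0)) (b (d z8 z0) (d z8 z0))))) (b (d z8 (b (d z8 z0) (d z8 z0))) (d z8 (b (d z8 z0) (d z8 z0))))) z12) z12) (d z12 z12)) (b (d (c (b (d z8 (a (b (d z8 z0) (d z8 z0)) (b (d z8 z0) (d z8 z0)))) (d z8 (a (b (d z8 z0) (d z8 z0)) (b (d z8 z0) (d z8 z0))))) z12) z12) (d z12 z12)))) (d (c (a (b (d z8 (a (b (d z8 (a (b (d z0 z0) (d z0 z0)) (b (d z0 z0) (d z0 z0)))) (d z8 (a (b (d z0 z0) (d z0 z0)) (b (d z0 z0) (d z0 z0))))) (b (d z8 (b (d z0 z0) (d z0 z0))) (d z8 (b (d z0 z0) (d z0 z0)))))) (d z8 (a (b (d z8 (a (b (d z0 z0) z0) (b (d z0 z0) z0))) (d z8 z0)) (b (d z8 z0) (d z8 z0))))) (b (d z8 (b (d z8 (a (b (d z0 z0) (d z0 z0)) (b (d z0 z0) (d z0 z0)))) (d z8 (a (b (d z0 z0) z0) z0)))) (d z8 (b (d z8 z0) (d z8 z0))))) z12) (a (b (d z12 z12) z12) z12))) _ _ (by decide +kernel)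

theorem okB269 : CKB ⟨6145, 8193, 2048, 3072⟩ ⟨24576, 49152, 10240, 11264⟩ :=
  ckB_sound (b (d (c (b (d z9 (a (b (d z9 (a (b (d z1 z0) (d z1 z0)) z1)) (d z9 (a (b (d z1 z0) (d z1 z0)) z1))) z0)) (d z9 (a (b (d z9 (a (b (d z1 z0) (d z1 z0)) z1)) (d z9 (a (b (d z1 z0) (d z0 z0)) z1))) z1))) z13) (b (d z13 z13) (d (a (c (b (d z9 (a (b (d z9 z1) (d z9 z1)) z1)) (d z9 (a (b (d z9 (a z0 z1)) (d z8 z0)) z1))) z13) z13) (a (b z13 (d z13 z13)) z13)))) (d (c (b (d z9 (a (b (d z9 (a (b (d z0 z0) z0) z1)) (d z8 z0)) z1)) (d (a z8 z9) (a (b (d z8 z0) (d z8 z0)) (b z1 (d z9 z1))))) (b (d z13 (a (b z13 z12) z13)) (d z13 (a z12 z13)))) (b (d (a (c (b (d z9 (a (b (d z8 z0) (d z8 z0)) z1)) (d z8 (a (b (d z8 z0) z0) (b z1 (d z9 z1))))) z13) z13) (a (b (d z13 z13) z12) z13)) (d (a z12 z13) (a z12 z13))))) _ _ (by decide +kernel)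

end Vale.Agent.Lib.P154Q5
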