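import Vale.Agent.Lib.P154Q5.CkBDefs

namespace Vale.Agent.Lib.P154Q5

set_option maxRecDepth 100000
set_option exponentiation.threshold 1000

open Tr

theorem okB270 : CKB ⟨4097, 6145, 2048, 2560⟩ ⟨24576, 49152, 11264, 12288⟩ :=
  ckB_sound (d z8 (a (b (d (a (b (d z12 z12) (d z12 z12)) (b (d z12 z12) (d z12 z12))) (a (b (d (a (b (d z12 z12) (d z12 z12)) (b (d z12 z12) (d z12 z12))) (a (b (d z4 z0) (d z4 z0)) (b (d z4 z0) (d z4 z0)))) (d (a (b (d z12 z12) (d z12 z12)) (b (d z12 z12) (d z12 z12))) (a (b (d z4 z0) (d z4 z0)) (b (d z4 z0) (d z4 z0))))) (b (d (b (d z12 z12) (d z12 z12)) (b (d z4 z0) (d z4 z0))) (d (b (d z12 z12) (d z12 z12)) (b (d z4 z0) (d z4 z0)))))) (d (a (b (d z12 z12) (d z12 z12)) (b (d z12 z12) (d z12 z12))) (a (b (d (a (b (d z12 z12) (d z12 z12)) (b (d z12 z12) (d z12 z12))) (a (b (d z4 z0)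 (d z4 z0)) (b (d z4 z0) (d z4 z0)))) (d (a (b (d z12 z12) (d z12 z12)) (b (d z12 z12) (d z12 z12))) (a (b (d z4 z0) (d z4 z0)) (b (d z4 z0) (d z4 z0))))) (b (d (b (d z12 z12) (d z12 z12)) (b (d z4 z0) (d z4 z0))) (d (b (d z12 z12) (d z12 z12)) (b (d z4 z0) (d z4 z0))))))) (b (d (b (d z12 z12) (d z12 z12)) (b (d (a (b (d z12 z12) (d z12 z12)) (b (d z12 z12) (d z12 z12))) (a (b (d (a z4 (b (d z12 z4) (d z12 z4))) (a z0 (b (d z4 z0) (d z4 z0)))) (d (a z4 (b (d z12 z4) z4)) (a z0 (b (d z4 z0) z0)))) (b (d (a (b (d z12 z4) (d z12 z4)) (b (d z12 z4) (d z12 z4))) (a (b (d z4 z0) (d z4 z0)) (b (d z4 z0) (d z4 z0)))) (d (a (b (d z12 z4) (d z12 z4)) (b (d z12 z4) (d z12 z4))) (a (b (d z4 z0) (d z4 z0)) (b (d z4 z0) (d z4 z0))))))) (d (a (b (d z12 z12) (d z12 z12)) (b (d z12 z12) (d z12 z12))) (a (b (d z4 z0) (d z4 z0))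 (b (d (a (b (d z12 z4) (d z12 z4)) (b (d z12 z4) (d z12 z4))) (a (b (d z4 z0) (d z4 z0)) (b (d z4 z0) (d z4 z0)))) (d (a (b (d z12 z4) (d z12 z4)) (b (d z12 z4) (d z12 z4))) (a (b (d z4 z0) (d z4 z0)) (b (d z4 z0) (d z4 z0))))))))) (d (b (d z12 z12) (d z12 z12)) (b (d (a (b (d z12 z12) (d z12 z12)) (b (d z12 z12) (d z12 z12))) (a (b (d z4 z0) (d z4 z0)) (b (d (a z4 (b (d z12 z4) (d z12 z4))) (a z0 (b (d z4 z0) (d z4 z0)))) (d (a z4 (b (d z12 z4) (d z12 z4))) (a z0 (b (d z4 z0) (d z4 z0))))))) (d (a (b (d z12 z12) (d z12 z12)) (b (d z12 z12) (d z12 z12))) (a (b (d z4 z0) (d z4 z0)) (b (d z4 (a z0 (b (d z4 z0) z0))) (d z4 z0))))))))) _ _ (by decide +kernel)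

theorem okB271 : CKB ⟨4097, 6145, 2560, 3072⟩ ⟨24576, 49152, 11264, 12288⟩ :=
  ckB_sound (d z8 (a (b (d (a (b (d z12 z12) (d z12 z12)) (b (d z12 z12) (d z12 z12))) (a (b (d (a (b (d z12 z12) z4) (b (d z12 z12) (d z12 z12))) (a z0 (b (d z4 z0) (d z4 z0)))) (d z4 z0)) (b (d (b (d z12 z12) (d z12 z12)) (b (d z4 z0) (d z4 z0))) (d (b (d z12 z12) (d z12 z12)) (b (d z4 z0) (d z4 z0)))))) (d (a (b (d z12 z12) (d z12 z12)) (b (d z12 z12) (d z12 z12))) (a (b (d z4 z0) (d z4 z0)) (b (d (b (d z12 z12) (d z12 z12)) (b (d z4 z0) (d z4 z0))) (d z4 z0))))) (b (d (b (d z12 z12) (d z12 z12)) (b (d (a (b (d z12 z12) (d z12 z12)) (b (d z12 z12) (d z12 z12))) (a (b (d z4 z0) (d z4 z0)) (b (d z4 z0) (d z4 z0)))) (d (a (b (d z12 z12) (d z12 z12)) (b (d z12 z12) (d z12 z12))) (a (b (d z4 z0) (d z4 z0)) (b (d z4 z0) (d z4 z0))))))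 (d (b (d z12 z12) (d z12 z12)) (b (d (a (b (d z12 z12) (d z12 z12)) (b (d z12 z12) (d z12 z12))) (a (b (d z4 z0) (d z4 z0)) (b (d z4 z0) (d z4 z0)))) (d (a (b (d z12 z12) (d z12 z12)) (b (d z12 z12) (d z12 z12))) (a (b (d z4 z0) (d z4 z0)) (b (d z4 z0) (d z4 z0))))))))) _ _ (by decide +kernel)

theorem okB272 : CKB ⟨6145, 8193, 2048, 2560⟩ ⟨24576, 49152, 11264, 12288⟩ :=
  ckB_sound (d (b z9 (d z13 z13)) (b (d (a (b (d z13 z13) (d z13 z13)) z0) (a (b (d (a (b (d z13 z13) (d z13 z13)) z5) (a (b (d (a (b z5 (d z13 z5)) z5) (a (b z1 (d z5 z1)) z1)) (d (a (b (d z13 z5) (d z13 z5)) z5) (a (b (d z5 z1) (d z5 z1)) z1))) z1)) (d (a (b (d z13 z13) (d z13 z13)) z5) (a (b (d (a (b (d z13 z5) (d z13 z5)) z5) (a (b (d z5 z1) (d z5 z1)) z1)) (d (a (b (d z13 z5) (d z13 z5)) z5) (a (b (d z5 z1) (d z5 z1)) z1))) z1))) z0)) (d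 (a (b (d z13 z13) (d z13 z13)) (b z5 (d z13 z13))) (a (b (d (a (b (d z13 z13) (d z13 z13)) (b z5 (d z13 z13))) (a (b (d (a (b (d z13 z5) (d z13 (a z4 z5))) z5) (a (b (d z5 z1) (d (a z4 z5) (a z0 z1))) z1)) (d (a (b (d z12 z4) (d z12 z4)) z5) (a (b (d z4 z0) (d z4 z0)) z1))) (b z1 (d z5 z1)))) (d (a (b (d z13 z13) (d z12 z12)) (b (d z13 z13) (d z13 z13))) (a (b (d (a (b (d z12 z4) (d z12 z4)) (b (d z13 z5) (d z13 z5))) (a (b (d z4 z0) (d z4 z0)) (b (d z5 z1) (d z5 z1)))) (d (a (b (d z12 z4) (d z12 z4)) (b (d z13 z5) (d z13 z5))) (a (b (d z4 z0) (d z4 z0)) (b (d z5 z1) (d z5 z1))))) (b (d z5 z1) (d z5 z1))))) (b (d z5 z1) (d z5 z1)))))) _ _ (by decide +kernel)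

theorem okB273 : CKB ⟨6145, 8193, 2560, 3072⟩ ⟨24576, 49152, 11264, 12288⟩ :=
  ckB_sound (d (b (d (a (b (d z13 z13) z12) z13) (a (b (d z13 z13) z12) z13)) (d (a z12 z13) (a z12 z13))) (b (d (a (b (d z13 z13) (d z12 z12)) (b (d z13 z13) (d z13 z13))) (a (b (d (a (b (d z12 z12) (d z12 z12)) (b (d z13 z13) (d z13 z13))) (a (b (d (a (b (d z12 z4) z4) (b (d z13 z5) (d z13 z5))) (a (b (d z4 z0) (d z4 z0)) (b (d z5 z1) (d z5 z1)))) (d (a z4 (b (d z12 z4) (d z12 z4))) (a z0 (b (d z4 z0) (d z4 z0))))) (b (d z5 z1) (d z5 z1)))) (d (a (b (d z12 z12) (d z12 z12)) (b (d z13 z13) (d z13 z13))) (a (b (d (a z4 (b (d z12 z4) (d z12 z4))) (a z0 (b (d z4 z0) (d z4 z0)))) (d z4 (a z0 (b (d z4 z0) z0)))) (b (d z5 z1) (d (a (b (d z13 z5) (d z13 z5)) z5) (a (b (d z5 z1) (d z5 z1)) z1)))))) (b (d z5 z1) (d z5 z1)))) (d (a (b (d z12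 z12) (d z12 z12)) (b (d z13 z13) (d z13 z13))) (a (b (d (a (b (d z12 z12) (d z12 z12)) (b (d z13 z13) (d z13 z13))) (a (b (d z4 z0) (d z4 z0)) (b (d (a (b (d z13 z5) (d z13 z5)) z5) (a (b (d z5 z1) (d z5 z1)) z1)) (d (a (b (d z12 z4) z4) z5) (a (b (d z4 z0) (d z4 z0)) z1))))) (d (a (b (d z12 z12) (d z12 z12)) (b (d z13 z13) (d z12 z12))) (a (b (d z4 z0) (d z4 z0)) (b (d (a z4 z5) (a z0 z1)) (d (a z4 z5) (a z0 (b z1 (d z5 z1)))))))) (b (d z5 (a (b z1 (d z5 z1)) z1)) (d (a (b (d z13 z13) (d z13 z13)) z5) (a (b (d z5 z1) (d z5 z1)) z1))))))) _ _ (by decide +kernel)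

theorem okB274 : CKB ⟨4097, 8193, 3072, 4096⟩ ⟨24576, 49152, 10240, 11264⟩ :=
  ckB_sound (a (b (d (c (a (b (d z8 (a (b (d z8 z0) (d z8 z0)) (b (d z8 z0) (d z8 z0)))) (d z8 (a (b (d z8 z0) (d z8 z0)) (b (d z8 z0) (d z8 z0))))) (b (d z8 (b (d z8 z0) (d z8 z0))) (d z8 (b (d z8 z0) (d z8 z0))))) z12) z12) (d z12 z12)) (b (d z12 z12) (d z12 z12))) _ _ (by decide +kernel)

theorem okB275 : CKB ⟨4097, 6145, 3072, 4096⟩ ⟨24576, 49152, 11264, 12288⟩ :=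
  ckB_sound (b (d z8 (a (b (d (a (b (d z12 z12) (d z12 z12)) (b (d z12 z12) (d z12 z12))) (a (b (d z4 z0) (d z4 z0)) (b (d z4 z0) (d z4 z0)))) (d (a (b (d z12 z12) (d z12 z12)) (b (d z12 z12) (d z12 z12))) (a (b (d z4 z0) (d z4 z0)) (b (d z4 z0) (d z4 z0))))) (b (d (b (d z12 z12) (d z12 z12)) (b (d (a (b (d z12 z12) (d z12 z12)) (b (d z12 z12) (d z12 z12))) (a (b (d z4 z0) (d z4 z0)) (b (d z4 z0) (d z4 z0)))) (d (a z4 (b (d z12 z12) (d z12 z12))) (a z0 (b (d z4 z0) (d z4 z0)))))) (d (b (d z12 z12) (d z12 z12)) (b (d (a z4 (b (d z12 z12) (d z12 z12))) (a z0 (b (d z4 z0) (d z4 z0)))) (d z4 (a z0 (b (d z4 z0) z0)))))))) (d z8 (a (b (d (a (b (d z12 z12) (d z12 z12)) (b (d z12 z12) (d z12 z12))) (a (b (d z4 z0) (d z4 z0)) (b (d z4 z0) (d z4 z0)))) (d (a (b (d z12 z12) (d z12 z12)) (b (d z12 z12) (d z12 z12))) (a (b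 (d z4 z0) (d z4 z0)) (b (d z4 z0) (d z4 z0))))) (b (d (b (d z12 z12) (d z12 z12)) (b (d z4 z0) (d z4 z0))) (d (b (d z12 z12) (d z12 z12)) (b (d z4 z0) (d z4 z0))))))) _ _ (by decide +kernel)

theorem okB276 : CKB ⟨6145, 8193, 3072, 4096⟩ ⟨24576, 49152, 11264, 12288⟩ :=
  ckB_sound (b (d (b (d z12 z12) (d z12 z12)) (b (d (a (b (d z12 z12) (d z12 z12)) (b (d z13 z13) (d z13 z13))) (a (b (d (a (b (d z12 z12) (d z12 z12)) (b (d z12 z12) (d z12 z12))) (a (b (d z4 z0) (d z4 z0)) (b (d z4 (a z0 (b (d z5 z1) (d z5 z1)))) (d z4 z0)))) (d (a (b (d z12 z12) (d z12 z12)) (b (d z12 z12) (d z12 z12))) (a (b (d z4 z0) (d z4 z0)) (b (d z4 z0) (d z4 z0))))) (b (d (a (b (d z13 z13) (d z13 z13)) z5) (a (b (d z5 z1) (d z5 z1)) z1)) (d (a (b (d z13 z13) (d z13 z13)) z5) (a (b (d z5 z1) (d z5 z1)) z1))))) (d (a (b (d z12 z12) (d z12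 z12)) (b (d z13 z13) (d z13 z13))) (a (b (d (a (b (d z12 z12) (d z12 z12)) (b (d z12 z12) (d z12 z12))) (a (b (d z4 z0) (d z4 z0)) (b (d z4 z0) (d z4 z0)))) (d (a (b (d z12 z12) (d z12 z12)) (b (d z12 z12) (d z12 z12))) (a (b (d z4 z0) (d z4 z0)) (b (d z4 z0) (d z4 z0))))) (b (d (a (b (d z13 z13) (d z13 z13)) (b z5 (d z13 z13))) (a (b (d (a (b z5 z4) z5) (a (b (d z5 z1) z0) z1)) (d (a z4 z5) (a z0 z1))) (b (d z5 z1) (d z5 z1)))) (d (a (b (d z12 z12) (d z12 z12)) (b (d z13 z13) (d z13 z13))) (a (b (d z4 z0) (d z4 z0)) (b (d z5 z1) (d z5 z1))))))))) (d (b (d z12 z12) (d z12 z12)) (b (d (a (b (d z12 z12) (d z12 z12)) (b (d z13 z13) (d z12 z12))) (a (b (d (a (b (d z12 z12) (d z12 z12)) (b (d z12 z12) (d z12 z12))) (a (b (d z4 z0) (d z4 z0)) (b (d z4 z0) (d z4 z0)))) (d (a z4 (b (d z12 z12) (d z12 z12))) (a (b (d z4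 z0) (d z4 z0)) (b (d z4 z0) (d z4 z0))))) (b (d (a (b (d z12 z12) (d z12 z12)) (b (d z13 z13) (d z13 z13))) (a (b (d z4 z0) (d z4 z0)) (b (d z5 z1) (d z5 z1)))) (d (a (b (d z12 z12) (d z12 z12)) (b (d z13 z13) (d z13 z13))) (a (b (d z4 z0) (d z4 z0)) (b (d z5 z1) (d z5 z1))))))) (d (a (b (d z12 z12) (d z12 z12)) (b (d z12 z12) (d z12 z12))) (a (b (d (a z4 (b (d z12 z12) (d z12 z12))) (a z0 (b (d z4 z0) (d z4 z0)))) (d (a z4 (b (d z12 z12) z4)) (a z0 (b (d z4 z0) (d z4 z0))))) (b (d (a (b (d z12 z12) (d z12 z12)) (b (d z13 z13) (d z12 z12))) (a (b (d z4 z0) (d z4 z0)) (b (d (a z4 z5) (a z0 z1)) (d z4 z0)))) (d (a (b (d z12 z12) (d z12 z12)) (b (d z12 z12) (d z12 z12))) (a (b (d z4 z0) (d z4 z0)) (b (d z4 z0) (d z4 z0)))))))))) _ _ (by decide +kernel)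

theorem okB277 : CKB ⟨8193, 49152, 0, 4096⟩ ⟨24576, 49152, 4096, 12288⟩ :=
  ckB_sound (d (b z0 (d z0 (b (d z0 (a z13 z0)) (d z0 (a z13 (b z0 z13)))))) (b z0 (d (b (d (a z13 z0) (a z13 z0)) (d (a z13 (b z0 z13)) (a z13 (b z0 (d z13 (c (a z9 (b z0 z9)) z13)))))) (b (d (a (b z0 (d z13 z13)) z0) (a (b z0 (d (a z9 z0) (a (b z0 (d z5 z1)) z0))) z0)) (d (a (b (d z13 z13) (d z13 z13)) (b z0 (d (c (a z1 (b z0 (d z9 (b z0 (d z9 z1))))) (a z13 (b z0 z13))) (a z13 (b z0 z13))))) (a (b (d z9 (a (b (d z5 (a (b z1 (d z5 z1)) z1)) (d (a (b (d z13 z13) (d z13 z13)) z5) (a (b (d z5 z1) (d z5 z1)) z1))) (b z0 z1))) (d (a (b z9 (d z13 z13)) z9) (a (b (d (a (b (d z13 z13) (d z13 z13)) z5) (a (b (d z5 z1) (d z5 (a (b z1 (d z5 z1)) z1))) z1)) (d (a (b (d z13 z13) (d z13 z13)) z5) (a (b (d (a (b (d z13 z13) (d z13 z13)) z5) (a (b (d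 z5 z1) (d z5 z1)) z1)) (d (a (b (d z13 z13) (d z13 z13)) z5) (a (b (d z5 z1) (d z5 z1)) z1))) (b z1 (d z5 z1))))) z1))) (b z0 (d (a z9 (b z0 (d z13 (b z0 z13)))) (a (b z0 z1) (b z0 (d (b z0 (d z13 z13)) (b z0 (d (a z5 (b z0 (d z13 z13))) (a z1 (b z0 (d z5 (a z1 (b z0 z1)))))))))))))))))) _ _ (by decide +kernel)

theorem okB278 : CKB ⟨0, 6144, 4096, 8192⟩ ⟨0, 4097, 0, 4096⟩ :=
  ckB_sound (b (d (a (b (d z0 z0) (d z0 (b z0 (d z0 z0)))) (b (d z0 z0) (d z0 z0))) z0) (d (b (d z0 (b (d z0 z0) (d z0 z0))) z0) (c (b (d (b z0 z0) (c (b z0 z0) (b z0 z0))) z0) (b z0 z0)))) _ _ (by decide +kernel)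

theorem okB279 : CKB ⟨0, 3072, 4096, 5120⟩ ⟨4097, 8193, 0, 2048⟩ :=
  ckB_sound (d z0 (a (c (b (d (a (b (d z0 z0) (d z0 z0)) (b (d z0 z0) (d z0 z0))) z0) (d (a (b (d z0 (a (c z0 z4) (c z0 z4))) (d z0 (c z0 (b z4 (d (c z4 z0) z4))))) (b (d z0 (c z0 z4)) (d z0 (c z0 (a (b z4 (d (c z4 z0) z4)) (b z4 (d (c z4 z0) z4))))))) z0)) (b (d z0 (a (b (d z0 z4) (d z0 z4)) (b (d z0 z4) (d z0 z4)))) (d z0 (a (b (d z0 z4) (d z0 z4)) (b (d z0 z4) (d z0 z4)))))) (c (b (d (a (b (d z0 z0) (d z0 z0)) (b (d z0 z0) (d z0 z0))) z0) (d (a (b (d z0 (c z0 z4)) (d z0 (c z0 (a (b z4 (d (c z4 z0) z4)) (b z4 (d (c z4 z0) z4)))))) (b (d z0 (c z0 z4)) (d z0 (c z0 z4)))) z0)) (b (d z0 (a (b (d z0 z4) (d z0 (c z4 z0))) (b (d z0 (c z4 z0)) (d z0 (c z4 z0))))) (d z0 (a (b (d z0 (c z4 z0)) (d z0 (c z4 z0))) (b (d z0 (c z4 z0)) (d z0 (c z4 z0)))))))))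 _ _ (by decide +kernel)

theorem okB280 : CKB ⟨0, 3072, 5120, 6144⟩ ⟨4097, 8193, 0, 2048⟩ :=
  ckB_sound (d z0 (c (b (d (a (b (d z0 (a (c z0 (b (d (a (c z4 z0) (c z4 z0)) z4) (d (a (c z4 z0) (c z4 z0)) z4))) (c z0 (b (d (a (c z4 z0) (c z4 z0)) z4) (d (a (c z4 z0) (c z4 z0)) z4))))) (d z0 (c z0 (a (b (d (c z4 z0) z4) (d (c z4 z0) z4)) (b (d (c z4 z0) z4) (d (c z4 z0) z4)))))) (b (d z0 (a (c z0 (b (d (a (c z4 z0) (c z4 z0)) z4) (d (a (c z4 z0) (c z4 z0)) z4))) (c z0 (b (d (a (c z4 z0) z4) z4) (d (a (c z4 z0) (c z4 z0)) z4))))) (d z0 (a (c z0 (b (d (a (c z4 z0) (c z4 z0)) z4) (d (a (c z4 z0) (c z4 z0)) z4))) (c z0 (b (d (a (c z4 z0) (c z4 z0)) z4) (d (a (c z4 z0) (c z4 z0)) z4))))))) (a (c z0 (b (d (a (b z0 z0) z0) z0) (d (a (b (d (c z0 z4) z0) (d (c z0 z4) z0)) (b (d (c z0 z4) z0) (d (c z0 z4) z0))) z0))) (c z0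 (b z0 (d (a (b (d (c z0 z4) z0) (d (c z0 z4) z0)) (b z0 (d (c z0 z4) z0))) z0))))) (d (b (d z0 (a (c z0 (b (d (a (c z4 z0) (c z4 z0)) z4) (d (c (b (d z0 z4) (d z0 z4)) z0) z4))) (c z0 (b (d (a (c z4 z0) (c z4 z0)) z4) (d (a (c (b z4 (d z0 z4)) z0) (c (b z4 (d z0 z4)) z0)) z4))))) (d z0 (c z0 (b (d (a (c (b (d z0 z4) (d z0 z4)) z0) (c (b (d z0 z4) (d z0 z4)) z0)) z4) (d (c (b (d z0 z4) (d z0 z4)) z0) (c (b z4 (d z4 (c z0 z4))) z0)))))) (c z0 (b (d (a (b (d (a (c z0 z4) (c z0 z4)) z0) (d (c z0 z4) (c z0 (b z4 (d z4 (c z0 z4)))))) (b (d (c z0 z4) z0) (d (c z0 z4) (c z0 z4)))) z0) (d (b (d (a (c z0 z4) (c z0 z4)) (a (c z0 (b (d z4 (a (c z0 z4) (c z0 z4))) (d z4 (c z0 z4)))) (c z0 (b z4 (d z4 (a (c z0 z4) (c z0 z4))))))) (d (c z0 z4) (c z0 (b (d z4 (a (c z0 z4) (c z0 z4))) (d z4 (c z0 z4)))))) z0))))) (b (d z0 (a (b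 (d z0 (a z4 (c z4 z0))) (d z0 (c z4 z0))) (b (d z0 (c z4 z0)) (d z0 (c z4 z0))))) (d z0 (b (d z0 (a (c z4 z0) (c z4 z0))) (d z0 (c z4 z0))))))) _ _ (by decide +kernel)

theorem okB281 : CKB ⟨3072, 6144, 4096, 5120⟩ ⟨4097, 8193, 0, 2048⟩ :=
  ckB_sound (d z0 (c (b (d (a (b (d z0 z0) (d z0 z0)) (b (d z0 z0) (d z0 z0))) z0) (d (a (b (d z0 z0) (d z0 (a (c z0 z4) (c z0 z4)))) (b (d z0 z0) (d z0 (a (c z0 z4) z0)))) z0)) (b (d z0 (a (b (d z0 (a (c z4 z0) (c z4 z0))) (d z0 (a (c z4 z0) (c z4 z0)))) (b (d z0 (c z4 z0)) (d z0 (c z4 z0))))) (d z0 (a (b (d z0 (a (c z4 z0) (c z4 z0))) (d z0 (a (c z4 z0) (c z4 z0)))) (b (d z0 (c z4 z0)) (d z0 (c z4 z0)))))))) _ _ (by decide +kernel)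

theorem okB282 : CKB ⟨3072, 6144, 5120, 6144⟩ ⟨4097, 8193, 0, 2048⟩ :=
  ckB_sound (d z0 (c (b (d (a (b (d z0 (a (c z0 (b z4 (d (a (c z4 z0) (c z4 z0)) z4))) (c z0 z4))) (d z0 (a (c z0 (b (d (a (c z4 z0) (c z4 z0)) z4) (d (a (c z4 z0) (c z4 z0)) z4))) (c z0 (b (d (a (c z4 z0) (c z4 z0)) z4) (d (a (c z4 z0) (c z4 z0)) z4)))))) (b (d z0 (a (c z0 z4) (c z0 z4))) (d z0 (a (c z0 (b z4 (d (a (c z4 z0) (c z4 z0)) z4))) (c z2 z6))))) (a (c z0 (b z0 (d (a (b z0 (d (c z0 z4) z0)) z0) z0))) z0)) (d (a (b (d z0 (a (c z0 (b (d (a (c z4 z0) (c z4 z0)) z4) (d (a (c z4 z0) (c z4 z0)) z4))) (c z0 (b (d (a (c z4 z0) (c z4 z0)) z4) (d (a (c z4 z0) (c z4 z0)) z4))))) (d z0 (a (c z0 (b (d (a (c (b (d z0 z4) (d z0 z4)) z0) (c (b z4 (d z0 z4)) z0)) z4) (d (a (c (b (d z0 z4) (d z0 z4)) z0) (c (b (d z0 z4) (d z0 z4)) z0)) z4))) (c z0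 (b (d (a (c z4 z0) (c z4 z0)) z4) (d (a (c (b (d z0 z4) (d z0 z4)) z0) (c (b z4 (d z0 z4)) z0)) z4)))))) (b (d z0 (a (c z0 (b (d (a (c z4 z0) (c z4 z0)) z4) (d (a (c z4 z0) (c z4 z0)) z4))) (c z2 (b (d (a (c z6 z0) z6) z6) (d (a (c z6 z0) (c z6 z0)) z6))))) (d z0 (a (c z0 (b (d (a (c z4 z0) (c z4 z0)) z4) (d (a (c z4 z0) (c z4 z0)) z4))) (c z2 (b (d (a (c z6 z0) (c z6 z0)) z6) (d (a (c z4 z0) (c z6 z0)) z6))))))) (a (c z0 (b (d (a (b (d (c z0 z4) z0) (d (c z0 z4) z0)) (b (d (c z0 z4) z0) (d (c z0 z4) z0))) z0) (d (a (b (d (c z0 z4) (c z0 z4)) (d (c z0 z4) (c z0 (a (b (d z4 (a (c z0 z4) (c z0 z4))) (d z4 (a (c z0 z4) (c z0 z4)))) (b (d z4 (c z0 z4)) (d z4 (c z0 z4))))))) (b (d (c z0 z4) z0) (d (c z0 z4) (c z0 (a (b z4 (d z4 (c z0 z4))) z4))))) z0))) (c z0 (b (d (a (b z0 (d (c z0 z4) z0)) z2) z0) (d (a (b (d (c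 z0 z4) z0) (d (c z0 z4) z0)) (b z2 (d (c z2 z6) z2))) z0)))))) (b (d z0 (a (b (d z0 (a (c z4 z0) (c z4 z0))) (d z0 (a (c z4 z0) (c z4 z0)))) (b (d z0 (c z4 z0)) (d z0 (c z4 z0))))) (d z0 (a (b (d z0 (a (c z4 z0) (c z4 z0))) (d z0 (a (c z4 z0) (c z4 z0)))) (b (d z0 (c z4 z0)) (d z0 (c z4 z0)))))))) _ _ (by decide +kernel)

theorem okB283 : CKB ⟨0, 3072, 4096, 5120⟩ ⟨4097, 8193, 2048, 3072⟩ :=
  ckB_sound (a (c z0 (b (d z4 (a (b (d (c (a (b (d z4 z0) (d (c z0 z4) z0)) (b (d z4 z0) (d (c z0 z4) z0))) z4) (c z0 z4)) (d (c (a (b (d (c z0 z4) z0) (d (c z0 z4) z0)) (b (d (c z0 z4) z0) (d (c z0 z4) z0))) z4) (c z0 z4))) (b (d (c (a (b (d z4 z0) (d z4 z0)) (b (d z4 z0) (d z4 z0))) z4) (c z0 z4)) (d (c (a (b (d (c z0 z4) z0) (d (c z0 z4) z0)) (b (d (c z0 z4) z0) (d (c z0 z4) z0))) z4) (c z0 z4))))) (d (a (b z4 (d z4 (c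 (b (d z4 (c z0 z4)) (d z4 (c z0 z4))) z4))) (b z4 (d z4 (c (a (b z4 (d z4 (c z0 z4))) (b z4 (d z4 (c z0 z4)))) z4)))) (a (b (d (c (a (b (d (c z0 z4) z0) (d (c z0 z4) z0)) (b (d (c z0 z4) z0) (d (c z0 z4) z0))) z4) (c z0 z4)) (d (c (b (d (c z0 z4) z0) (d (c z0 z4) z0)) z4) (c z0 z4))) (b (d (c (a (b (d (c z0 z4) z0) (d (c z0 z4) z0)) (b (d (c z0 z4) z0) (d (c z0 z4) z0))) z4) (c z0 z4)) (d (c (a (b (d (c z0 z4) z0) (d (c z0 z4) z0)) (b (d (c z0 z4) z0) (d (c z0 z4) z0))) z4) (c z0 z4))))))) (c z0 (b (d z4 (a (b (d (c (a (b (d z4 z0) (d z4 z0)) (b (d z4 z0) (d z4 z0))) z4) (c z0 z4)) (d (c (a (b (d (c z0 z4) z0) (d (c z0 z4) z0)) (b (d z4 z0) (d (c z0 z4) z0))) z4) (c z0 z4))) (b (d (c (b (d z4 z0) (d z4 z0)) z4) (c z0 z4)) (d (c (b (d z4 z0) (d (a (c z0 z4) (c z0 z4)) z0)) z4) (c z0 z4))))) (d (a (b z4 (d z4 (c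 (a (b z4 (d z4 (c z0 z4))) z4) z4))) z4) (a (b (d (c (a (b (d (c z0 z4) z0) (d (c z0 z4) z0)) (b (d (c z0 z4) z0) (d (c z0 z4) z0))) z4) (c z0 z4)) (d (c (a (b (d (c z0 z4) z0) (d (c z0 z4) z0)) (b (d (c z0 z4) z0) (d (c z0 z4) z0))) z4) (c z0 z4))) (b (d (c (b (d (a (c z0 z4) (c z0 z4)) z0) (d (a (c z0 z4) (c z0 z4)) z0)) z4) (c z0 z4)) (d (c (b (d (a (c z0 z4) (c z0 z4)) z0) (d (a (c z0 z4) (c z0 z4)) z0)) z4) (c z0 z4)))))))) _ _ (by decide +kernel)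

theorem okB284 : CKB ⟨0, 3072, 4096, 5120⟩ ⟨4097, 8193, 3072, 4096⟩ :=
  ckB_sound (a (c z0 (b (d (a (b (d (c z0 z4) z0) (d (c z0 z4) z0)) (b (d (c z0 z4) z0) (d (c z0 z4) z0))) z0) (d (a (b (d (c z0 z4) (c z0 (a (b z4 (d z4 (c z0 z4))) z4))) (d (c z0 z4) (c z0 (b (d z4 (a (c z0 z4) (c z0 z4))) (d z4 (c z0 z4)))))) (b (d (c z0 z4) (c z0 z4)) (d (c z0 z4) (c z0 (a (b (d z4 (c z0 z4)) (d z4 (c z0 z4))) (b z4 (d z4 (c z0 z4)))))))) z0))) (c z0 (b (d (a (b (d (c z0 z4) z0) (d (c z0 z4) z0)) (b (d (c z0 z4) z0) (d (c z0 z4) z0))) z0) (d (a (b (d (c z0 z4) z0) (d (c z0 z4) (c z0 (a (b z4 (d z4 (c z0 z4))) z4)))) (b (d (c z0 z4) z0) (d (c z0 z4) (c z0 z4)))) z0)))) _ _ (by decide +kernel)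

end Vale.Agent.Lib.P154Q5
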