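import Vale.Agent.Lib.P154Q5.CkBDefs

namespace Vale.Agent.Lib.P154Q5

set_option maxRecDepth 100000
set_option exponentiation.threshold 1000

open Tr

theorem okB285 : CKB ⟨0, 3072, 5120, 6144⟩ ⟨4097, 8193, 2048, 3072⟩ :=
  ckB_sound (c z0 (b (d (a (b (d z4 (a (c (b (d z4 (a (c z0 z4) (c z0 z4))) (d z4 (c z0 z4))) z4) (c (b (d z4 (a (c z0 z4) (c z0 z4))) (d z4 (a (c z0 z4) (c z0 z4)))) z4))) (d z4 (c (a (b (d z4 (c z0 z4)) (d z4 (c z0 z4))) (b (d z4 (c z0 z4)) (d z4 (c z0 z4)))) z4))) (b (d z4 (c (a (b (d z4 (c z0 z4)) (d z4 (c z0 z4))) (b (d z4 (c z0 z4)) (d z4 (c z0 z4)))) z4)) (d z4 (c (a (b (d z4 (c z0 z4)) (d z4 (c z0 z4))) (b (d z4 (c z0 z4)) (d z4 (c z0 z4)))) z4)))) (a (b (d (a (c (b (d (a (c z0 z4) (c z0 z4)) z0) (d (c z0 z4) z0)) z4) (c (b (d (a (c z0 z4) (c z0 z4)) z0) (d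 (a (c z0 z4) (c z0 z4)) z0)) z4)) (a (c z0 z4) (c z0 z4))) (d (c (a (b (d (c z0 z4) z0) (d (c z0 z4) (c z0 z4))) (b (d (c z0 z4) z0) (d (c z0 z4) z0))) z4) (c z0 z4))) (b (d (c (a (b (d (c z0 z4) z0) (d (c z0 z4) z0)) (b (d (c z0 z4) z0) (d (c z0 z4) z0))) z4) (c z0 z4)) (d (c (a (b (d (c z0 z4) z0) (d (c z0 z4) z0)) (b (d (c z0 z4) z0) (d (c z0 z4) z0))) z4) (c z0 z4))))) (d (b (d z4 (a (c (b (d (a (c (b z4 z4) z4) z4) (a (c z0 z4) (c z0 z4))) (d (c (b (d z4 (a (c z0 z4) z4)) (d z4 (c z0 z4))) z4) (c z0 z4))) z4) (c (b (d z4 (a (c z0 z4) (c z0 z4))) (d z4 (a (c z0 z4) (c z0 z4)))) z4))) (d z4 (c (b (d (a (c (b (d z4 (a (c z0 z4) (c z0 z4))) (d z4 (c z0 z4))) z4) (c (b (d z4 (a (c z0 z4) z4)) (d z4 (a (c z0 z4) (c z0 z4)))) z4)) (a (c z0 z4) (c z0 z4))) (d (c (b (d z4 (a (c z0 z4) (c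 z0 z4))) (d z4 (c z0 z4))) z4) (c z0 z4))) z4))) (b (d (a (c (b (d (a (c z0 z4) (c z0 z4)) (a (c z0 z4) (c z0 z4))) (d (c z0 z4) (c z0 z4))) z4) (c (b (d (a (c z0 z4) (c z0 z4)) z0) (d (a (c z0 z4) (c z0 z4)) (a (c z0 z4) z0))) z4)) (a (c z0 z4) (c z0 z4))) (d (c (b (d (a (c z0 z4) (c z0 z4)) (a (c z0 z4) (c z0 z4))) (d (c z0 z4) (c z0 z4))) z4) (c (b z0 z0) z4)))))) _ _ (by decide +kernel)

theorem okB286 : CKB ⟨0, 3072, 5120, 6144⟩ ⟨4097, 8193, 3072, 4096⟩ :=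
  ckB_sound (c z0 (b (d (a (b (d (a (c z0 z4) (c z0 z4)) (a (c z0 (b (d z4 (a (c z0 z4) (c z0 z4))) (d z4 (c z0 z4)))) (c z0 (b (d z4 (a (c z0 z4) (c z0 z4))) (d z4 (a (c z0 z4) (c z0 z4))))))) (d (c z0 z4) (c z0 (a (b (d z4 (c z0 z4)) (d z4 (c z0 z4))) (b (d z4 (c z0 z4)) (d z4 (c z0 z4))))))) (b (d (c z0 z4) (c z0 (a (b (d z4 (a (c z0 z4) (c z0 z4))) (d z4 (a (c z0 z4) (c z0 z4)))) (b z4 (d z4 (c z0 z4)))))) (d (c z0 z4) (c z0 (a (b (d z4 (a (c z0 z4) (c z0 z4))) (d z4 (a (c z0 z4) (c z0 z4)))) (b (d z4 (c z0 z4)) (d z4 (c z0 z4)))))))) (a (b (d (a (c z0 (b z0 z0)) z0) z0) (d (c z0 (a (b (d (c z0 z4) z0) (d (c z0 z4) z0)) (b z0 (d (c z0 z4) z0)))) z0)) (b z0 (d (c z0 (a (b z0 (d (a (c z0 z4) (c z0 z4)) z0)) z0)) z0)))) (d (b (d (a (c z0 z4) (c z0 z4)) (a (c z0 (b (d (a (c (b z4 (d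 z4 (c z0 z4))) z4) z4) (a (c z0 z4) (c z0 z4))) (d (c (b (d z4 (a (c z0 z4) z4)) (d z4 (c z0 z4))) z4) (c z0 z4)))) (c z0 (b (d z4 (a (c z0 z4) (c z0 z4))) (d z4 (a (c z0 z4) (c z0 z4))))))) (d (c z0 z4) (c z0 (b (d (a (c (b (d z4 (a (c z0 z4) (c z0 z4))) (d z4 (c z0 z4))) z4) (c (b z4 (d z4 (a (c z0 z4) (c z0 z4)))) z4)) (a (c z0 z4) (c z0 z4))) (d (c (b (d z4 (a (c z0 z4) (c z0 z4))) (d z4 (c z0 z4))) z4) (c z0 z4)))))) (b (d (a (c z0 (b (d (a (c z0 z4) (c z0 z4)) z0) (d (c z0 z4) z0))) (c z0 (b (d (a (c z0 z4) (c z0 z4)) z0) (d (a (c z0 z4) (c z0 z4)) z0)))) z0) (d (c z0 (b (d (a (c z0 z4) (c z0 z4)) (a (c z0 (b z4 z4)) z0)) (d (c z0 z4) (c z0 (b z4 z4))))) z0))))) _ _ (by decide +kernel)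

theorem okB287 : CKB ⟨3072, 6144, 4096, 5120⟩ ⟨4097, 8193, 2048, 4096⟩ :=
  ckB_sound (d (c z0 (b (d z4 (a (b (d (a (c (b (d z4 z0) (d z4 z0)) z4) (c (b (d z4 z0) (d z4 z0)) z4)) (a (c z0 z4) (c z0 z4))) (d (a (c (b (d z4 z0) (d (a (c z0 z4) z4) z0)) z4) (c (b (d z4 z0) (d z4 z0)) z4)) (a (c z0 z4) (c z0 z4)))) (b (d (c (a (b (d z4 z0) (d z4 z0)) (b (d z4 z0) (d z4 z0))) z4) (c z0 z4)) (d (c (a (b (d z4 z0) (d z4 z0)) (b (d z4 z0) (d z4 z0))) z4) (c z0 z4))))) (d z4 (a (b (d (a (c (b (d (a (c z0 z4) (c z0 z4)) z0) (d (a (c z0 z4) (c z0 z4)) z0)) z4) (c (b (d (c z0 z4) z0) (d (c z0 z4) z0)) z4)) (a (c z0 z4) (c z0 z4))) (d (a (c (b (d (a (c z0 z4) (c z0 z4)) z0) (d (a (c z0 z4) (c z0 z4)) z0)) z4) (c (b (d (c z0 z4) z0) (d (c z0 z4) z0)) z4)) (a (c z0 z4) (c z0 z4)))) (b (d (c (a (b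 (d (c z0 z4) z0) (d (c z0 z4) z0)) (b (d (c z0 z4) z0) (d (c z0 z4) z0))) z4) (c z0 z4)) (d (c (a (b (d (c z0 z4) z0) (d (c z0 z4) z0)) (b (d (c z0 z4) z0) (d (c z0 z4) z0))) z4) (c z0 z4))))))) (c z0 (b (d (a (b z0 (d (a (c z0 z4) z0) z0)) (b (d (c z0 z4) z0) (d (c z0 z4) z0))) z0) (d (a (b (d (a (c z0 z4) (c z0 z4)) z0) (d (a (c z0 z4) (c z0 z4)) z0)) (b (d (c z0 z4) z0) (d (c z0 z4) z0))) z0)))) _ _ (by decide +kernel)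

theorem okB288 : CKB ⟨3072, 6144, 5120, 6144⟩ ⟨4097, 8193, 2048, 3072⟩ :=
  ckB_sound (c z0 (b (d (a (b (d z4 (a (c (b z4 (d z4 (a (c z0 z4) (c z0 z4)))) z4) z4)) (d z4 (a (c (b (d z4 (a (c z0 z4) (c z0 z4))) (d z4 (a (c z0 z4) (c z0 z4)))) z4) (c (b (d z4 (c z0 z4)) (d z4 (c z0 z4))) z4)))) (b z4 (d z4 (c (a (b z4 (d z4 (c z0 z4))) z6) z4)))) (a (b (d (a (c (b (d (a (c z0 z4) (c z0 z4)) z0) (d (a (c z0 z4) (c z0 z4)) z0)) z4) (c (b (d (c z0 z4) z0) (d (c z0 z4) z0)) z4)) (a (c z0 z4) (c z0 z4))) (d (a (c (b (d (a (c z0 z4) (c z0 z4)) z0) (d (a (c z0 z4) (c z0 z4)) z0)) z4) (c (b (d (c z0 z4) z0) (d (c z0 z4) z0)) z4)) (a (c z0 z4) (c z0 z4)))) (b (d (c (a (b (d (c z0 z4) z0) (d (c z0 z4) z0)) (b (d (c z0 z4) z0) (d (c z0 z4) z0))) z4) (c z0 z4)) (d (c (a (b (d (c z0 z4) z0) (d (c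 z0 z4) z0)) (b (d (c z2 z6) z2) (d (c z2 z6) z2))) z4) (c z0 z4))))) (d (a (b (d z4 (a (c (b (d z4 (a (c z0 z4) (c z0 z4))) (d z4 (a (c z0 z4) (c z0 z4)))) z4) (c (b (d z4 (c z0 z4)) (d z4 (c z0 z4))) z4))) (d z4 (a (c (b (d (a (c (b z4 (d z4 (a (c z0 z4) z4))) z4) z4) (a (c z0 z4) (c z0 z4))) (d (a (c (b (d z4 (a (c z0 z4) (c z0 z4))) (d z4 (a (c z0 z4) (c z0 z4)))) z4) (c (b (d z4 (a (c z0 z4) z4)) (d z4 (a (c z0 z4) (c z0 z4)))) z4)) (a (c z0 z4) (c z0 z4)))) z4) (c (b (d z4 (c z0 z4)) (d (c (a (b z4 (d z4 (c z0 z4))) z4) z4) (c z0 z4))) z4)))) (b (d z4 (c (a (b (d z4 (c z0 z4)) (d z4 (c z0 z4))) (b (d z6 (c z2 z6)) (d z6 (c z2 z6)))) z4)) (d z4 (c (a (b (d z4 (c z0 z4)) (d z4 (c z0 z4))) (b (d z6 (c z2 z6)) (d z6 (c z2 z6)))) z4)))) (a (b (d (a (c (b (d (a (c z0 z4) (c z0 z4)) z0)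 (d (a (c z0 z4) (c z0 z4)) z0)) z4) (c (b (d (c z0 z4) z0) (d (c z0 z4) z0)) z4)) (a (c z0 z4) (c z0 z4))) (d (a (c (b (d (a (c z0 z4) (c z0 z4)) (a (c z0 z4) z0)) (d (a (c z0 z4) (c z0 z4)) (a (c z0 z4) (c z0 z4)))) z4) (c (b (d (c z0 z4) z0) (d (c z0 z4) z0)) z4)) (a (c z0 z4) (c z0 z4)))) (b (d (c (a (b (d (c z0 z4) z0) (d (c z0 z4) z0)) (b (d (c z2 z6) z2) (d (c z2 z6) z2))) z4) (c z0 z4)) (d (c (a (b (d (c z0 z4) z0) (d (c z0 z4) z0)) (b (d (c z2 z6) z2) (d (c z2 z6) z2))) z4) (c z0 z4))))))) _ _ (by decide +kernel)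

theorem okB289 : CKB ⟨3072, 6144, 5120, 6144⟩ ⟨4097, 8193, 3072, 4096⟩ :=
  ckB_sound (c z0 (b (d (a (b (d (a (c z0 z4) (c z0 z4)) (a (c z0 z4) z0)) (d (a (c z0 z4) (c z0 z4)) (a (c z0 (b (d z4 (a (c z0 z4) (c z0 z4))) (d z4 (a (c z0 z4) (c z0 z4))))) (c z0 (b z4 (d z4 (a (c z0 z4) (c z0 z4)))))))) (b (d (c z0 z4) z0) (d (c z0 z4) z0))) z0) (d (a (b (d (a (c z0 z4) (c z0 z4)) (a (c z0 (b (d z4 (a (c z0 z4) (c z0 z4))) (d z4 (a (c z0 z4) (c z0 z4))))) (c z0 (b (d z4 (a (c z0 z4) (c z0 z4))) (d z4 (a (c z0 z4) (c z0 z4))))))) (d (a (c z0 z4) (c z0 z4)) (a (c z0 (b (d z4 (a (c z0 z4) (c z0 z4))) (d (a (c (b (d z4 (a (c z0 z4) z4)) (d z4 (a (c z0 z4) (c z0 z4)))) z4) z4) (a (c z0 z4) (c z0 z4))))) (c z0 (b (d z4 (a (c z0 z4) (c z0 z4))) (d z4 (a (c z0 z4) (c z0 z4)))))))) (b (d (c z0 z4)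 (c z0 (a (b (d z4 (c z0 z4)) (d z4 (c z0 z4))) (b z6 (d z6 (c z2 z6)))))) (d (c z0 z4) (c z0 (a (b (d z4 (c z0 z4)) (d z4 (c z0 z4))) (b (d z6 (c z2 z6)) (d z6 (c z2 z6)))))))) (a (b z0 (d (a (c z0 (b (d (a (c z0 z4) (c z0 z4)) z0) (d (a (c z0 z4) (c z0 z4)) z0))) z0) z0)) z0)))) _ _ (by decide +kernel)

theorem okB290 : CKB ⟨0, 6144, 6144, 7168⟩ ⟨4097, 8193, 0, 1024⟩ :=
  ckB_sound z0 _ _ (by decide +kernel)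

theorem okB291 : CKB ⟨0, 6144, 6144, 6656⟩ ⟨4097, 6145, 1024, 1536⟩ :=
  ckB_sound (a (b (d z0 (a (c (b z0 z0) (b (d (a (c (b (d z0 z4) (d z0 z4)) z0) (c (b (d z0 z4) (d z0 z4)) z0)) (a (c (b (d z4 (a (c z0 z4) z4)) (d z4 (c z0 z4))) z0) (c (b z4 (d z4 (a (c z0 z4) z4))) z0))) (d (c (b (d z0 z4) (d z0 z4)) z0) (c (b (d z4 (a (c z0 z4) (c z0 z4))) (d z4 (c z0 z4))) z0)))) (c z0 (b (d (a (c (b (d z0 z4) (d z0 z4)) z0) (c (b (d z0 z4) (d z0 z4)) z0)) z4) (d (a (c (b (d z0 z4) (d z0 z4)) z0) (c (b (d z0 z4) (d z0 z4)) z0)) (a (c (b (d z4 (a (c z0 z4) (c z0 z4))) (d z4 (a (c z0 z4) (c z0 z4)))) z0) (c (b z4 (d z4 (a (c z0 z4) (c z0 z4)))) z0))))))) (d z0 (c (b (d (a (b z0 (d z0 z0)) z0) z0) (d (b (d z0 z0) (d z0 z0)) z0)) (b (d (a (c (b (d z0 z4) (d z0 z4)) z0) (c (b (d z0 z4) (d z0 z4))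 z0)) (a (c (b (d z4 (a (c z0 z4) (c z0 z4))) (d z4 (c z0 z4))) z0) (c (b (d z4 (a (c z0 z4) (c z0 z4))) (d z4 (a (c z0 z4) (c z0 z4)))) z0))) (d (c (b (d z0 (c z4 z0)) (d z0 (c z4 z0))) z0) (c (b (d z4 (c z0 z4)) (d (c (b z4 z0) z0) (c z0 z4))) z0)))))) (b (d z0 (a (c z0 (b (d (a (c (b (d z0 z4) (d z0 z4)) z0) (c (b z4 (d z0 z4)) z0)) z4) (d (a (c (b (d z0 z4) (d z0 z4)) z0) (c (b (d z0 z4) (d z0 z4)) z0)) z4))) (c z0 (b (d (a (c z4 z0) (c z6 z0)) z4) (d (a (c (b (d z0 z4) (d z0 z4)) z0) (c (b z6 (d z0 z4)) z0)) z4))))) (d z0 (a (c (b z0 (d (a (b z0 (d z0 z0)) z0) z0)) (b (d (a (c (b (d z0 z4) (d z0 z4)) z0) (c (b (d z0 z4) (d z0 z4)) z0)) (a (c (b (d z4 (a (c z0 z4) (c z0 z4))) (d z4 (a (c z0 z4) (c z0 z4)))) z0) (c (b (d z4 (a (c z0 z4) z4)) (d z4 (a (c z0 z4) (c z0 z4)))) z0))) (d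 (a (c (b (d z0 z4) (d z0 (a (c z4 z0) z4))) z0) (c (b (d z0 z4) (d z0 z4)) z0)) (a (c (b (d z4 (a (c z0 z4) (c z0 z4))) (d z4 (a (c z0 z4) (c z0 z4)))) z0) (c (b (d z4 (a (c z0 z4) (c z0 z4))) (d z4 (a (c z0 z4) (c z0 z4)))) z0))))) (c z0 (b (d (a (c (b (d z0 z4) (d z0 z4)) z0) (c (b (d z0 z4) (d z0 z4)) z0)) (a (c (b z4 (d z4 (a (c z0 z4) z4))) z0) z4)) (d (a (c (b (d z0 z4) (d z0 z4)) z0) (c (b (d z0 z4) (d z0 z4)) z0)) (a (c (b (d z4 (a (c z0 z4) (c z0 z4))) (d z4 (a (c z0 z4) (c z0 z4)))) z0) (c (b (d z4 (a (c z0 z4) z4)) (d z4 (a (c z0 z4) (c z0 z4)))) z0))))))))) _ _ (by decide +kernel)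

theorem okB292 : CKB ⟨0, 4608, 6144, 6656⟩ ⟨4097, 6145, 1536, 2048⟩ :=
  ckB_sound (c z0 (b (d (a (b (d (c z0 z4) (c z0 (a (b (d z4 (a (c z0 z4) (c z0 z4))) (d z4 (c z0 z4))) (b (d z4 (c z0 z4)) (d z4 (c z0 z4)))))) (d (c z0 z4) (c z0 (b (d z4 (c z0 z4)) (d (c (b z4 z4) z4) (c z0 z4)))))) (b (d (c z0 z4) (c z0 (a (b (d z4 (c z0 z4)) (d z4 (c z0 z4))) (b (d z4 (c z0 z4)) (d z4 (c z0 z4)))))) (d (c z0 z4) (c z0 (a (b (d z4 (c z0 z4)) (d z4 (c z0 z4))) (b (d z4 (c z0 z4)) (d z4 (c z0 z4)))))))) (a (b (d (c z0 (a (b (d (a (c z0 z4) (c z0 z4)) (a (c z0 z4) (c z0 z4))) (d (c z0 z4) (c z0 z4))) (b (d (c z0 z4) (c z0 z4)) (d (c z0 z4) (c z0 z4))))) z0) (d (c z0 (b (d (c z0 z4) (c z0 z4)) (d (c z0 z4) (c z0 z4)))) z0)) z0)) (d (b (d (c z0 z4) (c z0 (a (b (d (c (a (b z4 (d z4 (c z0 z4))) z4)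 z4) (c z0 z4)) (d (c (b (d z4 (c z0 z4)) (d z4 (c z0 z4))) z4) (c z0 z4))) (b (d z4 (c z0 z4)) (d (c (a (b z4 (d z4 (c z0 z4))) z4) z4) (c z0 z4)))))) (d (c z0 z4) (c z0 (b (d (c (a (b (d z4 (c z0 z4)) (d z4 (c z0 z4))) (b z4 (d z4 (c z0 z4)))) z4) (c z0 z4)) (d (c (b (d z4 (c z0 z4)) z0) z4) (c z0 z4)))))) (b (d (c z0 (a (b (d (c z0 z4) (c z0 z4)) (d (c z0 z4) (c z0 z4))) (b (d (c z0 z4) (c z0 z4)) (d (c z0 z4) (c z0 z4))))) z0) (d (c z0 (b (d (c z0 z4) (c z0 z4)) (d (c z0 z4) (c z0 z4)))) z0))))) _ _ (by decide +kernel)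

theorem okB293 : CKB ⟨4608, 6144, 6144, 6656⟩ ⟨4097, 6145, 1536, 2048⟩ :=
  ckB_sound (c z0 (b (d (a (b (d (c z0 z4) (c z0 (a (b z4 (d z4 (c z0 z4))) z4))) (d (c z0 z4) (c z0 (a (b (d z4 (c z0 z4)) (d z4 (c z0 z4))) (b (d z4 (c z0 z4)) (d z4 (c z0 z4))))))) (b (d (c z0 z4) z0) (d (c z0 z4) z0))) z0) (d (a (b (d (c z0 z4) (c z0 (a (b (d z4 (c z0 z4)) (d z4 (c z0 z4))) (b (d z4 (c z0 z4)) (d z4 (c z0 z4)))))) (d (c z0 z4) (c z0 (a (b (d (c (a (b z4 (d z4 (c z0 z4))) z4) z4) (c z0 z4)) (d (c (a (b (d z4 (c z0 z4)) (d z4 (c z0 z4))) (b (d z4 (c z0 z4)) (d z4 (c z0 z4)))) z4) (c z0 z4))) (b (d z4 (c z0 z4)) (d (c (a (b z4 (d z4 (c z0 z4))) z4) z4) (c z0 z4))))))) (b (d (c z0 z4) (c z0 (a (b (d z4 (c z0 z4)) (d z4 (c z0 z4))) (b (d z4 (c z0 z4)) (d z4 (c z0 z4)))))) (d (c z0 z4) (c z0 (a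 (b (d z4 (c z0 z4)) (d z4 (c z0 z4))) (b (d z4 (c z0 z4)) (d z4 (c z0 z4)))))))) (a (b z0 (d (c z0 (a (b (d (c z0 z4) (c z0 z4)) (d (c z0 z4) (c z0 z4))) (b (d (c z0 z4) (c z0 z4)) (d (c z0 z4) (c z0 z4))))) z0)) z0)))) _ _ (by decide +kernel)

theorem okB294 : CKB ⟨0, 6144, 6656, 7168⟩ ⟨4097, 6145, 1024, 1536⟩ :=
  ckB_sound (b (d z0 (c (a (b (d (a (b (d z0 z0) (d z0 z0)) (b (d z0 z0) (d z0 z0))) z0) (d (b (d z0 z0) z0) z0)) (b (d (a (b z0 (d z0 z0)) z0) z0) (d (a (b (d z0 z0) (d z0 z0)) (b (d z0 z0) (d z0 z0))) z0))) (a (b (d (a (c (b (d z0 (a (c z4 z0) (c z4 z0))) (d z0 (c z4 z0))) z0) (c (b (d z0 z4) (d z0 (a (c z4 z0) (c z4 z0)))) z0)) (a (c (b (d (a (c (b z4 z4) z0) z4) (a (c z0 z4) (c z0 z4))) (d (c (b z4 z0) z0) (c z0 z4))) z0) (c (b (d z4 (a (c z0 z4) (c z0 z4))) (d (a (c (b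 z4 (d z4 (c z0 z4))) z0) z4) (a (c z0 z4) (c z0 z4)))) z0))) (d (c (b (d z0 (c z4 z0)) z0) z0) (c (b (d (c (b (d z4 (a (c z0 z4) z4)) (d z4 (c z0 z4))) z0) (c z0 z4)) z0) z0))) (b (d (a (c (b (d z0 z4) (d z0 z4)) z0) (c (b (d z0 z4) (d z0 z4)) z0)) (a (c (b (d z4 (a (c z0 z4) (c z0 z4))) (d z4 (a (c z0 z4) (c z0 z4)))) z0) (c (b (d z4 (c z0 z4)) (d z4 (c z0 z4))) z0))) (d (a (c (b (d z0 (a (c z4 z0) (c z4 z0))) (d z0 (c z4 z0))) z0) (c (b (d z0 z4) (d z0 (c z4 z0))) z0)) (a (c (b (d (a (c (b z4 (d z4 (a (c z0 z4) z4))) z0) z4) (a (c z0 z4) (c z0 z4))) (d (c (b (d z4 (a (c z0 z4) z4)) (d z4 (c z0 z4))) z0) (c z0 z4))) z0) (c (b (d z4 (c z0 z4)) (d z4 (c z0 z4))) z0))))))) (d z0 (c (b (d (b (d z0 z0) (d z0 z0)) z0) z0) (b (d (c (b (d z0 (c (a (b z4 z4) z4) z0)) (d z0 (c (b z4 z0) z0)))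 z0) (c (b (d (c (a (b (d z4 (c z0 z4)) (d z4 (c z0 z4))) (b (d z4 (c z0 z4)) (d z4 (c z0 z4)))) z0) (c z0 z4)) (d (c (b (d z4 (c z0 z4)) z0) z0) (c z0 z4))) z0)) z0)))) _ _ (by decide +kernel)

theorem okB295 : CKB ⟨0, 6144, 6656, 7168⟩ ⟨4097, 6145, 1536, 2048⟩ :=
  ckB_sound (c z0 (b (d (a (b (d (c z0 z4) (c z0 (a (b (d (c (a (b (d z4 (c z0 z4)) (d z4 (c z0 z4))) (b (d z4 (c z0 z4)) (d z4 (c z0 z4)))) z4) (c z0 z4)) (d (c (b (d z4 (c z0 z4)) z0) z4) (c z0 z4))) (b (d (c (a (b (d z4 (c z0 z4)) (d z4 (c z0 z4))) (b z4 (d z4 (c z0 z4)))) z4) (c z0 z4)) (d (c (a (b (d z4 (c z0 z4)) (d z4 (c z0 z4))) (b (d z4 (c z0 z4)) (d z4 (c z0 z4)))) z4) (c z0 z4)))))) (d (c z0 (b z4 z0)) (c z0 (b (d (c (b (d (c z0 z4) (c z0 z4)) (d (c z0 z4) (c z0 z4))) z4) (c z0 z4)) z0)))) (b (d (c z0 z4) (c z0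 (a (b (d z4 (c z0 z4)) (d (c (a (b (d z4 (c z0 z4)) (d z4 (c z0 z4))) (b z4 (d z4 (c z0 z4)))) z4) (c z0 z4))) (b (d z4 (c z0 z4)) (d z4 (c z0 z4)))))) (d (c z0 z4) (c z0 (a (b (d (c (a (b (d z4 (c z0 z4)) (d z4 (c z0 z4))) (b (d z4 (c z0 z4)) (d z4 (c z0 z4)))) z4) (c z0 z4)) (d (c (b (d (a (c z0 z4) z4) (a (c z0 z4) (c z0 z4))) (d (c z0 z4) (c z0 z4))) z4) (c z0 z4))) (b (d (c (a (b (d z4 (c z0 z4)) (d z4 (c z0 z4))) (b (d z4 (c z0 z4)) (d z4 (c z0 z4)))) z4) (c z0 z4)) (d (c (a (b (d z4 (c z0 z4)) (d z4 (c z0 z4))) (b (d z4 (c z0 z4)) (d z4 (c z0 z4)))) z4) (c z0 z4)))))))) (a (b (d (c z0 (a (b (d (c z0 z4) (c z0 z4)) (d (c z0 z4) (c z0 z4))) (b (d (c z0 z4) (c z0 z4)) (d (c z0 z4) (c z0 z4))))) z0) (d (c z0 (b (d (c z0 z4) (c z0 z4)) z0)) (c z0 (b z0 z0)))) (b z0 (d (c z0 (a (b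 (d (c z0 z4) (c z0 z4)) (d (c z0 z4) (c z0 z4))) (b (d (c z0 z4) (c z0 z4)) (d (c z0 z4) (c z0 z4))))) z0)))) (d (b (d (c z0 (b z4 z4)) (c z0 (b (d (c (a (b (d (c z0 z4) (c z0 z4)) (d (c z0 z4) (c z0 z4))) (b (d z4 (c z0 z4)) (d (c z0 z4) (c z0 z4)))) z4) (c z0 z4)) (d (c (b (d (c z0 z4) (c z0 z4)) z0) z4) (c z0 z4))))) z0) (b (d (c z0 (b (d (c z0 z4) (c z0 z4)) (d (c z0 z4) (c z0 z4)))) (c z0 (b z0 z0))) z0)))) _ _ (by decide +kernel)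

theorem okB296 : CKB ⟨0, 6144, 6144, 7168⟩ ⟨6145, 8193, 1024, 2048⟩ :=
  ckB_sound (b (d z0 (a (b (d z0 (a (c z4 z0) (c z4 z0))) (d z0 (c z4 z0))) (b (d z0 (c z4 z0)) (d z0 (c z4 z0))))) (d z0 (b (d z0 (c z4 z0)) (d z0 z4)))) _ _ (by decide +kernel)

theorem okB297 : CKB ⟨0, 6144, 7168, 8192⟩ ⟨4097, 8193, 0, 2048⟩ :=
  ckB_sound z0 _ _ (by decide +kernel)

theorem okB298 : CKB ⟨0, 6144, 6144, 7168⟩ ⟨4097, 6145, 2048, 3072⟩ :=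
  ckB_sound (b z0 (d (c z0 (b z0 (d (b z0 z0) z0))) z0)) _ _ (by decide +kernel)

theorem okB299 : CKB ⟨0, 6144, 6144, 6656⟩ ⟨6145, 8193, 2048, 2560⟩ :=
  ckB_sound (a (b (d z4 (a (c (b (d (a (c (b (d z4 (a (c z0 z4) (c z0 z4))) (d z4 (c z0 z4))) z4) (c (b (d z4 (a (c z0 z4) (c z0 z4))) (d z4 (a (c z0 z4) (c z0 z4)))) z4)) (a (c z0 z4) (c z0 z4))) (d (c (b (d z4 (c z0 z4)) (d (c (b z4 z4) z4) (c z0 z4))) z4) (c z0 z4))) z4) (c (b (d (c (a (b (d z4 (c z0 z4)) (d z4 (c z0 z4))) (b z4 (d z4 (c z0 z4)))) z4) (c z0 z4)) (d (c (a (b (d z4 (c z0 z4)) (d z4 (c z0 z4))) (b (d z4 (c z0 z4)) (d z4 (c z0 z4)))) z4) (c z0 z4))) z4))) (d (c (b z4 z4) z0) (c (b (d (c (a (b (d (c (a (b z4 z4) z4) z4) (c z0 z4)) (d (c (b z4 (d z4 (c z0 z4))) z4) (c z0 z4))) (b (d z4 (c z0 z4)) (d z4 (c z0 z4)))) z4)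 (c z0 z4)) (d (c (b (d (c (a (b (d z4 (c z0 z4)) (d z4 (c z0 z4))) (b z4 (d z4 (c z0 z4)))) z4) (c z0 z4)) (d (c (b (d z4 (c z0 z4)) z0) z4) (c z0 z4))) z4) (c z0 z4))) z4))) (b (d z4 (c (a (b (d z4 (c z0 z4)) (d (c (a (b (d z4 (c z0 z4)) (d z4 (c z0 z4))) (b z4 (d z4 (c z0 z4)))) z4) (c z0 z4))) (b (d z4 (c z0 z4)) (d z4 (c z0 z4)))) z4)) (d z4 (c (a (b (d (c (a (b (d z4 (c z0 z4)) (d z4 (c z0 z4))) (b (d z4 (c z0 z4)) (d z4 (c z0 z4)))) z4) (c z0 z4)) (d (c (a (b (d z4 (c z0 z4)) (d (c (a (b (d z4 (c z0 z4)) (d z4 (c z0 z4))) z4) z4) (c z0 z4))) (b (d z4 (c z0 z4)) (d z4 (c z0 z4)))) z4) (c z0 z4))) (b (d (c (a (b (d z4 (c z0 z4)) (d z4 (c z0 z4))) z4) z4) (c z0 z4)) (d (c (a (b (d z4 (c z0 z4)) (d z4 (c z0 z4))) (b (d z4 (c z0 z4)) (d z4 (c z0 z4)))) z4) (c z0 z4)))) z4)))) _ _ (by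 decide +kernel)

end Vale.Agent.Lib.P154Q5
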