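import Vale.Agent.Lib.P154Q5.CkBDefs

namespace Vale.Agent.Lib.P154Q5

set_option maxRecDepth 100000
set_option exponentiation.threshold 1000

open Tr

theorem okB300 : CKB ⟨0, 6144, 6144, 6656⟩ ⟨6145, 8193, 2560, 3072⟩ :=
  ckB_sound (a (b (d (a (c (b (d (a (c z0 z4) (c z0 z4)) (a (c z0 z4) (c z0 z4))) (d (c z0 z4) (c z0 z4))) z4) (c (b (d (c z0 z4) (c z0 z4)) (d (c z0 z4) (c z0 z4))) z4)) (a (c (b (d (a (c z0 (b (d z4 (a (c z0 z4) z4)) (d z4 (c z0 z4)))) z0) z0) (d (c z0 (b (d z4 (a (c z0 z4) (c z0 z4))) (d z4 (c z0 z4)))) z0)) z4) (c z0 z4))) (d (c (b (d (c z0 z4) (c z0 z4)) (d (c z0 z4) (c z0 z4))) z4) (c (b (d (c z0 (a (b (d z4 (c z0 z4)) (d z4 (c z0 z4))) (b z4 (d z4 (c z0 z4))))) z0) (d (c z0 (b (d z4 (c z0 z4)) (d z4 (c z0 z4)))) z0)) z4))) (b (d (c (a (b (d (c z0 z4) z0) (d (c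 z0 z4) (c z0 z4))) (b (d (c z0 z4) z0) (d (c z0 z4) z0))) z4) (c z0 z4)) (d (c (a (b (d (c z0 z4) (c z0 z4)) (d (c z0 z4) (c z0 z4))) (b (d (c z0 z4) z0) (d (c z0 z4) z0))) z4) (c z0 z4)))) _ _ (by decide +kernel)

theorem okB301 : CKB ⟨0, 6144, 6656, 7168⟩ ⟨6145, 8193, 2048, 3072⟩ :=
  ckB_sound (d (b (d (c (a (b z4 z4) z4) z0) (c (a (b (d (c (a (b (d (c (a (b (d z4 (c z0 z4)) (d z4 (c z0 z4))) (b z4 (d z4 (c z0 z4)))) z4) (c z0 z4)) (d (c (b (d z4 (c z0 z4)) z0) z4) (c z0 z4))) (b (d z4 (c z0 z4)) (d (c (a (b z4 (d z4 (c z0 z4))) z4) z4) (c z0 z4)))) z4) (c z0 z4)) (d (c (b (d (c (b (d z4 (c z0 z4)) (d z4 (c z0 z4))) z4) (c z0 z4)) z0) z4) (c z0 z4))) (b (d (c (a (b (d z4 (c z0 z4)) (d z4 (c z0 z4))) (b (d z4 (c z0 z4)) (d z4 (c z0 z4)))) z4) (c z0 z4)) (d (c (a (b (d (c (a (b z4 (d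 z4 (c z0 z4))) z4) z4) (c z0 z4)) (d (c (b (d z4 (a (c z0 z4) z4)) (d z4 (c z0 z4))) z4) (c z0 z4))) (b (d z4 (c z0 z4)) (d z4 (c z0 z4)))) z4) (c z0 z4)))) z4)) (d (c (b (d z4 (c (b z4 z4) z4)) z0) z0) (c (b (d (c (b (d (c (a (b (d z4 (c z0 z4)) (d z4 (c z0 z4))) (b z4 (d z4 (c z0 z4)))) z4) (c z0 z4)) (d (c (b (d z4 (c z0 z4)) z0) z4) (c z0 z4))) z4) (c z0 z4)) z0) z4))) (b (d (c (a (b (d (c z0 z4) (c z0 z4)) (d (c z0 z4) (c z0 z4))) (b (d (c z0 z4) (c z0 z4)) (d (c z0 z4) (c z0 z4)))) z4) (c (a (b (d (c z0 (a (b (d z4 (c z0 z4)) (d z4 (c z0 z4))) (b z4 (d z4 (c z0 z4))))) z0) (d (c z0 (b (d z4 (c z0 z4)) z0)) z0)) z0) z4)) (d (c (b (d (c z0 z4) (c z0 z4)) z0) z4) (c (b (d (c z0 (b (d z4 (c z0 z4)) (d z4 (c z0 z4)))) z0) z0) z4)))) _ _ (by decide +kernel)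

theorem okB302 : CKB ⟨0, 6144, 6144, 7168⟩ ⟨4097, 8193, 3072, 4096⟩ :=
  ckB_sound (c z0 (b (d (a (b (d (a (c z0 z4) (c z0 z4)) (a (c z0 (b (d (a (c (b (d z4 (a (c z0 z4) (c z0 z4))) (d z4 (c z0 z4))) z4) (c (b (d z4 (a (c z0 z4) (c z0 z4))) (d z4 (a (c z0 z4) (c z0 z4)))) z4)) (a (c z0 z4) (c z0 z4))) (d (c (b (d z4 (a (c z0 z4) (c z0 z4))) (d z4 (c z0 z4))) z4) (c z0 z4)))) (c z0 (b (d (a (c (b z4 (d z4 (a (c z0 z4) z4))) z4) z4) (a (c z0 z4) (c z0 z4))) (d (a (c (b (d z4 (a (c z0 z4) (c z0 z4))) (d z4 (a (c z0 z4) (c z0 z4)))) z4) (c (b z4 (d z4 (a (c z0 z4) z4))) z4)) (a (c z0 z4) (c z0 z4))))))) (d (c z0 z4) (c z0 (b (d (c (a (b (d z4 (c z0 z4)) (d z4 (c z0 z4))) (b (d z4 (c z0 z4)) (d z4 (c z0 z4)))) z4) (c z0 z4)) (d (c (b (d z4 (c z0 z4)) (d z4 (c z0 z4))) z4) (c z0 z4)))))) (b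 (d (c z0 z4) (c z0 (a (b (d z4 (c z0 z4)) (d z4 (c z0 z4))) (b (d z4 (c z0 z4)) (d z4 (c z0 z4)))))) (d (c z0 z4) (c z0 (a (b (d (c (a (b z4 (d z4 (c z0 z4))) z4) z4) (c z0 z4)) (d (c (a (b (d z4 (c z0 z4)) (d z4 (c z0 z4))) (b (d z4 (c z0 z4)) (d z4 (c z0 z4)))) z4) (c z0 z4))) (b (d z4 (c z0 z4)) (d z4 (c z0 z4)))))))) (a (b (d (a (c z0 (b (d (a (c z0 z4) (c z0 z4)) (a (c z0 (b z4 z4)) z0)) (d (c z0 z4) (c z0 (b z4 (d z4 (c z0 z4))))))) (c z0 (b (d (a (c z0 z4) (c z0 z4)) z0) (d (a (c z0 z4) (c z0 z4)) z0)))) (a (c z0 (b z0 z0)) z0)) (d (c z0 (b (d (c z0 z4) (c z0 (a (b (d z4 (a (c z0 z4) z4)) (d z4 (c z0 z4))) z4))) (d (c z0 z4) (c z0 (b (d z4 (c z0 z4)) z4))))) (c z0 (b z0 z0)))) (b z0 (d (c z0 (a (b (d (c z0 z4) z0) (d (c z0 z4) z0)) z0)) z0)))) (d (b (d (c z0 (a (b z4 z4) z4)) (c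 z0 (a (b (d (c (a (b (d z4 (c z0 z4)) (d z4 (c z0 z4))) (b (d z4 (c z0 z4)) (d z4 (c z0 z4)))) z4) (c z0 z4)) (d (c (b (d z4 (c z0 z4)) z0) z4) (c z0 z4))) (b (d (c (a (b z4 (d z4 (c z0 z4))) z4) z4) (c z0 z4)) (d (c (a (b (d z4 (c z0 z4)) (d z4 (c z0 z4))) (b z4 (d z4 (c z0 z4)))) z4) (c z0 z4)))))) (d (c z0 (b z4 z0)) (c z0 (b (d (c (b (d z4 (c z0 z4)) (d z4 (c z0 z4))) z4) (c z0 z4)) z0)))) (b (d (c z0 (a (b (d (c z0 z4) (c z0 (a (b z4 z4) z4))) (d (c z0 z4) z0)) (b z0 (d (c z0 z4) z0)))) (c z0 (a (b z0 z0) z0))) (d (c z0 (b (d (c z0 z4) z0) z0)) (c z0 (b z0 z0))))))) _ _ (by decide +kernel)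

theorem okB303 : CKB ⟨0, 6144, 7168, 8192⟩ ⟨4097, 8193, 2048, 4096⟩ :=
  ckB_sound z0 _ _ (by decide +kernel)

theorem okB304 : CKB ⟨6144, 12288, 4096, 8192⟩ ⟨0, 4097, 0, 4096⟩ :=
  ckB_sound (b (d (b (d z0 (a z0 (b z3 (d z0 z3)))) (d z0 z2)) (c (b (d (a z0 z3) (a z0 z3)) (d (a z2 (b (d (b (d z0 z3) (d z0 (a z2 z3))) (c (b (d z3 (a z2 z3)) (d (a z2 z3) (a z2 z3))) (b z3 (d (a z2 z3) (a z2 z3))))) z2)) (a z2 (c (b (d (b (d (a z2 z3) (a z2 z3)) (d (a z2 z3) (a z2 z3))) (c (b (d (a z2 z3) (a z2 z3)) (d (a z2 z3) (a z2 z3))) (b (d (a z2 z3) (a z2 z3)) (d (a z2 z3) (a z2 z3))))) (d (b (d z2 (a z2 z3)) z2) (c (b (d (a z2 z3) (a z2 z3)) (d z2 (a z2 (c (b (d (a z2 z3) (a z2 z3)) z2) (b (d (a z2 z3) (a z2 z3)) z2))))) (b (d (a z2 z3) (a z2 z3)) z2)))) (b (d (b (d (a z2 z3) (a z2 z3)) (d (a z2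 z3) (a z2 z3))) (b (d (a z2 z3) (a z2 z3)) (d (a z2 z3) (a z2 z3)))) (d z2 (b (d (a z2 z3) (a z2 z3)) z2))))))) (b (d (a z0 z3) (a z0 z3)) (d (a z2 (b (d (c (b z3 (d (a z2 z3) (a z2 z3))) (b z3 (d (a z2 z3) (a z2 z3)))) (c (b z3 (d (a z2 z3) (a z2 z3))) (b (d (a z2 z3) (a z2 z3)) (d (a z2 z3) (a z2 z3))))) z2)) (a z2 (b (d (c (b (d (a z2 z3) (a z2 z3)) (d (a z2 z3) (a z2 z3))) (b (d (a z2 z3) (a z2 z3)) (d (a z2 z3) (a z2 z3)))) (c (b (d (a z2 z3) (a z2 z3)) (d (a z2 z3) (a z2 z3))) (b (d (a z2 z3) (a z2 z3)) (d (a z2 z3) (a z2 z3))))) (d z2 (c (b (d z2 (a z2 z3)) z2) z2)))))))) (d (b (d z0 (a (b z2 (d z0 z2)) (b z2 (d z0 z2)))) (d z0 (b (d z0 z2) (d z0 (b (d (a (b z0 z0) z2) z0) (d (b z0 (d z0 z0)) (c (b z0 z0) z0))))))) z2)) _ _ (by decide +kernel)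

theorem okB305 : CKB ⟨6144, 12288, 4096, 6144⟩ ⟨4097, 8193, 0, 2048⟩ :=
  ckB_sound (b (d z0 (a (c (b (d (a (b (d z0 z0) (d z0 z0)) (b (d z0 (c (a z0 z1) (a z4 z5))) (d z0 z0))) (a z0 (c z0 (b (d (a z0 z1) (a z0 z1)) z0)))) (d (a (b (d z0 z0) (d z0 z2)) (b (d z0 z2) (d z0 z2))) z2)) (b (d z0 (a (b (d z0 z4) (d z0 (c z4 z0))) (b (d z0 (c (a z4 z5) z0)) (d z0 z4)))) (d z0 (a (b (d z0 (c z4 z0)) (d z0 (c z6 z0))) (b (d z0 z6) (d z0 z6)))))) (c (b z3 (d (b (d z0 z3) (d z0 (a (c (b z3 (d (a z2 z3) z3)) (b (d (a (c z7 z0) z7) z7) (d (a z6 z7) (a z6 z7)))) z3))) (c z3 (b z3 (d (a (b (d (a (c z3 z7) z3) (a (c z3 (b z7 (d (a z6 z7) (a z6 z7)))) z3)) (d (a z2 z3) (a z2 z3))) z3) (a (b (d (a (c z3 (b (d (a (c z3 z7) z7) (a (c z3 z7) z7)) (d (a z6 z7) (a z6 z7)))) z3) z3) (d (a z2 z3) (a z2 z3)))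 z3)))))) (b (d z0 (b z5 (d z0 z7))) (d z0 (b (d z0 z7) (d z0 z7))))))) (d z0 (a (c (b (d (a (b (d z0 (c z2 z6)) (d z0 (c z2 z6))) (b (d z0 z2) (d z0 z2))) z2) (d (a (b (d z0 (c z2 z6)) (d z0 (c z2 (a (b (d (a (c z6 z0) (c z6 z0)) z6) (d (a (c z6 z0) (c z6 z0)) z6)) (b z6 (d (c z6 z0) z6)))))) (b (d z0 z2) (d z0 (c z2 z6)))) z2)) (b (d z0 (a (b (d z0 (c z6 z0)) (d z0 (c z6 z0))) (b (d z0 z6) (d z0 z6)))) (d z0 (a (b (d z0 (c z6 z0)) (d z0 (c z6 z0))) (b (d z0 z6) (d z0 z6)))))) (c (b (d (b (d z0 (a z2 z3)) (d z0 (a z2 z3))) (c (b (d (a z2 z3) (a z2 z3)) (d (a z2 z3) (a z2 z3))) (b (d (a z2 z3) (a z2 z3)) (d (a z2 z3) (a z2 z3))))) (d (b (d z0 z2) (d z0 z2)) z2)) (b (d z0 (b (d z0 (a z6 z7)) (d z0 (a z6 z7)))) (d z0 (b (d z0 z6) (d z0 z6)))))))) _ _ (by decide +kernel)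

theorem okB306 : CKB ⟨6144, 9216, 4096, 5120⟩ ⟨4097, 6145, 2048, 3072⟩ :=
  ckB_sound z0 _ _ (by decide +kernel)

theorem okB307 : CKB ⟨6144, 9216, 4096, 4608⟩ ⟨6145, 8193, 2048, 3072⟩ :=
  ckB_sound (d (a z4 (b (d (c (a z4 z5) z0) (c (a (b (d z4 (c z0 z4)) (d z4 (c z0 z4))) (b z5 (d (c (b z5 (d z5 (a (c z1 z5) z5))) z5) (c z1 z5)))) z5)) (d z4 (c (a (b (d z4 (c z0 z4)) (d z4 (c z0 z4))) (b (d (c (b (d (a (c (b (d z5 (a z4 z5)) (d (a z4 z5) (a z4 z5))) z5) z5) (a (c z1 z5) z5)) (d (a z4 z5) (a z4 z5))) z5) (c (b (d (a (c z1 z5) z5) (a (c z1 z5) z1)) (d (a (c z0 z4) z5) (a z0 z1))) z5)) (d z6 (c z2 z6)))) z4)))) (a (b (d (c (a (b (d (c z0 z4) z0) (d (c z0 z4) z0)) (b (d (c z0 z4) z0) (d (c z0 z4) z0))) z4) (c z0 z4)) (d (c (a (b (d (c z0 z4) z0) (d (c z0 z4) z0)) (b (d (c z0 z4) z0) (d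 (c z0 z4) z0))) z4) (c z0 z4))) (b (d (c (a (b (d (c z0 z4) (c z0 z4)) (d (c z0 z4) (c z0 z4))) (b (d (c z1 z5) z1) (d (c z1 z5) (c z1 z5)))) z5) (c (a (b (d (c z0 (a z4 (b (d (c (a z4 z5) z5) (c (a z0 z1) z5)) (d z4 (c z0 z4))))) (c z0 (a z0 (b (d (c (a z0 z1) (a z4 z5)) (c (a z0 z1) (a z4 z5))) z0)))) z0) (b z1 (d (c z1 (b z5 (d (a (c (b z5 (d z5 (a (c z1 z5) z5))) z5) z5) (a (c z1 z5) z5)))) (c z1 (b z1 (d (a (c z1 z5) z5) z1)))))) (a z4 z5))) (d (c (a (b (d (c z0 z4) z0) (d (c z0 z4) z0)) (b (d (c (b z1 (d (a z0 z1) (a z0 z1))) z5) (c (b z1 (d (a z0 z1) (a z0 z1))) (b (d z5 (a (c (b z5 (d z5 (a z4 z5))) z5) z5)) (d (a z4 z5) (a z4 z5))))) (d (c z2 z6) (c z2 z6)))) z4) (c (a z0 (b (d (c (b z1 (d (a z0 z1) z1)) (b (d (a (c (b (d (a z4 z5) (a z4 z5)) (d (a z4 z5) (a z4 z5))) z5) z5) (a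 (c (b z1 (d (a z0 z1) (a z0 z1))) z5) z5)) (d (a z4 z5) (a (c z0 z4) z5)))) (c z1 (b (d (a (c z1 z5) z5) (a (c z1 (b (d z5 (a z4 z5)) (d (a z4 z5) (a z4 z5)))) z1)) (d (a (c z0 z4) z5) (a z0 z1))))) (d (c z2 (b (d (a z4 z7) (a z4 z7)) (d z6 (a z6 (c z3 z7))))) (c z2 (b (d (a (c z0 z4) (c z3 z7)) (a z0 z3)) (d (a (c z2 z6) (c z3 z7)) z2)))))) z4))))) _ _ (by decide +kernel)

theorem okB308 : CKB ⟨6144, 9216, 4608, 5120⟩ ⟨6145, 8193, 2048, 3072⟩ :=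
  ckB_sound (d (a z4 (b (d z6 (c (a z6 (b (d z6 (c z2 z6)) (d z6 (c z2 z6)))) z6)) (d z6 (c (a z6 (b (d z6 (c z2 z6)) z6)) z6)))) (a (b (d (c (a (b (d (c z0 z4) z0) (d (c z0 z4) z0)) (b (d (c z0 z4) z0) (d (c z2 z6) z2))) z4) (c z0 z4)) (d (c (a (b (d (c z0 z4) z0) (d (c z2 z6) z2)) (b (d (c z2 z6) z2) (d (c z2 z6) z2))) z6) (c z2 z6))) (b (d (c (a (b (d (c z2 z6) z2) (d (c z2 z6) z2)) (b (d (c z2 z6) (c z2 z6)) (d (c z2 z6) (c z2 z6)))) z6) (c (a z2 (b (d (c z2 (b (d z6 (a z6 (c z3 z7))) z6)) z2) z2)) z6)) (d (c (a (b (d (c z2 z6) z2) (d (c z2 z6) z2)) (b (d (c z2 z6) z2) (d (c z2 z6) z2))) z6) (c z2 z6))))) _ _ (by decide +kernel)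

theorem okB309 : CKB ⟨9216, 12288, 4096, 5120⟩ ⟨4097, 8193, 2048, 3072⟩ :=
  ckB_sound (c (b z3 (d (c z3 (b z3 (d (a (b z3 (d (a z2 z3) (a z2 z3))) z3) (a (b z3 (d (a z2 z3) (a z2 z3))) z3)))) (c z3 (b z3 (d (a (b z3 (d (a z2 z3) (a z2 z3))) z3) (a (b z3 (d (a z2 z3) z3)) z3)))))) (b (d z7 (b z5 (d z7 (a (c z3 z7) z7)))) (d (b (d z7 (a (c (b z7 (d (a (c (b z7 (d z7 (a (c z3 z7) z7))) z7) z7) (a (c z3 z7) z7))) z7) z7)) (d (a (c (b (d z7 (a (c (b z7 (d z7 (a z6 z7))) z7) z7)) (d (a z6 z7) (a z6 z7))) z0) z7) (a (c (b (d (a (c (b (d (a (c (b z7 (d z7 (a z6 z7))) z7) z7) (a (c z3 z7) z7)) (d (a z6 z7) (a z6 z7))) z7) z7) (a (c (b z3 (d (a z6 z7) (a z2 z3))) z7) z7)) (d (a z6 z7) (a (c z2 z6) z7))) z7) z7))) (b (d (a (c (b (d (a (c z3 z7) z7) z3) (d (a (c z3 z7) z7) (a (c z3 z7) z3))) z7)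 z7) (a (c (b z3 (d (a (c z3 (b z7 (d z7 (a (c z3 z7) z7)))) z3) z3)) z7) z7)) (d (a (c (b (d (a (c (b z3 (d (a z2 z3) (a z2 z3))) z7) z7) (a (c (b z3 (d (a z2 z3) (a z2 z3))) (b z7 (d z7 (a z6 z7)))) z3)) (d (a (c z2 z6) z7) (a (c z2 z6) z3))) z7) z7) (a (c (b (d (a (c z3 (b (d (a (c (b (d z7 (a z6 z7)) (d (a z6 z7) (a z6 z7))) z7) z7) (a (c z3 z7) z7)) (d (a z6 z7) (a z6 z7)))) z3) (a (c z3 (b (d (a (c z3 z7) z7) (a (c z3 (b z7 (d z7 (a z6 z7)))) z3)) (d (a (c z2 z6) z7) (a z2 z3)))) z3)) (d (a z2 z3) (a z2 z3))) z7) z7)))))) _ _ (by decide +kernel)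

theorem okB310 : CKB ⟨6144, 9216, 4096, 5120⟩ ⟨4097, 6145, 3072, 4096⟩ :=
  ckB_sound z0 _ _ (by decide +kernel)

theorem okB311 : CKB ⟨6144, 7680, 4096, 4608⟩ ⟨6145, 8193, 3072, 3584⟩ :=
  ckB_sound (b (d (c z0 z4) (c z0 (a z4 (b (d z4 (c z0 z4)) (d z4 (c z0 z4)))))) (d (c z0 z4) (c z0 (a z4 (b (d z4 (c z0 z4)) (d z4 (c z0 z4))))))) _ _ (by decide +kernel)

theorem okB312 : CKB ⟨7680, 9216, 4096, 4352⟩ ⟨6145, 8193, 3072, 3584⟩ :=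
  ckB_sound (d (c (a z0 z1) (a z4 (b z5 (d z5 (c (b z5 (d z5 (a (c (b z5 (d z5 (a (c z1 z5) z5))) z5) z5))) z5))))) (c (a z0 z1) (a (b (d (c (a (b (d z4 (c z0 z4)) (d z4 (c z0 z4))) (b (d (c (a (b (d z4 z0) z4) (b z5 (d z5 z1))) z5) (c (a z0 z1) (a z4 z5))) (d (c (a z4 (b (d (c z1 z5) z1) (d (c z1 z5) z1))) z4) (c z0 z4)))) z4) (c (a z0 (b (d (c (a z0 z1) (a z4 z5)) (c (a z0 z1) (a z4 z5))) (d (c z0 z4) z0))) z4)) (d (c (a z4 (b (d (c (a z4 (b (d z4 z0) (d z4 z0))) z4) (c z0 z4)) (d z4 (c z0 z4)))) z4) (c z0 z4))) (b (d z5 (c z1 z5)) (d (c (b (d z5 (a (c z1 z5) z5)) (d (a (c (b (d (a (c z1 z5) z5) z1) (d (a (c z1 z5) z5) z1)) z5) z5) (a (c z1 z5) z5))) z5) (c (b z1 (d (a (c z1 z5) z1) (a (c z1 (b (d z5 (a (c z1 z5) z5)) (d (a (c z1 z5) z5) (a (c z1 z5) z5)))) z1))) z5)))))) _ _ (by decide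 +kernel)

theorem okB313 : CKB ⟨7680, 9216, 4352, 4608⟩ ⟨6145, 8193, 3072, 3584⟩ :=
  ckB_sound (d (c (a z0 (b (d (c z1 (b (d (a (c z1 (b (d (a z4 z5) (a z4 z5)) (d (a z4 z5) (a z4 z5)))) z1) (a (c z1 (b z1 (d (a z0 z1) (a z0 z1)))) z1)) (d (a z0 z1) (a z0 z1)))) (c z1 (b (d (a (c z1 (b z1 (d (a z0 z1) (a z0 z1)))) z1) z1) (d (a z0 z1) (a z0 z1))))) z2)) (a z4 (b (d (c (b z5 (d z5 (a z4 z5))) z5) (c (b (d (a (c (b z5 (d z5 (a z4 z5))) z5) z5) (a (c (b (d (a z4 z5) (a z4 z5)) (d (a z4 z5) (a z4 z5))) z5) z5)) (d (a z4 z5) (a z4 z5))) z5)) (d z6 (c (b (d (a z4 z7) (a z4 z7)) (d z6 (a z6 z7))) z6))))) (c z0 (a (b (d (c (a z4 (b (d z4 (c z0 z4)) (d z4 (c z0 z4)))) z4) (c z0 z4)) (d (c (a z4 (b (d z4 (c z0 z4)) z4)) z4) (c z0 z4))) (b (d (c (b (d (a (c (b (d (a z4 z5) (a z0 z1)) (d (a z4 z5)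 (a z0 z1))) z5) z5) (a (c (b (d (a z0 z1) z1) (d (a z0 z1) (a z0 z1))) z5) z5)) (d (a (c (b (d (a z4 z5) z0) (d z4 z0)) z4) z5) (a (c z0 z4) z5))) z5) (c (b (d (a (c (b z1 (d (a z0 z1) (a z0 z1))) (b (d z5 (a z4 z5)) (d (a z4 z5) (a z4 z5)))) z1) (a (c (b z1 (d (a z0 z1) z1)) (b (d (a z4 z5) (a (c z0 z4) z5)) (d (a z4 z5) (a z4 z5)))) z1)) (d (a (c z0 z4) z1) (a z0 z1))) z5)) (d (c (b (d (a (c (b (d z4 z0) (d z4 z0)) z4) z7) (a (c z0 z4) (c z3 z7))) (d (a z6 (c (b (d z7 z3) (d (a (c z3 z7) z7) z3)) z7)) (a (c z2 z6) (c z3 z7)))) z6) (c (b (d (a z0 z3) (a z0 z3)) (d (a z2 (c z3 z7)) (a z2 (c z3 (b (d z7 (a (c z3 z7) z7)) (d (a (c z3 z7) z7) (a (c z3 z7) z7))))))) z6)))))) _ _ (by decide +kernel)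

theorem okB314 : CKB ⟨6144, 7680, 4096, 4608⟩ ⟨6145, 8193, 3584, 4096⟩ :=
  ckB_sound z0 _ _ (by decide +kernel)

end Vale.Agent.Lib.P154Q5
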