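import Vale.Agent.Lib.P154Q5.CkBDefs

namespace Vale.Agent.Lib.P154Q5

set_option maxRecDepth 100000
set_option exponentiation.threshold 1000

open Tr

theorem okB315 : CKB ⟨7680, 9216, 4096, 4352⟩ ⟨6145, 8193, 3584, 4096⟩ :=
  ckB_sound (d (c (a z0 z1) (a (b (d (c z0 z4) (c z0 (a (b (d z4 (c z0 z4)) z4) (b (d (c (a z4 z5) z5) (c (a z0 z1) z5)) (d (c (a z4 (b (d z5 (c z1 z5)) (d (c (a z4 z5) z5) (c z1 z5)))) z4) (c z0 z4)))))) (d (c z0 z4) (c z0 (a z4 (b (d z4 (c z0 z4)) (d z4 (c z0 z4))))))) (b (d (c z1 z5) z1) (d (c z1 z5) (c z1 (b (d z5 (a (c z1 z5) z5)) (d (a (c (b (d z5 (a (c z1 z5) z5)) (d (a (c (b (d z5 (a z4 z5)) (d (a z4 z5) (a z4 z5))) z5) z5) (a (c z1 z5) z5))) z5) z5) (a (c (b z1 (d (a (c z1 z5) z5) (a (c z1 (b z5 (d z5 (a z4 z5)))) z1))) z5) z5)))))))) (c (a z0 z1) (a (b (d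 (c z0 (a z0 (b (d (c (a z0 z1) (a z4 z5)) (c (a z0 z1) (a z4 z5))) (d (c z0 z4) (c z0 (a z4 (b (d z5 (c z1 z5)) (d (c (a z4 z5) z5) (c (a z0 z1) z5))))))))) (c z0 (a z0 (b (d (c (a z0 z1) (a z0 z1)) (c (a z0 z1) (a z0 z1))) z0)))) (d (c z0 (a z0 (b (d (c z0 z4) z0) z0))) z0)) (b z1 (d (c z1 (b (d (a (c z1 z5) z5) z1) (d (a (c z1 z5) z5) (a (c z1 (b (d z5 (a (c z1 z5) z5)) (d (a (c (b z5 (d z5 (a z4 z5))) z5) z5) (a (c (b z1 (d (a z4 z5) z1)) z5) z5)))) z1)))) (c z1 (b z1 (d (a (c z1 (b z1 (d (a (c z1 z5) z5) (a (c z1 (b (d z5 (a z4 z5)) (d (a z4 z5) (a z4 z5)))) z1)))) z1) (a (c z1 (b z1 (d (a (c z1 (b (d (a z4 z5) z1) (d (a z4 z5) (a z0 z1)))) z1) z1))) z1))))))))) _ _ (by decide +kernel)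

theorem okB316 : CKB ⟨7680, 9216, 4352, 4608⟩ ⟨6145, 8193, 3584, 3840⟩ :=
  ckB_sound (c z0 (a (b (d (c z0 z4) (c z0 (a z4 (b (d z4 (c z0 z4)) (d z4 (c z0 z4)))))) (d (c z0 z4) z0)) (b (d (c (b (d (a (c z1 (b (d (a z0 z1) (a z0 z1)) (d (a z0 z1) (a z0 z1)))) z1) (a (c z1 (b (d (a z0 z1) (a z0 z1)) (d (a z0 z1) (a z0 z1)))) z1)) (d (a z0 z1) (a z0 z1))) (b (d z5 (a (c (b (d z5 (a z4 z5)) (d (a z4 z5) (a z4 z5))) z5) z5)) (d (a z4 z5) (a z4 z5)))) (c (b (d (a (c z1 (b z1 (d (a z0 z1) (a z0 z1)))) z1) (a (c z1 (b z1 (d (a z0 z1) (a z0 z1)))) z1)) (d (a z0 z1) (a z0 z1))) (b (d (a (c (b (d (a z4 z5) (a z4 z5)) (d (a z4 z5) (a z4 z5))) z5) z5) (a (c (b (d (a (c z0 z4) z5) (a z0 z1)) (d (a (c z0 z4) (c z1 z5)) (a z0 z1))) z5) z5)) (d (a (c (b (d z4 (a z4 (c z1 z5))) (d z4 (a z4 (c z1 z5))))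 z4) z5) (a (c z0 z4) z5))))) (d (c (b (d (a z0 z3) (a z0 z3)) (d (a z2 z3) z2)) (b (d (a z4 z7) (a z4 z7)) (d z6 (a z6 z7)))) (c (b (d (a z0 z3) (a z0 z3)) z2) (b (d (a z4 z7) (a (c z0 z4) (c z3 z7))) (d (a z6 (c (b (d z7 (a (c z3 z7) z7)) (d (a (c (b z7 (d z7 (a z6 z7))) z7) z7) (a (c z3 z7) z7))) z7)) (a (c z2 z6) (c (b z3 (d (a (c z3 z7) z7) z3)) z7))))))))) _ _ (by decide +kernel)

theorem okB317 : CKB ⟨7680, 9216, 4352, 4608⟩ ⟨6145, 8193, 3840, 4096⟩ :=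
  ckB_sound (c z0 (a z0 (b (d (c (b z1 (d (a z0 z1) (a z0 z1))) (b (d (a (c (b (d (a z0 z1) (a z0 z1)) (d (a z0 z1) (a z0 z1))) (b (d z5 (a z4 z5)) (d (a z4 z5) (a z4 z5)))) z5) (a (c (b (d (a z0 z1) (a z0 z1)) (d (a z0 z1) (a z0 z1))) (b (d (a z4 z5) (a z4 z5)) (d (a z4 z5) (a z4 z5)))) z1)) (d (a (c z0 z4) (c z1 z5)) (a (c z0 (b (d z4 (a z4 (c z1 z5))) (d z4 (a z4 (c z1 z5))))) z1)))) (c (b z1 (d (a z0 z1) (a z0 z1))) (b (d (a (c (b z1 (d (a z0 z1) (a z0 z1))) (b (d (a (c z0 z4) z5) (a z0 z1)) (d (a (c z0 z4) (c z1 z5)) (a z0 z1)))) z1) (a (c (b z1 (d (a z0 z1) (a z0 z1))) (b (d (a z0 z1) (a z0 z1)) (d (a z0 z1) (a z0 z1)))) z1)) (d (a (c z0 (b (d (a (c z0 z4) (c z1 z5)) z0) z0)) z1) (a z0 z1))))) (d (c z2 (b (d (a (c z0 z4) (c z3 z7)) (a (c z0 (b (d z4 (a z4 (c z0 z4))) z4)) z3)) (d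 (a (c z2 z6) (c z3 z7)) (a z2 (c z3 (b (d z7 (a (c z3 z7) z7)) (d (a (c (b z7 (d z7 (a z6 z7))) z7) z7) (a (c z3 z7) z7)))))))) (c z2 (b (d (a z0 z3) (a z0 z3)) (d (a z2 (c z3 (b z3 (d (a (c z3 z7) z7) (a (c z3 (b z7 (d z7 (a z6 z7)))) z3))))) (a z2 (c z3 (b z3 (d (a (c z3 (b (d (a z6 z7) z3) (d (a z6 z7) z3))) z3) z3))))))))))) _ _ (by decide +kernel)

theorem okB318 : CKB ⟨6144, 9216, 4608, 5120⟩ ⟨6145, 8193, 3072, 4096⟩ :=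
  ckB_sound (d (a (b (d (c z0 z4) (c z0 z4)) (d (c z2 z6) z2)) (b (d (c z2 z6) (c z2 (a (b (d z6 (c z2 z6)) (d z6 (c z2 z6))) (b (d (c (b (d (a z6 (c (b (d (a z6 z7) (a z2 z3)) (d (a z6 z7) (a z2 z3))) z7)) (a (c z2 z6) (c (b z3 (d (a z2 z3) (a z2 z3))) z7))) (d (a z6 (c (b (d z6 z2) (d z6 z2)) z6)) (a (c z2 z6) (c z2 z6)))) z6) (c (b (d (a z2 (c (b z3 (d (a z2 z3) (a z2 z3))) (b (d z7 (a z6 z7)) (d (a z6 z7) (a z6 z7))))) (a z2 (c z3 (b (d (a z6 z7) (a z6 z7)) (d (a z6 z7) (a z6 z7)))))) z2) z6)) (d (c (b (d (a z6 (c (b (d z6 z2) z6) z6)) (a (c z2 z6) (c z2 z6))) (d z6 (a z6 (c z2 z6)))) z6) (c z2 z6)))))) (d (c z2 z6) (c z2 (a (b (d z6 (c z2 z6)) (d z6 (c z2 z6))) (b (d (c (b (d z6 (a z6 (c z2 z6))) (d z6 (a z6 (c z2 z6)))) z6) (c z2 z6)) (d z6 (c z2 z6)))))))) (a z0 (b (d (c z2 (a (b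 (d (c z2 z6) z2) z2) (b (d (c z2 z6) (c z2 (b (d (a z6 (c (b (d (a z6 z7) (a z6 z7)) (d (a z6 z7) (a z6 z7))) z7)) (a (c z2 z6) (c (b (d (a (c z2 z6) z7) (a z2 z3)) (d (a (c z2 z6) z7) (a z2 z3))) z7))) (d (a z6 (c (b (d z6 (a z6 (c z3 z7))) (d z6 (a z6 (c z3 z7)))) z6)) (a (c z2 z6) (c z2 z6)))))) (d (c z2 z6) (c z2 (b (d z6 (a z6 (c z2 z6))) (d z6 (a z6 (c z2 z6))))))))) (c z2 (a z2 (b (d (c z2 (b (d (a (c z2 z6) (c (b (d (a z2 z3) (a z2 z3)) (d (a z2 z3) (a z2 z3))) (b (d z7 (a z6 z7)) (d (a z6 z7) (a z6 z7))))) (a z2 (c (b (d (a z2 z3) z3) (d (a z2 z3) (a z2 z3))) (b (d (a z6 z7) (a (c z2 z6) z7)) (d (a z6 z7) (a z6 z7)))))) (d (a (c z2 z6) (c z2 z6)) (a z2 (c z2 (b (d z6 (a z6 (c z3 z7))) (d z6 (a z6 (c z3 z7))))))))) (c z2 (b (d (a z2 (c (b z3 (d (a z2 z3) (a z2 z3))) (b (d (a (c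 z2 z6) z7) (a z2 z3)) (d (a (c z2 z6) (c z3 z7)) (a z2 z3))))) (a z2 (c (b z3 (d (a z2 z3) z3)) (b (d (a z2 z3) (a z2 z3)) (d (a z2 z3) (a z2 z3)))))) (d (a z2 (c z2 (b (d (a (c z2 z6) (c z3 z7)) z2) z2))) z2)))) (d (c z2 (b (d (a (c z2 z6) (c z2 z6)) z2) z2)) z2))))) (d (c z2 (a z2 (b (d (c z2 z6) (c z2 (b (d z6 (a z6 (c z2 z6))) z6))) (d (c z2 z6) z2)))) z2)))) _ _ (by decide +kernel)

theorem okB319 : CKB ⟨9216, 12288, 4096, 5120⟩ ⟨4097, 6145, 3072, 4096⟩ :=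
  ckB_sound z3 _ _ (by decide +kernel)

theorem okB320 : CKB ⟨9216, 12288, 4096, 4608⟩ ⟨6145, 8193, 3072, 4096⟩ :=
  ckB_sound (d (b z1 (d (a (c z3 z7) z3) z3)) z3) _ _ (by decide +kernel)

theorem okB321 : CKB ⟨9216, 12288, 4608, 5120⟩ ⟨6145, 8193, 3072, 3584⟩ :=
  ckB_sound (b (d (a (c z3 z7) z3) (a (c z3 (b (d z7 (a (c z3 z7) z7)) (d (a (c (b (d z7 (a (c z3 z7) z7)) (d (a (c (b (d z7 z3) (d (a (c z3 z7) z7) z3)) z7) z7) (a (c z3 z7) z7))) z7) z7) (a (c (b z3 (d (a (c z3 z7) z3) (a (c z3 (b (d z7 (a (c z3 z7) z7)) (d (a (c z3 z7) z7) (a (c z3 z7) z7)))) z3))) z7) z7)))) z3)) (d (a (c (b (d (a (c z3 (b (d (a (c z3 (b (d (a z6 z7) (a z6 z7)) (d (a z6 z7) (a z6 z7)))) z3) (a (c z3 (b z3 (d (a z2 z3) (a z2 z3)))) z3)) (d (a z2 z3) (a z2 z3)))) z3) (a (c z3 (b z3 (d (a z2 z3) (a z2 z3))))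 z3)) (d (a z2 z3) (a z2 z3))) (b (d z7 (a (c (b (d z7 (a (c (b (d z7 (a z6 z7)) (d (a z6 z7) (a z6 z7))) z7) z7)) (d (a z6 z7) (a z6 z7))) z7) z7)) (d (a z6 z7) (a z6 z7)))) z3) (a (c (b (d (a (c z3 (b z3 (d (a z2 z3) (a z2 z3)))) z3) (a (c z3 (b z3 (d (a z2 z3) (a z2 z3)))) z3)) (d (a z2 z3) (a z2 z3))) (b (d (a (c (b (d (a (c (b (d (a z6 z7) (a z2 z3)) (d (a z6 z7) (a z2 z3))) z7) z7) (a (c (b z3 (d (a z2 z3) (a z2 z3))) z7) z7)) (d (a (c (b (d z6 z2) z6) z6) z7) (a (c z2 z6) z7))) z7) z7) (a (c (b (d (a (c (b z3 (d (a z2 z3) (a z2 z3))) (b (d z7 (a z6 z7)) (d (a z6 z7) (a z6 z7)))) z3) (a (c z3 (b (d (a z6 z7) (a z6 z7)) (d (a z6 z7) (a z6 z7)))) z3)) (d (a z2 z3) (a z2 z3))) z7) z7)) (d (a (c (b (d (a z6 z7) (a (c z2 z6) (c z3 z7))) (d (a z6 (c (b (d (a (c z3 z7) z7) z3) (d (a z6 z7)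 z3)) z7)) (a (c z2 z6) (c z3 z7)))) z6) z7) (a (c (b (d (a z2 z3) (a z2 z3)) (d (a z2 (c z3 z7)) z2)) z6) z7)))) z3))) _ _ (by decide +kernel)

theorem okB322 : CKB ⟨9216, 12288, 4608, 4864⟩ ⟨6145, 8193, 3584, 4096⟩ :=
  ckB_sound (d (a (c z3 (b (d (a (c z3 z7) z7) z3) (d (a (c z3 z7) z7) (a (c z3 (b (d z7 (a (c z3 z7) z7)) (d (a (c (b (d z7 (a (c z3 z7) z7)) (d (a (c (b z7 (d z7 (a z6 z7))) z7) z7) (a (c z3 z7) z7))) z7) z7) (a (c (b z3 (d (a (c z3 z7) z7) z3)) z7) z7)))) z3)))) z3) (a (c z3 (b z3 (d (a (c z3 (b z3 (d (a (c z3 z7) z7) (a (c z3 (b (d z7 (a (c z3 z7) z7)) (d (a (c (b z7 (d z7 (a z6 z7))) z7) z7) (a (c z3 z7) z7)))) z3)))) z3) (a (c z3 (b z3 (d (a (c z3 (b z3 (d (a (c z3 z7) z7) (a (c z3 (b z7 (d z7 (a z6 z7)))) z3)))) z3) (a (c z3 (b z3 (d (a (c z3 (b (d (a z6 z7) z3) (d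 (a z6 z7) (a z2 z3)))) z3) z3))) z3)))) z3)))) z3)) _ _ (by decide +kernel)

theorem okB323 : CKB ⟨9216, 12288, 4864, 5120⟩ ⟨6145, 8193, 3584, 4096⟩ :=
  ckB_sound (d (a (c (b z3 (d (a z2 z3) (a z2 z3))) (b (d (a (c (b (d (a (c z3 (b (d (a z2 z3) (a z2 z3)) (d (a z2 z3) (a z2 z3)))) z3) (a (c z3 (b (d (a z2 z3) z3) (d (a z2 z3) (a z2 z3)))) z3)) (d (a z2 z3) (a z2 z3))) (b (d z7 (a (c (b (d z7 (a z6 z7)) (d (a z6 z7) (a z6 z7))) z7) z7)) (d (a z6 z7) (a z6 z7)))) z7) (a (c (b (d (a (c z3 (b z3 (d (a z2 z3) (a z2 z3)))) z3) (a (c z3 (b z3 (d (a z2 z3) (a z2 z3)))) z3)) (d (a z2 z3) (a z2 z3))) (b (d (a (c (b (d (a z6 z7) (a z6 z7)) (d (a z6 z7) (a z6 z7))) z7) z7) (a (c (b (d (a (c z2 z6) z7) (a z2 z3)) (d (a (c z2 z6) (c z3 z7)) (a z2 z3))) z7) z7)) (d (a (c (b (d z6 (a z6 (c z3 z7)))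 z6) z6) z7) (a (c z2 z6) z7)))) z3)) (d (a (c z2 z6) (c z3 z7)) (a (c z2 (b (d (a z6 z7) (a (c z2 z6) (c z3 z7))) (d (a z6 (c (b (d z7 (a (c z3 z7) z7)) (d (a z6 z7) (a z6 z7))) z7)) (a (c z2 z6) (c (b z3 (d (a (c z2 z6) z7) (a z2 z3))) z7))))) z3)))) z3) (a (c (b z3 (d (a z2 z3) (a z2 z3))) (b (d (a (c (b z3 (d (a z2 z3) (a z2 z3))) (b (d (a (c (b (d (a z2 z3) (a z2 z3)) (d (a z2 z3) (a z2 z3))) (b (d z7 (a z6 z7)) (d (a z6 z7) (a z6 z7)))) z7) (a (c (b (d (a z2 z3) z3) (d (a z2 z3) (a z2 z3))) (b (d (a z6 z7) (a z6 z7)) (d (a z6 z7) (a z6 z7)))) z3)) (d (a (c z2 z6) (c z3 z7)) (a (c z2 (b (d z6 (a z6 (c z3 z7))) z6)) z3)))) z3) (a (c (b z3 (d (a z2 z3) (a z2 z3))) (b (d (a (c (b z3 (d (a z2 z3) (a z2 z3))) (b (d (a (c z2 z6) z7) (a z2 z3)) (d (a (c z2 z6) (c z3 z7)) (a z2 z3)))) z3)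 (a (c (b z3 (d (a z2 z3) (a z2 z3))) (b (d (a z2 z3) (a z2 z3)) (d (a z2 z3) (a z2 z3)))) z3)) (d (a z2 z3) (a z2 z3)))) z3)) (d (a (c z2 (b (d (a (c z2 z6) (c z3 z7)) (a z2 z3)) (d (a (c z2 z6) (c (b z3 (d (a z2 z3) z3)) z7)) (a z2 (c z3 (b (d z7 (a (c z3 z7) z7)) (d (a z6 z7) (a z6 z7)))))))) z3) (a (c z2 (b (d (a z2 z3) (a z2 z3)) (d (a z2 (c z3 (b (d (a (c z3 z7) z7) z3) (d (a (c z2 z6) z7) (a z2 z3))))) (a z2 (c z3 (b z3 (d (a z2 z3) (a z2 z3)))))))) z3)))) z3)) _ _ (by decide +kernel)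

theorem okB324 : CKB ⟨6144, 9216, 5120, 6144⟩ ⟨4097, 8193, 2048, 3072⟩ :=
  ckB_sound (c z2 (b (d z6 (a (b (d (c (a (b (d (c z2 z6) z2) (d (c z2 z6) z2)) (b (d (c z2 z6) z2) (d (c z2 z6) z2))) z6) (c z2 z6)) (d (c (a (b (d (c z2 z6) z2) (d (c z2 z6) z2)) (b (d (c z2 z6) z2) (d (c z2 z6) z2))) z6) (c z2 z6))) (b (d (c (a (b (d (c z2 z6) z2) (d (c z2 z6) z2)) (b (d (c z2 z6) z2) (d (c z2 z6) z2))) z6) (c z2 z6)) (d (c (a (b (d (c z2 z6) z2) (d (c z2 z6) z2)) (b (d (c z2 z6) z2) (d (c z2 z6) z2))) z6) (c z2 z6))))) (d (a (b (d z6 (c (a (b z6 (d z6 (c z2 z6))) z6) z6)) (d z6 (c (a (b (d z6 (c z2 z6)) (d z6 (c z2 z6))) (b (d z6 (c z2 z6)) (d z6 (c z2 z6)))) z6))) z6) (a (b (d (c (a (b (d (c z2 z6) z2) (d (c z2 z6) z2)) (b (d (c z2 z6) z2) (d (c z2 z6) z2))) z6) (c z2 z6)) (d (c (a (b (d (c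 z2 z6) z2) (d (c z2 z6) z2)) (b (d (c z2 z6) z2) (d (c z2 z6) z2))) z6) (c z2 z6))) (b (d (c (a (b (d (c z2 z6) z2) (d (c z2 z6) z2)) (b (d (c z2 z6) z2) (d (c z2 z6) z2))) z6) (c z2 z6)) (d (c (a (b (d (c z2 z6) z2) (d (c z2 z6) z2)) (b (d (c z2 z6) z2) (d (c z2 z6) z2))) z6) (c z2 z6))))))) _ _ (by decide +kernel)

theorem okB325 : CKB ⟨9216, 12288, 5120, 6144⟩ ⟨4097, 8193, 2048, 3072⟩ :=
  ckB_sound (c (b (d (c (b (d (a z2 z3) (a z2 z3)) (d (a z2 z3) (a z2 z3))) (b (d (a z2 z3) (a z2 z3)) (d (a z2 z3) (a z2 z3)))) (c (b (d (a z2 z3) (a z2 z3)) (d (a z2 z3) (a z2 z3))) (b (d (a z2 z3) (a z2 z3)) (d (a z2 z3) (a z2 z3))))) z2) (b (d (b (d (a z6 z7) (a (c (b (d (a z6 z7) (a (c z2 z6) z7)) (d z6 (a (c z2 z6) (c z3 z7)))) z6) z7)) (d (a z6 z7) (a (c (b (d z6 (a z6 (c (b (d (a z6 z7) (a z2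 z3)) z2) z7))) (d z6 (a z6 (c z2 z6)))) z6) z7))) (b (d (a (c (b (d (a (c z2 z6) (c z3 z7)) (a z2 z3)) (d (a (c z2 z6) (c z3 z7)) (a z2 (c z3 z7)))) z6) z7) (a (c (b (d (a z2 z3) (a z2 z3)) (d (a z2 (c z3 (b (d z7 (a (c z3 z7) z7)) (d (a (c (b z7 (d z7 (a z6 z7))) z7) z7) (a (c z3 z7) z7))))) z2)) z6) z7)) (d (a (c (b (d (a (c z2 z6) (c (b (d (a z2 z3) z3) z2) z7)) z2) (d (a (c z2 z6) (c z2 z6)) z2)) z6) (c (b z7 (d (a (c z3 z7) z7) z3)) z7)) (a (c z2 z6) (c z3 z7))))) (d (b (d z6 (a z6 (c (b (d z7 (a (c z3 z7) z7)) (d (a (c (b (d (a z6 z7) (a z6 z7)) (d (a z6 z7) (a z6 z7))) z7) z7) (a (c (b z3 (d (a z6 z7) (a z2 z3))) z7) z7))) z7))) (d z6 (a z6 (c (b (d (a z6 z7) (a z6 z7)) z6) z7)))) (b (d (a (c (b (d (a (c z2 z6) (c z2 z6)) z2) (d (a (c z2 z6) (c z2 z6)) z2)) z6) (c (b (d (a (c z3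 z7) z7) z3) (d (a (c (b z3 (d (a z2 z3) (a z2 z3))) z7) z7) (a (c z3 (b z7 (d z7 (a z6 z7)))) z3))) z7)) (a (c z2 z6) (c (b z3 (d (a (c z3 (b (d (a z6 z7) (a z6 z7)) (d (a z6 z7) (a z6 z7)))) z3) (a (c z3 (b (d (a z6 z7) (a z2 z3)) (d (a z6 z7) (a z2 z3)))) z3))) z7))) (d (a (c (b (d (a (c z2 z6) (c z2 z6)) z2) (d (a (c z2 z6) (c z2 z6)) z2)) z6) (c (b (d (a (c z2 z6) (c z3 z7)) (a z2 z3)) (d (a (c z2 z6) (c z3 z7)) z2)) z7)) (a (c z2 z6) (c (b (d (a z2 z3) (a z2 z3)) z2) (b z7 z6)))))))) _ _ (by decide +kernel)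

theorem okB326 : CKB ⟨6144, 9216, 5120, 6144⟩ ⟨4097, 8193, 3072, 4096⟩ :=
  ckB_sound (c z2 (b (d (a (b (d (c z2 z6) z2) (d (c z2 z6) z2)) (b (d (c z2 z6) (c z2 (a (b (d z6 (c z2 z6)) z6) (b (d z6 (c z2 z6)) (d z6 (c z2 z6)))))) (d (c z2 z6) (c z2 (a z6 (b (d z6 (c z2 z6)) (d z6 (c z2 z6)))))))) z2) (d (a (b (d (c z2 z6) z2) (d (c z2 z6) z2)) (b (d (c z2 z6) z2) (d (c z2 z6) z2))) z2))) _ _ (by decide +kernel)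

theorem okB327 : CKB ⟨9216, 12288, 5120, 6144⟩ ⟨4097, 6145, 3072, 4096⟩ :=
  ckB_sound (b (d (c (b (d (a z2 z3) (a z2 z3)) (d (a z2 z3) (a z2 z3))) (b (d (a z2 z3) (a z2 z3)) (d (a z2 z3) (a z2 z3)))) (c (b (d (a z2 z3) (a z2 z3)) (d (a z2 z3) (a z2 z3))) (b (d (a z2 z3) (a z2 z3)) (d (a z2 z3) (a z2 z3))))) z2) _ _ (by decide +kernel)

theorem okB328 : CKB ⟨9216, 12288, 5120, 5632⟩ ⟨6145, 8193, 3072, 3584⟩ :=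
  ckB_sound (b (d (a (c (b (d (a z2 z3) (a z2 z3)) z2) (b (d (a z6 z7) (a z6 z7)) (d z6 (a z6 (c (b z7 (d z7 (a (c (b z7 (d (a z6 z7) (a z6 z7))) z7) z7))) z7))))) z3) (a (c (b (d (a z2 z3) (a z2 z3)) z2) (b (d (a (c (b (d (a z6 (c (b (d (a z6 z7) (a z2 z3)) z6) z6)) (a (c z2 z6) (c z2 z6))) (d z6 (a z6 (c z2 z6)))) z6) (c (b z7 (d z7 (a (c z3 z7) z7))) z7)) (a (c z2 z6) (c z3 z7))) (d (a (c (b (d z6 (a z6 (c z2 z6))) (d z6 (a z6 (c z2 z6)))) z6) (c (b (d (a (c (b z7 (d z7 z3)) z7) z7) (a (c z3 z7) z7)) (d (a (c (b (d (a z6 z7) z3) (d (a z6 z7) (a z2 z3))) z7) z7) (a (c z3 z7) z7))) z7)) (a (c z2 z6) (c (b z3 (d (a (c z3 (b z7 (d z7 (a z6 z7)))) z3) (a (c z3 (b (d (a z6 z7) (a z6 z7)) (d (a z6 z7) (a z6 z7)))) z3))) z7))))) z3)) (d (a (c z2 z6) (c z3 z7)) (a (c z2 (b (d (a z6 (c (b (d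 (a z6 z7) (a (c z2 z6) z7)) (d (a z6 z7) (a (c z2 z6) (c z3 z7)))) z7)) (a (c z2 z6) (c (b (d (a z2 z3) (a z2 z3)) z2) z7))) (d (a z6 (c (b (d z6 (a (c z2 z6) (c z3 z7))) (d z6 (a z6 (c z2 z6)))) z6)) (a (c z2 z6) (c z2 z6))))) (c z3 (b z7 (d z7 (a (c z3 z7) z7))))))) _ _ (by decide +kernel)

theorem okB329 : CKB ⟨9216, 12288, 5120, 5632⟩ ⟨6145, 8193, 3584, 4096⟩ :=
  ckB_sound (b (d (a (c z2 (b (d (a (c z2 z6) (c z3 z7)) (a (c z2 (b (d (a z6 (c (b (d (a z6 z7) (a z6 z7)) z6) z6)) (a (c z2 z6) (c z2 z6))) (d z6 (a z6 (c z2 z6))))) z3)) (d (a (c z2 z6) (c (b z3 (d (a (c z3 (b z3 (d (a z2 z3) (a z2 z3)))) z3) (a (c z3 (b z3 (d (a z2 z3) (a z2 z3)))) z3))) (b z7 (d z7 (a (c (b z7 (d z7 (a z6 z7))) z7) z7))))) (a (c z2 (b (d z6 (a z6 (c z2 z6))) (d z6 (a z6 (c z2 z6))))) (c z3 (b (d (a (c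 (b z7 (d z7 (a (c z3 z7) z7))) z7) z7) (a (c z3 z7) z7)) (d (a (c (b (d (a z6 z7) (a z6 z7)) (d (a z6 z7) (a z6 z7))) z7) z7) (a (c (b (d (a z6 z7) (a z2 z3)) (d (a z6 z7) (a z2 z3))) z7) z7)))))))) z3) (a (c z2 (b (d (a (c z2 (b (d (a (c z2 z6) (c z2 z6)) (a z2 (c z2 (b (d (a z6 z7) (a z6 z7)) (d z6 (a z6 (c z3 z7))))))) (d (a (c z2 z6) (c z2 z6)) z2))) z3) (a z2 z3)) (d (a z2 (c z3 (b (d (a (c z3 z7) z7) (a (c z3 (b z7 (d z7 (a (c z3 z7) z7)))) z3)) (d (a (c (b z3 (d (a z2 z3) (a z2 z3))) (b z7 (d z7 (a z6 z7)))) z7) (a (c (b z3 (d (a z2 z3) (a z2 z3))) (b (d (a z6 z7) (a z6 z7)) (d (a z6 z7) (a z6 z7)))) z3))))) (a z2 (c z3 (b z3 (d (a (c (b z3 (d (a z2 z3) z3)) (b (d (a (c z2 z6) z7) (a z2 z3)) (d (a z6 z7) (a z2 z3)))) z3) (a (c z3 (b (d (a z2 z3) (a z2 z3)) (d (a z2 z3) (a z2 z3))))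 z3)))))))) z3)) (d (a (c z2 (b (d (a (c z2 z6) (c (b (d (a z2 z3) (a z2 z3)) z2) (b (d (a z6 z7) (a z6 z7)) z6))) (a z2 (c (b (d (a z2 z3) (a z2 z3)) z2) (b (d (a z6 z7) (a (c z2 z6) z7)) (d (a z6 z7) (a (c z2 z6) (c z3 z7))))))) (d (a (c z2 z6) (c z2 z6)) (a z2 (c z2 (b (d z6 (a z6 (c (b z3 (d (a z6 z7) (a z2 z3))) z7))) (d z6 (a z6 (c z2 z6))))))))) z3) (a (c z2 (b (d (a z2 (c (b (d (a z2 z3) (a z2 z3)) z2) (b (d (a (c z2 z6) (c z3 z7)) (a z2 z3)) (d (a (c z2 z6) (c z3 z7)) (a z2 z3))))) (a z2 (c (b (d (a z2 z3) (a z2 z3)) z2) (b (d (a z2 z3) (a z2 z3)) (d (a z2 z3) z2))))) (d (a z2 (c z2 (b (d (a (c z2 z6) (c z3 z7)) z2) z2))) z2))) z3))) _ _ (by decide +kernel)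

end Vale.Agent.Lib.P154Q5
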