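import Vale.Agent.Lib.P154Q5.CkBDefs

namespace Vale.Agent.Lib.P154Q5

set_option maxRecDepth 100000
set_option exponentiation.threshold 1000

open Tr

theorem okB330 : CKB ⟨9216, 12288, 5632, 6144⟩ ⟨6145, 8193, 3072, 3584⟩ :=
  ckB_sound (b (d (a (c z2 z6) (c (b z3 (d (a (c z3 (b z3 (d (a z2 z3) (a z2 z3)))) z3) (a (c z3 (b z3 (d (a z2 z3) (a z2 z3)))) z3))) (b z7 (d z7 (a (c (b (d z7 (a z6 z7)) (d (a z6 z7) (a z6 z7))) z7) z7))))) (a (c z2 (b (d (a z6 (c (b (d z6 (a z6 (c z2 z6))) z6) z6)) (a (c z2 z6) (c z2 z6))) (d z6 (a (c z2 z6) (c z2 z6))))) (c (b z3 (d (a (c z3 (b z3 (d (a z2 z3) (a z2 z3)))) z3) (a (c z3 (b z3 (d (a z2 z3) (a z2 z3)))) z3))) (b (d (a (c (b (d z7 (a (c z3 z7) z7)) (d (a (c (b (d z7 z3) (d (a z6 z7) z3)) z7) z7) (a (c z3 z7) z7))) z7) z7) (a (c z3 z7) z7)) (d (a (c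 (b (d (a z6 z7) (a (c z2 z6) z7)) (d (a z6 z7) (a z6 (c z3 z7)))) z7) z7) (a (c (b (d (a z2 z3) (a z2 z3)) (d (a z2 z3) (a z2 z3))) z7) z7)))))) (d (a (c z2 z6) (c (b (d (a z2 z3) (a z2 z3)) z2) (b (d (a z6 z7) (a z6 z7)) z6))) (a z2 (c (b (d (a z2 z3) (a z2 z3)) z2) (b (d (a (c (b (d z6 (a z6 (c z3 z7))) z6) z6) z7) (a (c z2 z6) (c z3 z7))) (d (a z6 (c (b (d z7 (a (c z3 z7) z7)) (d (a (c (b z7 (d z7 z3)) z7) z7) (a (c z3 z7) z7))) z7)) (a (c z2 z6) (c z3 z7)))))))) _ _ (by decide +kernel)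

theorem okB331 : CKB ⟨9216, 12288, 5632, 6144⟩ ⟨6145, 8193, 3584, 4096⟩ :=
  ckB_sound (b (d (a (c z2 (b (d (a (c z2 z6) (c z2 z6)) z2) z2)) (c z3 (b (d (a (c z3 z7) z7) (a (c z3 (b (d z7 (a (c z3 z7) z7)) (d (a (c (b z7 (d z7 (a z6 z7))) z7) z7) (a (c z3 z7) z7)))) z3)) (d (a (c (b (d (a z2 z3) (a z2 z3)) (d (a z2 z3) (a z2 z3))) (b (d z7 (a z6 z7)) (d (a z6 z7) (a z6 z7)))) z7) (a (c (b (d (a z2 z3) z3) (d (a z2 z3) (a z2 z3))) (b (d (a z6 z7) (a (c z2 z6) z7)) (d (a z6 z7) (a z6 (c z3 z7))))) z3))))) (a z2 (c z3 (b (d (a (c z3 (b z3 (d (a (c z3 z7) z7) (a (c z3 (b z7 (d z7 (a z6 z7)))) z3)))) z3) (a (c z3 (b z3 (d (a (c z3 (b z3 (d (a z6 z7) z3))) z3) z3))) z3)) (d (a (c (b z3 (d (a z2 z3) (a z2 z3))) (b (d (a (c z2 z6) z7) (a z2 z3)) (d (a (c z2 z6) (c z3 z7)) (a z2 z3)))) z3) (a (c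 (b z3 (d (a z2 z3) (a z2 z3))) (b (d (a z2 z3) (a z2 z3)) (d (a z2 z3) (a z2 z3)))) z3)))))) (d (a z2 (c (b (d (a z2 z3) (a z2 z3)) z2) (b (d (a (c z2 z6) (c z3 z7)) (a z2 z3)) (d (a (c z2 z6) (c z3 z7)) (a z2 (c z3 (b z7 (d (a (c (b z7 (d z7 (a z6 z7))) z7) z7) (a (c z3 z7) z7))))))))) (a z2 (c (b (d (a z2 z3) (a z2 z3)) z2) (b (d (a z2 z3) (a z2 z3)) (d (a z2 (c z3 (b z3 (d (a (c z3 z7) z7) z3)))) z2)))))) _ _ (by decide +kernel)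

theorem okB332 : CKB ⟨6144, 12288, 6144, 7168⟩ ⟨4097, 8193, 0, 1024⟩ :=
  ckB_sound z0 _ _ (by decide +kernel)

theorem okB333 : CKB ⟨6144, 9216, 6144, 6656⟩ ⟨4097, 6145, 1024, 2048⟩ :=
  ckB_sound (d (a (b (d z0 (c z2 (a (b (d (a (c z6 z0) (c z6 z0)) z6) (d (a (c z6 z0) (c z6 z0)) z6)) (b (d (c z6 z0) z6) (d (c z6 z0) z6))))) (d z0 (c z2 (a (b (d (a (c (b (d z0 z6) (d z0 z6)) z0) (c z6 z0)) z6) (d (a (c (b (d z0 z4) (d z0 z4)) z0) (c (b (d z0 z6) (d z0 z6)) z0)) (a (c (b z4 (d z4 (a (c z0 z4) z4))) z0) z6))) (b (d (c z6 z0) z6) (d (c (a (b z6 (d z0 z6)) z6) z0) z6)))))) (b (d z0 (c z2 z6)) (d z0 (c z2 (a (b (d (c z6 z0) z6) (d (c z6 z0) z6)) z6))))) (a (c z2 (b (d (a (b (d (c z2 z6) z2) (d (c z2 z6) z2)) z2) z2) (d (a (b (d (c z2 z6) z2) (d (c z2 z6) (c z2 (a (b (d z4 (c z0 z4)) (d z4 (c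 z0 z4))) (b (d z6 (c z2 z6)) (d z6 (c z2 z6))))))) (b (d (c z2 z6) z2) (d (c z2 z6) z2))) z2))) z2)) _ _ (by decide +kernel)

theorem okB334 : CKB ⟨6144, 7680, 6656, 6912⟩ ⟨4097, 6145, 1024, 1536⟩ :=
  ckB_sound (d z0 (c (a (b z0 (d (a (b z0 (d z0 z0)) z0) z0)) z2) (a (b (d (a (c (b (d z0 z4) (d z0 z4)) z0) (c (b (d z0 z4) (d z0 z4)) z0)) (a (c (b (d z4 (a (c z0 z4) (c z0 z4))) (d z4 (a (c z0 z4) (c z0 z4)))) z0) (c (b (d z4 (a (c z0 z4) z6)) (d z4 (a (c z0 z4) (c z0 z4)))) z0))) (d (a (c (b (d z0 z4) (d z0 z4)) z0) (c (b (d z0 z4) (d z0 z4)) z0)) (a (c (b (d z4 (a (c z0 z4) (c z0 z4))) (d z4 (a (c z0 z4) (c z0 z4)))) z0) (c (b (d z4 (a (c z0 z4) (c z0 z4))) (d z4 (a (c z0 z4) (c z0 z4)))) z0)))) (b (d (c (a (b (d z0 z6) (d z0 z6)) (b z6 (d z0 z6))) z0) (c (a (b z6 (d z6 (c z2 z6))) z6) z0))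 (d (c (a (b (d z0 z6) (d z0 z4)) (b (d z0 z6) (d z0 z6))) z0) (c (a (b (d z6 (c z2 z6)) (d z4 (c z0 z4))) (b z6 (d z6 (c z2 z6)))) z0)))))) _ _ (by decide +kernel)

theorem okB335 : CKB ⟨6144, 7680, 6912, 7168⟩ ⟨4097, 6145, 1024, 1536⟩ :=
  ckB_sound (d z0 (c (a (b (d (a (b (d z0 z0) (d z0 z0)) (b (d z0 z0) (d z0 z0))) z0) (d (b (d z0 z0) (d z0 z0)) z0)) (b (d (a (b z0 (d z0 z0)) z0) z0) (d (a (b (d z0 z0) (d z0 z0)) (b (d z0 z0) (d z0 z0))) z0))) (a (b (d (a (c (b (d z0 (a (c z4 z0) (c z4 z0))) (d z0 (a (c (b z4 z4) z0) (c z4 z0)))) z0) (c (b (d z0 z4) (d z0 (a (c z4 z0) z4))) z0)) (a (c (b (d (a (c (b z4 (d z4 (a (c z0 z4) z4))) z0) z4) (a (c z0 z4) (c z0 z4))) (d (a (c (b (d z4 (a (c z0 z4) (c z0 z4))) (d z4 (c z0 z4))) z0) (c (b (d z4 (a (c z0 z4) z4)) (d z4 (a (c z0 z4) (c z0 z4))))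 z0)) (a (c z0 z4) (c z0 z4)))) z0) (c (b (d z4 (a (c z0 z4) (c z0 z4))) (d (a (c (b z4 (d z4 (a (c z0 z4) z4))) z0) z4) (a (c z0 z4) (c z0 z4)))) z0))) (d (c (b (d z0 (a (c (b z4 z4) z0) (c z4 z0))) (d z0 (c (b z4 (d (c z4 z0) z4)) z0))) z0) (c (b (d (a (c (b (d z4 (a (c z0 z4) (c z0 z4))) (d z4 (c z0 z4))) z0) (c (b (d z4 (a (c z0 z4) (c z0 z4))) (d z4 (a (c z0 z4) (c z0 z4)))) z0)) (a (c z0 z4) (c z0 z4))) (d (c (b (d (a (c (b z4 z4) z4) z4) (a (c z0 z4) (c z0 z4))) (d (c (b z4 z4) z4) (c z0 z4))) z0) (c z0 z4))) z0))) (b (d (c (a (b (d z0 z4) (d z0 z4)) (b (d z0 z6) (d z0 z4))) z0) (c (a (b (d z4 (c z0 z4)) (d z4 (c z0 z4))) (b (d z6 (c z2 z6)) (d z4 (c z0 z4)))) z0)) (d (c (a (b (d z0 (c z4 z0)) (d z0 (c z4 z0))) (b (d z0 z4) (d z0 z4))) z0) (c (a (b (d (c (a (b z4 (d z4 (c z0 z4))) z4)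 z0) (c z0 z4)) (d (c (a (b (d z4 (c z0 z4)) (d z4 (c z0 z4))) (b (d z4 (c z0 z4)) (d z4 (c z0 z4)))) z0) (c z0 z4))) (b (d z4 (c z0 z4)) (d (c (a (b z4 (d z4 (c z0 z4))) z4) z0) (c z0 z4)))) z0)))))) _ _ (by decide +kernel)

theorem okB336 : CKB ⟨7680, 9216, 6656, 7168⟩ ⟨4097, 6145, 1024, 1536⟩ :=
  ckB_sound (b (d z0 (c z2 (a (b (d (c z6 z0) z6) (d (c (a (b (d z0 z6) (d z0 z6)) z6) z0) z6)) (b (d (c z6 z0) z6) (d (c z6 z0) z6))))) (d z0 (c (a (b z2 (d (a (b z2 (d z0 z0)) z2) z2)) z2) (a (b (d (c (a (b (d z0 z6) (d z0 z6)) (b (d z0 z6) (d z0 z6))) z0) (c (a (b (d z6 (c z2 z6)) (d z6 (c z2 z6))) (b z6 (d z6 (c z2 z6)))) z0)) (d (c (a (b (d z0 z6) (d z0 z4)) (b (d z0 z6) (d z0 z6))) z0) (c (a (b (d z6 (c z2 z6)) (d z4 (c z0 z4))) (b (d z6 (c z2 z6)) (d z6 (c z2 z6)))) z0))) (b (d (c (b z6 (d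 z0 z6)) z0) z6) (d (c (b (d z0 z6) (d z0 z6)) z0) (c (b (d z6 (a (c z2 z6) z6)) (d z6 (a (c z2 z6) (c z2 z6)))) z0))))))) _ _ (by decide +kernel)

theorem okB337 : CKB ⟨6144, 7680, 6656, 7168⟩ ⟨4097, 5121, 1536, 2048⟩ :=
  ckB_sound z0 _ _ (by decide +kernel)

theorem okB338 : CKB ⟨6144, 7680, 6656, 6912⟩ ⟨5121, 6145, 1536, 2048⟩ :=
  ckB_sound (d (a (b (d (c z0 z4) (c z0 (a (b (d z4 (c z0 z4)) (d z4 (c z0 z4))) (b (d z4 (c z0 z4)) (d z4 (c z0 z4)))))) (d (c z0 z4) (c z0 (a (b (d (c (a (b z4 (d z4 (c z0 z4))) z4) z4) (c z0 z4)) (d (c (a (b (d z4 (c z0 z4)) (d z4 (c z0 z4))) (b z4 (d z4 (c z0 z4)))) z4) (c z0 z4))) (b (d z4 (c z0 z4)) (d z4 (c z0 z4))))))) (b (d (c z2 z6) z2) (d (c z2 z6) (c z2 (a (b (d z6 (c z2 z6)) (d z4 (c z0 z4))) (b (d z6 (c z2 z6)) (d z6 (c z2 z6)))))))) z0) _ _ (by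 decide +kernel)

theorem okB339 : CKB ⟨6144, 7680, 6912, 7168⟩ ⟨5121, 6145, 1536, 2048⟩ :=
  ckB_sound (d (a (b (d (c z0 z4) (c z0 (a (b (d (c (a (b (d z4 (c z0 z4)) (d z4 (c z0 z4))) (b (d z4 (c z0 z4)) (d z4 (c z0 z4)))) z4) (c z0 z4)) (d (c (a (b (d (c z0 z4) (c z0 z4)) (d (c z0 z4) (c z0 z4))) (b (d z4 (c z0 z4)) (d z4 (c z0 z4)))) z4) (c z0 z4))) (b (d (c (a (b (d z4 (c z0 z4)) (d z4 (c z0 z4))) (b z4 (d z4 (c z0 z4)))) z4) (c z0 z4)) (d (c (a (b (d z4 (c z0 z4)) (d z4 (c z0 z4))) (b (d z4 (c z0 z4)) (d z4 (c z0 z4)))) z4) (c z0 z4)))))) (d (c z0 (b (d z4 (a (c (b z4 z4) z0) z4)) (d z4 (c (b z4 z4) z0)))) (c z0 (b (d (a (c (b (d (a (c z0 z4) z4) (a (c z0 z4) (c z0 z4))) (d (c z0 z4) (c z0 z4))) z4) (c (b (d z4 (c z0 z4)) (d (c z0 z4) (c z0 z4))) z4)) (a (c z0 z4) (c z0 z4))) (d (c (b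 (d (a (c z0 z4) (c z0 z4)) (a (c z0 z4) (c z0 z4))) (d (c z0 z4) (c z0 z4))) z4) (c z0 z4)))))) (b (d (c z0 z4) (c z0 (a (b (d z4 (c z0 z4)) (d (c (a (b (d z4 (c z0 z4)) (d z4 (c z0 z4))) (b z4 (d z4 (c z0 z4)))) z4) (c z0 z4))) (b (d z6 (c z2 z6)) (d z4 (c z0 z4)))))) (d (c z0 z4) (c z0 (a (b (d (c (a (b (d z4 (c z0 z4)) (d z4 (c z0 z4))) (b (d z4 (c z0 z4)) (d z4 (c z0 z4)))) z4) (c z0 z4)) (d (c (a (b (d z4 (c z0 z4)) (d (c z0 z4) (c z0 z4))) (b (d z4 (c z0 z4)) (d z4 (c z0 z4)))) z4) (c z0 z4))) (b (d (c (a (b (d z4 (c z0 z4)) (d z4 (c z0 z4))) z4) z4) (c z0 z4)) (d (c (a (b (d z4 (c z0 z4)) (d z4 (c z0 z4))) (b (d z4 (c z0 z4)) (d z4 (c z0 z4)))) z4) (c z0 z4)))))))) (a (b (d (c z0 (a (b (d (c z0 z4) (c z0 z4)) (d (c z0 z4) (c z0 z4))) (b (d (c z0 z4) (c z0 z4)) (d (c z0 z4) (c z0 z4)))))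 z0) (d (c z0 (b (d (a (c z0 z4) (c z0 z4)) (a (c z0 z4) (c z0 z4))) (d (c z0 z4) (c z0 z4)))) (c z0 (b z0 z0)))) (b z0 (d (c z0 (a (b (d (c z0 z4) (c z0 z4)) (d (c z0 z4) (c z0 z4))) (b (d (c z0 z4) (c z0 z4)) (d (c z0 z4) (c z0 z4))))) z0)))) _ _ (by decide +kernel)

theorem okB340 : CKB ⟨7680, 9216, 6656, 7168⟩ ⟨4097, 6145, 1536, 2048⟩ :=
  ckB_sound (c z2 (b (d (a (b (d (c z2 z6) z2) (d (c z2 z6) z2)) z2) z2) (d (a (b (d (c z2 z6) z2) (d (c z2 z6) (c z2 (a (b (d z6 (c z2 z6)) (d (c (a (b z4 (d z4 (c z0 z4))) z4) z4) (c z0 z4))) (b (d z6 (c z2 z6)) (d z6 (c z2 z6))))))) (b (d (c z2 z6) z2) (d (c z2 z6) z2))) z2))) _ _ (by decide +kernel)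

theorem okB341 : CKB ⟨6144, 9216, 6144, 7168⟩ ⟨6145, 8193, 1024, 2048⟩ :=
  ckB_sound (b (d z0 (a (b (d z0 (c z6 z0)) (d z0 (c z6 z0))) (b (d z0 z6) (d z0 z6)))) (d z0 (a (b (d z0 (c z4 z0)) (d z0 z4)) (b (d z0 z6) (d z0 z6))))) _ _ (by decide +kernel)

theorem okB342 : CKB ⟨9216, 12288, 6144, 7168⟩ ⟨4097, 8193, 1024, 2048⟩ :=
  ckB_sound (c (b (d (b (d z0 z2) (d z0 (a (c z2 z6) z2))) z2) (d (b (d z0 (a (c z2 z6) z2)) (d z0 (a (c z2 (b (d (a (c z6 z0) z6) z6) (d (a (c z6 z0) z6) z6))) z2))) z2)) (b (d z0 (b (d z0 z6) (d z0 z6))) (d z0 (b (d z0 z6) (d z0 z6))))) _ _ (by decide +kernel)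

theorem okB343 : CKB ⟨6144, 12288, 7168, 8192⟩ ⟨4097, 8193, 0, 1024⟩ :=
  ckB_sound z0 _ _ (by decide +kernel)

theorem okB344 : CKB ⟨6144, 9600, 7168, 7424⟩ ⟨4097, 6145, 1024, 1280⟩ :=
  ckB_sound z0 _ _ (by decide +kernel)

end Vale.Agent.Lib.P154Q5
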