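import Vale.Agent.Lib.P154Q5.CkBDefs

namespace Vale.Agent.Lib.P154Q5

set_option maxRecDepth 100000
set_option exponentiation.threshold 1000

open Tr

theorem okB345 : CKB ⟨6144, 8256, 7168, 7424⟩ ⟨4097, 6145, 1280, 1536⟩ :=
  ckB_sound (c (b (d (a (b (d z0 z0) (d z0 (a (b z0 z0) z0))) (b (d z0 z0) (d z0 z0))) z0) (d (a (b (d z0 (a (b z0 z0) z0)) (d z0 (b z0 z0))) (b (d z0 z0) (d z0 (a (b z0 z0) z0)))) (c z0 (a (b z0 z0) z0)))) (b (d (a (c (b (d z0 (a (c (b (d (a (c z4 z0) z4) z4) (d (c z4 z0) z4)) z0) (c z4 z0))) (d z0 (c (a (b (d (c z4 z0) z4) (d (c z4 z0) z4)) (b z4 (d (c z4 z0) z4))) z0))) z0) (c (b (d z0 z4) (d z0 (a (c z4 z0) z4))) z0)) (a (c (b (d (a (c (b (d (a (c (b z4 z4) z4) z4) (a (c z0 z4) (c z0 z4))) (d (c (a (b z4 z4) z4) z4) (c z0 z4))) z0) (c (b (d z4 (a (c z0 z4) (c z0 z4)))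 (d z4 (a (c z0 z4) (c z0 z4)))) z0)) (a (c z0 z4) (c z0 z4))) (d (c (a (b (d (c (a (b z4 z4) z4) z4) (c z0 z4)) (d (c (b z4 z0) z4) (c z0 z4))) (b (d z4 (c z0 z4)) (d (c (a (b z4 (d z4 (c z0 z4))) z4) z4) (c z0 z4)))) z0) (c z0 z4))) z0) (c (b (d (a (c (b z4 (d z4 (a (c z0 z4) z4))) z0) z4) (a (c z0 z4) (c z0 z4))) (d (a (c (b (d z4 (a (c z0 z4) (c z0 z4))) (d z4 (a (c z0 z4) (c z0 z4)))) z0) (c (b z4 (d z4 (a (c z0 z4) z4))) z0)) (a (c z0 z4) (c z0 z4)))) z0))) (d (c (a (b (d z0 (c (a (b (d (c z4 z0) z4) (d (c z4 z0) z4)) (b z4 (d (c z4 z0) z4))) z0)) (d z0 (c (b (d (c z4 z0) z4) z0) z0))) (b (d z0 (c z4 z0)) (d z0 (c (a (b z4 (d (c (b z4 z4) z0) z4)) z4) z0)))) z0) (c (a (b (d (c (a (b (d (c (a (b (d z4 (c z0 z4)) (d z4 (c z0 z4))) z4) z4) (c z0 z4)) (d (c (b (d z4 (c z0 z4)) z0) z4) (c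 z0 z4))) (b (d z4 (c z0 z4)) (d (c (a (b z4 (d z4 (c z0 z4))) z4) z4) (c z0 z4)))) z0) (c z0 z4)) (d (c (b (d (c (b (d z4 (c z0 z4)) z0) z4) (c z0 z4)) z0) z0) (c (b z0 z0) z4))) (b (d (c (a (b (d z4 (c z0 z4)) (d z4 (c z0 z4))) (b (d z4 (c z0 z4)) (d z4 (c z0 z4)))) z0) (c z0 z4)) (d (c (a (b (d (c (a (b z4 (d z4 (c z0 z4))) z4) z4) (c z0 z4)) (d (c (b (d z4 (a (c z0 z4) z4)) (d z4 (c z0 z4))) z4) (c z0 z4))) (b (d z4 (c z0 z4)) (d (c (b z4 (d z4 (a (c z0 z4) z4))) z4) (c z0 z4)))) z0) (c z0 z4)))) z0)))) _ _ (by decide +kernel)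

theorem okB346 : CKB ⟨8256, 9600, 7168, 7424⟩ ⟨4097, 6145, 1280, 1536⟩ :=
  ckB_sound (c (b (d (a (b z2 (d z0 z2)) z2) z2) (d (a (b (d z0 z0) (d z0 z0)) (b z2 (d z0 z2))) z2)) (b (d (a (c (b (d z0 z6) (d z0 z6)) z0) (c (b (d z0 z6) (d z0 z6)) z0)) (a (c (b (d z6 (a (c z2 z6) (c z2 z6))) (d z6 (a (c z0 z4) (c z2 z6)))) z0) (c (b (d z6 (a (c z2 z6) z6)) (d z6 (a (c z2 z6) (c z2 z6)))) z0))) (d (a (c (b (d z0 z4) (d z0 (a (c z4 z0) z4))) z0) (c (b (d z0 z6) (d z0 z6)) z0)) (a (c (b (d (a (c (b z4 (d z4 (a (c z0 z4) z4))) z0) z4) (a (c z0 z4) (c z0 z4))) (d (a (c (b (d z4 (a (c z0 z4) (c z0 z4))) (d z4 (a (c z0 z4) (c z0 z4)))) z0) (c (b z4 (d z4 (a (c z0 z4) z4))) z0)) (a (c z0 z4) (c z0 z4)))) z0) (c (b (d z6 (a (c z2 z6) (c z2 z6))) (d z6 (a (c z2 z6) (c z2 z6)))) z0))))) _ _ (by decide +kernel)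

theorem okB347 : CKB ⟨6144, 9600, 7424, 7680⟩ ⟨4097, 6145, 1024, 1280⟩ :=
  ckB_sound z0 _ _ (by decide +kernel)

theorem okB348 : CKB ⟨6144, 9600, 7424, 7680⟩ ⟨4097, 5473, 1280, 1536⟩ :=
  ckB_sound (b (d (a (b (d z0 (a (b z0 z0) z0)) (d z0 (a (b z0 z0) z0))) (b (d z0 z0) (d z0 z0))) (a (c z0 (b z0 z0)) z0)) (d (a (b (d z0 (a (b z0 (d (b z0 z0) z0)) z0)) (d z0 (b (d (b z0 z0) z0) z0))) (b (d z0 z0) (d z0 (a (b z0 (d (b z0 z0) z0)) z0)))) (c z0 (a (b z0 z0) z0)))) _ _ (by decide +kernel)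

theorem okB349 : CKB ⟨6144, 9600, 7424, 7680⟩ ⟨5473, 6145, 1280, 1536⟩ :=
  ckB_sound (b (d (a (c (b (d z0 (a (c (b (d (a (c (b z4 z4) z0) z4) z4) (d (c (a (b z4 z4) z4) z0) z4)) z0) (c z4 z0))) (d z0 (c (a (b (d (c (a (b z4 z4) z4) z0) z4) (d (c (b z4 z0) z0) z4)) (b z4 (d (c z4 z0) z4))) z0))) z0) (c (b (d z0 z4) (d z0 (a (c z4 z0) z4))) z0)) (a (c (b (d (a (c (b (d (a (c (b (d z4 (a (c z0 z4) z4)) (d z4 (c z0 z4))) z4) z4) (a (c z0 z4) (c z0 z4))) (d (c (a (b (d z4 (c z0 z4)) (d z4 (c z0 z4))) (b z4 (d z4 (c z0 z4)))) z4) (c z0 z4))) z0) (c (b (d z4 (a (c z0 z4) (c z0 z4))) (d z4 (a (c z0 z4) (c z0 z4)))) z0)) (a (c (b z0 z0) z4) (c z0 z4))) (d (c (a (b (d (c (a (b (d z4 (c z0 z4)) (d z4 (c z0 z4))) (b z4 (d z4 (c z0 z4)))) z4) (c z0 z4)) (d (c (b (d z4 (c z0 z4)) z0) z4) (c z0 z4))) (b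 (d z4 (c z0 z4)) (d (c (a (b (d z4 (c z0 z4)) (d z4 (c z0 z4))) z4) z4) (c z0 z4)))) z0) (c (a (b z0 z0) z0) z4))) z0) (c (b (d (a (c (b (d z4 (a (c z0 z4) z4)) (d z4 (a (c z0 z4) (c z0 z4)))) z0) z6) (a (c z0 z4) (c z2 z6))) (d (a (c (b (d z4 (a (c z0 z4) (c z0 z4))) (d z4 (a (c z0 z4) (c z0 z4)))) z0) (c (b (d z4 (a (c z0 z4) z6)) (d z4 (a (c z0 z4) z4))) z0)) (a (c z0 z4) (c z0 z4)))) z0))) (d (c (a (b (d z0 (c (a (b (d (c (a (b z4 z4) z4) z0) z4) (d (c (b z4 z0) z0) z4)) (b z4 (d (c z4 z0) z4))) z0)) (d z0 (c (b (d (c (b z4 z4) z0) z4) z0) z0))) (b (d z0 (c z4 z0)) (d z0 (c (a (b z4 (d (c (b z4 z4) z0) z4)) z4) z0)))) z0) (c (a (b (d (c (a (b (d (c (a (b (d z4 (c z0 z4)) (d z4 (c z0 z4))) (b z4 (d z4 (c z0 z4)))) z4) (c z0 z4)) (d (c (b (d z4 (c z0 z4)) z0) z4) (c z0 z4))) (b (d z4 (c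 z0 z4)) (d (c (a (b (d z4 (c z0 z4)) (d z4 (c z0 z4))) z4) z4) (c z0 z4)))) z0) (c (a (b z0 z0) z0) z4)) (d (c (b (d (c (b (d z4 (c z0 z4)) (d z4 (c z0 z4))) z4) (c z0 z4)) z0) z0) (c (b z0 z0) z4))) (b (d (c (a (b (d z4 (c z0 z4)) (d z4 (c z0 z4))) (b (d z4 (c z0 z4)) (d z4 (c z0 z4)))) z0) (c z0 z4)) (d (c (a (b (d (c (a (b z4 (d z4 (c z0 z4))) z4) z4) (c z0 z4)) (d (c (b (d z4 (a (c z0 z4) (c z0 z4))) (d z4 (c z0 z4))) z4) (c z0 z4))) (b (d z4 (c z0 z4)) (d (c (a (b z4 (d z4 (c z0 z4))) z4) z4) (c z0 z4)))) z0) (c z0 z4)))) z0))) _ _ (by decide +kernel)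

theorem okB350 : CKB ⟨9600, 12288, 7168, 7680⟩ ⟨4097, 6145, 1024, 1536⟩ :=
  ckB_sound (b (d z0 (a (c z2 (b (d (a (c z6 z0) z6) z6) (d (a (c (b (d z0 z6) (d z0 z6)) z0) (c z6 z0)) (a (c (b (d z6 (a (c z2 z6) z6)) (d z6 (a (c z2 z6) (c z2 z6)))) z0) z6)))) (c z2 z6))) (d z0 (a (c (b (d (a (b z2 (d z0 z2)) z2) z2) (d (a (b (d z0 z2) (d z0 z0)) (b z2 (d z0 z2))) z2)) (b (d (a (c (b (d z0 z6) (d z0 z6)) z0) (c (b z6 (d z0 z6)) z0)) (a (c (b (d z6 (a (c z2 z6) (c z2 z6))) (d z6 (a (c z2 z6) (c z2 z6)))) z0) (c (b (d z6 (a (c z2 z6) z6)) (d z6 (a (c z2 z6) (c z2 z6)))) z0))) (d (a (c (b (d z0 z6) (d z0 z4)) z0) (c (b (d z0 z6) (d z0 z6)) z0)) (a (c (b (d (a (c (b z4 (d z4 (a (c z0 z4) z4))) z0) z6) (a (c z0 z4) (c z2 z6))) (d (a (c (b (d z4 (a (c z0 z4) (c z0 z4))) (d z4 (a (c z0 z4) (c z0 z4))))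 z0) (c (b z6 (d z4 (a (c z0 z4) z4))) z0)) (a (c z0 z4) (c z0 z4)))) z0) (c (b (d z6 (a (c z2 z6) (c z2 z6))) (d z6 (a (c z2 z6) (c z2 z6)))) z0))))) (c z2 (b z6 (d (a (c z6 z0) z6) (a (c (b z6 (d z6 (a (c z2 z6) z6))) z0) z6))))))) _ _ (by decide +kernel)

theorem okB351 : CKB ⟨6144, 9600, 7168, 7680⟩ ⟨4097, 5121, 1536, 2048⟩ :=
  ckB_sound (b z0 z0) _ _ (by decide +kernel)

theorem okB352 : CKB ⟨6144, 9600, 7168, 7424⟩ ⟨5121, 6145, 1536, 1792⟩ :=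
  ckB_sound (a (b (d (a (c (b z0 z0) (b (d z4 (a (c (b z4 z4) z0) z4)) (d z4 (c (a (b z4 z4) z4) z0)))) (c z0 z4)) (a (c z0 (b (d (a (c (b (d (a (c z0 z4) (c z0 z4)) (a (c z0 z4) (c z0 z4))) (d (c z0 z4) (c z0 z4))) z4) (c (b (d z4 (a (c z0 z4) (c z0 z4))) (d (a (c z0 z4) z4) (a (c z0 z4) (c z0 z4)))) z4)) (a (c z0 z4) (c z0 z4))) (d (c (a (b (d (c z0 z4) (c z0 z4)) (d (c z0 z4) (c z0 z4))) (b (d (c z0 z4) (c z0 z4)) (d (c z0 z4) (c z0 z4)))) z4) (c z0 z4)))) (c z0 (b (d (a (c (b (d z4 (a (c z0 z4) (c z0 z4))) (d z4 (a (c z0 z4) (c z0 z4)))) z4) (c (b (d z4 (a (c z0 z4) z4)) (d z4 (a (c z0 z4) z4))) z4)) (a (c z0 z4) (c z0 z4))) (d (a (c (b (d z4 (a (c z0 z4) (c z0 z4))) (d (a (c z0 z4) z4) (a (c z0 z4) (c z0 z4)))) z4) (c (b (d z4 (a (c z0 z4) (c z0 z4))) (d z4 (a (c z0 z4) (c z0 z4)))) z4))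 (a (c z0 z4) (c z0 z4))))))) (d (c (a (b z0 z0) z0) (a (b (d z4 (c (a (b z4 z4) z4) z0)) (d z4 (c (b z4 z0) z0))) (b z4 (d z4 (c (a (b z4 (d z4 (c (b z4 z4) z4))) z4) z0))))) (c z0 (a (b (d (c (a (b (d (c z0 z4) (c z0 z4)) (d (c z0 z4) (c z0 z4))) (b (d (c z0 z4) (c z0 z4)) (d (c z0 z4) (c z0 z4)))) z4) (c z0 z4)) (d (c (b (d (c z0 z4) (c z0 z4)) z0) z4) (c z0 z4))) (b (d (c (a (b (d z4 (c z0 z4)) (d (c z0 z4) (c z0 z4))) (b (d z4 (c z0 z4)) (d z4 (c z0 z4)))) z4) (c z0 z4)) (d (c (a (b (d (c z0 z4) (c z0 z4)) (d (c z0 z4) (c z0 z4))) (b (d (c z0 z4) (c z0 z4)) (d (c z0 z4) (c z0 z4)))) z4) (c z0 z4))))))) (b (d (c z2 z6) (c z2 (a (b (d z6 (a (c z2 z6) (c z2 z6))) (d (a (c (b z4 (d z4 (a (c z0 z4) z4))) z4) z6) (a (c z0 z4) (c z2 z6)))) (b (d z6 (c z2 z6)) (d z6 (c z2 z6)))))) (d (c z2 z6)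 (c z2 (a (b (d (a (c (b (d z4 (a (c z0 z4) (c z0 z4))) (d z4 (a (c z0 z4) (c z0 z4)))) z4) (c (b z6 (d z4 (a (c z0 z4) z4))) z4)) (a (c z0 z4) (c z0 z4))) (d (a (c (b (d z4 (a (c z0 z4) (c z0 z4))) (d (a (c z0 z4) z4) (a (c z0 z4) (c z0 z4)))) z4) (c (b (d z4 (a (c z0 z4) (c z0 z4))) (d z4 (a (c z0 z4) (c z0 z4)))) z4)) (a (c z0 z4) (c z0 z4)))) (b (d z6 (c z2 z6)) (d (c (a (b z6 (d z4 (c z0 z4))) z6) z6) (c z2 z6)))))))) _ _ (by decide +kernel)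

theorem okB353 : CKB ⟨6144, 9600, 7168, 7424⟩ ⟨5121, 6145, 1792, 2048⟩ :=
  ckB_sound (a (b (d (a (c z0 (b (d (a (c z0 z4) (c z0 z4)) (a (c z0 z4) (c z0 z4))) (d (c z0 z4) (c z0 z4)))) z0) (a (c z0 (b z0 z0)) z0)) (d (c z0 (a (b (d (c z0 z4) (c z0 z4)) (d (c z0 z4) (c z0 z4))) (b (d (c z0 z4) (c z0 z4)) (d (c z0 z4) (c z0 z4))))) (c z0 (a (b z0 z0) z0)))) z2) _ _ (by decide +kernel)

theorem okB354 : CKB ⟨6144, 9600, 7424, 7680⟩ ⟨5121, 6145, 1536, 2048⟩ :=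
  ckB_sound (d (b (d (a (c (b z0 z0) (b (d z4 (a (c (b (d z4 (a (c (b z4 z4) z4) z4)) (d z4 (c (a (b z4 z4) z4) z4))) z0) z4)) (d z4 (c (a (b (d z4 (c (a (b z4 z4) z4) z4)) (d z4 (c (b z4 z0) z4))) z4) z0)))) (c z0 z4)) (a (c z0 (b (d (a (c (b (d (a (c z0 z4) (c z0 z4)) (a (c z0 z4) (c z0 z4))) (d (c z0 z4) (c z0 z4))) z4) (c (b (d z4 (a (c z0 z4) (c z0 z4))) (d (a (c z0 z4) z4) (a (c z0 z4) (c z0 z4)))) z4)) (a (c z0 z4) (c z0 z4))) (d (c (a (b (d (c z0 z4) (c z0 z4)) (d (c z0 z4) (c z0 z4))) (b (d (c z0 z4) (c z0 z4)) (d (c z0 z4) (c z0 z4)))) z4) (c z0 z4)))) (c z0 (b (d (a (c (b (d z4 (a (c z0 z4) (c z0 z4))) (d z4 (a (c z0 z4) (c z0 z4)))) z4) (c (b z6 (d z6 (a (c z0 z4) z6))) z6)) (a (c z0 z4) (c z2 z6))) (d (a (c (b (d z4 (a (c z0 z4) (c z0 z4))) (d (a (c z0 z4) z4) (a (c z0 z4) (c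 z0 z4)))) z4) (c (b (d z4 (a (c z0 z4) z6)) (d z4 (a (c z0 z4) (c z0 z4)))) z4)) (a (c z0 z4) (c z0 z4))))))) (d (c (a (b z0 z0) z0) (a (b (d z4 (c (a (b (d z4 (c (a (b z4 z4) z4) z4)) (d z4 (c (b z4 z0) z4))) z4) z0)) (d z4 (c (b (d z4 (c (b z4 z4) z4)) z0) z0))) (b z4 (d z4 (c (a (b z4 (d z4 (c (b z4 z4) z4))) z4) z0))))) (c z0 (a (b (d (c (a (b (d (c z0 z4) (c z0 z4)) (d (c z0 z4) (c z0 z4))) (b (d (c z0 z4) (c z0 z4)) (d (c z0 z4) (c z0 z4)))) z4) (c z0 z4)) (d (c (b (d (c z0 z4) (c z0 z4)) z0) z4) (c z0 z4))) (b (d (c (a (b (d z4 (c z0 z4)) (d (c z0 z4) (c z0 z4))) (b (d z4 (c z0 z4)) (d z4 (c z0 z4)))) z4) (c z0 z4)) (d (c (a (b (d (c z0 z4) (c z0 z4)) (d (c z0 z4) (c z0 z4))) (b (d z4 (c z0 z4)) (d (c z0 z4) (c z0 z4)))) z4) (c z0 z4))))))) (b (d (a (c z0 (b (d (a (c z0 z4) (c z0 z4))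 (a (c z0 z4) (c z0 z4))) (d (c z0 z4) (c z0 z4)))) z0) (a (c z0 (b z0 z0)) z0)) (d (c z0 (a (b (d (c z0 z4) (c z0 z4)) (d (c z0 z4) (c z0 z4))) (b (d (c z0 z4) (c z0 z4)) (d (c z0 z4) (c z0 z4))))) (c z0 (a (b z0 z0) z0))))) _ _ (by decide +kernel)

theorem okB355 : CKB ⟨9600, 12288, 7168, 7680⟩ ⟨4097, 6145, 1536, 2048⟩ :=
  ckB_sound (c z2 (b (d (a (b z2 (d (c z2 z6) z2)) z2) z2) (d (a (b (d (c z2 z6) z2) (d (c z2 z6) (c z2 (a (b (d (c (a (b (d z4 (c z0 z4)) (d z4 (c z0 z4))) z6) z6) (c z2 z6)) (d (c (a (b (d z4 (c z0 z4)) (d z4 (c z0 z4))) (b (d z6 (c z2 z6)) (d z4 (c z0 z4)))) z4) (c z0 z4))) (b (d z6 (c z2 z6)) (d z6 (c z2 z6))))))) z2) z2))) _ _ (by decide +kernel)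

theorem okB356 : CKB ⟨6144, 12288, 7680, 7936⟩ ⟨4097, 6145, 1024, 1280⟩ :=
  ckB_sound z0 _ _ (by decide +kernel)

theorem okB357 : CKB ⟨6144, 10848, 7680, 7936⟩ ⟨4097, 5473, 1280, 1536⟩ :=
  ckB_sound (b (d (a (b (d z0 (a (b (d (a (b z0 z0) z0) z0) (d (b z0 z0) z0)) z0)) (d z0 (b (d (a (b z0 z0) z0) z0) (d (b z0 z0) z0)))) (b (d z0 z2) (d z0 z0))) (a (c (b z0 z0) (b z0 z0)) z0)) (d (b (d z0 (a (b (d (a (b z0 z0) z0) z0) (d (b z0 z0) z0)) z0)) (d z0 (b (d (a (b z0 z0) z0) z0) (d (b z0 z0) z0)))) (c (b z0 z0) (b (d (a (c z0 (b z0 z0)) z0) z0) (d (c z0 (b z0 z0)) z0))))) _ _ (by decide +kernel)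

theorem okB358 : CKB ⟨6144, 10848, 7680, 7936⟩ ⟨5473, 6145, 1280, 1536⟩ :=
  ckB_sound (b (d (a (c (b (d z0 (a (c (b (d (a (c (b z4 z4) z0) z4) (a (c (b z4 z4) z0) z4)) (d (c (b z4 z4) z0) (c (b z4 z4) z0))) z0) z4)) (d z0 (c (b (d (a (c (b z4 z4) z0) z4) (a (c (b z4 z4) z0) z4)) (d (c (b z4 z4) z0) (c (b z4 z4) z0))) z0))) z0) (c (b (d z0 z6) (d z0 z4)) z0)) (a (c (b (d (a (c (b (d (a (c (b (d (a (c z0 z4) z4) (a (c z0 z4) z4)) (d (c z0 z4) (c z0 z4))) z4) z4) (a (c z0 z4) (c z0 z4))) (d (c (b (d (a (c z0 z4) z4) (a (c z0 z4) z4)) (d (c z0 z4) (c z0 z4))) z4) (c z0 z4))) z0) (c (b (d z4 (a (c z0 z4) (c z0 z4))) (d z4 (a (c z0 z4) (c z0 z4)))) z0)) (a (c (b z0 z0) z4) (c z0 z4))) (d (c (b (d (a (c (b (d (a (c z0 z4) z4) (a (c z0 z4) z4)) (d (c z0 z4) (c z0 z4))) z4) z4) (a (c z0 z4) (c z0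 z4))) (d (c (b (d (a (c z0 z4) z4) (a (c z0 z4) z4)) (d (c z0 z4) (c z0 z4))) z4) (c z0 z4))) z0) (c (b z0 z0) z4))) z0) (c (b (d (a (c (b (d z4 (a (c z0 z4) z6)) (d z4 (a (c z0 z4) (c z0 z4)))) z0) z6) (a (c z0 z4) (c z2 z6))) (d (a (c (b (d z4 (a (c z0 z4) (c z0 z4))) (d z4 (a (c z0 z4) (c z0 z4)))) z0) (c (b (d z6 (a (c z0 z4) z6)) (d z4 (a (c z0 z4) (c z0 z4)))) z0)) (a (c z0 z4) (c z0 z4)))) z0))) (d (c (b (d z0 (a (c (b (d (a (c (b z4 z4) z0) z4) (a (c (b z4 z4) z0) z4)) (d (c (b z4 z4) z0) (c (b z4 z4) z0))) z0) z4)) (d z0 (c (b (d (a (c (b z4 z4) z0) z4) (a (c (b z4 z4) z0) z4)) (d (c (b z4 z4) z0) (c (b z4 z4) z0))) z0))) z0) (c (b (d (a (c (b (d (a (c (b (d (a (c z0 z4) z4) (a (c z0 z4) z4)) (d (c z0 z4) (c z0 z4))) z4) z4) (a (c z0 z4) (c z0 z4))) (d (c (b (d (a (c z0 z4) z4) (a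 (c z0 z4) z4)) (d (c z0 z4) (c z0 z4))) z4) (c z0 z4))) z0) (c (b (d z4 (a (c z0 z4) (c z0 z4))) (d z4 (a (c z0 z4) (c z0 z4)))) z0)) (a (c (b z0 z0) z4) (c z0 z4))) (d (c (b (d (a (c (b (d (a (c z0 z4) z4) (a (c z0 z4) z4)) (d (c z0 z4) (c z0 z4))) z4) z4) (a (c z0 z4) (c z0 z4))) (d (c (b (d (a (c z0 z4) z4) (a (c z0 z4) z4)) (d (a (c z0 z4) z4) (a (c z0 z4) (c z0 z4)))) z4) (c z0 z4))) z0) (c (b z0 z0) z4))) z0))) _ _ (by decide +kernel)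

theorem okB359 : CKB ⟨10848, 12288, 7680, 7936⟩ ⟨4097, 6145, 1280, 1536⟩ :=
  ckB_sound (c (b (d (a (b z2 (d z0 z2)) z2) z2) (d (a (b (d z0 z2) (d z0 z0)) (b z2 (d z0 z2))) z2)) (b (d (a (c (b (d z0 z6) (d z0 z6)) z0) z6) (a (c (b (d z6 (a (c z2 z6) (c z2 z6))) (d z6 (a (c z2 z6) (c z2 z6)))) z0) (c (b z6 (d z6 (a (c z2 z6) z6))) z0))) (d (a (c (b (d z0 z6) (d z0 z4)) z0) (c (b (d z0 z6) (d z0 z6)) z0)) (a (c (b (d (a (c (b (d z6 (a (c z0 z4) z6)) (d z4 (a (c z0 z4) (c z2 z6)))) z0) z6) (a (c z0 z4) (c z2 z6))) (d (a (c (b (d z4 (a (c z0 z4) (c z0 z4))) (d z4 (a (c z0 z4) (c z0 z4)))) z0) (c (b z6 (d z4 (a (c z0 z4) z6))) z0)) (a (c z0 z4) (c z2 z6)))) z0) (c (b (d z6 (a (c z2 z6) (c z2 z6))) (d z6 (a (c z2 z6) (c z2 z6)))) z0))))) _ _ (by decide +kernel)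

end Vale.Agent.Lib.P154Q5
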