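import Vale.Agent.Lib.P154Q5.CkBDefs

namespace Vale.Agent.Lib.P154Q5

set_option maxRecDepth 100000
set_option exponentiation.threshold 1000

open Tr

theorem okB360 : CKB ⟨6144, 12288, 7936, 8192⟩ ⟨4097, 6145, 1024, 1280⟩ :=
  ckB_sound z0 _ _ (by decide +kernel)

theorem okB361 : CKB ⟨6144, 12288, 7936, 8192⟩ ⟨4097, 5473, 1280, 1536⟩ :=
  ckB_sound (b (d (a (b (d z0 (a (b (d (a (b z0 z0) z0) z0) (d (b z0 z0) z0)) z0)) (d z0 (b (d (a (b z0 z0) z0) z0) (d (b z0 z0) z0)))) (b (d z0 z2) (d z0 z0))) (a (c (b z0 z0) (b (d (a (c z0 (b z0 z0)) z0) z0) (d (c z0 (b z0 z0)) z0))) z2)) (d (b (d z0 (a (b (d (a (b z0 z0) z0) z0) (d (b z0 z0) z0)) z0)) (d z0 (b (d (a (b z0 z0) z0) z0) (d (b z0 z0) z0)))) (c (b (d z0 z0) (d (b z0 z0) z0)) (b (d (a (c z0 (b z0 z0)) z0) z0) (d (c z0 (b z0 z0)) z0))))) _ _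 (by decide +kernel)

theorem okB362 : CKB ⟨6144, 12288, 7936, 8192⟩ ⟨5473, 6145, 1280, 1536⟩ :=
  ckB_sound (b (d (a (c (b (d z0 (a (c (b (d (a (c (b z4 z4) z0) z4) (a (c (b z4 z4) z0) z4)) (d (c (b z4 z4) z0) (c (b z4 z4) z0))) z0) z4)) (d z0 (c (b (d (a (c (b z4 z4) z0) z4) (a (c (b z4 z4) z0) z4)) (d (c (b z4 z4) z0) (c (b z4 z4) z0))) z0))) z0) (c (b (d z0 z6) (d z0 z4)) z0)) (a (c (b (d (a (c (b (d (a (c (b (d (a (c z0 z4) z4) (a (c z0 z4) z4)) (d (c z0 z4) (c z0 z4))) z4) z4) (a (c z0 z4) (c z0 z4))) (d (c (b (d (a (c z0 z4) z4) (a (c z0 z4) z4)) (d (c z0 z4) (c z0 z4))) z4) (c z0 z4))) z0) (c (b (d z4 (a (c z0 z4) (c z0 z4))) (d z4 (a (c z0 z4) (c z0 z4)))) z0)) (a (c (b z0 z0) z4) (c z0 z4))) (d (c (b (d (a (c (b (d (a (c z0 z4) z4) (a (c z0 z4) z4)) (d (c z0 z4) (c z0 z4))) z4) z4)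 (a (c z0 z4) (c z0 z4))) (d (c (b (d (a (c z0 z4) z4) (a (c z0 z4) z4)) (d (c z0 z4) (c z0 z4))) z4) (c z0 z4))) z0) (c (b z0 z0) z4))) z0) (c (b (d (a (c (b z6 (d z4 (a (c z0 z4) z6))) z0) z6) (a (c z2 z6) (c z2 z6))) (d (a (c (b (d z4 (a (c z0 z4) (c z0 z4))) (d z4 (a (c z0 z4) (c z0 z4)))) z0) (c (b z6 (d z6 (a (c z0 z4) z6))) z0)) (a (c z0 z4) (c z2 z6)))) z0))) (d (c (b (d z0 (a (c (b (d (a (c (b z4 z4) z0) z4) (a (c (b z4 z4) z0) z4)) (d (c (b z4 z4) z0) (c (b z4 z4) z0))) z0) z4)) (d z0 (c (b (d (a (c (b z4 z4) z0) z4) (a (c (b z4 z4) z0) z4)) (d (c (b z4 z4) z0) (c (b z4 z4) z0))) z0))) z0) (c (b (d (a (c (b (d (a (c (b (d (a (c z0 z4) z4) (a (c z0 z4) z4)) (d (c z0 z4) (c z0 z4))) z4) z4) (a (c z0 z4) (c z0 z4))) (d (c (b (d (a (c z0 z4) z4) (a (c z0 z4) z4)) (d (c z0 z4) (c z0 z4)))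 z4) (c z0 z4))) z0) (c (b (d z4 (a (c z0 z4) (c z0 z4))) (d z4 (a (c z0 z4) (c z0 z4)))) z0)) (a (c (b z0 z0) z4) (c z0 z4))) (d (c (b (d (a (c (b (d (a (c z0 z4) z4) (a (c z0 z4) z4)) (d (c z0 z4) (c z0 z4))) z4) z4) (a (c z0 z4) (c z0 z4))) (d (c (b (d (a (c z0 z4) z4) (a (c z0 z4) z4)) (d (c z0 z4) (c z0 z4))) z4) (c z0 z4))) z0) (c (b z0 z0) z4))) z0))) _ _ (by decide +kernel)

theorem okB363 : CKB ⟨6144, 12288, 7680, 8192⟩ ⟨4097, 5121, 1536, 2048⟩ :=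
  ckB_sound (b (d (a (c (b z0 z0) (b z0 z0)) z2) z0) (d (c (b z0 (d z0 z0)) (b z0 (d (b z0 z0) z0))) (c (b z0 z0) (b z0 z0)))) _ _ (by decide +kernel)

theorem okB364 : CKB ⟨6144, 12288, 7680, 7936⟩ ⟨5121, 6145, 1536, 2048⟩ :=
  ckB_sound (d (a (b (d (c (a (b z0 z0) z0) (a (b (d z4 (a (c (b (d z4 (a (c (b z4 z4) z4) z4)) (d z4 (c (b z4 z4) z4))) z0) z4)) (d z4 (c (b (d z4 (a (c (b z4 z4) z4) z4)) (d z4 (c (b z4 z4) z4))) z0))) z4)) (c (a (b z0 z0) z0) (a (b (d (a (c (b (d (a (c z0 z4) (c z0 z4)) (a (c z0 z4) (c z0 z4))) (d (c z0 z4) (c z0 z4))) z4) (c (b (d z4 (c z0 z4)) (d (c z0 z4) (c z0 z4))) z4)) (a (c z0 z4) (c z0 z4))) (d (c (b (d (a (c z0 z4) z4) (a (c z0 z4) (c z0 z4))) (d (c z0 z4) (c z0 z4))) z4) (c z0 z4))) (b (d (c (a (b (d z4 (c z0 z4)) (d z4 (c z0 z4))) z6) z6) (c z2 z6)) (d (c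 (a (b (d z4 (c z0 z4)) (d z4 (c z0 z4))) (b (d z6 (c z2 z6)) (d z4 (c z0 z4)))) z4) (c z0 z4)))))) (d (c (b z0 z0) (b (d z4 (a (c (b (d z4 (a (c (b z4 z4) z4) z4)) (d z4 (c (b z4 z4) z4))) z0) z4)) (d z4 (c (b (d z4 (a (c (b z4 z4) z4) z4)) (d z4 (c (b z4 z4) z4))) z0)))) (c (b z0 z0) (b (d (a (c (b (d (a (c z0 z4) z4) (a (c z0 z4) (c z0 z4))) (d (c z0 z4) (c z0 z4))) z4) (c (b (d z4 (c z0 z4)) (d z4 (c z0 z4))) z4)) (a (c z0 z4) (c z0 z4))) (d (c (b (d (a (c z0 z4) z4) (a (c z0 z4) (c z0 z4))) (d (c z0 z4) (c z0 z4))) z4) (c z0 z4)))))) (b (d (c z2 z6) z2) (d (c z2 z6) z2))) (a (b (d (c z0 (a (b (d (a (c z0 z4) (c z0 z4)) (a (c z0 z4) (c z0 z4))) (d (c z0 z4) (c z0 z4))) (b (d (c z2 z6) (c z2 z6)) (d (c z0 z4) (c z0 z4))))) (c z0 (a (b z0 z0) z0))) (d (c z0 (b (d (a (c z0 z4) (c z0 z4)) (a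 (c z0 z4) (c z0 z4))) (d (c z0 z4) (c z0 z4)))) (c z0 (b z0 z0)))) z2)) _ _ (by decide +kernel)

theorem okB365 : CKB ⟨6144, 12288, 7936, 8192⟩ ⟨5121, 6145, 1536, 2048⟩ :=
  ckB_sound (d (b (d (c (a (b z0 z0) z2) (a (b (d z4 (c (a (b (d z4 (c (a (b z4 z4) z4) z4)) (d z4 (c (b z4 z4) z4))) z4) z0)) (d z4 (c (b (d z4 (c (a (b z4 z4) z4) z4)) (d z4 (c (b z4 z4) z4))) z0))) z6)) (c (a (b z0 z0) z2) (a (b (d (c (a (b (d (c z0 z4) (c z0 z4)) (d (c z0 z4) (c z0 z4))) (b (d z4 (c z0 z4)) (d z4 (c z0 z4)))) z4) (c z0 z4)) (d (c (b (d (c z0 z4) (c z0 z4)) (d (c z0 z4) (c z0 z4))) z4) (c z0 z4))) (b (d z6 (c z2 z6)) (d (c (a (b (d z4 (c z0 z4)) (d z4 (c z0 z4))) z6) z4) (c z0 z4)))))) (d (c (b z0 z0) (b (d z4 (c (a (b (d z4 (c (a (b z4 z4) z4) z4)) (d z4 (c (b z4 z4) z4))) z4) z0)) (d z4 (c (b (d z4 (c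 (a (b z4 z4) z4) z4)) z4) z0)))) (c (b z0 z0) (b (d (c (a (b (d (c z0 z4) (c z0 z4)) (d (c z0 z4) (c z0 z4))) (b (d z4 (c z0 z4)) (d z4 (c z0 z4)))) z4) (c z0 z4)) (d (c (b (d (c z0 z4) (c z0 z4)) (d (c z0 z4) (c z0 z4))) z4) (c z0 z4)))))) (b (d (c z0 (a (b (d (c z0 z4) (c z0 z4)) (d (c z0 z4) (c z0 z4))) (b (d (c z2 z6) (c z2 z6)) (d (c z0 z4) (c z0 z4))))) (c z0 (a (b z0 z0) z2))) (d (c z0 (b (d (c z0 z4) (c z0 z4)) (d (c z0 z4) (c z0 z4)))) (c z0 (b z0 z0))))) _ _ (by decide +kernel)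

theorem okB366 : CKB ⟨6144, 12288, 7168, 8192⟩ ⟨6145, 8193, 1024, 2048⟩ :=
  ckB_sound (b (d z0 (a (b (d z0 z4) (d z0 z4)) (b (d z0 z6) (d z0 z6)))) (d z0 (b (d z0 z4) z4))) _ _ (by decide +kernel)

theorem okB367 : CKB ⟨6144, 9216, 6144, 7168⟩ ⟨4097, 6145, 2048, 3072⟩ :=
  ckB_sound z2 _ _ (by decide +kernel)

theorem okB368 : CKB ⟨6144, 9216, 6144, 6656⟩ ⟨6145, 8193, 2048, 3072⟩ :=
  ckB_sound (d (a (b (d z6 (c (a (b (d z6 (c z2 z6)) (d z6 (c z2 z6))) (b (d z6 (c z2 z6)) (d z6 (c z2 z6)))) z6)) (d z6 (c (a (b (d z6 (c z2 z6)) (d (c (a (b z4 (d z4 (c z0 z4))) z6) z6) (c z2 z6))) (b (d z6 (c z2 z6)) (d z6 (c z2 z6)))) z6))) (b (d z6 (c (a (b (d z6 (c z2 z6)) (d z6 (c z2 z6))) (b z6 (d z6 (c z2 z6)))) z6)) (d z6 (c (a (b (d z6 (c z2 z6)) (d z6 (c z2 z6))) (b (d z6 (c z2 z6)) (d z6 (c z2 z6))))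 z6)))) (a (b (d (c (a (b (d (c z2 z6) z2) (d (c z2 z6) z2)) (b (d (c z2 z6) z2) (d (c z2 z6) z2))) z6) (c z2 z6)) (d (c (a (b (d (c z2 z6) z2) (d (c z2 z6) z2)) (b (d (c z2 z6) z2) (d (c z2 z6) z2))) z6) (c z2 z6))) (b (d (c (a (b (d (c z2 z6) z2) (d (c z2 z6) z2)) (b (d (c z2 z6) z2) (d (c z2 z6) z2))) z6) (c z2 z6)) (d (c (a (b (d (c z2 z6) z2) (d (c z2 z6) z2)) (b (d (c z2 z6) z2) (d (c z2 z6) z2))) z6) (c z2 z6))))) _ _ (by decide +kernel)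

theorem okB369 : CKB ⟨6144, 9216, 6656, 7168⟩ ⟨6145, 8193, 2048, 3072⟩ :=
  ckB_sound (d (a (b (d z4 (c (a (b (d (c (a (b (d z4 (c z0 z4)) (d z4 (c z0 z4))) (b z4 (d z4 (c z0 z4)))) z4) (c z0 z4)) (d (c (a (b (d z4 (c z0 z4)) (d z4 (c z0 z4))) (b (d z4 (c z0 z4)) (d z4 (c z0 z4)))) z4) (c z0 z4))) (b (d z6 (c z2 z6)) (d (c (a (b (d z6 (c z2 z6)) (d z4 (c z0 z4))) z6) z6) (c z2 z6)))) z4)) (d (c (a (b z4 (d z4 (c (b z4 z4) z4))) z4) z0) (c (a (b (d (c (a (b (d z4 (c z0 z4)) (d (c (a (b (d z4 (c z0 z4)) (d z4 (c z0 z4))) z4) z4) (c z0 z4))) (b (d z4 (c z0 z4)) (d z4 (c z0 z4)))) z4) (c z0 z4)) (d (c (b (d (a (c (b (d z4 (a (c z0 z4) z4)) (d z4 (c z0 z4))) z4) z4) (a (c z0 z4) (c z0 z4))) (d (c (b (d z4 (a (c z0 z4) z4)) (d z4 (c z0 z4))) z4) (c z0 z4))) z4) (c z0 z4))) (b (d (c (a (b (d z4 (c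 z0 z4)) (d z4 (c z0 z4))) (b (d z6 (c z2 z6)) (d z4 (c z0 z4)))) z4) (c z0 z4)) (d (c (a (b (d z4 (c z0 z4)) (d z4 (c z0 z4))) (b (d z4 (c z0 z4)) (d z4 (c z0 z4)))) z4) (c z0 z4)))) z4))) (b (d z6 (c (a (b (d z6 (c z2 z6)) (d z6 (c z2 z6))) (b (d z6 (c z2 z6)) (d z6 (c z2 z6)))) z6)) (d z6 (c (a (b (d z6 (c z2 z6)) (d (c (a (b (d z6 (c z2 z6)) (d z4 (c z0 z4))) (b z6 (d z6 (c z2 z6)))) z6) (c z2 z6))) (b (d z6 (c z2 z6)) (d z6 (c z2 z6)))) z6)))) (a (b (d (c (a (b (d (c z0 z4) z0) (d (c z0 z4) z0)) (b (d (c z2 z6) z2) (d (c z2 z6) z2))) z4) (c z0 z4)) (d (c (a (b (d (c z0 z4) (c z0 z4)) (d (c z0 z4) (c z0 z4))) (b (d (c z0 z4) z0) (d (c z0 z4) z0))) z4) (c (a (b z0 (d (c z0 (b (d z4 (a (c z0 z4) z4)) (d z4 (c z0 z4)))) z0)) z0) z4))) (b (d (c (a (b (d (c z2 z6) z2) (d (c z2 z6) z2)) (b (d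 (c z2 z6) z2) (d (c z2 z6) z2))) z6) (c z2 z6)) (d (c (a (b (d (c z2 z6) z2) (d (c z2 z6) z2)) (b (d (c z2 z6) z2) (d (c z2 z6) z2))) z6) (c z2 z6))))) _ _ (by decide +kernel)

theorem okB370 : CKB ⟨9216, 12288, 6144, 7168⟩ ⟨4097, 8193, 2048, 3072⟩ :=
  ckB_sound (c z2 (b (d (b z6 (d z6 (a (c (b z6 (d z6 (a (c z2 z6) z6))) z6) z6))) (b (d (a (c (b (d (a (c z2 z6) (c z2 z6)) z2) (d (a (c z2 z6) (c z2 z6)) z2)) z6) (c (b (d (a (c z2 z6) (c z3 z7)) z2) (d (a (c z2 z6) (c z2 z6)) z2)) z6)) (a (c z2 z6) (c z2 z6))) (d (a (c (b (d (a (c z2 z6) (c z2 z6)) z2) (d (a (c z2 z6) (c z2 z6)) z2)) z6) (c (b (d (a (c z2 z6) (c z2 z6)) z2) (d (a (c z2 z6) (c z2 z6)) z2)) z6)) (a (c z2 z6) (c z2 z6))))) (d (b (d z6 (a (c (b (d z6 (a (c z2 z6) z6)) (d z6 (a (c z2 z6) z6))) z6) z6)) (d z6 (a (c (b (d z6 (a (c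 z2 z6) (c z2 z6))) (d z6 (a (c z2 z6) (c z2 z6)))) z6) z6))) (b (d (a (c (b (d (a (c z2 z6) (c z2 z6)) z2) (d (a (c z2 z6) (c z2 z6)) z2)) z6) (c (b (d (a (c z2 z6) (c z2 z6)) z2) (d (a (c z2 z6) (c z2 z6)) z2)) z6)) (a (c z2 z6) (c z2 z6))) (d (a (c (b (d (a (c z2 z6) (c z2 z6)) z2) (d (a (c z2 z6) (c z2 z6)) z2)) z6) (c (b (d (a (c z2 z6) (c z2 z6)) z2) (d (a (c z2 z6) (c z2 z6)) z2)) z6)) (a (c z2 z6) (c z2 z6))))))) _ _ (by decide +kernel)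

theorem okB371 : CKB ⟨6144, 12288, 6144, 7168⟩ ⟨4097, 8193, 3072, 4096⟩ :=
  ckB_sound (a (c z2 (b (d (a (b (d (c z2 z6) (c z2 (a (b (d z6 (c z2 z6)) (d z6 (c z2 z6))) (b z6 (d z6 (c z2 z6)))))) (d (c z2 z6) (c z2 (a (b (d z6 (c z2 z6)) (d z6 (c z2 z6))) (b (d z6 (c z2 z6)) (d z6 (c z2 z6))))))) (b (d (c z2 z6) z2) (d (c z2 z6) z2))) z2) (d (a (b (d (c z0 z4) (c z0 (a (b (d z4 (c z0 z4)) (d z4 (c z0 z4))) (b (d z6 (c z2 z6)) (d z6 (c z2 z6)))))) (d (c z0 z4) (c z0 (a (b (d (c (a (b z4 (d z4 (c z0 z4))) z4) z4) (c z0 z4)) (d (c (b (d z4 (a (c z0 z4) z4)) (d z4 (c z0 z4))) z4) (c z0 z4))) (b (d z4 (c z0 z4)) (d z4 (c z0 z4))))))) (b (d (c z2 z6) z2) (d (c z2 z6) z2))) z2))) (c z2 (b (d (b (d (a (c z2 z6) (c z2 z6)) (a z2 (c z2 (b (d (a z6 (c (b (d (a z6 z7) (a z6 z7)) z6) z7)) (a (c z2 z6) (c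 (b (d (a z2 z3) (a z2 z3)) z2) z7))) (d z6 (a (c z2 z6) (c z2 z6))))))) z2) z2) z2))) _ _ (by decide +kernel)

theorem okB372 : CKB ⟨6144, 12288, 7168, 8192⟩ ⟨4097, 6145, 2048, 3072⟩ :=
  ckB_sound (b z2 (d (c (b z0 z0) (b (d (a (b z0 z0) z2) (a (b z0 z0) z2)) (d (b z0 z0) (b z0 z0)))) (c (b z0 z0) (b z0 z0)))) _ _ (by decide +kernel)

theorem okB373 : CKB ⟨6144, 12288, 7168, 7680⟩ ⟨6145, 8193, 2048, 3072⟩ :=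
  ckB_sound (d (a (b (d (a (c (b (d z4 (a (c (b z4 z4) z4) z4)) (d z4 (c (a (b z4 z4) z4) z4))) z0) z6) (a (c (b (d (a (c (b (d (a (c (b (d z4 (a (c z0 z4) z4)) (d z4 (c z0 z4))) z4) z4) (a (c z0 z4) (c z0 z4))) (d (c (a (b (d z4 (c z0 z4)) (d z4 (c z0 z4))) (b z4 (d z4 (c z0 z4)))) z4) (c z0 z4))) z4) (c (b (d z4 (a (c z0 z4) (c z0 z4))) (d z4 (a (c z0 z4) (c z0 z4)))) z4)) (a (c z0 z4) (c z0 z4))) (d (c (a (b (d (c (a (b (d z4 (c z0 z4)) (d z4 (c z0 z4))) (b z4 (d z4 (c z0 z4)))) z4) (c z0 z4)) (d (c (b (d z4 (c z0 z4)) z0) z4) (c z0 z4))) (b (d z4 (c z0 z4)) (d (c (a (b z4 (d z4 (c z0 z4))) z4) z4) (c z0 z4)))) z4) (c z0 z4))) z4) (c (b (d (a (c (b (d z6 (a (c z2 z6) z6)) (d z6 (a (c z0 z4) z6))) z6) z6) (a (c z2 z6) (c z2 z6))) (d (a (c (b (d z4 (a (c z0 z4) (c z0 z4))) (d z4 (a (c z0 z4)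 (c z0 z4)))) z4) z6) (a (c z0 z4) (c z2 z6)))) z6))) (d (c (b (d z4 (a (c (b z4 z4) z4) z4)) (d z4 (c (a (b z4 z4) z4) z4))) z0) (c (b (d (a (c (b (d (a (c (b (d z4 (a (c z0 z4) z4)) (d z4 (c z0 z4))) z4) z4) (a (c z0 z4) (c z0 z4))) (d (c (a (b (d z4 (c z0 z4)) (d z4 (c z0 z4))) z4) z4) (c z0 z4))) z4) (c (b (d z4 (a (c z0 z4) z6)) (d z4 (a (c z0 z4) (c z0 z4)))) z4)) (a (c z0 z4) (c z0 z4))) (d (c (a (b (d (c (a (b z4 z4) z4) z4) (c z0 z4)) (d (c (b z4 z0) z4) (c z0 z4))) (b (d z4 (c z0 z4)) (d (c (a (b z4 z4) z4) z4) (c z0 z4)))) z4) (c z0 z4))) z4))) (b (d z6 (c (a (b (d z6 (c z2 z6)) (d z6 (c z2 z6))) (b z6 (d z6 (c z2 z6)))) z6)) (d z6 (c (a (b (d z6 (c z2 z6)) (d (c (a (b z6 (d z4 (c z0 z4))) z6) z6) (c z2 z6))) (b (d z6 (c z2 z6)) (d z6 (c z2 z6)))) z6)))) (a (b (d (a (c (b (d (a (c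 z0 z4) (c z0 z4)) (a (c z0 z4) z0)) (d (c z0 z4) (c z0 z4))) z4) (c (b (d (a (c z2 z6) (c z2 z6)) z2) (d (a (c z0 z4) (c z2 z6)) z2)) z6)) (a (c (b z0 z0) z4) (c z2 z6))) (d (c (b (d (a (c z0 z4) (c z0 z4)) (a (c z0 z4) z0)) (d (c z0 z4) z0)) z4) (c (b z0 z0) z4))) (b (d (c (a (b (d (c z2 z6) z2) (d (c z2 z6) z2)) (b (d (c z2 z6) z2) (d (c z2 z6) z2))) z6) (c z2 z6)) (d (c (a (b (d (c z2 z6) z2) (d (c z2 z6) z2)) (b (d (c z2 z6) z2) (d (c z2 z6) z2))) z6) (c z2 z6))))) _ _ (by decide +kernel)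

theorem okB374 : CKB ⟨6144, 12288, 7680, 8192⟩ ⟨6145, 8193, 2048, 3072⟩ :=
  ckB_sound (d (b (d (a (c (b (d z4 (a (c (b z4 z4) z4) z4)) (d z4 (c (b z4 z4) z4))) z0) z6) (a (c (b (d (a (c (b (d (a (c (b z4 z4) z4) z4) (a (c z0 z4) (c z0 z4))) (d (c (b z4 z4) z4) (c z0 z4))) z4) z4) (a (c z0 z4) (c z0 z4))) (d (c (b (d (a (c (b z4 z4) z4) z4) (a (c z0 z4) z4)) (d (c (b z4 z4) z4) (c z0 z4))) z4) (c z0 z4))) z4) (c (b (d z6 (c z2 z6)) (d z6 (c z2 z6))) z6))) (d (c (b (d z4 (c (a (b z4 z4) z6) z4)) (d z4 (c (b z4 z4) z4))) z0) (c (b (d (c (a (b (d (c (a (b z4 z4) z4) z4) (c z0 z4)) (d z4 (c z0 z4))) z6) z4) (c z0 z4)) (d (c (b (d z4 (c z0 z4)) (d z4 (c z0 z4))) z4) (c z0 z4))) z4))) (b (d (a (c (b (d (a (c z0 z4) (c z0 z4)) z0) (d (c z0 z4) z0)) z4) (c (b (d (c z2 z6) z2) (d (c z2 z6) z2)) z6))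 (a (c (b z0 z0) z4) (c z2 z6))) (d (c (b (d (c z0 z4) z0) (d (c z0 z4) z0)) z4) (c (b z0 z0) z4)))) _ _ (by decide +kernel)

end Vale.Agent.Lib.P154Q5
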