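import Vale.Agent.Lib.P154Q5.CkBDefs

namespace Vale.Agent.Lib.P154Q5

set_option maxRecDepth 100000
set_option exponentiation.threshold 1000

open Tr

theorem okB375 : CKB ⟨6144, 12288, 7168, 8192⟩ ⟨4097, 8193, 3072, 4096⟩ :=
  ckB_sound (c (b z2 (d (c (b z0 z0) (b z0 z0)) (c (b z0 z0) (b z0 z0)))) (b (d (a (b (d (a (c z0 (b z4 z4)) (c z2 z6)) (a (c z0 (b (d (a (c (b (d z4 (a (c z0 z4) z4)) (d z4 (c z0 z4))) z4) z4) (a (c z0 z4) (c z0 z4))) (d (c (a (b (d z4 (c z0 z4)) (d z4 (c z0 z4))) z4) z4) (c z0 z4)))) z2)) (d (c z0 (b z4 z4)) (c z0 (b (d (a (c (b z4 z4) z4) z4) (a (c z0 z4) (c z0 z4))) (d (c (a (b z4 z4) z4) z4) (c z0 z4)))))) z2) z2) (d (b (d (a (c z0 (b z4 z4)) z2) (a (c z0 (b (d (a (c (b z4 z4) z4) z4) (a (c z0 z4) z4)) (d (c (b z4 z4) z4) (c z0 z4)))) z2)) (d (c z0 (b z4 z4)) (c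 z0 (b (d z4 (a (c z0 z4) z6)) (d z4 (c z0 z4)))))) (b z0 z0)))) _ _ (by decide +kernel)

theorem okB376 : CKB ⟨0, 12288, 8192, 12288⟩ ⟨0, 8193, 0, 4096⟩ :=
  ckB_sound (c (b (d (b (d z0 (b (d z0 (b (d (b (d z0 z0) z0) (c (b z0 z0) (b z0 z0))) z0)) z0)) z0) (c (b (d (b (d (b (d z0 (b z0 z0)) z0) (c (b (d (b z0 z0) z0) z0) (b z0 z0))) z0) (c (b (d (b (d z0 z0) z0) (c (b z0 z0) (b z0 z0))) z0) (b (d (b z0 z0) (b z0 z0)) z0))) z0) (b (d (b (d (c (b (d (b z0 z0) z0) z0) (b (d (c z0 (b z0 z0)) z0) z0)) (c (b z0 z0) (b z0 z0))) z0) (b (d (c (b z0 z0) (b z0 z0)) (c (b z0 z0) (b z0 z0))) z0)) z0))) z0) (b (d (b (d z0 (c (b (d (b (d z0 (c (b (d (b (d z0 (b (d (b z0 z0) z0) z0)) z0) (c (b (d (b z0 z0) z0) z0) (b (d (c (b z0 z0) (b z0 z0)) z0) z0))) z0) (b (d (c (b (d z0 (c (b (d (c (b z4 z0) z0) (c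 (b z4 z0) z0)) z0) z0)) z0) z0) (c (b (d (c (b (d (c (b (d (c z0 z4) (c z0 z4)) z0) z4) (c z0 z4)) z0) z0) (c (b z0 z0) z4)) z0) z0)) z0))) z0) (c (b (d (c (b (d (b z0 z0) z0) z0) (b (d (b z0 z0) z0) z0)) (c (b z0 z0) (b z0 z0))) z0) (b (d (b (d (c (b z0 z0) (b (d z4 (c (b z4 z0) z0)) z0)) (c (b z0 z0) (b (d (c (b (d (c z0 z4) (c z0 z4)) z0) z4) (c z0 z4)) z0))) z0) (b (d (c (b z0 z0) (b (d (c z0 z4) (c z0 z4)) z0)) (c z0 (b z0 z0))) z0)) z0))) z0) (b (d z0 (b (d z0 z4) z0)) z0))) z0) (b (d (c (b (d (c (b (d (c (b z0 z0) (b z0 z0)) (c z0 (b z0 z0))) z0) (b (d (b z0 z0) (b z0 z0)) z0)) (c (b z0 z0) (b (d (b z0 z0) z0) z0))) z0) (b (d (b (d (c (b (d z4 (c (b z4 z0) z4)) z0) z0) (c (b (d (c (b (d z4 (c z0 z4)) z0) z4) (c z0 z4)) z0) z4)) z0) (b (d (c (b (d (c z0 z4) z0) z0) z4) (c (b z0 z0)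 z4)) z0)) z0)) (c (b (d (c (b z0 z0) (b z0 z0)) (c (b z0 z0) (b z0 z0))) z0) (b (d (b (d (c z0 (b z4 z0)) z0) z0) (b z0 z0)) z0))) z0)) z0)) _ _ (by decide +kernel)

theorem okB377 : CKB ⟨0, 6144, 4096, 8192⟩ ⟨8193, 49152, 0, 4096⟩ :=
  ckB_sound (b (d z0 (a (b (d (a (c (b (d z0 z4) (d z0 z4)) z0) (c (b (d z0 (c z4 z0)) (d z0 (c z4 z0))) z0)) (a (c z4 (b (d z0 z4) (d z0 z4))) (c z4 (b (d z0 z4) (d z0 z4))))) (d (c (b (d z0 (a z4 (c z4 z0))) (d z0 (c z4 z0))) z0) (c (b z4 z4) (b (d z0 z4) (d z0 z4))))) (b (d (c (b (d z0 (a (c z4 z0) (c z4 z0))) (d z0 (a (c z4 z0) (c z4 z0)))) z0) (c z4 (b (d z0 z4) (d z0 (a z4 (c z4 (b (d z0 z4) (d z0 z4)))))))) (d (c (b (d z0 (a (c z4 z0) (c z4 z0))) (d z0 (a (c z4 z0) (c z4 z0)))) z0) (c z4 (b (d z0 (a (c z4 (b (d z0 z4) (d z0 z4))) (c z4 (b (d z0 z4) (d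 z0 z4))))) (d z0 (a (c z4 (b (d z0 z4) (d z0 z4))) (c z4 (b (d z0 z4) (d z0 z4))))))))))) (d z0 (b (d (c (b (d z0 (a (c z4 z0) (c z4 z0))) (d z0 (c z4 z0))) z0) (c (b (d z4 (a (c (b z4 z4) z4) z4)) (d z4 (c (b z4 z4) z4))) (b (d z0 (a (c z4 (b (d z0 z4) z4)) (c z4 (b (d z0 z4) (d z0 z4))))) (d z0 (c z4 (b (d z0 z4) (d z0 z4))))))) z0))) _ _ (by decide +kernel)

theorem okB378 : CKB ⟨6144, 12288, 4096, 6144⟩ ⟨8193, 49152, 0, 4096⟩ :=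
  ckB_sound (d z0 (b (d (a (c (b (d z0 (a (c z4 z0) (c z4 z0))) (d z0 (a (c z4 z0) (c z6 z0)))) z0) (c (b (d z0 (c z7 z0)) (d z0 (c z7 z0))) z0)) (c (a (b (d (c z4 (a (b z4 (d z0 z4)) (b (d z0 z5) (d z0 z4)))) (c (a z4 (b (d (c (a z4 z5) z5) (c (a z4 z5) z5)) (d z4 (c (a z4 (b (d z5 (c (b (d z5 (a (c (b (d z5 (a z4 z5)) (d (a z4 z5) (a z4 z5))) z5) z5)) (d (a z4 z5) (a z4 z5))) z5)) (d z6 (c (b (d (a z4 z7) (a z4 z7)) (d z6 (a z6 z7))) z6)))) z4)))) z4)) (d (c z6 (a (b (d z0 z4) (d z0 z6)) (b (d z0 z6) (d z0 z6)))) z6)) (b (d (c z7 (b (d z0 (a z5 (c z5 z0))) (d z0 z7))) z7) (d (c z7 (b (d z0 z7) z7)) (c (b z7 (d z7 (a (c (b (d z7 (a (c (b (d z7 (a (c (b (d z7 (a z6 z7)) (d (a z6 z7) (a z6 z7))) z7) z7)) (d (a z6 z7) (a z6 z7))) z7) z7)) (d (a z6 z7) (a (c (b (d (a z6 z7) (a z6 z7)) z6) z6)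 z7))) z7) z7))) z7)))) (a (b (d z0 (a (c z4 (b z4 (d z0 z4))) (c (b z5 (d z0 z4)) (b z5 (d z0 z4))))) (d z0 (a (c (b z4 z6) (b (d z0 z4) (d z0 z6))) (c z6 (b (d z0 z6) (d z0 z6)))))) (b (d z0 (c (b (d z0 (a z5 (c (b z5 z7) (b (d (a z5 (b z5 (d z0 z5))) z5) z7)))) (d z0 z7)) (b (d z0 (a z5 (b (d z0 z5) z7))) (d z0 z7)))) (d z0 (c z7 (b (d z0 z7) (d z0 z7)))))))) (d (a (c (b (d z0 (a (c z6 z0) (c z6 z0))) (d z0 (a (c z6 z0) (c z6 z0)))) z0) (c (b (d z0 (c z7 z0)) (d z0 (c z6 z0))) z0)) (c (a z6 (b (d z7 (c (b (d (a z6 z7) (a (c (b (d (a z6 z7) (a z6 z7)) (d z6 (a z6 (c (b z7 (d z7 (a (c (b z7 (d z7 (a z6 z7))) z7) z7))) z7)))) z6) z7)) (d (a z6 z7) (a (c (b (d z6 (a z6 (c (b (d (a z6 z7) (a z6 z7)) z6) z7))) z6) z6) z7))) z7)) (d z6 (c (b (d z6 (a z6 (c (b z7 (d z7 (a (c (b (d z7 (a z6 z7))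 (d (a z6 z7) (a z6 z7))) z7) z7))) z7))) (d z6 (a z6 (c (b (d (a z6 z7) (a z6 z7)) z6) z7)))) z6)))) (a (b (d z0 (a (c z6 (b (d z0 z6) (d z0 z6))) (c z6 (b (d z0 z6) (d z0 z6))))) (d z0 (a (c z6 (b (d z0 z6) (d z0 z6))) (c z6 (b (d z0 z6) (d z0 z6)))))) (b (d z0 (c z7 (b (d z0 z7) (d z0 z7)))) (d z0 (c z6 (b (d z0 z6) (d z0 z6)))))))))) _ _ (by decide +kernel)

theorem okB379 : CKB ⟨6144, 12288, 6144, 8192⟩ ⟨8193, 49152, 0, 4096⟩ :=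
  ckB_sound (d z0 (b (d (a (c (b (d z0 (a (c z6 z0) (c z6 z0))) (d z0 (a (c z4 z0) (c z6 z0)))) z0) (c (b (d z0 (c z6 z0)) (d z0 z6)) z0)) (c z6 (a (b (d z0 (a (c z6 (b (d z0 z6) (d z0 z6))) (c z6 (b (d z0 z6) (d z0 z6))))) (d z0 (a (c z4 (b (d z0 (a z4 z6)) (d z0 z4))) (c z6 (b (d z0 z6) (d z0 z6)))))) (b (d z0 (c z6 (b (d z0 z6) (d z0 z6)))) (d z0 (c z6 (b (d z0 z6) (d z0 z6)))))))) (d (c (b (d z0 z6) (d z0 z4)) z0) (c (b z6 (d z4 (c (b z4 z4) z4))) (b (d z0 (a (c z4 (b (d z0 (a z4 z6)) (d z0 z4))) (c z6 (b (d z0 z6) (d z0 z6))))) (d z0 (c z4 (b (d z0 (a z4 z6)) (d z0 z4))))))))) _ _ (by decide +kernel)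

theorem okB380 : CKB ⟨0, 12288, 8192, 12288⟩ ⟨8193, 49152, 0, 4096⟩ :=
  ckB_sound (b (d z0 (b (d (c z4 z0) (c (b (d z4 (c (b z4 z0) z4)) z0) (b (d z0 z4) z0))) z0)) z0) _ _ (by decide +kernel)

theorem okB381 : CKB ⟨12288, 24576, 4096, 6144⟩ ⟨0, 4097, 0, 4096⟩ :=
  ckB_sound z3 _ _ (by decide +kernel)

theorem okB382 : CKB ⟨12288, 24576, 6144, 8192⟩ ⟨0, 4097, 0, 2048⟩ :=
  ckB_sound (b (d z0 (a (b (d z0 z3) (d z0 (a z2 z3))) z3)) (d z0 (a (b (d z0 z2) (d z0 z2)) z3))) _ _ (by decide +kernel)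

theorem okB383 : CKB ⟨12288, 24576, 6144, 7168⟩ ⟨0, 2049, 2048, 4096⟩ :=
  ckB_sound (d (a (b (d z3 z3) (d (a z2 z3) (a z2 z3))) z3) (a (c (b (d z3 (a (c (b z3 (d (a (b z3 (d z3 (c (a z2 z3) z3))) z3) (a (c (b z3 (d (a z2 z3) (a z2 z3))) (b z3 (d (a z2 z3) (a z2 z3)))) z3))) (b z3 (d z3 (a (b z3 (d (c (a z2 z3) z3) (c (a z2 z3) (a z2 z3)))) z3)))) z3)) (d (a (b (d (a z2 z3) (c (a z2 z3) (a z2 z3))) z2) z3) (a (c (b (d (a z2 z3) (a z2 z3)) (d (a z2 (b z3 z2)) (a z2 (c (b (d z3 (a z2 z3)) z2) (b z3 z2))))) (b (d (a z2 z3) (a z2 z3)) (d z2 (a z2 (b z3 z2))))) z3))) (b z3 (d (a (b (d (c (a z2 z3) (a z2 z3)) (c (a z2 z3) (a z2 z3))) z2) z3) (a (b (d (c (a z2 z3) (a z2 z3)) (c (a z2 z3) (a z2 z3))) z2) z3)))) z3)) _ _ (by decide +kernel)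

theorem okB384 : CKB ⟨12288, 24576, 7168, 8192⟩ ⟨0, 2049, 2048, 4096⟩ :=
  ckB_sound (d (a (b (d (a z2 (b z3 (d z0 z3))) (a z2 (c (b z3 (d z3 z3)) z3))) (d (a z2 (b (d z0 (a z2 z3)) z2)) (a z2 (c (b (d (a z2 z3) (a z2 z3)) (d z2 (a z2 (c (b z3 (d (a z2 z3) (a z2 z3))) (b z3 (d (a z2 z3) (a z2 z3))))))) (b (d (a z2 z3) (a z2 z3)) z2))))) z3) (a (c (b (d (a z2 (b z3 (d z3 (c (a (b z3 (d z3 (c (a z2 z3) z3))) z3) z3)))) (a (c (b (d (a z2 (b (d z2 (c (a z2 z3) z2)) z2)) (a z2 (c (b (d (a z2 z3) (a z2 z3)) z2) (b (d (a z2 z3) (a z2 z3)) z2)))) z2) (b (d z2 (a z2 (b (d z2 (c (a z2 z3) z2)) z2))) z2)) (c (b z3 (d (a (b z3 (d (c (a z2 z3) z3) (c (a z2 z3) (a z2 z3)))) z3) (a (c (b z3 (d (a z2 z3) (a z2 z3))) (b z3 (d (a z2 z3) (a z2 z3)))) z3))) (b z3 (d z3 (a (b z3 (d z3 (c (a z2 z3) z3))) z3))))))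 (d (a z2 (b (d (a z2 z3) (c (a z2 z3) (a z2 z3))) (d (a z2 (c (b z3 (d (a z2 z3) (a z2 z3))) (b z3 (d (a z2 z3) (a z2 z3))))) (c (a z2 (b z3 (d (a z2 z3) (c (a z2 z3) (a z2 z3))))) (a z2 (b z3 (d (c (a z2 z3) (a z2 z3)) (c (a z2 z3) (a z2 z3))))))))) (a z2 (c (b (d (a (b (d z2 (c (a z2 z3) z2)) z2) z3) (a (c (b (d (a z2 z3) (a z2 z3)) z2) (b (d (a z2 z3) (a z2 z3)) z2)) z3)) (d (a z2 (b z3 (d (c (a z2 z3) (a z2 z3)) (c (a z2 z3) (a z2 z3))))) (a z2 (c (b z3 (d (a z2 z3) (a z2 z3))) (b z3 (d (a z2 z3) (a z2 z3))))))) (b (d (a z2 z3) (a (b (d z2 (c (a z2 z3) z2)) z2) z3)) (d (a z2 (b z3 (d (c (a z2 z3) (a z2 z3)) (c (a z2 z3) (a z2 z3))))) (a z2 (b z3 (d (c (a z2 z3) (a z2 z3)) (c (a z2 z3) (a z2 z3))))))))))) (b (d (a z2 z3) (a z2 z3)) (d (a z2 (b (d (c (a z2 z3) (a z2 z3)) (c (a z2 z3) (a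 z2 z3))) (d (c (a z2 (b z3 (d (c (a z2 z3) (a z2 z3)) (c (a z2 z3) (a z2 z3))))) z2) (c (a z2 (b z3 (d (c (a z2 z3) (a z2 z3)) (c (a z2 z3) (a z2 z3))))) z2)))) (a z2 (b (d (c (a z2 z3) (a z2 z3)) (c (a z2 z3) (a z2 z3))) (d (c (a z2 (b z3 (d (c (a z2 z3) (a z2 z3)) (c (a z2 z3) (a z2 z3))))) z2) (c (a z2 (b z3 (d (c (a z2 z3) (a z2 z3)) (c (a z2 z3) (a z2 z3))))) (a z2 z3)))))))) z3)) _ _ (by decide +kernel)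

theorem okB385 : CKB ⟨12288, 24576, 6144, 8192⟩ ⟨2049, 4097, 2048, 4096⟩ :=
  ckB_sound (b (d (a (b z3 (d (c (a z2 z3) (a z2 z3)) (c (a z2 z3) (a z2 z3)))) z3) (a (b z3 (d (c (a z2 z3) (a z2 z3)) (c (a (b (d (c (a z2 z3) (a z2 z3)) (c (a z2 z3) (a z2 z3))) z2) z3) (a z2 z3)))) z3)) (d (a (b (d (a z2 (c (b z3 (d z3 z3)) z3)) (a z2 z3)) (d z2 (a z2 (c (b (d (c (a z2 z3) (a z2 z3)) (c (a z2 z3) (a z2 z3))) z2) z2)))) z3) (a (b (d (a z2 z3) (a z2 z3)) (d (a z2 (c (b (d (c (a z2 z3) (a z2 z3)) (c (a z2 z3) (a z2 z3))) z2) z2)) (a z2 (c (b (d (c (a z2 z3) (a z2 z3)) (c (a z2 z3) (a z2 z3))) z2) (b (d (a z2 z3) (a z2 z3)) z2))))) z3))) _ _ (by decide +kernel)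

theorem okB386 : CKB ⟨12288, 24576, 4096, 6144⟩ ⟨4097, 8193, 0, 4096⟩ :=
  ckB_sound (d (b (d z0 z3) (d z0 (c z3 z7))) z3) _ _ (by decide +kernel)

theorem okB387 : CKB ⟨12288, 24576, 6144, 8192⟩ ⟨4097, 8193, 0, 2048⟩ :=
  ckB_sound (b (d z0 (a (c (b (d (a (b z3 (d z0 (c z3 (a (b z7 (d z7 (a z6 z7))) z7)))) z3) (a (c z3 (b z3 (d (a (b z3 (d (c z3 (a z6 z7)) (c z3 (a z6 z7)))) z3) z3))) z3)) (d (a (b (d z0 (c (a z2 z3) (a z6 z7))) (d z0 z2)) z3) (a z2 z3))) (b (d z0 z7) (d z0 (a z6 z7)))) z3)) (d z0 (a (c (b (d (a (b (d z0 z2) (d z0 z2)) (b z3 (d z0 z3))) z2) (d (a (b (d z0 (a (c z2 (b z6 (d z6 (a (c (b z6 (d z6 (a (c z2 z6) z6))) z0) z6)))) z2)) (d z0 (a (c (b (d (a (b z2 (d z0 z2)) z2) z2) (d (a (b (d z0 z2) (d z0 z0)) (b z2 (d z0 z2))) z2)) (b (d (a (c (b z6 (d z0 z6)) z0) z6) (a (c (b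 (d z6 (a (c z2 z6) (c z2 z6))) (d z6 (a (c z2 z6) (c z2 z6)))) z0) z6)) (d (a (c (b (d z0 z6) (d z0 z4)) z0) z6) (a (c (b (d (a (c (b z6 (d z6 (a (c z0 z4) z6))) z0) z6) (a (c z2 z6) (c z2 z6))) (d (a (c (b (d z4 (a (c z0 z4) (c z0 z4))) (d z4 (a (c z0 z4) (c z0 z4)))) z0) (c (b z6 (d z6 (a (c z0 z4) z6))) z0)) (a (c z0 z4) (c z2 z6)))) z0) (c (b (d z6 (a (c z2 z6) z6)) (d z6 (a (c z2 z6) (c z2 z6)))) z0))))) z2))) (b (d z0 (a z2 z3)) (d z0 z2))) z2)) (b (d z0 z6) (d z0 z6))) z3))) _ _ (by decide +kernel)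

theorem okB388 : CKB ⟨12288, 24576, 6144, 7168⟩ ⟨4097, 8193, 2048, 4096⟩ :=
  ckB_sound (d (a (c (b z3 (d (a z2 z3) (a z2 z3))) (b (d (a (b z7 (d (c (a (b z7 (d z7 (c (a z6 z7) z7))) z7) z0) (c (a (b (d (c (a (b z7 (d z7 (c z3 z7))) z7) z7) (c z3 z7)) (d (c (a z6 z7) z7) (c (a z2 z3) z7))) z7) z7))) z7) (a (b (d (c (a (b z7 (d (c z3 z7) z3)) z7) z7) (c z3 z7)) (d (c (a (b (d (c z3 z7) z3) (d (c (a z2 z3) z7) (c (a z2 z3) (a z6 z7)))) z7) z7) (c (a (b z3 (d (c z3 (a z6 z7)) (c z3 (a z2 z3)))) z3) z7))) z7)) (d (a z6 z7) (a (b (d (c (a (b (d (c z2 z6) z2) (d (c z2 z6) z2)) (b z7 (d (c z3 z7) z3))) z7) (c (a z2 z3) (a z6 z7))) (d (c (a (b (d (c z2 z6) z2) (d (c z2 z6) z2)) (b (d (c z3 z7) z3) (d (c z2 z6) z2))) z6) (c z2 z6))) (b z7 (d z7 (c z3 z7))))))) z3) (a (c (b z3 (d (a z2 z3) (a z2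 z3))) (b (d (a (b z3 (d (c (a (b z3 (d (c z3 (a z2 z3)) (c z3 (a z2 z3)))) z3) (a (b z7 (d z7 (c (a z6 z7) z7))) z7)) (c (a (b z3 (d (c z3 (a z2 z3)) (c z3 (a z2 z3)))) z3) (a (b (d (c (a (b (d z7 (c z3 z7)) (d (c (a z6 z7) z7) (c z3 z7))) z7) z7) (c z3 z7)) (d (c (a z6 z7) z7) (c (a z2 z3) z7))) z7)))) z3) (a (b z3 (d (c (a (b z3 (d (c z3 (a z2 z3)) z3)) z3) (a (b (d (c z3 z7) (c z3 (a (b (d z7 (c z3 z7)) (d (c (a z6 z7) z7) (c z3 z7))) z7))) (d (c (a z2 z3) (a z6 z7)) (c (a z2 z3) (a z6 z7)))) z3)) (c z3 (a (b z3 (d (c (a z2 z3) (a z2 z3)) (c (a z2 z3) (a z2 z3)))) z3)))) z3)) (d (a (b (d (c (a z2 z3) (a z6 z7)) (c (a z2 z3) (a (b (d z6 (c z2 z6)) z6) (b z7 (d z7 (c z3 z7)))))) z2) z3) (a (b (d (c (a z2 z3) (a z2 z3)) (c (a z2 z3) (a z2 z3))) z2) z3)))) z3)) _ _ (by decide +kernel)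

theorem okB389 : CKB ⟨12288, 24576, 7168, 8192⟩ ⟨4097, 8193, 2048, 4096⟩ :=
  ckB_sound (d (a (c (b (d z2 (a z2 z3)) z2) (b (d z6 (a (b (d (c (a (b (d (c z2 z6) z2) (d (c z2 z6) z2)) (b (d z6 z2) (d z6 z2))) z6) (c z2 z6)) (d (c (a (b (d (c z2 z6) z2) (d (c z2 z6) z2)) (b (d (c z2 z6) z2) (d (c z2 z6) z2))) z6) (c z2 z6))) (b (d z7 (c z3 z7)) (d (c (a (b (d (c z3 z7) z3) (d (c z3 z7) z3)) z7) z7) (c z3 z7))))) (d (a (b (d z6 (c (a (b z6 (d z6 (c z2 z6))) z6) z6)) (d z6 (c (a (b (d z6 (c z2 z6)) (d z6 (c z2 z6))) z6) z6))) z6) (a (b (d (c (a (b (d (c z2 z6) z2) (d (c z2 z6) z2)) (b (d (c z2 z6) z2) (d (c z2 z6) z2))) z6) (c z2 z6)) (d (c (a (b (d (c z2 z6) z2) (d (c z2 z6) z2)) (b (d (c z2 z6) z2) (d (c z2 z6) z2))) z6) (c z2 z6))) (b (d (c (a (b (d z6 z2) (d z6 z2)) (b z7 (d z7 z3))) z7)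 (c (a z2 z3) z7)) (d (c (a (b (d z6 z2) (d z6 z2)) (b (d (c z3 z7) z3) (d (c z3 z7) z3))) z6) (c z2 z6))))))) z3) (a (c (b (d (a z2 z3) (a z2 z3)) z2) (b (d (a z2 z3) (a z2 z3)) z2)) z3)) _ _ (by decide +kernel)

end Vale.Agent.Lib.P154Q5
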