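import Vale.Agent.Lib.P154Q5.CkBDefs

namespace Vale.Agent.Lib.P154Q5

set_option maxRecDepth 100000
set_option exponentiation.threshold 1000

open Tr

theorem okB390 : CKB ⟨12288, 24576, 8192, 9216⟩ ⟨0, 4097, 0, 2048⟩ :=
  ckB_sound (d z0 (a (b (d z0 (a (b (d z2 z2) (d (b (d z0 (a (b z0 z0) z2)) (d z0 (b z0 z0))) (c (b (d (a (b z0 z0) z2) z0) (d (b z0 z0) (c (b z0 z0) z0))) (b z0 (d (c (b z0 z0) z0) z0))))) (b (d z2 z2) (d z2 z2)))) (d z0 (b (d (a (b (d z0 (a (b (d z0 z0) (d z0 z0)) z2)) (d z0 (b (d z0 z0) (d z0 z0)))) (b z2 (d z0 z2))) z2) (d (b (d z0 (b z2 (d z0 (b z0 z0)))) (d z0 (b (d z0 (b z0 z0)) z0))) (c (b (d (b z2 (d z0 z0)) (c (b z2 (d z0 z0)) (b z2 z0))) (d (b (d z0 (b z0 z0)) z0) (c (b (d z0 z0) z0) (b z0 z0)))) (b (d (c (b z2 (d (b z0 z0) z0)) (b z2 z0)) (c (b z2 z0) (b z2 z0)))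 (d (c (b (d (b z0 z0) z0) z0) (b z0 z0)) (c (b z0 z0) (b z0 z0))))))))) (b (d z0 (a (b (d z3 (c (a (b z3 (d z3 z3)) z3) z3)) (d (a z2 z3) (c (a z2 z3) (a z2 z3)))) z3)) (d z0 (a (b (d z2 z2) (d (a (b (d z0 z2) (d z0 z2)) (b z2 (d z0 z2))) z2)) (b (d z3 z3) (d (b (d z0 z3) (d z0 (a z2 z3))) (c (b (d z3 z3) (d (a z2 z3) (a z2 z3))) (b z3 (d (a z2 z3) (a z2 z3))))))))))) _ _ (by decide +kernel)

theorem okB391 : CKB ⟨12288, 24576, 9216, 10240⟩ ⟨0, 4097, 0, 2048⟩ :=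
  ckB_sound (d z0 (b (d z0 (b (d (a (b (d z0 z2) (d z0 z2)) (b (d z0 (a z2 z3)) (d z0 z2))) (a (c (b (d z2 z2) (d z2 z2)) (b z2 z2)) (c (b (d (a z2 z3) (a z2 z3)) (d z2 z2)) z2))) (d (a (b (d z0 (a (b z2 (d z0 (b (d z0 z0) (d z0 z0)))) z2)) (d z0 (b (d z0 (b z2 (d (a (b z0 z0) z2) (c (a (b z0 z0) z2) z0)))) (d z0 (b (d (b z0 z0) (c (b z0 z0) z0)) z0))))) (b (d z0 z2) (d z0 z2))) (c (a (b (d z2 z2) (d (b (d z0 (b z2 (d z0 z0))) (d z0 (b (d z0 z0) z0))) (c (b (d (b z2 z0) (c (b z2 z0) (b z2 z0))) (d (b (d z0 z0) z0) (c (b z0 z0) (b z0 z0)))) (b (d (c (b z2 z0) (b z2 z0)) (c (b z2 z0) (b z2 z0))) (d (c (b z0 z0) (b z0 z0)) (c (b z0 z0) (b z0 z0))))))) (b (d z2 z2) (d z2 z2))) (a (b z2 (d (c (b (d (b z2 (d z0 z0)) (c (b z2 z0) (b z2 z0))) (d (b (d z0 z0) z0) (c (b z0 z0) (b z0 z0)))) (b (d (c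 (b z2 z0) (b z2 z0)) (c (b z2 z0) (b z2 z0))) (d (c (b z0 z0) (b z0 z0)) (c (b z0 z0) (b z0 z0))))) (c (b (d (c (b z2 z0) (b z2 z0)) (c (b z2 z0) (b z2 z0))) (d (c (b z0 z0) (b z0 z0)) (c (b z0 z0) (b z0 z0)))) (b (d (c (b z2 z0) (b z2 z0)) (c (b z2 z0) (b z2 z0))) (d (c (b z0 z0) (b z0 z0)) (c (b z0 z0) (b z0 z0))))))) z2))))) (d z0 (b (d (b (d z0 (b z2 z2)) (d z0 (b (d z0 (b (d (b z0 z0) (c (b z0 z0) z0)) (d (b z0 z0) (c (b z0 z0) z0)))) z0))) (c (b (d (b z2 z2) z2) (d (b (d z0 (b (d (b z0 z0) z0) (d (b z0 z0) z0))) z0) (c (b (d (b (d z0 z0) (d z0 z0)) (c (b (d z0 z0) (d z0 z0)) (b z0 z0))) z0) (b (d (c (b (d z0 z0) (d z0 z0)) (b z0 z0)) (c (b z0 z0) (b z0 z0))) z0)))) (b z2 (d (c (b (d (b (d (b z0 z0) (c (b z0 z0) z0)) (d (b z0 z0) (c (b z0 z0) z0))) (c (b z0 (d (c (b z0 z0) z0) z0)) (b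 z0 z0))) z0) (b (d (c (b z0 z0) (b z0 z0)) (c (b z0 z0) (b z0 z0))) z0)) (c (b (d (c (b z0 z0) (b z0 z0)) (c (b z0 z0) (b z0 z0))) z0) (b (d (c (b z0 z0) (b z0 z0)) (c (b z0 z0) (b z0 z0))) z0)))))) z0)))) _ _ (by decide +kernel)

theorem okB392 : CKB ⟨12288, 24576, 8192, 9216⟩ ⟨0, 2049, 2048, 3072⟩ :=
  ckB_sound (a (b (d z2 z2) (d (b z2 (d z0 (b (d (b z2 z0) (b z2 z0)) (d (b z0 z0) (b z0 z0))))) (c (b z2 (d (b (d z0 (b z2 z0)) (d z0 (b z0 z0))) (c (b (d z0 z0) (d (b z0 z0) (c (b z0 z0) z0))) (b z0 (d (b z0 z0) z0))))) (b z2 (d (b (d (c (b z2 z0) z0) z0) (d (c (b z0 z0) (b z0 z0)) (c (b z0 z0) z0))) (b z0 z0)))))) (b (d (a (b (d z0 (a (b z3 (d z3 z3)) z3)) (d z0 (a z2 z3))) z3) (a (c (b (d (a (b z3 (d z0 z3)) z3) (a (c (b z3 (d z3 z3)) z3) z3)) (d (a z2 z3) (a (c (b (d z2 z2) z2) z2) z3)))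 (b z3 (d (a z2 z3) (a z2 z3)))) z3)) (d (a (b (d z0 (a z2 (b (d (a z2 z3) (a z2 z3)) z2))) (d z0 z2)) (b (d z0 z3) (d z0 (b (d z3 z3) (d (a z2 z3) (a z2 z3)))))) (a (c (b (d (a z2 (b (d z0 (a z2 z3)) z2)) (a z2 (c (b (d (a z2 z3) (c (a z2 z3) z3)) z2) (b z3 z2)))) (d z2 z2)) z2) (c (b z3 (d (b (d z0 z3) (d z0 (a z2 z3))) (c (b (d z3 z3) (d (a z2 z3) (a z2 z3))) (b z3 (d (a z2 z3) (a z2 z3)))))) (b z3 (d (b z3 (d (a z2 z3) (a z2 z3))) (b z3 (d (a z2 z3) z3))))))))) _ _ (by decide +kernel)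

theorem okB393 : CKB ⟨12288, 24576, 8192, 9216⟩ ⟨0, 2049, 3072, 4096⟩ :=
  ckB_sound (a (c (b (d z2 z2) (d (b z2 (d (c (b z0 (d z0 z0)) (b z0 z0)) (c (b z0 z0) (b z0 z0)))) (c (b z2 (d (b z0 z0) (c (b z0 z0) (b z0 z0)))) (b z2 (d (b z0 z0) (b z0 z0)))))) (b z2 (d (b z2 (d (c (b z0 z0) (b z0 z0)) (c (b z0 z0) (b z0 z0)))) (b z2 (d (c (b z0 z0) (b z0 z0)) (c (b z0 z0) (b z0 z0))))))) (c (b (d (a (b (d (a (c (b z3 (d z3 z3)) z3) z3) z3) (d (a (c (b (d z2 (a z2 z3)) z2) z2) z3) (c (a (b (d (c (a z2 z3) z2) (c (a z2 z3) z2)) z2) z3) (a z2 z3)))) z3) (a (c (b z3 (d (a (b (d (c (a z2 z3) z2) (c (a z2 z3) z2)) z2) z3) (a (c (b (d (a z2 z3) (a z2 z3)) z2) (b (d (a z2 z3) (a z2 z3)) z2)) z3))) (b z3 (d (a z2 z3) (a z2 z3)))) z3)) (d (a (b (d (a z2 (c (b (d (a z2 z3) (c (a z2 z3) z3)) z2) (b z3 z2)))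 (c (a z2 (b (d z3 z3) z2)) (a z2 (b z3 z2)))) z2) (b z3 (d (c (b z3 (d (a z2 z3) (a z2 z3))) (b z3 (d (a z2 z3) z3))) (c (b z3 (d (a z2 z3) (a z2 z3))) z3)))) (a (c (b (d (a z2 (b z3 z2)) (a z2 (c (b z3 z2) (b z3 z2)))) z2) (b (d (a z2 (b z3 z2)) (a z2 (b z3 z2))) z2)) (c (b z3 (d z3 z3)) z3)))) (b (d (a (b z3 (d (c (a z2 z3) (a z2 z3)) (c (a z2 z3) (a z2 z3)))) z3) (a (b z3 (d (c (a z2 z3) (a z2 z3)) (c (a z2 z3) (a z2 z3)))) z3)) (d (a z2 z3) (a z2 z3))))) _ _ (by decide +kernel)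

theorem okB394 : CKB ⟨12288, 24576, 9216, 10240⟩ ⟨0, 2049, 2048, 4096⟩ :=
  ckB_sound (d (b (d (b (d z0 (a z2 (b (d (a z2 z3) (a z2 z3)) z2))) (d z0 z2)) (c (b (d (a z2 (b (d z0 (a z2 z3)) (d z0 z2))) (a z2 (c (b (d (a z2 z3) (a z2 z3)) (d z2 z2)) (b (d (a z2 z3) (a z2 z3)) z2)))) (d z2 z2)) (b (d (a z2 (b (d (c (a z2 z3) (a z2 z3)) (c (a z2 z3) (a z2 z3))) z2)) z2) z2))) (d (b (d z0 (b z2 (d (b (d z0 (b z0 z0)) z0) (b (d (b z0 z0) (c (b z0 z0) z0)) z0)))) z0) (c (b (d (b z2 (d z0 (b z0 z0))) (c (b z2 (d (b z0 z0) (c (b z0 z0) (b z0 z0)))) (b z2 (d (b z0 z0) (b z0 z0))))) z0) (b (d (b z2 (d (c (b (d z0 z0) z0) (b z0 z0)) (c (b z0 z0) (b z0 z0)))) (b z2 (d (c (b z0 z0) (b z0 z0)) (c (b z0 z0) (b z0 z0))))) z0)))) (c (b (d (b (d (a z2 (c (b (d (a z2 z3) (a z2 z3)) z2) (b (d (a z2 z3) (a z2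 z3)) z2))) (a z2 (c (b (d (a z2 z3) (a z2 z3)) z2) (b (d (a z2 z3) z3) z2)))) z2) (c (b (d (a z2 (b (d (a z2 z3) z3) z2)) (a z2 (c (b z3 z2) (b z3 z2)))) z2) (b (d (a z2 (b z3 z2)) (a z2 (b z3 z2))) z2))) (d (b (d (c (b z2 (d (b z0 z0) (c (b z0 z0) (b z0 z0)))) (b z2 (d (b z0 z0) (b z0 z0)))) (c (b z2 (d (c (b z0 z0) z0) z0)) (b z2 z0))) z0) (c (b (d (b z2 z0) (c (b z2 z0) (b z2 z0))) z0) (b (d (b z2 z0) (b z2 z0)) z0)))) (b z2 (d (b (d (c (b z2 (d (c (b z0 z0) (b z0 z0)) (c (b z0 z0) (b z0 z0)))) (b z2 (d (c (b z0 z0) (b z0 z0)) z0))) (c (b z2 z0) (b z2 z0))) z0) (b (d (c (b z2 z0) (b z2 z0)) (c (b z2 z0) (b z2 z0))) z0))))) _ _ (by decide +kernel)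

theorem okB395 : CKB ⟨12288, 24576, 8192, 9216⟩ ⟨2049, 4097, 2048, 4096⟩ :=
  ckB_sound (d (a (b z2 (d (c (b z2 (d (b (d (b z2 z0) (c (b z2 z0) (b z2 z0))) (d (b (d z0 z0) z0) (c (b z0 z0) (b z0 z0)))) (c (b (d (c (b z2 z0) (b z2 z0)) z0) (d (c (b z0 z0) (b z0 z0)) (c (b z0 z0) (b z0 z0)))) (b (d (c (b z2 z0) (b z2 z0)) z0) (d (c (b z0 z0) (b z0 z0)) (c (b z0 z0) (b z0 z0))))))) (b z2 (d (c (b (d (c (b z2 z0) (b z2 z0)) (c (b z2 z0) (b z2 z0))) (d (c (b z0 z0) (b z0 z0)) (c (b z0 z0) (b z0 z0)))) (b (d (c (b z2 z0) (b z2 z0)) (c (b z2 z0) (b z2 z0))) (d (c (b z0 z0) (b z0 z0)) (c (b z0 z0) (b z0 z0))))) (c (b z0 (d (c (b z0 z0) (b z0 z0)) (c (b z0 z0) z0))) (b z0 (d (c (b z0 z0) (b z0 z0)) z0)))))) (c (b z2 (d (c (b z0 (d (c (b z0 z0) (b z0 z0)) z0)) (b z0 z0)) (c (b z0 z0) (b z0 z0))))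 (b z2 (d (c (b z0 z0) (b z0 z0)) (c (b z0 z0) (b z0 z0))))))) (b (d (c (a (b (d (a (b z3 (d z3 z3)) z3) z3) (d (a z2 z3) (c (a z2 z3) (a z2 z3)))) z3) (a (b z3 (d (c (a z2 z3) (a z2 z3)) (c (a z2 z3) (a z2 z3)))) z3)) (c (a (b z3 (d (c (a z2 z3) (a z2 z3)) (c (a z2 z3) (a z2 z3)))) z3) (a (b z3 (d (c (a z2 z3) (a z2 z3)) (c (a z2 z3) (a z2 z3)))) z3))) (d (c (a (b (d z2 z2) (d z2 z2)) (b z3 (d (b (d z3 z3) (d (a z2 z3) (a z2 z3))) (c (b z3 (d (a z2 z3) (a z2 z3))) (b z3 (d (a z2 z3) (a z2 z3))))))) z2) (c (a z2 (b z3 (d (c (b z3 (d (a z2 z3) (a z2 z3))) z3) z3))) (a z2 z3))))) (a (b z2 (d (c (b z2 (d (c (b z0 z0) (b z0 z0)) (c (b z0 z0) (b z0 z0)))) (b z2 (d (c (b z0 z0) (b z0 z0)) (c (b z0 z0) (b z0 z0))))) (c (b z2 (d (c (b z0 z0) (b z0 z0)) (c (b z0 z0) (b z0 z0)))) (b z2 (d (c (b z0 z0)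 (b z0 z0)) (c (b z0 z0) (b z0 z0))))))) (b (d (c (a (b z3 (d (c (a z2 z3) (a z2 z3)) (c (a z2 z3) (a z2 z3)))) z3) (a (b z3 (d (c (a z2 z3) (a z2 z3)) (c (a z2 z3) z3))) z3)) (c (a (b z3 (d (c (a z2 z3) (a z2 z3)) (c (a z2 z3) z3))) z3) z3)) (d (c (a z2 z3) (a z2 z3)) (c (a z2 z3) (a z2 z3)))))) _ _ (by decide +kernel)

theorem okB396 : CKB ⟨12288, 24576, 9216, 10240⟩ ⟨2049, 4097, 2048, 4096⟩ :=
  ckB_sound (d (b (d (c (b (d (a (b z2 z2) z2) z2) (d (a (b z2 (d (b (d (b z2 z0) (c (b z2 z0) (b z2 z0))) (d (b z0 z0) (c (b z0 z0) (b z0 z0)))) (c (b (d (b z2 z0) (c (b z2 z0) (b z2 z0))) (d (b z0 z0) (c (b z0 z0) (b z0 z0)))) (b (d (c (b z2 z0) (b z2 z0)) z0) (d (c (b z0 z0) (b z0 z0)) (c (b z0 z0) z0)))))) z2) z2)) (b z2 z2)) z2) (d (c (b (d (b (d z2 z2) (d (b (d (b z0 z0) (c (b z0 z0) (b z0 z0)))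 z0) (c (b (d (b z0 z0) (c (b z0 z0) (b z0 z0))) z0) (b (d (c (b z0 z0) (b z0 z0)) (c (b z0 z0) (b z0 z0))) z0)))) (c (b z2 (d (c (b (d (b z0 z0) (c (b z0 z0) (b z0 z0))) z0) (b (d (c (b z0 z0) (b z0 z0)) (c (b z0 z0) z0)) z0)) (c (b z0 z0) (b z0 z0)))) (b z2 (d (c (b (d (c (b z0 z0) (b z0 z0)) z0) z0) (b z0 z0)) (c (b z0 z0) (b z0 z0)))))) z0) (b (d (c (b z2 (d (c (b (d (c (b z0 z0) (b z0 z0)) (c (b z0 z0) (b z0 z0))) z0) (b (d (c (b z0 z0) (b z0 z0)) (c (b z0 z0) (b z0 z0))) z0)) (c (b (d (c (b z0 z0) (b z0 z0)) (c (b z0 z0) z0)) z0) (b (d (c (b z0 z0) (b z0 z0)) z0) z0)))) (b z2 (d (c (b (d (c (b z0 z0) (b z0 z0)) (c (b z0 z0) (b z0 z0))) z0) (b (d (c (b z0 z0) (b z0 z0)) z0) z0)) (c (b z0 z0) (b z0 z0))))) (c (b z2 (d (c (b z0 z0) (b z0 z0)) (c (b z0 z0) (b z0 z0)))) (b z2 (d (c (b z0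 z0) (b z0 z0)) (c (b z0 z0) (b z0 z0)))))) z0)) (c (b (d (c (b z2 (d (c (b z0 z0) (b z0 z0)) (c (b z0 z0) (b z0 z0)))) (b z2 (d (c (b z0 z0) (b z0 z0)) (c (b z0 z0) (b z0 z0))))) (c (b z2 (d (c (b z0 z0) (b z0 z0)) (c (b z0 z0) (b z0 z0)))) (b z2 (d (c (b z0 z0) (b z0 z0)) (c (b z0 z0) (b z0 z0)))))) z0) (b (d (c (b z2 (d (c (b z0 z0) (b z0 z0)) (c (b z0 z0) (b z0 z0)))) (b z2 (d (c (b z0 z0) (b z0 z0)) (c (b z0 z0) (b z0 z0))))) (c (b z2 (d (c (b z0 z0) (b z0 z0)) (c (b z0 z0) z0))) (b z2 (d (c (b z0 z0) (b z0 z0)) z0)))) z0)))) (b z2 (d (c (b (d (c (b z2 (d (c (b z0 z0) (b z0 z0)) z0)) (b z2 z0)) (c (b z2 z0) (b z2 z0))) z0) (b (d (c (b z2 z0) (b z2 z0)) (c (b z2 z0) (b z2 z0))) z0)) (c (b (d (c (b z2 z0) (b z2 z0)) (c (b z2 z0) (b z2 z0))) z0) (b (d (c (b z2 z0) (b z2 z0)) (c (b z2 z0)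 (b z2 z0))) z0))))) _ _ (by decide +kernel)

theorem okB397 : CKB ⟨12288, 24576, 10240, 12288⟩ ⟨0, 4097, 0, 4096⟩ :=
  ckB_sound z0 _ _ (by decide +kernel)

theorem okB398 : CKB ⟨12288, 24576, 8192, 9216⟩ ⟨4097, 8193, 0, 1024⟩ :=
  ckB_sound z0 _ _ (by decide +kernel)

theorem okB399 : CKB ⟨12288, 15360, 8192, 8448⟩ ⟨4097, 6145, 1024, 1280⟩ :=
  ckB_sound z0 _ _ (by decide +kernel)

theorem okB400 : CKB ⟨12288, 13824, 8192, 8448⟩ ⟨4097, 5473, 1280, 1536⟩ :=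
  ckB_sound (b (d (a (b (d z0 (a (b (d (a (b z0 z0) z0) z0) (d (b z0 z0) z0)) z0)) (d z0 (b (d (a (b z0 z0) z0) z0) (d (b z0 z0) z0)))) (b (d z0 z2) (d z0 z2))) (a (c (b (d (a (b z0 z0) z0) z0) (d (b z0 z0) z0)) (b (d (a (c (b z0 z0) (b z0 z0)) z0) z0) (d (c (b z0 z0) (b z0 z0)) (c z0 (b z0 z0))))) z2)) (d (b (d z0 (a (b (d (a (b z0 z0) z0) z0) (d (b z0 z0) z0)) z0)) (d z0 (b (d (a (b z0 z0) z0) z0) (d (b z0 z0) z0)))) (c (b (d (a (b z0 z0) z0) z0) (d (b z0 z0) z0)) (b (d (a (c (b z0 z0) (b z0 z0)) z0) (a (c z0 (b z0 z0)) z0)) (d (c (b z0 z0) (b z0 z0)) (c z0 (b z0 z0))))))) _ _ (by decide +kernel)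

theorem okB401 : CKB ⟨12288, 13824, 8192, 8448⟩ ⟨5473, 6145, 1280, 1536⟩ :=
  ckB_sound (b (d (a (c (b (d z0 (a (c (b (d (a (c (b z4 z4) z0) z4) (a (c (b z4 z4) z0) z4)) (d (c (b z4 z4) z0) (c (b z4 z4) z0))) z0) z4)) (d z0 (c (b (d (a (c (b z4 z4) z0) z4) (a (c (b z4 z4) z0) z4)) (d (c (b z4 z4) z0) (c (b z4 z4) z0))) z0))) z0) (c (b (d z0 z6) (d z0 z6)) z0)) (a (c (b (d (a (c (b (d (a (c (b (d (a (c z0 z4) z4) (a (c z0 z4) z4)) (d (c z0 z4) (c z0 z4))) z4) z4) (a (c z0 z4) (c z0 z4))) (d (c (b (d (a (c z0 z4) z4) (a (c z0 z4) z4)) (d (c z0 z4) (c z0 z4))) z4) (c z0 z4))) z0) (c (b (d z4 (a (c z0 z4) z6)) (d z4 (a (c z0 z4) (c z0 z4)))) z0)) (a (c (b z0 z0) z4) (c z0 z4))) (d (c (b (d (a (c (b (d (a (c z0 z4) z4) (a (c z0 z4) z4)) (d (c z0 z4) (c z0 z4))) z4) z4) (a (c z0 z4) (c z0 z4)))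 (d (c (b (d (a (c z0 z4) z4) (a (c z0 z4) z4)) (d (c z0 z4) (c z0 z4))) z4) (c z0 z4))) z0) (c (b z0 z0) z4))) z0) (c (b (d z6 (a (c z2 z6) (c z2 z6))) (d (a (c (b (d z4 (a (c z0 z4) z6)) (d z4 (a (c z0 z4) (c z0 z4)))) z0) z6) (a (c z0 z4) (c z2 z6)))) z0))) (d (c (b (d z0 (a (c (b (d (a (c (b z4 z4) z0) z4) (a (c (b z4 z4) z0) z4)) (d (c (b z4 z4) z0) (c (b z4 z4) z0))) z0) z4)) (d z0 (c (b (d (a (c (b z4 z4) z0) z4) (a (c (b z4 z4) z0) z4)) (d (c (b z4 z4) z0) (c (b z4 z4) z0))) z0))) z0) (c (b (d (a (c (b (d (a (c (b (d (a (c z0 z4) z4) (a (c z0 z4) z4)) (d (c z0 z4) (c z0 z4))) z4) z4) (a (c z0 z4) (c z0 z4))) (d (c (b (d (a (c z0 z4) z4) (a (c z0 z4) z4)) (d z4 (c z0 z4))) z4) (c z0 z4))) z0) (c (b (d z4 (a (c z0 z4) z6)) (d z4 (a (c z0 z4) (c z0 z4)))) z0)) (a (c (b z0 z0) z4) (c z0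 z4))) (d (c (b (d (a (c (b (d z4 (a (c z0 z4) z4)) (d z4 (c z0 z4))) z4) z4) (a (c z0 z4) (c z0 z4))) (d (c (b (d z4 (c z0 z4)) (d z4 (c z0 z4))) z4) (c z0 z4))) z0) (c (b z0 z0) z4))) z0))) _ _ (by decide +kernel)

theorem okB402 : CKB ⟨13824, 15360, 8192, 8448⟩ ⟨4097, 6145, 1280, 1536⟩ :=
  ckB_sound (c (b (d (a (b z2 (d z0 z2)) z2) z2) (d (a (b (d z0 z2) (d z0 z2)) (b z2 (d z0 z2))) z2)) (b (d z6 (a (c (b (d z6 (a (c z2 z6) z6)) (d z6 (a (c z2 z6) (c z2 z6)))) z0) z6)) (d (a (c (b (d z0 z6) (d z0 z6)) z0) z6) (a (c (b (d z6 (a (c z2 z6) (c z2 z6))) (d (a (c (b (d z4 (a (c z0 z4) z6)) (d z4 (a (c z0 z4) (c z0 z4)))) z0) z6) (a (c z0 z4) (c z2 z6)))) z0) (c (b z6 (d z6 (a (c z2 z6) z6))) z0))))) _ _ (by decide +kernel)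

theorem okB403 : CKB ⟨12288, 15360, 8448, 8704⟩ ⟨4097, 6145, 1024, 1280⟩ :=
  ckB_sound z0 _ _ (by decide +kernel)

theorem okB404 : CKB ⟨12288, 15360, 8448, 8704⟩ ⟨4097, 5473, 1280, 1536⟩ :=
  ckB_sound (b (d (a (b (d z0 (a (b (d (a (b z0 z0) z0) z0) (d (b z0 z0) z0)) z0)) (d z0 (b (d (a (b z0 z0) z0) z0) (d (b z0 z0) (c (b z0 z0) z0))))) (b (d z0 z2) (d z0 z2))) (a (c (b (d (a (b z0 z0) z0) (a (c (b z0 z0) z0) z0)) (d (b z0 z0) (c (b z0 z0) z0))) (b (d (a (c (b z0 z0) (b z0 z0)) z0) (a (c z0 (b z0 z0)) z0)) (d (c (b z0 z0) (b z0 z0)) (c (b z0 z0) (b z0 z0))))) z2)) (d (b (d z0 (a (b (d (a (b z0 z0) z0) (c (a (b z0 z0) z0) z0)) (d (b z0 z0) (c (b z0 z0) z0))) (b z0 (d z0 z0)))) (d z0 (b (d (b z0 z0) (c (b z0 z0) z0)) (d (b z0 z0) (c (b z0 z0) z0))))) (c (b (d (a (b z0 z0) z0) (c (a (b z0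 z0) z0) (a (b z0 z0) z0))) (d (b (d z0 z0) (d z0 z0)) (c (b z0 z0) (b z0 z0)))) (b (d (c (a (b z0 z0) z0) (a (b z0 z0) z0)) (c (a (b z0 z0) z0) (a (b z0 z0) z0))) (d (c (b z0 z0) (b z0 z0)) (c (b z0 z0) (b z0 z0))))))) _ _ (by decide +kernel)

end Vale.Agent.Lib.P154Q5
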