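import Vale.Agent.Lib.P154Q5.CkBDefs

namespace Vale.Agent.Lib.P154Q5

set_option maxRecDepth 100000
set_option exponentiation.threshold 1000

open Tr

theorem okB405 : CKB ⟨12288, 15360, 8448, 8704⟩ ⟨5473, 6145, 1280, 1536⟩ :=
  ckB_sound (b (d (a (c (b (d z0 (a (c (b (d (a (c (b z4 z4) z0) z4) (a (c (b z4 z4) z0) z4)) (d (c (b z4 z4) z0) (c (b z4 z4) z0))) z0) z4)) (d z0 (c (b (d (a (c (b z4 z4) z0) z4) (a (c (b z4 z4) z0) z4)) (d (c (b z4 z4) z0) (c (b z4 z4) z0))) z0))) z0) (c (b (d z0 z6) (d z0 z6)) z0)) (a (c (b (d (a (c (b (d (a (c (b (d z4 (a (c z0 z4) z4)) (d z4 (c z0 z4))) z4) z4) (a (c z0 z4) (c z0 z4))) (d (c (b (d z4 (a (c z0 z4) z4)) (d z4 (c z0 z4))) z4) (c z0 z4))) z0) (c (b z6 (d z4 (a (c z0 z4) z4))) z0)) (a (c (b z0 z0) z4) (c z0 z4))) (d (c (b (d (a (c (b (d z4 (a (c z0 z4)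 z4)) (d z4 (c z0 z4))) z4) z4) (a (c z0 z4) (c z0 z4))) (d (c (b (d z4 (c z0 z4)) (d z4 (c z0 z4))) z4) (c z0 z4))) z0) (c (b z0 z0) z4))) z0) (c (b (d z6 (a (c z2 z6) (c z2 z6))) (d (a (c (b z4 (d (a (c (b z4 (d z4 (a (c z0 z4) z4))) z4) z4) (a (c z0 z4) z4))) z0) z6) (a (c z0 z4) (c z2 z6)))) z0))) (d (c (b (d z0 (c (a (b (d (c (a (b z4 z4) z4) z0) (c (a (b z4 z4) z4) z0)) (d (c (b z4 z4) z0) (c (b z4 z4) z0))) z4) z0)) (d z0 (c (b (d (c (b z4 z4) z0) (c (b z4 z4) z0)) (d (c (b z4 z0) z0) (c (b z4 z0) z0))) z0))) z0) (c (b (d (c (a (b (d (c (a (b (d z4 (c z0 z4)) (d z4 (c z0 z4))) z4) z4) (c z0 z4)) (d (c (b (d z4 (c z0 z4)) (d z4 (c z0 z4))) z4) (c z0 z4))) (b z4 (d (c (a (b z4 (d z4 (c z0 z4))) z4) z4) (c z0 z4)))) z0) (c (a (b z0 z0) z0) z4)) (d (c (b (d (c (b (d z4 (a (c z0 z4) z4)) (d z4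 (c z0 z4))) z4) (c z0 z4)) (d (c (b (d z4 (c z0 z4)) z0) z4) (c z0 z4))) z0) (c (b z0 z0) z4))) z0))) _ _ (by decide +kernel)

theorem okB406 : CKB ⟨15360, 18432, 8192, 8704⟩ ⟨4097, 6145, 1024, 1536⟩ :=
  ckB_sound (b (d z0 (a (c (b z2 (d z2 z2)) z6) z2)) (d z0 (a (c (b (d (a (b z2 (d z0 z2)) z2) z2) (d (a (b (d z0 z2) (d z0 z2)) (b z2 (d z0 z2))) z2)) (b (d z6 (a (c (b z6 (d z6 (a (c z2 z6) z6))) z0) z6)) (d (a (c (b (d z0 z6) (d z0 z6)) z0) z6) (a (c (b (d z6 (a (c z2 z6) (c z2 z6))) (d (a (c (b z4 (d (a (c (b z4 (d z4 (c z0 z4))) z4) z4) (a (c z0 z4) z4))) z0) z6) (a (c z0 z4) (c z2 z6)))) z0) (c (b z6 (d z6 (a (c z2 z6) z6))) z0))))) (c (b z2 (d z2 z2)) z6)))) _ _ (by decide +kernel)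

theorem okB407 : CKB ⟨12288, 18432, 8192, 8704⟩ ⟨4097, 6145, 1536, 2048⟩ :=
  ckB_sound (a (c (b z2 (d (c (b (d (a (b z0 (d z0 z0)) z2) (a (c (b z0 z0) (b z0 z0)) z2)) (d (b (d z0 z0) (d (b z0 z0) z0)) (c (b z0 z0) (b z0 z0)))) (b (d (a (b z0 z0) z2) (a (b z0 z0) z2)) (d (b z0 z0) (b z0 z0)))) (c (b z0 (d (c z0 (b z0 z0)) z0)) (b z0 (d (b z0 z0) z0))))) (b (d (a (b (d (c (a (b z0 (d (c z0 (b z0 z0)) z0)) z2) (a (b (d z4 (c (a (b z4 z4) z4) z0)) (d z4 (c (b z4 z4) z0))) z6)) (c (a (b z0 z0) z2) (a (b (d (c (a (b (d (c z0 z4) (c z0 z4)) (d (c z0 z4) (c z0 z4))) (b z4 (d z4 (c z0 z4)))) z4) (c z0 z4)) (d (c (b (d (c z0 z4) (c z0 z4)) (d (c z0 z4) (c z0 z4))) z4) (c z0 z4))) (b (d z6 (c z2 z6)) (d z6 (c z2 z6)))))) (d (c (b (d (c z0 (a (b z0 z0) z0)) z0) (d (c z0 (b z0 z0)) z0)) (b (d z4 (c (a (b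 z4 z4) z4) z0)) (d z4 (c (b z4 z4) z0)))) (c (b z0 z0) (b (d (c (a (b (d (c z0 z4) (c z0 z4)) (d (c z0 z4) (c z0 z4))) z4) z4) (c z0 z4)) (d (c (b (d (c z0 z4) (c z0 z4)) (d (c z0 z4) (c z0 z4))) z4) (c z0 z4)))))) z2) z2) (d (b (d (c (a (b (d (c z0 (a (b z0 z0) z0)) z0) (d (c z0 (b z0 z0)) z0)) z2) (a (b (d z4 (c (a (b z4 z4) z4) z0)) (d z4 (c (b z4 z4) z0))) z6)) (c (a (b z0 z0) z2) (a (b (d (c (a (b (d (c z0 z4) (c z0 z4)) (d (c z0 z4) (c z0 z4))) z4) z4) (c z0 z4)) (d (c (b (d (c z0 z4) (c z0 z4)) (d (c z0 z4) (c z0 z4))) z4) (c z0 z4))) (b (d z6 (c z2 z6)) (d z6 (c z2 z6)))))) (d (c (b (d (c z0 (a (b z0 z0) z0)) z0) (d (c z0 (b z0 z0)) z0)) (b (d z4 (c (a (b z4 z4) z4) z0)) (d z4 (c (b z4 z4) z0)))) (c (b z0 z0) (b (d (c (a (b (d (c z0 z4) (c z0 z4)) (d (c z0 z4) (c z0 z4))) z4) z4) (c z0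 z4)) (d (c (b (d (c z0 z4) (c z0 z4)) (d (c z0 z4) (c z0 z4))) z4) (c z0 z4)))))) (b (d (c (a (b z0 z0) z2) (a (b (d (c z0 z4) (c z0 z4)) (d (c z0 z4) (c z0 z4))) (b (d (c z2 z6) (c z2 z6)) (d (c z2 z6) (c z2 z6))))) (c z0 (a (b z0 z0) z2))) (d (c (b z0 z0) (b (d (c z0 z4) (c z0 z4)) (d (c z0 z4) (c z0 z4)))) (c z0 (b z0 z0))))))) z2) _ _ (by decide +kernel)

theorem okB408 : CKB ⟨12288, 18432, 8704, 8960⟩ ⟨4097, 6145, 1024, 1280⟩ :=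
  ckB_sound z0 _ _ (by decide +kernel)

theorem okB409 : CKB ⟨12288, 18432, 8704, 8960⟩ ⟨4097, 5473, 1280, 1536⟩ :=
  ckB_sound (a (b (d (a (b (d z0 (a (b (d (a (b z0 z0) z0) (c (a (b z0 z0) z0) z0)) (d (b z0 z0) (c (b z0 z0) z0))) z0)) (d z0 (b (d (b z0 z0) (c (b z0 z0) z0)) (d (b z0 z0) (c (b z0 z0) z0))))) (b (d z0 z2) (d z0 z2))) (c (a (b (d (a (b (d z0 z0) (d z0 z0)) z0) (c (a (b z0 z0) z0) (a (b z0 z0) z0))) (d (b (d z0 z0) (d z0 z0)) (c (b z0 z0) (b z0 z0)))) z2) (a (b (d (a (c (b z0 z0) (b z0 z0)) z0) (a (c (b z0 z0) (b z0 z0)) z0)) (d (c (b z0 z0) (b z0 z0)) (c (b z0 z0) (b z0 z0)))) z2))) (d (b (d z0 (b (d (a (b z0 z0) z2) (a (c (b z0 z0) z0) z2)) (d (a (b z0 z0) z0) (c (a (b z0 z0) z0) z0)))) (d z0 (b (d (b z0 z0) (c (b z0 z0) z0)) z0))) (c (b (d (b (d z0 z0) (d z0 z0)) (c (b z0 z0)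 (b z0 z0))) (d (b (d z0 z0) z0) (c (b z0 z0) (b z0 z0)))) (b (d (c (b (d z0 z0) (d z0 z0)) (b z0 z0)) (c (b z0 z0) (b z0 z0))) (d (c (b (d z0 z0) z0) (b z0 z0)) (c (b z0 z0) (b z0 z0))))))) (b (d (a (b z2 (d z0 z2)) z2) z2) (d (a (b (d z0 z2) (d z0 (a (b (d z0 z0) (d (b z0 z0) (c (b z0 z0) z0))) z2))) (b z2 (d z0 z2))) (c (a (b z2 (d (a (b z0 (d z0 z0)) z2) (c (a (b z0 (d z0 z0)) z2) (a (b z0 z0) z2)))) z2) z2)))) _ _ (by decide +kernel)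

theorem okB410 : CKB ⟨12288, 18432, 8704, 8960⟩ ⟨5473, 6145, 1280, 1536⟩ :=
  ckB_sound (a (b (d (a (c (b (d z0 (a (c (b (d (a (c (b z4 z4) z0) z4) (a (c (b z4 z4) z0) z4)) (d (c (b z4 z4) z0) (c (b z4 z4) z0))) z0) z4)) (d z0 (c (b (d (c (b z4 z4) z0) (c (b z4 z4) z0)) (d (c (b z4 z0) z0) (c (b z4 z0) z0))) z0))) z0) (c (b z6 (d z0 z6)) z0)) (a (c (b (d (a (c (b (d (a (c (b (d z4 (a (c z0 z4) z4)) (d z4 (c z0 z4))) z4) z4) (a (c z0 z4) (c z0 z4))) (d (c (b (d z4 (c z0 z4)) (d z4 (c z0 z4))) z4) (c z0 z4))) z0) (c (b z6 (d z4 (a (c z0 z4) z4))) z0)) (a (c (b z0 z0) z4) (c z0 z4))) (d (c (b (d (c (b (d z4 (a (c z0 z4) z4)) (d z4 (c z0 z4))) z4) (c z0 z4)) (d (c (b z4 z0) z4) (c z0 z4))) z0) (c (b z0 z0) z4))) z0) (c (b (d z6 (a (c z2 z6) z6)) (d z6 (a (c z0 z4) (c z2 z6)))) z0))) (d (c (b (d z0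 (c (b (d (a (c (b z4 z4) z0) z6) (a (c (b z4 z4) z0) z6)) (d (c (a (b z4 z4) z4) z0) (c (a (b z4 z4) z4) z0))) z0)) (d z0 (c (b (d (c (b z4 z4) z0) (c (b z4 z4) z0)) z0) z0))) z0) (c (b (d (c (b (d (a (c (b z4 z4) z4) z6) (a (c z0 z4) z6)) (d (c (a (b z4 z4) z4) z4) (c z0 z4))) z0) (c (b z0 z0) z4)) (d (c (b (d (c (b z4 z4) z4) (c z0 z4)) z0) z0) (c (b z0 z0) z4))) z0))) (b z6 (d (c (a (b (d z0 z6) (d z0 (c (a (b z4 (d (c (b z4 z4) z0) (c (b z4 z4) z0))) z6) z0))) z6) z0) (c (a (b (d z6 (c z2 z6)) (d (c (a (b (d z4 (c z0 z4)) (d (c (b z4 z4) z4) (c z0 z4))) z6) z0) (c z0 z4))) z6) z0)))) _ _ (by decide +kernel)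

theorem okB411 : CKB ⟨12288, 18432, 8960, 9216⟩ ⟨4097, 6145, 1024, 1536⟩ :=
  ckB_sound (d z0 (c (b (d (b (d z0 z2) (d z0 (b (d (a (b z0 z0) z2) (a (c (b z0 z0) z0) z2)) (d (a (b z0 z0) z0) (c (a (b z0 z0) z0) z0))))) (c (b (d z2 z2) (d (b (d z0 z0) (d z0 z0)) (c (b (d z0 z0) (d z0 z0)) (b z0 z0)))) (b z2 (d (c (b (d (a (b z0 z0) z2) z0) (d (a (b z0 z0) z0) z0)) (b z0 z0)) (c (b z0 z0) (b z0 z0)))))) (d (b (d z0 (b (d (b z0 z0) (c (b z0 z0) z0)) z0)) z0) (c (b (d (b (d z0 z0) z0) (c (b (d z0 z0) z0) (b z0 z0))) z0) (b (d (c (b (d (b z0 z0) z0) z0) (b z0 z0)) (c (b z0 z0) (b z0 z0))) z0)))) (b (d (c (b (d z0 z6) (d z0 (c (b (d (a (c (b z4 z4) z0) z6) (a (c (b z4 z4) z0) z6)) (d (a (c (b z4 z4) z0) z4) (a (c (b z4 z4) z0) z4))) z0))) z0) (c (b (d (a (c (b (d (a (c (b z4 z4) z4) z6) (a (c z0 z4)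 z6)) (d (c (b z4 z4) z4) (c z0 z4))) z0) z6) (a (c (b z0 z0) z4) (c z2 z6))) (d (c (b (d (a (c (b z4 z4) z4) z6) (a (c z0 z4) z6)) (d (a (c (b z4 z4) z4) z4) (a (c z0 z4) z4))) z0) (c (b z0 z0) z4))) z0)) (d (c (b (d z0 (c (b (d (c (b z4 z4) z0) (c (b z4 z4) z0)) z0) z0)) z0) z0) (c (b (d (c (b (d (c (b z4 z4) z4) (c z0 z4)) z0) z0) (c (b z0 z0) z4)) z0) z0))))) _ _ (by decide +kernel)

theorem okB412 : CKB ⟨12288, 18432, 8704, 9216⟩ ⟨4097, 6145, 1536, 2048⟩ :=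
  ckB_sound (c (b (d (a (c (b (d (a (b (d (a (b z0 z0) z0) z0) (d (b z0 z0) (c (b z0 z0) z0))) z2) (a (c (b z0 z0) (b z0 z0)) z2)) (d (b (d (b z0 z0) (c (b z0 z0) z0)) (d (b z0 z0) (c (b z0 z0) (b z0 z0)))) (c (b z0 (d (b z0 z0) z0)) (b z0 z0)))) (b (d (a (b (d (c (a (b z0 z0) z0) z0) z0) (d (c (b z0 z0) z0) z0)) z2) (a (b z0 z0) z2)) (d (b (d (c (b z0 z0) (b z0 z0)) z0) (d (c (b z0 z0) (b z0 z0)) z0)) (b z0 z0)))) z2) z2) (d (c (b (d (b z2 (d (b z0 z0) (c (b z0 z0) (b z0 z0)))) (c (b z2 (d (b z0 z0) z0)) (b z2 z0))) (d (b (d (b z0 z0) (c (b z0 z0) (b z0 z0))) z0) (c (b (d (b z0 z0) z0) z0) (b (d (b z0 z0) z0) z0)))) (b (d (b z2 (d (c (b z0 z0) (b z0 z0)) (c (b z0 z0) (b z0 z0)))) (b z2 z0)) (d (b (d (c (b z0 z0) (b z0 z0)) (c (b z0 z0) (b z0 z0))) z0) (b (d (c (b z0 z0) z0) z0) z0)))) (c (b (d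 (c (b z2 z0) (b z2 z0)) (c (b z2 z0) (b z2 z0))) (d (c (b z0 z0) (b z0 z0)) (c (b z0 z0) (b z0 z0)))) (b (d (b z2 z0) (b z2 z0)) (d (b z0 z0) (b z0 z0)))))) (b z2 (d (b (d (c (b z2 (d (c (b z0 z0) (b z0 z0)) z0)) (b z6 (d z4 (c (b z4 z4) z0)))) (c (b z2 z0) (b z6 (d (c (b (d z4 (a (c z0 z4) z6)) (d z4 (c z0 z4))) z4) (c z0 z4))))) (d (c (b (d (c (b z0 z0) (b z0 z0)) (c (b z0 z0) z0)) z0) (b (d z4 (c (b z4 z0) z0)) z0)) (c (b z0 z0) (b (d (c (b (d z4 (c z0 z4)) z0) z4) (c z0 z4)) z0)))) (b (d (c (b z2 z0) (b (d (c z2 z6) (c z2 z6)) (d (c z0 z4) (c z0 z4)))) (c (b z2 z0) (b z2 z0))) (d (c (b z0 z0) (b (d (c z0 z4) (c z0 z4)) z0)) (c (b z0 z0) (b z0 z0))))))) _ _ (by decide +kernel)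

theorem okB413 : CKB ⟨12288, 18432, 8192, 9216⟩ ⟨6145, 8193, 1024, 2048⟩ :=
  ckB_sound (b (d z0 z6) (d z0 (b z6 (d z0 (c (b z4 z4) z0))))) _ _ (by decide +kernel)

theorem okB414 : CKB ⟨18432, 24576, 8192, 9216⟩ ⟨4097, 8193, 1024, 2048⟩ :=
  ckB_sound (c (b (d (a (b (d z0 z3) (d z0 (c (a z2 z3) (a z6 z7)))) z3) (a (c (b z3 (d (a z2 z3) (a z2 z3))) (b z3 (d (a z2 z3) (a z2 z3)))) z3)) (d (a (b (d z0 (c (a (b z2 (d z2 z2)) (b (d z3 z3) z2)) z6)) (d z0 (c (a (b (d (a (b z2 (d z0 z2)) z2) z2) (d (a (b (d z0 z2) (d z0 (b (d (a (b z0 z0) z2) (a (c (b z0 z0) z0) z2)) (d (b z0 z0) (c (b z0 z0) z0))))) (b z2 (d z0 z2))) (c (a (b (d z2 z2) (d (b (d z0 (a (b z0 z0) z2)) (d z0 (b z0 z0))) (c (b (d z0 z0) (d z0 z0)) (b z0 z0)))) z2) z2))) (b (d z2 z2) (d z2 z2))) (a (b (d z6 (c (a (b z6 (d z6 (c z2 z6)))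 z6) z0)) (d (c (a (b (d z0 z6) (d z0 (c (b (d (a (c (b z4 z4) z0) z6) (a (c (b z4 z4) z0) z6)) (d (c (b z4 z4) z0) (c (b z4 z4) z0))) z0))) z6) z0) (c (a (b (d z6 (c z2 z6)) (d (c (b (d (a (c (b z4 z4) z4) z6) (a (c z0 z4) z6)) (d (c (b z4 z4) z4) (c z0 z4))) z0) (c (b z0 z0) z4))) (b z6 (d z6 (c z2 z6)))) z0))) z6)))) (b z3 (d z0 (c (b (d z3 z3) (d (a z2 z3) (a z2 z3))) (b z7 (d (a z6 z7) (a z6 z7))))))) (a (c (b z2 (d (a (c (b z2 (d z2 z2)) z2) z2) z2)) z2) (c (b z3 (d (c (b z3 (d (a z2 z3) (a z2 z3))) (b z3 (d (a z2 z3) (a z2 z3)))) (c (b z3 (d (a z2 z3) (a z2 z3))) z3))) z3)))) (b (d z0 z7) (d z0 z6))) _ _ (by decide +kernel)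

theorem okB415 : CKB ⟨12288, 24576, 9216, 10240⟩ ⟨4097, 8193, 0, 1024⟩ :=
  ckB_sound z0 _ _ (by decide +kernel)

theorem okB416 : CKB ⟨12288, 24576, 9216, 9472⟩ ⟨4097, 6145, 1024, 1536⟩ :=
  ckB_sound (d z0 (a (c (b (d (a (b (d z0 z2) (d z0 (a (b (d (a (b z0 z0) z2) (c (a (b z0 z0) z2) (a (b z0 z0) z2))) (d (b z0 z0) (c (b z0 z0) (b z0 z0)))) z2))) z2) (a (c (b (d z2 z2) (d (a (b (d z0 (a (b z0 z0) z2)) (d z0 (b z0 z0))) z2) (c (a (b (d (a (b z0 z0) z2) (c (a (b z0 z0) z2) z0)) (d (b z0 z0) (c (b z0 z0) z0))) z2) (a (b z0 z0) z2)))) (b z2 (d (c (a (b (d (a (b z0 z0) z2) z0) (d (b z0 z0) z0)) z2) (a (b z0 z0) z2)) (c (a (b z0 z0) z2) (a (b z0 z0) z2))))) z2)) (d (a (b (d z0 z2) (d z0 (b (d (b z0 z0) (c (b z0 z0) (b z0 z0))) (d (b z0 z0) (c (b z0 z0) (b z0 z0)))))) (b z2 (d z0 z2))) (c (a (b (d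 z2 z2) (d (b (d z0 (b z0 z0)) (d z0 (b z0 z0))) (c (b (d (b z0 z0) (c (b z0 z0) z0)) (d (b z0 z0) (c (b z0 z0) z0))) (b (d (c (b z0 z0) z0) z0) (d (c (b z0 z0) z0) z0))))) (b z2 (d z2 z2))) z2))) (b (d (a (c (b (d z0 z6) (d z0 (a (c (b (d (a (c (b z4 z4) z0) z6) (a (c (b z4 z4) z0) z6)) (d (c (b z4 z4) z0) (c (b z4 z4) z0))) z0) z6))) z0) z6) (a (c (b (d z6 (a (c (b z2 z0) z4) z6)) (d (a (c (b (d (a (c (b z4 z4) z4) z6) (a (c z0 z4) z6)) (d (c (b z4 z4) z4) (c z0 z4))) z0) z6) (a (c (b z0 z0) z4) z6))) z0) z6)) (d (a (c (b (d z0 z6) (d z0 (c (b (d (c (b z4 z4) z0) (c (b z4 z4) z0)) (d (c (b z4 z0) z0) (c (b z4 z0) z0))) z0))) z0) z6) (a (c (b (d z6 (a (c (b z0 z0) z4) z6)) (d (c (b (d (c (b z4 z4) z4) (c z0 z4)) (d (c (b z4 z0) z4) (c z0 z4))) z0) (c (b z0 z0) z4))) z0) z6)))) (c (b (d (a z2 z3)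 (a z2 z3)) (d z2 z2)) z6))) _ _ (by decide +kernel)

theorem okB417 : CKB ⟨12288, 24576, 9472, 9728⟩ ⟨4097, 6145, 1024, 1536⟩ :=
  ckB_sound (d z0 (c (a (b (d (a (b (d z0 z2) (d z0 (b (d (b z0 z0) (c (b z0 z0) (b z0 z0))) (d (b z0 z0) (c (b z0 z0) (b z0 z0)))))) (b z2 (d z0 z2))) (c (a (b (d z2 z2) (d (b (d z0 (b z0 z0)) (d z0 (b z0 z0))) (c (b (d (b z0 z0) (c (b z0 z0) z0)) (d (b z0 z0) (c (b z0 z0) (b z0 z0)))) (b (d (c (b z0 z0) z0) z0) (d (c (b z0 z0) z0) z0))))) (b z2 (d z2 z2))) z2)) (d (b (d z0 (b z2 (d (a (b z0 z0) z2) (c (a (b z0 z0) z2) (a (b z0 z0) z2))))) (d z0 (b (d (b z0 z0) (c (b z0 z0) (b z0 z0))) z0))) (c (b (d (b z2 (d z0 (a (b z0 z0) z2))) (c (b z2 (d (a (b z0 z0) z2) (c (a (b z0 z0) z2) (a (b z0 z0) z2)))) (b z2 (d (c (a (b z0 z0) z2) z0) z0)))) (d (b (d z0 (b z0 z0)) z0) (c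 (b (d (b z0 z0) (c (b z0 z0) (b z0 z0))) z0) (b (d (c (b z0 z0) z0) z0) z0)))) (b (d (c (b z2 (d (a (b z0 z0) z2) (c (a (b z0 z0) z2) z0))) (b z2 z0)) (c (b z2 z0) (b z2 z0))) (d (c (b (d (b z0 z0) (c (b z0 z0) z0)) z0) (b z0 z0)) (c (b z0 z0) (b z0 z0))))))) (b (d z2 z2) (d (a (b (d z0 z2) (d z0 z2)) z2) (c (a (b z2 (d z2 z2)) z2) z2)))) (a (b (d (c (a (b (d z0 z6) (d z0 (c (b (d (c (b z4 z4) z0) (c (b z4 z4) z0)) (d (c (b z4 z0) z0) (c (b z4 z0) z0))) z0))) z6) z0) (c (a (b (d z6 (c z2 z6)) (d (c (b (d (c (b z4 z4) z4) (c z0 z4)) (d (c (b z4 z0) z4) (c z0 z4))) z0) (c (b z0 z0) z4))) z6) z0)) (d (c (b (d z0 (c (b z6 (d (c (a (b z4 z4) z6) z0) (c (a (b z4 z4) z6) z0))) z0)) (d z0 (c (b (d (c (b z4 z4) z0) (c (b z4 z4) z0)) z0) z0))) z0) (c (b (d (c (b z6 (d (c (a (b z4 z4) z6) z4) (c z0 z4)))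 z0) (c (b z2 z0) z4)) (d (c (b (d (c (b z4 z4) z4) (c z0 z4)) z0) z0) (c (b z0 z0) z4))) z0))) z6))) _ _ (by decide +kernel)

theorem okB418 : CKB ⟨12288, 24576, 9216, 9728⟩ ⟨4097, 6145, 1536, 2048⟩ :=
  ckB_sound (c (b (d (a (c (b (d (a (b z2 (d (a (b (d z0 z0) (d z0 z0)) z2) (a (c (b (d z0 z0) (d z0 z0)) (b z0 z0)) z2))) z2) z2) (d (a (b (d z2 z2) (d (b (d z0 (b z0 z0)) (d z0 (b z0 z0))) (c (b (d z0 z0) (d (b z0 z0) z0)) (b z0 z0)))) z2) z2)) (b z2 z2)) (c (b (d (a z2 z3) (a z2 z3)) (d z2 z2)) z2)) z2) (d (a (c (b (d (a (b (d z2 z2) (d (b (d z0 (b z0 z0)) (d z0 (b z0 z0))) (c (b (d (b z0 z0) (c (b z0 z0) z0)) (d (b z0 z0) (c (b z0 z0) z0))) (b (d (c (b z0 z0) z0) z0) (d (c (b z0 z0) z0) z0))))) z2) z2) (d (b (d (b z2 (d z0 (a (b z0 z0) z2))) (c (b z2 (d (a (b z0 z0) z2) (c (a (b z0 z0) z2) z0)))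 (b z2 (d (c (a (b z0 z0) z2) z0) z0)))) (d (b (d z0 (b z0 z0)) z0) (c (b (d (b z0 z0) (c (b z0 z0) (b z0 z0))) z0) (b (d (c (b z0 z0) z0) z0) z0)))) (c (b (d (b z2 (d (c (a (b z0 z0) z2) z0) (c (a (b z0 z0) z2) z0))) (c (b z2 z0) (b z2 z0))) (d (b (d (c (b z0 z0) z0) (c (b z0 z0) z0)) z0) (c (b z0 z0) (b z0 z0)))) (b (d (b z2 z0) (b z2 z0)) (d (b z0 z0) (b z0 z0)))))) (b z2 (d (b (d (c (b z2 (d (c (a (b z0 z0) z2) (a (b z0 z0) z2)) (c (a (b z0 z0) z2) z0))) (b z2 z0)) (c (b z2 z0) (b z2 z0))) (d (c (b (d (c (b z0 z0) (b z0 z0)) (c (b z0 z0) z0)) z0) (b z0 z0)) (c (b z0 z0) (b z0 z0)))) (b (d (c (b z2 z0) (b z2 z0)) (c (b z2 z0) (b z2 z0))) (d (c (b z0 z0) (b z0 z0)) (c (b z0 z0) (b z0 z0))))))) (c (b (d z2 z2) (d (a (b z2 (d z2 z2)) z2) z2)) z2)) z2)) (b (d (a (b z2 z2) z2) z2) (d (a (b z2 (d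 (c (b (d (c (b z2 z0) (b z2 z0)) (c (b z2 z0) (b z2 z0))) (d (c (b z0 z0) (b z0 z0)) (c (b z0 z0) (b z0 z0)))) (b (d (c (b z6 z4) z0) (c (b z6 z4) z0)) (d (c (b z4 z0) z0) (c (b z4 z0) z0)))) (c (b (d (c (b z2 z0) (b z2 z0)) (c (b z2 z0) z0)) (d (c (b z0 z0) (b z0 z0)) (c (b z0 z0) z0))) (b (d (c (b z6 z4) z4) (c z0 z4)) (d (c (b z4 z0) z4) (c z0 z4)))))) z2) z2))) _ _ (by decide +kernel)

theorem okB419 : CKB ⟨12288, 24576, 9728, 10240⟩ ⟨4097, 6145, 1024, 1536⟩ :=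
  ckB_sound (b (d z0 (c (b (d (b (d z0 z2) (d z0 z2)) (c (b (d z2 z2) (d z2 z2)) (b z2 z2))) (d (b (d z0 (b (d (b z0 z0) (c (b z0 z0) (b z0 z0))) (d (b z0 z0) (c (b z0 z0) (b z0 z0))))) z0) (c (b (d (b (d z0 (b z0 z0)) (d z0 (b z0 z0))) (c (b (d (b z0 z0) (c (b z0 z0) (b z0 z0))) (d (b z0 z0) (c (b z0 z0) (b z0 z0)))) (b (d (c (b z0 z0) (b z0 z0)) (c (b z0 z0) z0)) (d (c (b z0 z0) (b z0 z0)) (c (b z0 z0) z0))))) z0) (b (d (c (b (d (b z0 z0) (c (b z0 z0) (b z0 z0))) (d (b z0 z0) (c (b z0 z0) (b z0 z0)))) (b (d (c (b z0 z0) z0) z0) (d (c (b z0 z0) z0) z0))) (c (b z0 z0) (b z0 z0))) z0)))) (b (d (c (b (d z0 z6) (d z0 z6)) z0) (c (b z6 z6) z0)) (d (c (b (d z0 (c (b (d (c (b z4 z4) z0) (c (b z4 z4) z0)) (d (c (b z4 z0) z0) (c (b z4 z0) z0))) z0)) z0) z0) (c (b (d (c (b (d (c (b z4 z4) z4) (c z0 z4))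 (d (c (b z4 z0) z4) (c z0 z4))) z0) (c (b z0 z0) z4)) z0) z0))))) z0) _ _ (by decide +kernel)

end Vale.Agent.Lib.P154Q5
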