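import Vale.Agent.Lib.P154Q5.CkBDefs

namespace Vale.Agent.Lib.P154Q5

set_option maxRecDepth 100000
set_option exponentiation.threshold 1000

open Tr

theorem okB420 : CKB ⟨12288, 24576, 9728, 10240⟩ ⟨4097, 6145, 1536, 2048⟩ :=
  ckB_sound (c (b (d (c (b (d (b (d z2 z2) (d z2 z2)) z2) (d (b (d (b (d z0 (b z0 z0)) (d z0 (b z0 z0))) (c (b (d (b z0 z0) (c (b z0 z0) (b z0 z0))) (d (b z0 z0) (c (b z0 z0) (b z0 z0)))) (b (d (c (b z0 z0) (b z0 z0)) z0) (d (c (b z0 z0) (b z0 z0)) (c (b z0 z0) z0))))) z0) (c (b (d (b (d (c (b z0 z0) (b z0 z0)) (c (b z0 z0) z0)) (d (c (b z0 z0) (b z0 z0)) (c (b z0 z0) z0))) (c (b z0 z0) (b z0 z0))) z0) (b (d (b z0 z0) (b z0 z0)) z0)))) (b (d (b z2 z2) z2) (d (b (d (c (b (d (c (b z0 z0) (b z0 z0)) (c (b z0 z0) z0)) (d (c (b z0 z0) (b z0 z0)) (c (b z0 z0) (b z0 z0))))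 (b z0 (d (c (b z0 z0) z0) z0))) (c (b z0 (d (c (b z0 z0) z0) z0)) (b z0 z0))) z0) (b (d (c (b z0 z0) (b z0 z0)) (c (b z0 z0) (b z0 z0))) z0)))) (c (b z2 (d (c (b (d (c (b z0 z0) (b z0 z0)) (c (b z0 z0) (b z0 z0))) z0) (b (d (b z0 z0) (b z0 z0)) z0)) (c (b (d (c (b z0 z0) (b z0 z0)) (c (b z0 z0) (b z0 z0))) z0) (b (d (b z0 z0) (b z0 z0)) z0)))) (b z2 (d (b (d (c (b z0 z0) (b z0 z0)) (c (b z0 z0) (b z0 z0))) z0) (b (d (c (b z0 z0) z0) z0) z0))))) z0) (b (d (b z2 (d (c (b (d (c (b z0 z0) (b z0 z0)) (c (b z0 z0) (b z0 z0))) z0) (b (d (c (b z4 z4) z0) (c (b z4 z4) z0)) z0)) (c (b (d (c (b z0 z0) (b z0 z0)) (c (b z0 z0) z0)) z0) (b (d (c (b z4 z4) z4) (c z0 z4)) z0)))) (b z2 (d (c (b z0 z0) (b (d (c z0 z4) (c z0 z4)) z0)) (c (b z0 z0) (b z0 z0))))) z0)) _ _ (by decide +kernel)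

theorem okB421 : CKB ⟨12288, 24576, 9216, 10240⟩ ⟨6145, 8193, 1024, 2048⟩ :=
  ckB_sound (b (d z0 z6) (d z0 (b (d z0 (c (b z6 z4) z0)) z0))) _ _ (by decide +kernel)

theorem okB422 : CKB ⟨12288, 24576, 8192, 9216⟩ ⟨4097, 8193, 2048, 3072⟩ :=
  ckB_sound (a (c (b z2 (d (c (b z2 (d (c (b (d (c (b z2 z0) (b z2 z0)) (c (b z2 z0) z0)) (d (c (b z0 z0) (b z0 z0)) (c (b z0 z0) (b z0 z0)))) (b (d (b z2 z0) z0) (d (b z0 z0) (b z0 z0)))) (c (b z0 z0) (b z0 z0)))) (b z2 (d (b (d (c (b z2 z0) z0) z0) (d (c (b z0 z0) (b z0 z0)) z0)) (b z0 z0)))) (c (b z2 (d (c (b z0 z0) (b z0 z0)) (c (b z0 z0) (b z0 z0)))) (b z2 (d (b z0 z0) (b z0 z0)))))) (b (d (a (b (d z6 (c (a (b (d (c (a (b (d z4 (c z0 z4)) (d z4 (c z0 z4))) z6) z4) (c z0 z4)) (d (c (b (d z4 (c z0 z4)) (d z4 (c z0 z4))) z4) (c z0 z4))) z6) z6)) (d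 (c (b (d z4 (c (a (b z4 z4) z6) z4)) (d z4 (c (b z4 z4) z4))) z0) (c (b (d (c (a (b (d z4 (c z0 z4)) (d z4 (c z0 z4))) z6) z4) (c z0 z4)) (d (c (b z4 z4) z4) (c z0 z4))) z4))) z6) (a (b (d (c (a (b (d (c z0 z4) z0) (d (c z0 z4) z0)) (b (d (c z2 z6) z2) (d (c z2 z6) z2))) z6) (c z2 z6)) (d (c (b (d (c z0 z4) z0) (d (c z0 z4) z0)) z4) (c (b z0 z0) z4))) (b (d (c (a (b (d z6 z2) (d (c z2 z6) z2)) (b (d z6 z2) (d z6 z2))) z6) (c z2 z6)) (d (c (a (b (d (c z2 z6) z2) (d (c z2 z6) z2)) (b (d z6 z2) (d z6 z2))) z6) (c z2 z6))))) (d (b z6 (d (c (b (d z4 (c (b z6 z4) z4)) (d z4 (c (b z4 z0) z4))) z0) (c (b (d (c (b z6 z4) z4) (c z0 z4)) (d (c (b z4 z0) z4) (c z0 z4))) z4))) (b (d (c (a (b (d (c z0 z4) z0) (d (c z0 z4) z0)) (b (d z6 z2) (d z6 z2))) z6) (c z2 z6)) (d (c (b (d (c z0 z4) z0) (d (c z0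 z4) z0)) z4) (c (b z0 z0) z4)))))) (c (b (d (a (c (b z3 (d (a z2 z3) (a z2 z3))) (b z3 (d (a z2 z3) (a z2 z3)))) z3) (a (c (b z3 (d (a z2 z3) (a z2 z3))) z3) z3)) z2) (b (d (a (b z7 (d (c (a z6 z7) z0) (c (a z6 z7) z7))) z7) (a (b (d (c (a (b z7 (d (c z3 z7) z3)) z7) z7) (c z3 z7)) (d (c (a z6 z7) z7) (c z3 z7))) z7)) (d z6 (a (b (d (c (a (b z6 (d z6 z2)) (b (d (c z3 z7) z3) z6)) z6) (c z2 z6)) (d (c (a (b (d z6 z2) (d z6 z2)) z6) z6) (c z2 z6))) (b (d z7 (c z3 z7)) (d (c (b (d z7 z3) (d (a z6 z7) z3)) z7) (c z3 z7)))))))) _ _ (by decide +kernel)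

theorem okB423 : CKB ⟨12288, 24576, 8192, 9216⟩ ⟨4097, 8193, 3072, 4096⟩ :=
  ckB_sound (a (c (b z2 (d (c (b z2 (d (c (b z0 z0) (b z0 z0)) (c (b z0 z0) (b z0 z0)))) (b z2 (d (b z0 z0) (b z0 z0)))) (c (b z2 (d (c (b z0 z0) z0) z0)) (b z2 z0)))) (b z2 (d (b z2 (d (c (b z0 z0) (b z4 z4)) z0)) (b z2 z0)))) (c (b z3 (d (a z2 z3) (a z2 z3))) (b z3 z2))) _ _ (by decide +kernel)

theorem okB424 : CKB ⟨12288, 24576, 9216, 10240⟩ ⟨4097, 8193, 2048, 4096⟩ :=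
  ckB_sound (d (c (b z2 (d (c (b (d (c (b z2 (d (c (b (d (c (b z0 z0) z0) z0) z0) (b z0 z0)) (c (b z0 z0) (b z0 z0)))) (b z2 (d (b z0 z0) (b z0 z0)))) (c (b z2 (d (c (b z0 z0) (b z0 z0)) (c (b z0 z0) (b z0 z0)))) (b z2 (d (b z0 z0) (b z0 z0))))) z0) (b (d (b z2 (d (c (b z0 z0) (b z0 z0)) (c (b z0 z0) (b z0 z0)))) (b z2 (d (c (b z0 z0) (b z0 z0)) (c (b z0 z0) z0)))) z0)) (c (b (d (c (b z2 (d (c (b z0 z0) (b z0 z0)) (c (b z0 z0) (b z0 z0)))) (b z2 (d (b z0 z0) z0))) (c (b z2 z0) (b z2 z0))) z0) (b (d (b z2 z0) (b z2 z0)) z0)))) (b (d (b z6 z6) (b (d (a (c (b (d z6 z2) z6) z6) z6) (a (c z2 z6) (c z2 z6))) (d (c (a (b z6 (d (c z0 z4) z0)) z6) z6) (c z2 z6)))) (d (b (d (c (b z6 (d z4 (c (b z4 z0) z4))) z0) (c (b z6 (d (c (b z4 z0) z4) (c z0 z4))) z4)) z0) (b (d (c (b z6 (d (c z0 z4) z0)) z4)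 (c (b z2 z0) z4)) z0)))) (c (b z2 (d (c (b (d (c (b z2 z0) (b z2 z0)) (c (b z2 z0) (b z2 z0))) z0) (b (d (b z2 z0) (b z2 z0)) z0)) (c (b (d (c (b z2 z0) (b z2 z0)) (c (b z2 z0) (b z2 z0))) z0) (b (d (b z2 z0) (b z2 z0)) z0)))) (b z2 (d (b (d (c (b z2 z0) (b z6 z4)) (c (b z2 z0) (b z6 z4))) z0) (b (d (c (b z2 z0) z0) z0) z0))))) _ _ (by decide +kernel)

theorem okB425 : CKB ⟨12288, 24576, 10240, 12288⟩ ⟨4097, 8193, 0, 4096⟩ :=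
  ckB_sound z0 _ _ (by decide +kernel)

theorem okB426 : CKB ⟨12288, 24576, 4096, 12288⟩ ⟨8193, 49152, 0, 4096⟩ :=
  ckB_sound (b (b (d z0 (b (d (c (b (d z0 (a (c z7 z0) (c z7 z0))) (d z0 (a (c z7 z0) z7))) z0) (c (b (d (c z7 (a (b (d z0 (a (c z7 z0) (c z7 z0))) (d z0 z7)) z7)) (c z7 (a z7 z7))) (d (a (c z7 (b (d z0 z7) z7)) z7) z7)) (b (d z0 (a (c (b (d z0 (a (c z7 (b (d (a (b z5 (d z0 z7)) (b (d z0 (c z5 z0)) (d z0 z7))) (a (b z5 z7) z7)) (d (a z7 z7) z7))) (c z7 (b (d (a (b (d z0 (c z5 z0)) (d z0 z7)) (b (d z0 z7) z7)) z7) z7)))) (d z0 (a z7 z7))) (b (d z0 (a (b (d z0 (c (a (b z5 z7) z7) (a (b z5 z7) z7))) (d z0 z7)) (b (d z0 (c z7 z7)) (d z0 z7)))) (d z0 (a z7 z7)))) (c (b (d z0 z7) (d z0 z7)) (b (d z0 z7) (d z0 z7))))) (d z0 (a (c (b (d z0 z7) z7) (b (d z0 z7) z7)) (c z7 z7)))))) (d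 (c (b (d z0 (a z7 z7)) (d z0 (a z7 z7))) z0) (c (b (d (a z7 z7) z7) z7) (b (d z0 (a z7 z7)) (d z0 (a z7 z7))))))) (d z0 (b (d (a (c (b (d z0 z7) (d z0 z7)) z0) (c z7 z0)) (c (a (b (d z7 (c (a (b z7 (d z7 (c (a (b z7 (d z7 (c (a z6 z7) z7))) z7) z7))) z7) z7)) (d z7 (c (a z6 z7) z7))) z7) (a (b (d z0 z7) (d z0 z7)) (b (d z0 z7) (d z0 z7))))) (d (a (c z6 z0) (c z7 z0)) (a (c (b (d z6 (a z6 z7)) z6) (b (d z0 z6) (d z0 z6))) (c z7 (b (d z0 z7) (d z0 z7)))))))) (b (d z0 (b (d (a (c (b z6 z4) z0) (c z7 z0)) (a (c (b z6 (d z4 (c (b z6 z4) z4))) (b (d z0 z6) (d z0 (c z4 (b z6 (d z0 z4)))))) (c (b z7 z6) (b (d z0 z7) (d z0 z6))))) (d (c (b z6 z4) z0) (c (b z6 (d z4 (c (b z4 z0) z4))) (b (d z0 (c z6 (b z6 z6))) (d z0 (c z4 (b (d z0 (b z6 z4)) z0)))))))) z0)) _ _ (by decide +kernel)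

theorem okB427 : CKB ⟨24576, 49152, 4096, 8192⟩ ⟨0, 8193, 0, 4096⟩ :=
  ckB_sound (c (b z0 z3) z3) _ _ (by decide +kernel)

theorem okB428 : CKB ⟨24576, 49152, 8192, 10240⟩ ⟨0, 4097, 0, 2048⟩ :=
  ckB_sound (b (d z0 z3) (d z0 (b (d z0 (b (d z3 z3) (d (a (b (d z0 z3) (d z0 (a (b (d z0 z3) z2) z3))) z3) (a (c (b (d z3 z3) (d (a (b (d z0 z3) z2) z3) (a (c (b (d z3 z3) z2) (b z3 z2)) z3))) (b z3 (d (a (c (b (d z3 z3) z2) (b z3 z2)) z3) (a (c (b z3 z2) z3) z3)))) z3)))) (d z0 (a (b (d (a (b (d z0 z2) (d z0 (a (b z2 (d z0 z2)) z2))) (b z3 (d z0 (a (b z3 (d z0 z3)) z3)))) (c (a (b (d z2 z2) (d (a (b z2 z2) z2) z2)) (b z3 (d (a (b z3 (d z0 z3)) z3) (c (a (b z3 (d z3 z3)) z3) z3)))) (a z2 (b z3 (d (c (a (b z3 (d z3 z3)) z3) z3) z3))))) (d (b (d z0 (a (b (d z0 z2) (d z0 z2)) (b (d z0 z3) z2))) (d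 z0 (a (b (d z0 z2) (d z0 (b z2 (d (b z0 z0) (c (b z0 z0) z0))))) z2))) (c (b (d (a (b z2 z2) (b (d z0 z3) z2)) z2) (d (a (b z2 (d z0 (b z2 (d (b z0 z0) z0)))) z2) z2)) (b (d (a (c (b z2 z2) z2) (c (b (d z3 z3) z2) (b z3 z2))) z2) (d (a (c (b z2 (d (b z2 (d (b z0 z0) (c (b z0 z0) z0))) (c (b z2 z0) (b z2 z0)))) (b z2 (d (c (b z2 z0) (b z2 z0)) (c (b z2 z0) (b z2 z0))))) z2) z2))))) (b z3 (d (a (b z3 (d z0 z3)) z3) (c (a (b z3 (d z3 z3)) z3) z3)))))))) _ _ (by decide +kernel)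

theorem okB429 : CKB ⟨24576, 49152, 8192, 10240⟩ ⟨0, 4097, 2048, 4096⟩ :=
  ckB_sound (c (b z3 (d (b (d (b z3 (d z0 (a (b (d z3 z3) (d (a (b (d z0 z3) z2) z3) (a (b z3 z2) z3))) z3))) (c (b z3 (d (a (b z3 (d z0 (a (b z3 z2) z3))) z3) (a (c (b z3 (d z3 z3)) z3) z3))) (b z3 (d (a (b z3 (d (c (a (b z3 z2) z3) z3) z3)) z3) z3)))) (d (a (b (d z0 (a z2 (b z3 (d z3 z3)))) (d z0 (b z2 z2))) (b z3 (d z0 z3))) (a (c (b (d (a z2 z3) (a z2 z3)) (d z2 z2)) (b (d (a z2 z3) (a z2 z3)) z2)) z3))) (c (b (d (b z3 (d z3 z3)) z3) (d (a (b (d (a z2 z3) (c (a z2 z3) (a z2 z3))) z2) z3) (a (c (b z3 z2) (b z3 z2)) z3))) (b z3 (d (a (b (d (c (a z2 z3) (a z2 z3)) z3) z2) z3) (a (b z3 z2) z3)))))) (b z3 (d (b (d (c (b z3 (d (a (b (d z3 z3) (d (a (b (d z3 z3) z2) z3) (c (a (b (d z3 z3) z2) z3) (a (b z3 z2) z3))))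 z3) (a (c (b z3 (d (a (c (b (d z3 z3) z2) (b z3 z2)) z3) z3)) z3) z3))) (b z3 (d (a (c (b z3 (d (a (c (b z3 z2) (b z3 z2)) z3) z3)) z3) z3) z3))) z3) (d (c (a (b (d (a (b z2 (d z2 z2)) (b z3 (d (a (b z3 (d z3 z3)) z3) z3))) (c (a z2 z3) (a z2 z3))) (d (b (d z2 z2) (d z2 z2)) z2)) (b z3 (d (a (b z3 (d z3 z3)) z3) z3))) (a (b (d (c (a z2 z3) (a z2 z3)) (c (a z2 z3) (a z2 z3))) z2) z3)) (c (a z2 z3) (a z2 z3)))) (b z3 (d (c (a z2 z3) (a z2 z3)) (c (a z2 z3) z3)))))) _ _ (by decide +kernel)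

theorem okB430 : CKB ⟨24576, 49152, 10240, 11264⟩ ⟨0, 4097, 0, 2048⟩ :=
  ckB_sound (d z0 (b (d z0 (a (b (d (a (b (d z0 (a (b (d z0 z2) (d z0 (b z2 (d (b z0 z0) (c (b z0 z0) z0))))) z2)) (d z0 (b z2 (d z0 (b (d (b z2 z0) (c (b z2 z0) z0)) z0))))) (b (d z0 z3) (d z0 (b (d z0 z3) z2)))) (c (a (b (d (a (b z2 (d z0 (b z2 (d z0 z0)))) z2) z2) (d (b z2 (d z0 (b (d z0 z0) z0))) (c (b z2 (d (b z0 z0) (c (b z0 z0) (b z0 z0)))) (b z2 (d (c (b z0 z0) (b z0 z0)) (c (b z0 z0) (b z0 z0))))))) (b (d z3 z3) (d (b (d z0 z3) z2) (c (b (d z3 z3) z2) (b z3 z2))))) (a (b z2 (d (c (b z2 (d (b (d z0 z0) z0) (c (b z0 z0) (b z0 z0)))) (b z2 (d (c (b z0 z0) (b z0 z0)) (c (b z0 z0) (b z0 z0))))) (c (b z2 (d (c (b z0 z0) (b z0 z0)) (c (b z0 z0) (b z0 z0)))) (b z2 (d (c (b z0 z0) (b z0 z0)) (c (b z0 z0) (b z0 z0)))))))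 (b z3 (d (c (b (d z3 z3) z2) (b z3 z2)) z3))))) (d (b (d z0 (b z2 z2)) (d z0 (b (d z0 (b z2 (d z0 z0))) z0))) (c (b (d z2 z2) (d (b (d z0 (b z2 z0)) z0) (c (b (d (b z2 z0) (c (b z2 z0) (b z2 z0))) z0) (b (d (c (b z2 z0) (b z2 z0)) (c (b z2 z0) (b z2 z0))) z0)))) (b z2 (d (c (b (d (b z2 z0) (c (b z2 z0) (b z2 z0))) z0) (b (d (c (b z2 z0) (b z2 z0)) (c (b z2 z0) (b z2 z0))) z0)) (c (b (d (c (b z2 z0) (b z2 z0)) (c (b z2 z0) (b z2 z0))) z0) (b (d (c (b z2 z0) (b z2 z0)) (c (b z2 z0) (b z2 z0))) z0))))))) (b z3 (d (b (d z0 z3) (d z0 (a (b (d z0 z3) z2) z3))) (c (b z3 (d (a (b z3 z2) z3) (a (c (b z3 z2) z3) z3))) (b z3 (d (a (c (b z3 z2) (b z3 z2)) z3) z3))))))) (d z0 (b (d (a (b (d z0 (a (b z2 (d z0 (b z2 z0))) z3)) (d z0 (b z2 (d z0 (b z2 z0))))) (b z3 (d z0 z3))) (c (a (b (d z2 z2) (d (b z2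 (d z0 (b z2 z0))) (c (b z2 (d (b z2 z0) (c (b z2 z0) (b z2 z0)))) (b z2 (d (c (b z2 z0) (b z2 z0)) (c (b z2 z0) (b z2 z0))))))) z3) (a (b z2 (d (c (b z2 (d (b z2 z0) (c (b z2 z0) (b z2 z0)))) (b z2 (d (c (b z2 z0) (b z2 z0)) (c (b z2 z0) (b z2 z0))))) (c (b z2 (d (c (b z2 z0) (b z2 z0)) (c (b z2 z0) (b z2 z0)))) (b z2 (d (c (b z2 z0) (b z2 z0)) z0))))) z3))) (d (b (d z0 (a z2 z3)) (d z0 (a z2 z3))) (c (b (d z3 z3) (d z3 z3)) (b z3 z3))))))) _ _ (by decide +kernel)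

theorem okB431 : CKB ⟨24576, 49152, 11264, 12288⟩ ⟨0, 4097, 0, 2048⟩ :=
  ckB_sound (d z0 (b (d z0 (b (d (b (d z0 z3) (d z0 z3)) (c (b z3 z3) (b z3 z3))) (d (b (d z0 z3) z3) z3))) (d z0 (b (d (b z3 z3) (c (b z3 z3) (b z3 z3))) (d (b (d z0 (b z3 z3)) (d z0 (b z1 z0))) (c (b (d (b z3 z3) (c (b z3 z3) (b z3 z3))) (d (b z1 z0) (c (b z1 z0) (b z1 z0)))) (b (d (c (b z3 z3) (b z3 z3)) (c (b z3 z3) (b z3 z3))) (d (c (b z1 z0) (b z1 z0)) (c (b z1 z0) (b z1 z0)))))))))) _ _ (by decide +kernel)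

theorem okB432 : CKB ⟨24576, 49152, 10240, 12288⟩ ⟨0, 2049, 2048, 4096⟩ :=
  ckB_sound (b (d (b (d (a (b (d z0 z2) (d z0 (b z2 (d (b (d z0 z0) z0) (b (d z0 z0) z0))))) (b z3 (d z0 z3))) (c (a (b z2 (d (b z2 (d z0 (b z0 z0))) (c (b z2 (d (b z0 z0) (c (b z0 z0) (b z0 z0)))) (b z2 (d (b z0 z0) (b z0 z0)))))) z3) (a (b z2 (d (b z2 (d (c (b z0 z0) (b z0 z0)) (c (b z0 z0) (b z0 z0)))) (b z2 (d (c (b z0 z0) (b z0 z0)) (c (b z0 z0) (b z0 z0)))))) z3))) (d (b (d z0 (a (b z2 (d (b z2 z0) (b z2 z0))) z3)) (d z0 z3)) (c (b (d z3 z3) z3) (b z3 z3)))) (c (b (d (a (b z2 (d (c (b z2 (d (b z0 z0) (c (b z0 z0) z0))) (b z2 (d (b z0 z0) z0))) (c (b z2 z0) (b z2 z0)))) z3) z3) z3) (b (d (a (b z2 (d (c (b z2 (d (c (b z0 z0) (b z0 z0)) z0)) (b z2 (d (c (b z0 z0) (b z0 z0)) z0))) (c (b z2 z0) (b z2 z0)))) z3)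 z3) z3))) (d (b (d z2 z2) (d (b (d z0 (b z3 z3)) (d z0 (b z1 z0))) (c (b (d (b z3 z3) (c (b z3 z3) (b z3 z3))) (d (b z1 z0) (c (b z1 z0) (b z1 z0)))) (b (d (b z3 z3) (b z3 z3)) (d (b z1 z0) (b z1 z0)))))) (c (b (d z2 (c (b z3 z3) (b z3 z3))) (d (b (d (c (b z3 z3) (b z3 z3)) (c (b z3 z3) (b z3 z3))) (d (c (b z1 z0) (b z1 z0)) (c (b z1 z0) (b z1 z0)))) (c (b (d (b z3 z3) (c (b z3 z3) (b z3 z3))) (d (b z1 z0) z0)) (b (d (b z3 z3) (b z3 z3)) (d (b z1 z0) z0))))) (b z2 (d (b (d (c (b z3 z3) (b z3 z3)) (c (b z3 z3) (b z3 z3))) (d (c (b z1 z0) (b z1 z0)) (c (b z1 z0) (b z1 z0)))) (b (d (c (b z3 z3) (b z3 z3)) (c (b z3 z3) (b z3 z3))) (d (c (b z1 z0) (b z1 z0)) z0))))))) _ _ (by decide +kernel)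

theorem okB433 : CKB ⟨24576, 49152, 10240, 11264⟩ ⟨2049, 4097, 2048, 4096⟩ :=
  ckB_sound (d (b (d (c (a (b (d (a (b (d z2 z2) (d (b z2 (d (b z0 z0) (c (b z0 z0) (b z0 z0)))) (c (b z2 (d (b z0 z0) (c (b z0 z0) (b z0 z0)))) (b z2 (d (c (b z0 z0) (b z0 z0)) (c (b z0 z0) (b z0 z0))))))) (b z3 (d (b z3 z2) (c (b z3 z2) z3)))) z2) (d (b z2 (d (b (d (b z2 z0) (c (b z2 z0) (b z2 z0))) z0) (c (b (d (b z2 z0) (c (b z2 z0) z0)) z0) (b (d (c (b z2 z0) (b z2 z0)) z0) z0)))) (c (b z2 (d (c (b (d (b z2 z0) z0) z0) (b z0 z0)) (c (b z0 z0) (b z0 z0)))) (b z2 (d (c (b z0 z0) (b z0 z0)) (c (b z0 z0) (b z0 z0))))))) (b z3 (d (b z3 (d z3 z3)) z3))) (a (b z2 (d (c (b z2 (d (c (b (d (c (b z2 z0) (b z2 z0)) (c (b z2 z0) (b z2 z0))) z0) (b (d (c (b z2 z0) (b z2 z0)) (c (b z2 z0) (b z2 z0))) z0)) (c (b z0 z0) (b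 z0 z0)))) (b z2 (d (c (b (d (c (b z2 z0) (b z2 z0)) (c (b z2 z0) z0)) z0) (b (d (c (b z2 z0) (b z2 z0)) z0) z0)) (c (b z0 z0) (b z0 z0))))) (c (b z2 (d (c (b z0 z0) (b z0 z0)) (c (b z0 z0) (b z0 z0)))) (b z2 (d (c (b z0 z0) (b z0 z0)) (c (b z0 z0) (b z0 z0))))))) z3)) (c (a (b z2 (d (c (b z2 (d (c (b z0 z0) (b z0 z0)) (c (b z0 z0) (b z0 z0)))) (b z2 (d (c (b z0 z0) (b z0 z0)) (c (b z0 z0) (b z0 z0))))) (c (b z2 (d (c (b z0 z0) (b z0 z0)) (c (b z0 z0) (b z0 z0)))) (b z2 (d (c (b z0 z0) (b z0 z0)) (c (b z0 z0) (b z0 z0))))))) z3) (a (b z2 (d (c (b z2 (d (c (b z0 z0) (b z0 z0)) (c (b z0 z0) (b z0 z0)))) (b z2 (d (c (b z0 z0) (b z0 z0)) (c (b z0 z0) (b z0 z0))))) (c (b z2 (d (c (b z0 z0) (b z0 z0)) (c (b z0 z0) (b z0 z0)))) (b z2 (d (c (b z0 z0) (b z0 z0)) z0))))) z3))) (d (c (b (d (a (b z2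 (d (b z2 (d (b z2 z0) z0)) (c (b z2 (d z0 z0)) (b z2 z0)))) z3) (c (a (b z2 (d (c (b z2 z0) (b z2 z0)) (c (b z2 z0) (b z2 z0)))) z3) z3)) (d (b z3 z3) z3)) (b (d (c (a (b z2 (d (c (b z2 z0) (b z2 z0)) (c (b z2 z0) (b z2 z0)))) z3) (a (b z2 (d (c (b z2 z0) (b z2 z0)) (c (b z2 z0) (b z2 z0)))) z3)) z3) z3)) (c (b z3 z3) (b z3 z3)))) (b (d (c (a (b z2 (d (c (b z2 z0) (b z2 z0)) (c (b z2 z0) (b z2 z0)))) z3) (a (b z2 (d (c (b z2 z0) (b z2 z0)) (c (b z2 z0) (b z2 z0)))) z3)) z3) z3)) _ _ (by decide +kernel)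

theorem okB434 : CKB ⟨24576, 49152, 11264, 12288⟩ ⟨2049, 4097, 2048, 4096⟩ :=
  ckB_sound (d (b z2 (d (c (b (d (b z3 z3) (c (b z3 z3) (b z3 z3))) (d (b (d (b z3 z3) (c (b z3 z3) z1)) (d (b z1 z0) z0)) (c (b z1 z0) (b z1 z0)))) (b (d (c (b z3 z3) (b z3 z3)) (c (b z3 z3) (b z3 z3))) (d (c (b (d (c (b z3 z3) (b z3 z3)) (c (b z3 z3) (b z3 z3))) (d (c (b z1 z0) (b z1 z0)) (c z0 (b z1 z0)))) (b (d (c (b z3 z3) (b z3 z3)) (c (b z3 z3) (b z3 z3))) (d (c (b z1 z0) (b z1 z0)) (c (b z1 z0) (b z1 z0))))) (c (b z1 z0) (b (d (c (b z3 z3) (b z3 z3)) (c z1 (b z3 z3))) (d (c z0 (b z1 z0)) z0)))))) (c (b (d (c (b z3 z3) (b z3 z3)) (c (b z3 z3) (b z3 z3))) (d (c (b z1 z0) (b z1 z0)) (c (b z1 z0) (b z1 z0)))) (b (d (c (b z3 z3) (b z3 z3)) (c (b z3 z3) (b z3 z3))) (d (c (b z1 z0) (b z1 z0)) (c (b z1 z0) (b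 z1 z0))))))) (b z2 (d (c (b (d (c (b z3 z3) (b z3 z3)) (c (b z3 z3) (b z3 z3))) (d (c (b z1 z0) (b z1 z0)) (c (b z1 z0) (b z1 z0)))) (b (d (c (b z3 z3) (b z3 z3)) (c (b z3 z3) (b z3 z3))) (d (c (b z1 z0) (b z1 z0)) (c (b z1 z0) (b z1 z0))))) (c (b (d (c (b z3 z3) (b z3 z3)) (c (b z3 z3) (b z3 z3))) (d (c (b z1 z0) (b z1 z0)) (c (b z1 z0) (b z1 z0)))) (b (d (c (b z3 z3) (b z3 z3)) (c (b z3 z3) (b z3 z3))) (d (c (b z1 z0) (b z1 z0)) (c (b z1 z0) (b z1 z0)))))))) _ _ (by decide +kernel)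

end Vale.Agent.Lib.P154Q5
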