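import Vale.Agent.Lib.P154Q5.CkBDefs

namespace Vale.Agent.Lib.P154Q5

set_option maxRecDepth 100000
set_option exponentiation.threshold 1000

open Tr

theorem okB435 : CKB ⟨24576, 49152, 8192, 9216⟩ ⟨4097, 8193, 0, 2048⟩ :=
  ckB_sound (d z0 z3) _ _ (by decide +kernel)

theorem okB436 : CKB ⟨24576, 49152, 9216, 10240⟩ ⟨4097, 8193, 0, 1024⟩ :=
  ckB_sound z0 _ _ (by decide +kernel)

theorem okB437 : CKB ⟨24576, 49152, 9216, 9728⟩ ⟨4097, 6145, 1024, 2048⟩ :=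
  ckB_sound (d (b z3 (d z0 (a (c (b (d z3 z3) (d (a (b z3 z2) z3) (a (c (b (d z3 z3) z2) (b z3 z2)) z3))) (b z7 (d (a (c (b z7 z6) z0) z7) (a (c (b z7 z6) z0) z7)))) z3))) (c (b z3 (d (a (c (b z3 (d (a (b (d z3 z3) z2) z3) (a (c (b z3 z2) (b z3 z2)) z3))) (b z3 (d (a (b z3 z2) z3) z3))) z3) (a (c (b z3 (d (a (c (b z3 z2) z3) z3) z3)) z3) z3))) z3)) _ _ (by decide +kernel)

theorem okB438 : CKB ⟨24576, 49152, 9728, 10240⟩ ⟨4097, 6145, 1024, 2048⟩ :=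
  ckB_sound (d (a (b (d z0 (c (a (b (d z2 z2) (d (a (b (d z0 z2) (d z0 z2)) z2) (c (a (b (d z2 z2) (d z2 z2)) z2) z2))) (b z3 (d (a (b z3 (d z0 z3)) z3) (c (a (b z3 (d z3 z3)) z3) z3)))) (a (b z6 (d (a (c (b z6 (d z0 z6)) z0) z6) (a (c (b z6 z6) z0) z6))) z7))) (d z0 (c (b (d (a (b (d z0 z2) (d z0 z2)) (b (d z0 z3) z2)) (a (c (b (d z2 z2) (d z2 z2)) (b z2 z2)) (c (b (d z3 z3) z2) (b z3 z2)))) (d (a (b (d z0 z2) (d z0 (b z2 (d (b z0 z0) (c (b z0 z0) (b z0 z0)))))) (b z2 (d z0 z2))) (c (a (b (d z2 z2) (d (b z2 (d z0 (b z0 z0))) (c (b z2 (d (b z0 z0) (c (b z0 z0) (b z0 z0)))) (b z2 (d (c (b z0 z0) (b z0 z0)) (c (b z0 z0) (b z0 z0))))))) (b z2 (d z2 z2))) (a (b z2 (d (c (b z2 (d (b z0 z0) (c (b z0 z0) (b z0 z0)))) (b z2 (d (c (b z0 z0) (b z0 z0)) (c (b z0 z0) z0)))) (c (b z2 (d (c (b z0 z0) z0)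 z0)) (b z2 z0)))) z2)))) (b (d (a (c (b (d z0 z6) (d z0 z6)) z0) (c (b z7 z6) z0)) (a (c (b z6 z6) z0) (c (b (d z7 (a z6 z7)) z6) z0))) (d (a (c (b (d z0 z6) (d z0 (c (b z6 (d (c (b z4 z4) z0) (c (b z4 z4) z0))) z0))) z0) z6) (a (c (b z6 (d (c (b z6 (d (c (b z4 z4) z4) (c z0 z4))) z0) (c (b z2 z0) z4))) z0) z6)))))) (b z3 (d z0 (c (a (b z3 (d z3 z3)) z3) z7)))) (a (c (b (d (a (c (b (d z2 z2) (d (a (b (d z2 z2) (d z2 z2)) z2) z2)) z2) (c (b z3 (d (a (b z3 (d z3 z3)) z3) z3)) z3)) (a z2 z3)) (d (c (b (d (a (b (d z2 z2) (d z2 z2)) (b (d z3 z3) z2)) (a (c (b z2 z2) z2) (c (b z3 z2) (b z3 z2)))) (d (a (b (d z2 z2) (d (b z2 (d z0 (b z0 z0))) (c (b z2 (d (b z0 z0) (c (b z0 z0) (b z0 z0)))) (b z2 (d (c (b z0 z0) (b z0 z0)) (c (b z0 z0) z0)))))) z2) (a (c (b z2 (d (b z2 (d (c (b z0 z0) (b z0 z0)) (c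 (b z0 z0) z0))) (c (b z2 z0) (b z2 z0)))) (b z2 (d (b z2 (d (c (b z0 z0) z0) z0)) (b z2 z0)))) z2))) (b (d (a (b z2 z2) (b z3 z2)) z2) (d (a (b z2 (d (c (b z2 (d (c (b z0 z0) (b z0 z0)) (c (b z0 z0) (b z0 z0)))) (b z2 (d (c (b z0 z0) z0) z0))) (c (b z2 (d (c (b z0 z0) z0) z0)) (b z2 z0)))) z2) z2))) (c (b z2 z2) z2))) (b (d (a z2 z3) (a z2 z3)) (d (b z2 z2) z2))) (c (b z3 (d (c (a (b z3 (d z3 z3)) z3) z3) z3)) z3))) _ _ (by decide +kernel)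

theorem okB439 : CKB ⟨24576, 49152, 9216, 10240⟩ ⟨6145, 8193, 1024, 2048⟩ :=
  ckB_sound (b (d z0 z7) (d z0 (a z6 z7))) _ _ (by decide +kernel)

theorem okB440 : CKB ⟨24576, 49152, 8192, 10240⟩ ⟨4097, 8193, 2048, 4096⟩ :=
  ckB_sound (b z3 (d (c (b z3 (d (a z2 z3) (a z2 z3))) (b (d z7 (b z7 (d (c (a (b z7 (d (c z3 z7) z3)) z7) z7) (c z3 z7)))) (d (a z6 z7) (a (b (d (c (a z6 z7) z7) (c z3 z7)) (d z6 (c z2 z6))) (b z7 (d z7 (c z3 z7))))))) (c (b z3 (d (a z2 z3) z3)) z3))) _ _ (by decide +kernel)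

theorem okB441 : CKB ⟨24576, 49152, 10240, 11264⟩ ⟨4097, 8193, 0, 1024⟩ :=
  ckB_sound z0 _ _ (by decide +kernel)

theorem okB442 : CKB ⟨24576, 31698, 10240, 10496⟩ ⟨4097, 6145, 1024, 1536⟩ :=
  ckB_sound (d z0 (c (a (b (d (a (b (d z0 z2) (d z0 (b z2 (d (b z0 z0) (c (b z0 z0) (b z0 z0)))))) (b z2 (d z0 z2))) (c (a (b (d z2 z2) (d (b z2 (d z0 (b z0 z0))) (c (b z2 (d (b z0 z0) (c (b z0 z0) (b z0 z0)))) (b z2 (d (c (b z0 z0) (b z0 z0)) (c (b z0 z0) (b z0 z0))))))) (b z2 (d z2 z2))) (a (b z2 (d (c (b z2 (d (b z0 z0) (c (b z0 z0) (b z0 z0)))) (b z2 (d (c (b z0 z0) (b z0 z0)) (c (b z0 z0) z0)))) (c (b z2 (d (c (b z0 z0) (b z0 z0)) z0)) (b z2 z0)))) z2))) (d (b (d z0 (b z2 z2)) (d z0 (b (d (b z2 z0) (c (b z2 z0) (b z2 z0))) z0))) (c (b (d z2 z2) (d (b (d z0 (b z2 z0)) z0) (c (b (d (b z2 z0) (c (b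 z2 z0) (b z2 z0))) z0) (b (d (c (b z2 z0) (b z2 z0)) (c (b z2 z0) (b z2 z0))) z0)))) (b z2 (d (c (b (d (b z2 z0) (c (b z2 z0) (b z2 z0))) z0) (b (d (c (b z2 z0) (b z2 z0)) (c (b z2 z0) (b z2 z0))) z0)) (c (b (d (c (b z2 z0) (b z2 z0)) (c (b z2 z0) z0)) z0) (b z0 z0))))))) (b (d z3 z3) (d (b (d z0 (a z2 z3)) (d z0 z2)) (c (b (d (a z2 z3) (a z2 z3)) (d z2 z2)) (b (d (a z2 z3) z3) z2))))) (a (b (d (c (a (b (d z0 z6) (d z0 (c (b z6 (d (c (b z4 z0) z0) (c (b z4 z0) z0))) z0))) z6) z0) (c (a (b (d z6 (c z2 z6)) (d (c (b z6 (d (c (b z4 z0) z4) (c z0 z4))) z0) (c (b z2 z0) (b z6 z4)))) z6) z0)) (d (c (b (d z0 z6) (d z0 (c (b (d (c (b z6 z4) z0) (c (b z6 z4) z0)) z0) z0))) z0) (c (b (d z6 (c z2 z6)) (d (c (b (d (c (b z6 z4) z4) (c z0 z4)) z0) z0) (c (b z0 z0) (b z4 z0)))) z0))) (b z7 (d (c (b (d z0 z7)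 z6) z0) (c (b (d (a z6 z7) (a z6 z7)) z6) z0)))))) _ _ (by decide +kernel)

theorem okB443 : CKB ⟨24576, 31698, 10496, 10752⟩ ⟨4097, 6145, 1024, 1536⟩ :=
  ckB_sound (d z0 (c (b (d (b (d z0 (a (b z2 z2) z2)) (d z0 (a (b z2 (d (b z2 z0) (c (b z2 z0) (b z2 z0)))) z2))) (c (b (d z2 z2) (d z2 z2)) (b z2 z2))) (d (b (d z0 (b z2 (d (b z0 z0) (c (b z0 z0) (b z0 z0))))) z0) (c (b (d (b z2 (d z0 (b z0 z0))) (c (b z2 (d (b z0 z0) (c (b z0 z0) (b z0 z0)))) (b z2 (d (c (b z0 z0) (b z0 z0)) (c (b z0 z0) (b z0 z0)))))) z0) (b (d (c (b z2 (d (b z0 z0) (c (b z0 z0) (b z0 z0)))) (b z2 (d (c (b z0 z0) (b z0 z0)) (c (b z0 z0) (b z0 z0))))) (c (b z2 (d (c (b z0 z0) (b z0 z0)) (c (b z0 z0) z0))) (b z2 (d (c (b z0 z0) (b z0 z0)) z0)))) z0)))) (b (d (c (b (d z0 z6) (d z0 z6)) z0) (c (b (d z6 (a (c z2 z6) z6)) (d z6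 (c z2 z6))) z0)) (d (c (b (d z0 (c (b z6 (d (c (b z4 z4) z0) (c (b z4 z4) z0))) z0)) z0) z0) (c (b (d (c (b z6 (d (c (b z4 z4) z4) (c (b z0 z0) z4))) z0) (c (b z2 z0) (b z6 z4))) z0) z0))))) _ _ (by decide +kernel)

theorem okB444 : CKB ⟨31698, 49152, 10240, 10752⟩ ⟨4097, 6145, 1024, 1536⟩ :=
  ckB_sound (b (d z0 z3) (d z0 (c (b (d (a (b z3 (d z0 z3)) z3) z3) (d (a (b (d z0 (a z2 z3)) (d z0 (a (b z2 z2) z3))) z3) (a (c (b (d (a z2 z3) (a z2 z3)) (d z2 z2)) (b (d (a z2 z3) z3) z2)) z3))) (b z7 (d (a (c (b (d z0 (a z6 z7)) (d z0 z6)) z0) z7) (a (c (b (d (a z6 z7) (a z6 z7)) (d z6 (a (c z2 z6) z7))) z0) z7)))))) _ _ (by decide +kernel)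

theorem okB445 : CKB ⟨24576, 31698, 10240, 10496⟩ ⟨4097, 5121, 1536, 2048⟩ :=
  ckB_sound (d (a (c (b (d (a (b (d z2 z2) (d (b z2 (d z0 (b z0 z0))) (c (b z2 (d (b z0 z0) (c (b z0 z0) (b z0 z0)))) (b z2 (d (c (b z0 z0) (b z0 z0)) (c (b z0 z0) z0)))))) z2) (a (c (b z2 (d (b z2 (d (c (b z0 z0) (b z0 z0)) (c (b z0 z0) z0))) (c (b z2 z0) (b z2 z0)))) (b z2 (d (b z2 z0) (b z2 z0)))) z2)) (d (b (d z2 z2) (d (b (d z0 (b z2 z0)) z0) (c (b (d (b z2 z0) (c (b z2 z0) (b z2 z0))) z0) (b (d (c (b z2 z0) (b z2 z0)) z0) z0)))) (c (b z2 (d (b (d (c (b z2 z0) (b z2 z0)) (c (b z2 z0) z0)) z0) (c (b z0 z0) (b z0 z0)))) (b z2 (d (b z0 z0) (b z0 z0)))))) (b (d (a (b z2 (d (c (b z2 (d (c (b z0 z0) (b z0 z0)) (c (b z0 z0) (b z0 z0)))) (b z2 (d (c (b z0 z0) z0) z0))) (c (b z2 (d (c (b z0 z0) z0) z0)) (b z2 z0)))) z2)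 z2) (d (b z2 (d (c (b (d (c (b z2 z0) (b z2 z0)) (c (b z2 z0) (b z2 z0))) z0) (b (d (c (b z2 z0) z0) z0) z0)) (c (b (d (c (b z2 z0) z0) z0) z0) (b z0 z0)))) (b z2 (d (c (b z0 z0) (b z0 z0)) (c (b z0 z0) (b z0 z0))))))) (c (b (d z3 z3) (d (b (d (a z2 z3) (a z2 z3)) z2) (c (b (d (a z2 z3) z3) z2) (b z3 z2)))) (b z3 (d (b (d (a z2 z3) z3) z2) (b z3 z2))))) (a (c (b z2 (d (c (b z2 (d (c (b z0 z0) (b z0 z0)) (c (b z0 z0) (b z0 z0)))) (b z2 (d (b z0 z0) (b z0 z0)))) (c (b z2 (d (c (b z0 z0) (b z0 z0)) (c (b z0 z0) (b z0 z0)))) (b z2 (d (b z0 z0) (b z0 z0)))))) (b z2 (d (b z2 (d (c (b z0 z0) (b z0 z0)) (c (b z0 z0) (b z0 z0)))) (b z2 (d (c (b z0 z0) (b z0 z0)) z0))))) (c (b z3 (d (c (b z3 z2) z3) z3)) z3))) _ _ (by decide +kernel)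

theorem okB446 : CKB ⟨24576, 31698, 10496, 10752⟩ ⟨4097, 5121, 1536, 2048⟩ :=
  ckB_sound (d (c (b (d (b (d z2 z2) (d z2 z2)) z2) (d (b (d (b z2 (d z0 (b z0 z0))) (c (b z2 (d (b z0 z0) (c (b z0 z0) z0))) (b z2 (d (c (b z0 z0) (b z0 z0)) z0)))) z0) (c (b (d (b z2 (d (c (b z0 z0) z0) z0)) (c (b z2 z0) (b z2 z0))) z0) (b (d (b z2 z0) (b z2 z0)) z0)))) (b (d (b z2 z2) z2) (d (b (d (c (b z2 (d (c (b z0 z0) (b z0 z0)) (c (b z0 z0) (b z0 z0)))) (b z2 (d (c (b z0 z0) z0) z0))) (c (b z2 z0) (b z2 z0))) z0) (b (d (c (b z2 z0) (b z2 z0)) (c (b z2 z0) (b z2 z0))) z0)))) (c (b z2 (d (c (b (d (c (b z2 z0) (b z2 z0)) (c (b z2 z0) (b z2 z0))) z0) (b (d (b z2 z0) (b z2 z0)) z0)) (c (b (d (c (b z2 z0) (b z2 z0)) (c (b z2 z0) (b z2 z0))) z0) (b (d (b z2 z0) (b z2 z0)) z0)))) (b z2 (d (b (d (c (b z2 z0) (b z2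 z0)) (c (b z2 z0) (b z2 z0))) z0) (b (d (c (b z2 z0) (b z2 z0)) z0) z0))))) _ _ (by decide +kernel)

theorem okB447 : CKB ⟨24576, 31698, 10240, 10752⟩ ⟨5121, 6145, 1536, 2048⟩ :=
  ckB_sound (b (d (a (b z2 (d (c (b z2 (d (c (b z0 z0) (b z0 z0)) (c (b z0 z0) (b z0 z0)))) (b z6 (d (c (b z4 z0) z0) (c (b z4 z0) z0)))) (c (b z2 (d (c (b z0 z0) (b z0 z0)) (c (b z0 z0) (b z0 z0)))) (b z6 (d (c (b z4 z0) z4) (c (b z0 z0) z4)))))) (b z3 (d (c (b z3 z2) (b z7 z6)) z3))) z2) (d (b z2 (d (c (b (d (c (b z2 z0) (b z2 z0)) (c (b z2 z0) (b z2 z0))) z0) (b (d (c (b z6 z4) z0) (c (b z6 z4) z0)) z0)) (c (b (d (c (b z2 z0) (b z2 z0)) (c (b z2 z0) (b z2 z0))) z0) (b (d (c (b z6 (d z4 (c z0 z4))) z4) (c (b z2 z0) z4)) z0)))) (b z2 (d (c (b (d (c (b z2 z0) (b z2 z0)) (c (b z2 z0) z0)) z0) (b (d (c (b z2 z0) z4) (c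 z0 z4)) z0)) (c (b z0 z0) (b z0 z0)))))) _ _ (by decide +kernel)

theorem okB448 : CKB ⟨31698, 49152, 10240, 10752⟩ ⟨4097, 6145, 1536, 2048⟩ :=
  ckB_sound (c (b z3 (d (c (b (d z3 z3) (d (a (b (d (a z2 z3) (a z2 z3)) (d z2 z2)) z3) (a (c (b z3 z2) (b z3 z2)) z3))) (b z3 (d (a (b (d (c (a z2 z3) z3) z3) z2) z3) (a (b z3 z2) z3)))) z3)) (b z3 (d (b z3 (d (a (c (b z3 z2) (b z7 z6)) z3) z3)) z3))) _ _ (by decide +kernel)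

theorem okB449 : CKB ⟨24576, 49152, 10752, 11008⟩ ⟨4097, 6145, 1024, 1536⟩ :=
  ckB_sound (d z0 (c (a (b (d (a (b (d z0 (a (b z2 (d (b z2 (d z0 z0)) (c (b z2 z0) (b z2 z0)))) z2)) (d z0 (b z2 (d (b z2 (d z0 z0)) (c (b z2 z0) (b z2 z0)))))) (b z3 (d z0 (a z2 z3)))) (c (a (b (d z2 z2) (d (b z2 (d z0 (b z2 z0))) (c (b z2 (d (b z2 z0) (c (b z2 z0) (b z2 z0)))) (b z2 (d (c (b z2 z0) (b z2 z0)) (c (b z2 z0) (b z2 z0))))))) (b z3 (d z3 z3))) (a (b z2 (d (c (b z2 (d (b z2 z0) (c (b z2 z0) (b z2 z0)))) (b z2 (d (c (b z2 z0) (b z2 z0)) (c (b z2 z0) (b z2 z0))))) (c (b z2 (d (c (b z2 z0) (b z2 z0)) (c (b z2 z0) (b z2 z0)))) (b z2 (d (c (b z2 z0) (b z2 z0)) (c (b z2 z0) z0)))))) z3))) (d (b (d z0 (a (b z2 (d (b z2 (d z0 z0)) (c (b z2 z0) (b z2 z0)))) (b z3 z2))) (d z0 (b z2 (d (b z2 (d z0 z0)) (c (b z2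 (d z0 z0)) (b z2 z0)))))) (c (b (d z2 z2) (d (b z2 (d z0 (b z2 z0))) (c (b z2 (d (b z2 z0) (c (b z2 z0) (b z2 z0)))) (b z2 (d (c (b z2 z0) (b z2 z0)) (c (b z2 z0) (b z2 z0))))))) (b z2 (d (c (b z2 (d (b z2 z0) (c (b z2 z0) (b z2 z0)))) (b z2 (d (c (b z2 z0) (b z2 z0)) (c (b z2 z0) (b z2 z0))))) (c (b z2 (d (c (b z2 z0) (b z2 z0)) (c (b z2 z0) (b z2 z0)))) (b z2 (d (c (b z2 z0) (b z2 z0)) (c (b z2 z0) (b z2 z0)))))))))) (b z3 (d (a (b z3 (d z0 (a (b z3 z2) z3))) z3) (c (a (b z3 (d z3 z3)) z3) z3)))) (a (b (d (c (a (b (d z0 z6) (d z0 (c (b z6 (d (c (b z6 (d z0 z4)) z0) (c (b z6 z4) z0))) z0))) (b z7 (d z0 z7))) z0) (c (a (b (d z6 (c z2 z6)) (d (c (b z6 (d (c (b z6 (d z4 (c z0 z4))) z4) (c (b z2 z0) z4))) z0) (c (b z2 (d (c (b z2 z0) (b z6 z4)) z0)) (b z6 z4)))) (b z7 (d (c (a z6 z7) z0) (c z3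 z7)))) z0)) (d (c (b (d z0 z6) (d z0 (c (b z6 (d (c (b z6 (d z0 z4)) z0) (c (b z6 z4) z0))) z0))) z0) (c (b (d (c (a (b z6 (d (c (b z6 (d z4 (c z0 z4))) (b z6 z4)) (c (b z2 z0) z4))) z7) z0) (c z2 z6)) (d (c (b z6 (d (c (b z6 (d (c z0 z4) (c z0 z4))) (b z6 z4)) (c (b z2 z0) z4))) z0) (c (b z2 (d (c (b z2 z0) (b z6 z4)) (c (b z2 z0) (b z6 z4)))) (b z6 z4)))) z0))) (b z7 (d (c (a (b z7 (d z0 z7)) z7) z0) (c (a (b z7 (d z7 (c z3 z7))) z7) z0)))))) _ _ (by decide +kernel)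

end Vale.Agent.Lib.P154Q5
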