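import Vale.Agent.Lib.P154Q5.CkBDefs

namespace Vale.Agent.Lib.P154Q5

set_option maxRecDepth 100000
set_option exponentiation.threshold 1000

open Tr

theorem okB45 : CKB ⟨6145, 8193, 3072, 3584⟩ ⟨6145, 8193, 2560, 3072⟩ :=
  ckB_sound (b (d (a (c (b (d (a (c z0 z4) (c z0 z4)) (a z0 (c z0 z4))) (d (a (c z0 z4) (c z0 z4)) (a z0 (c z0 z4)))) z4) (c (b (d (c z1 z5) z1) (d (c z1 z5) (c z1 z5))) z5)) (a (c (b (d (a z0 (c z0 (b (d z4 (a z4 (c z1 z5))) (d z4 (a z4 (c z0 z4)))))) (a z0 (c z0 (b (d (a (c z0 z4) (c z1 z5)) z0) z0)))) (d (a z0 (c z0 (b (d z4 (a z4 (c z0 z4))) z4))) z0)) z4) (c (b z1 (d (c z1 (a (b (d z5 (c z1 z5)) (d (c (a (b z5 (d z5 (c z1 z5))) z5) z5) (c z1 z5))) z5)) (c z1 (a (b z1 (d (c z1 z5) z1)) z1)))) z5))) (d (a (c (b (d (a (c z0 z4) (c z0 z4)) (a z0 (c z0 z4))) (d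 (a (c z0 z4) (c z0 z4)) z0)) z4) (c (b (d (c (a (b (d (c z1 (a (b (d (c z1 z5) (c z1 z5)) z4) z5)) (c z1 (a (b z1 z0) z1))) (d (c z1 (a z4 z5)) (c z1 (a z0 z1)))) z1) z5) (c (a (b z1 (d (c z1 (a z0 z1)) (c z1 (a z0 z1)))) z1) (a (b (d z5 (c (a (b z5 z4) z5) z5)) (d (c (a z4 z5) z5) (c (a z4 z5) z5))) z5))) (d (c (a z0 z1) (a z4 z5)) (c (a z0 z1) (a z4 z5)))) z5)) (a (c z0 z4) (c (b (d (c (a (b z1 (d (c z1 (a z0 z1)) z1)) z1) (a (b (d (c (a (b (d (c z1 z5) (c z1 z5)) z4) z5) z5) (c (a (b z1 z0) z1) z5)) (d (c (a z4 z5) z5) (c (a z0 z1) z5))) z5)) (c z1 (a (b (d (c z1 z5) (c z1 (a (b (d z5 (c (a z4 z5) z5)) z4) z5))) (d (c (a z0 z1) (a z4 z5)) (c (a z0 z1) (a z4 z5)))) z1))) (d (c (a z0 z1) (a (b (d (c (a z4 z5) z4) (c z0 z4)) (d z4 (c z0 z4))) z5)) (c (a z0 z1) (a (b (d (c z0 z4) (c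 z0 z4)) (d (c z0 z4) z0)) z1)))) z5)))) _ _ (by decide +kernel)

theorem okB46 : CKB ⟨6145, 8193, 3584, 4096⟩ ⟨6145, 8193, 2048, 3072⟩ :=
  ckB_sound (d (b (d (a z4 (c (b (d (c (a z4 z5) z5) (c (a z4 z5) z5)) z4) z0)) (a (c (b (d z4 (a z4 (c z0 z4))) z4) z4) (c (b (d (c (a z4 z5) z5) (c (a z0 z1) z5)) (d (c (a z4 (b (d (c (a (b z5 (d z5 (c z1 z5))) z5) z5) (c z1 z5)) (d (c (a z4 z5) z5) (c z1 z5)))) z4) (c (a z0 (b z1 (d (c z1 z5) (c z1 (a z4 z5))))) z4))) z4))) (d z4 (a z4 (c (b (d (c (a z4 (b (d (c (a z4 z5) z5) (c (a z0 z1) z5)) (d z4 (c z0 z4)))) z4) (c z0 z4)) (d z4 (c z0 z4))) z4)))) (b (d (a (c (b (d (a (c z0 z4) (c z0 z4)) z0) (d (a (c z0 z4) (c z0 z4)) z0)) z4) (c (b (d (c (a z0 z1) (a z4 z5)) (c (a z0 z1) (a z4 z5))) (d (c z0 z4) (c z0 z4))) z4)) (a (c z0 z4) (c (b (d (c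 (a z0 z1) (a (b (d z4 (c z0 z4)) (d z4 (c z0 z4))) (b z5 (d z5 (c z1 z5))))) (c (a z0 z1) (a z0 z1))) (d (c z0 (a z4 (b (d (c (a (b z5 (d z5 (c z1 z5))) z5) z5) (c z1 z5)) (d (c (a z4 z5) z5) (c (a z0 z1) z5))))) (c z0 (a z0 (b (d (c z1 z5) (c z1 z5)) (d (c (a z0 z1) z5) (c z1 (a z4 z5)))))))) z4))) (d (a (c (b (d (a (c z0 z4) (c z0 z4)) z0) (d (a (c z0 z4) (c z0 z4)) z0)) z4) (c (b (d (c z0 z4) (c z0 z4)) (d (c z0 z4) (c z0 z4))) z4)) (a (c z0 z4) (c (b (d (c z0 (a z4 (b (d (c (a z4 z5) z5) (c (a z0 z1) z5)) (d z4 (c z0 z4))))) (c z0 (a z0 (b (d (c (a z0 z1) (a z4 z5)) (c (a z0 z1) (a z4 z5))) (d (c z0 z4) z0))))) (d (c z0 (a z4 (b (d z4 (c z0 z4)) (d z4 (c z0 z4))))) z0)) z4))))) _ _ (by decide +kernel)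

theorem okB47 : CKB ⟨4097, 6145, 3072, 4096⟩ ⟨4097, 8193, 3072, 4096⟩ :=
  ckB_sound (c z0 (b (d (a z0 (b (d (c z0 z4) z0) (d (c z0 z4) z0))) z0) (d (a z0 (b (d (c z0 z4) z0) (d (c z0 z4) z0))) z0))) _ _ (by decide +kernel)

theorem okB48 : CKB ⟨6145, 8193, 3072, 4096⟩ ⟨4097, 6145, 3072, 4096⟩ :=
  ckB_sound (b (d (c z0 (b (d (a z0 z1) (a z0 z1)) z0)) (c z0 (b (d (a z0 z1) (a z0 z1)) z0))) z0) _ _ (by decide +kernel)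

theorem okB49 : CKB ⟨6145, 8193, 3072, 3584⟩ ⟨6145, 8193, 3072, 3584⟩ :=
  ckB_sound (b (d (a (c z0 z4) (c z1 (b z5 (d z5 (a (c (b z5 (d z5 (a (c (b z5 (d z5 (a z4 z5))) z5) z5))) z5) z5))))) (a (c z0 (b (d (a z4 (c (b (d (a z4 (c (b (d (a z4 z5) z1) (d (a z4 z5) z1)) z5)) (a (c z0 z4) (c z1 z5))) (d (a z4 (c (b (d z4 z0) (d z4 z0)) z4)) (a (c z0 z4) (c z0 z4)))) z4)) (a (c z0 z4) (c z0 z4))) (d (a z4 (c (b (d z4 (a z4 (c z0 z4))) (d z4 (a z4 (c z0 z4)))) z4)) (a (c z0 z4) (c z0 z4))))) (c z1 (b (d z5 (a (c z1 z5) z5)) (d (a (c (b (d z5 (a (c z1 z5) z5)) (d (a (c (b (d z5 z1) (d (a z4 z5) z1)) z5) z5) (a (c z1 z5) z5))) z5) z5) (a (c (b z1 (d (a (c z1 z5) z1) z1)) z5) z5)))))) (d (a (c z0 z4) (c (b (d (c z1 (a (b (d (c z1 (a (b (d (c z1 z5) (c z1 z5)) z4) z5)) (c z1 (a (b z1 z0)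 z1))) (d (c (a z0 z1) (a z4 z5)) (c (a z0 z1) (a z0 z1)))) z1)) (c z1 (a (b z1 (d (c z1 (a z0 z1)) (c z1 (a z0 z1)))) z1))) (d (c (a z0 z1) (a z0 z1)) (c (a z0 z1) (a z0 z1)))) (b (d z5 (a (c (b (d z5 (a (c (b (d z5 (a z4 z5)) z4) z5) z5)) (d (a z4 z5) (a z4 z5))) z5) z5)) (d (a z4 z5) (a (c (b (d z4 (a z4 z5)) z4) z4) z5))))) (a (c z0 (b (d (a z4 (c (b (d z4 (a z4 (c z0 z4))) (d z4 (a z4 (c z0 z4)))) z4)) (a (c z0 z4) (c z0 z4))) (d z4 (a (c z0 z4) (c z0 z4))))) (c (b (d (c z1 (a (b z1 (d (c z1 (a z0 z1)) (c z1 (a z0 z1)))) z1)) z1) (d (c (a z0 z1) (a z0 z1)) (c (a z0 z1) (a z0 z1)))) (b (d (a (c (b (d (a (c (b (d (a z4 z5) z1) (d z4 z0)) z5) z5) (a (c (b z1 z0) z5) z5)) (d (a (c (b (d z4 z0) (d z4 z0)) z4) z5) (a (c z0 z4) (c z1 z5)))) z5) z5) (a (c (b (d (a (c z1 (b (d z5 (a z4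 z5)) z4)) z1) (a (c z1 (b (d (a z4 z5) (a z4 z5)) (d z4 (a z4 z5)))) z1)) (d (a z0 z1) (a z0 z1))) z5) z5)) (d (a (c (b (d (a z4 (c (b z5 (d (c z1 z5) z1)) z5)) (a (c z0 z4) (c z1 z5))) (d (a z4 (c (b (d (c z1 z5) z1) (d (c z1 z5) (c z1 z5))) z5)) (a (c z0 z4) (c z1 z5)))) z4) z5) (a (c (b (d (a z0 z1) (a z0 z1)) (d (a z0 (c z1 (b z5 (d z5 (a z4 z5))))) z0)) z4) (c z1 z5)))))))) _ _ (by decide +kernel)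

theorem okB50 : CKB ⟨6145, 8193, 3072, 3584⟩ ⟨6145, 8193, 3584, 4096⟩ :=
  ckB_sound (b (d (a (c z0 (b (d (a (c z0 z4) (c z0 z4)) (a z0 (c z0 (b (d z4 (a z4 (c z1 z5))) (d z4 (a z4 (c z0 z4))))))) (d (a (c z0 z4) (c z0 z4)) (a z0 (c z0 (b (d z4 (a z4 (c z0 z4))) (d z4 (a z4 (c z0 z4))))))))) (c z1 (b z1 (d (a (c z1 z5) z5) (a (c z1 (b (d z5 (a (c z1 z5) z5)) (d (a (c (b z5 (d z5 (a z4 z5))) z5) z5) (a (c z1 z5) z5)))) z1))))) (a z0 (c z1 (b z1 (d (a (c z1 (b z1 (d (a (c z1 z5) z5) z1))) z1) z1))))) (d (a (c z0 (b (d (a (c z0 z4) (c z0 z4)) z0) z0)) (c (b z1 (d (c z1 (a z0 z1)) (c z1 (a z0 z1)))) (b (d (a (c (b (d (a (c z1 (b z1 z0)) z1) (a (c z1 (b z1 z0)) z1)) (d (a z0 z1) (a z0 z1))) (b (d z5 (a (c (b z5 z4) z5) z5)) (d z5 (a z4 z5)))) z5) (a (c (b z1 (d (a z0 z1) (a z0 z1))) (b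 (d (a (c (b (d (a z4 z5) (a z4 z5)) z4) z5) z5) (a (c (b (d (a z4 z5) z1) z0) z5) z5)) (d (a z4 z5) (a (c z0 z4) z5)))) z1)) (d (a (c z0 z4) (c z1 z5)) (a (c z0 (b (d (a z4 z5) (a (c z0 z4) (c z1 z5))) (d (a z4 (c (b (d z5 (a z4 z5)) (d (a z4 z5) (a z4 z5))) z5)) (a (c z0 z4) (c (b z1 (d (a z4 z5) (a z0 z1))) z5))))) z1))))) (a z0 (c (b z1 (d (c z1 (a z0 z1)) (c z1 (a z0 z1)))) (b (d (a (c (b z1 (d (a z0 z1) z1)) (b (d (a (c (b z1 z0) z5) z5) (a (c z1 (b (d (a z4 z5) (a z4 z5)) z4)) z1)) (d (a (c z0 z4) (c z1 z5)) (a z0 z1)))) z1) (a (c z1 (b (d (a (c z1 (b (d (a z4 z5) z1) z0)) z1) (a (c z1 (b z1 z0)) z1)) (d (a z0 z1) (a z0 z1)))) z1)) (d (a (c z0 (b (d (a (c z0 z4) (c z1 z5)) (a z0 z1)) (d (a (c z0 z4) (c z1 z5)) (a z0 (c z1 (b (d z5 (a z4 z5)) (d (a z4 z5) (a z4 z5)))))))) z1)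 (a (c z0 (b (d (a z0 z1) z0) z0)) z1))))))) _ _ (by decide +kernel)

theorem okB51 : CKB ⟨6145, 8193, 3584, 4096⟩ ⟨6145, 8193, 3072, 3584⟩ :=
  ckB_sound (b (d (a (c z0 z4) (c (b (d (c (a z0 z1) (a z0 z1)) (c (a z0 z1) (a z0 z1))) (d (c z0 (a z0 (b z1 (d (c z1 (a z4 z5)) (c z1 (a z0 z1)))))) (c z0 (a z0 (b z1 (d (c z1 (a z0 z1)) (c z1 (a z0 z1)))))))) (b (d (a z4 z5) (a z4 z5)) (d z4 (a z4 (c (b (d z5 (c (a (b z5 (d z5 (c z1 z5))) z5) z5)) (d (c (a z4 z5) z5) (c (a z4 z5) z5))) z5)))))) (a (c z0 (b (d z4 (a z4 (c z0 z4))) (d z4 (a z4 (c z0 z4))))) (c (b (d (c (a z0 z1) (a z0 z1)) (c (a z0 z1) (a z0 z1))) z0) (b (d (a (c (b (d (a z4 (c (b (d z4 z0) (d z4 z0)) z4)) (a (c z0 z4) (c z0 z4))) (d (a z4 (c (b (d z4 z0) z4) z4)) (a (c z0 z4) (c z0 z4)))) z4) (c (b z5 (d (c (a (b z5 (d z5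 z1)) z5) z5) (c z1 z5))) z5)) (a (c z0 z4) (c z1 z5))) (d (a (c (b (d z4 (a z4 (c z0 z4))) (d z4 (a z4 (c z0 z4)))) z4) (c (b (d (c (a (b (d (c z1 z5) z1) (d (c z1 z5) z1)) z5) z5) (c z1 z5)) (d (c (a (b (d (c z1 z5) (c z1 (a z4 z5))) (d z4 z0)) z5) z5) (c (a z0 z1) z5))) z5)) (a (c z0 z4) (c (b (d (c z1 z5) (c z1 (a (b (d z5 (c z1 z5)) (d (c z1 z5) (c z1 z5))) z5))) (d (c (a z0 z1) (a z4 z5)) (c (a z0 z1) (a (b (d (c (a z0 z1) z5) (c z1 z5)) (d z4 (c z0 z4))) z5)))) z5))))))) (d (a (c z0 z4) (c z0 (b (d z4 (a z4 (c (b (d (c (a z4 z5) z5) (c (a z4 z5) z5)) z4) z4))) z4))) (a (c z0 (b (d z4 (a z4 (c z0 z4))) (d z4 (a z4 (c z0 z4))))) (c z0 (b (d (a (c (b (d z4 (a z4 (c z0 z4))) z4) z4) (c (b (d (c (a (b (d z4 z0) (d z4 z0)) z5) z5) (c (a z0 z1) (a z4 z5))) (d (c (a z4 (b (d (c z1 z5)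 z1) (d (c z1 z5) z1))) z4) (c z0 z4))) z4)) (a (c z0 z4) (c (b (d (c (a z0 z1) (a z4 z5)) (c (a z0 z1) (a z4 z5))) (d (c z0 z4) (c z0 (a z4 (b (d z5 (c z1 z5)) (d (c z1 z5) (c z1 z5))))))) z4))) (d (a z4 (c (b (d (c (a z4 (b (d (c z1 z5) (c z1 z5)) (d z4 z0))) z4) (c z0 z4)) (d (c (a z4 (b (d z4 z0) (d z4 z0))) z4) (c z0 z4))) z4)) (a (c z0 z4) (c (b (d (c z0 z4) z0) z0) z4)))))))) _ _ (by decide +kernel)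

theorem okB52 : CKB ⟨6145, 8193, 3584, 4096⟩ ⟨6145, 8193, 3584, 4096⟩ :=
  ckB_sound (b (d (a z0 (c z0 (b (d (a (c z0 z4) (c z1 z5)) (a (c z0 (b (d z4 (a z4 (c z0 z4))) (d z4 (a z4 (c z0 z4))))) (c z1 (b z5 (d z5 (a (c z1 z5) z5)))))) (d (a (c z0 z4) (c (b z1 (d (c z1 (a z0 z1)) (c z1 (a z0 z1)))) (b z5 (d z5 (a z4 z5))))) (a (c z0 (b (d z4 (a z4 (c z0 z4))) (d z4 (a z4 (c z0 z4))))) (c (b z1 (d (c z1 (a z0 z1)) (c z1 (a z0 z1)))) (b (d (a (c (b (d z5 (a (c z1 z5) z5)) (d (a z4 z5) (a z4 z5))) z5) z5) (a (c (b z1 (d (a (c z0 z4) z5) z1)) z5) z5)) (d (a (c (b (d (a z4 z5) (a z4 z5)) z4) z4) z5) (a (c z0 z4) z5))))))))) (a z0 (c z0 (b (d (a (c z0 (b (d (a (c z0 z4) (c z0 z4)) z0) z0)) z1) (a z0 z1)) (d (a z0 (c z1 (b (d (a (c z1 z5) z5) (a (c z1 (b (d z5 (a (c z1 z5) z5)) (d (a z4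 z5) (a z4 z5)))) z1)) (d (a (c z0 z4) (c z1 z5)) (a (c z0 (b (d (a z4 z5) (a z4 z5)) z4)) z1))))) (a z0 (c z1 (b (d (a (c z1 (b z1 (d (a (c z0 z4) z5) (a z0 z1)))) z1) z1) (d (a z0 z1) (a z0 z1)))))))))) (d (a z0 (c z0 (b (d (a (c z0 z4) (c (b (d (c (a z0 z1) (a z0 z1)) (c (a z0 z1) (a z0 z1))) z0) z4)) (a z0 (c z0 (b (d (a z4 z5) (a (c z0 z4) (c z1 z5))) (d (a z4 (c (b (d z5 (c z1 z5)) (d (c (a z4 z5) z5) (c z1 z5))) z5)) (a (c z0 z4) (c (b z1 (d (c z1 z5) z1)) z5))))))) (d (a (c z0 z4) (c z0 z4)) (a z0 (c z0 (b (d (a z4 (c (b (d (c (a z4 z5) z5) (c (a z0 z1) z5)) (d z4 (c z0 z4))) z4)) (a (c z0 z4) (c z0 z4))) (d z4 (a z4 (c z0 z4)))))))))) (a z0 (c z0 (b (d (a z0 (c z0 (b (d (a (c z0 z4) (c z1 z5)) (a z0 z1)) (d (a (c z0 z4) (c z1 z5)) (a z0 (c z1 (b (d z5 (a (c z1 z5) z5)) (d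 (a z4 z5) (a z4 z5))))))))) (a z0 (c z0 (b (d (a z0 z1) (a z0 z1)) (d (a z0 (c z1 (b z1 (d (a (c z0 z4) z5) (a z0 z1))))) z0))))) (d (a z0 (c z0 (b (d (a (c z0 z4) (c z0 z4)) (a z0 (c z0 (b (d (a z4 z5) (a z4 z5)) (d z4 (a z4 (c z1 z5))))))) (d (a (c z0 z4) (c z0 z4)) z0)))) z0)))))) _ _ (by decide +kernel)

theorem okB53 : CKB ⟨0, 8193, 0, 4096⟩ ⟨8193, 49152, 0, 4096⟩ :=
  ckB_sound (a (b (d z0 (b z0 z4)) (d z0 (a (b (d (c z4 z0) z4) (d (c (a (b (d z0 z4) (d z0 z4)) (b (d z0 z4) (d z0 z4))) z0) z4)) (b (d (c (b z4 (d z0 z4)) z0) z4) (d (c (b (d z0 z4) (d z0 (a z4 (c z4 z0)))) z0) (c z4 (b z4 (d z0 z4)))))))) (b (d z0 (b z0 (d (c (a z4 (b z0 (d z0 (c (b z0 z5) z0)))) z0) (c (a (b (d z4 (c (b z0 (d z4 (c (a z4 z5) z4))) z4)) z4) (b z0 (d (c (b z0 z5) z5) (c (b z0 z5) z5)))) z4))))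 (d z0 (b (d (c (a (b (d z0 z4) (d z0 z4)) (b (d z0 (c z5 z0)) (d z0 z5))) z0) (c (a z4 (b (d (c z5 z5) (c (b z5 (d z5 (a (c (b z5 (d z5 (a z4 z5))) z5) z5))) z5)) (d z5 (c (b (d z5 (a (c (b (d z5 (a z4 z5)) (d z4 (a z4 z5))) z5) z5)) (d z5 (a z4 z5))) z5)))) z4)) (d (c (a (b (d z0 (c z4 z0)) (d z0 (c z4 z0))) (b (d z0 (c z4 z0)) (d z0 (c z4 z0)))) z0) (c (a z4 (b (d z4 (c (b (d (a z4 z5) (a z4 z5)) (d z4 (a z4 (c (b (d z5 (a (c (b z5 (d z5 (a z4 z5))) z5) z5)) (d z5 (a z4 z5))) z5)))) z4)) (d z4 (c (b (d z4 (a z4 (c (b (d (a z4 z5) (a z4 z5)) (d z4 (a z4 (c (b z5 (d z5 (a z4 z5))) z5)))) z4))) z4) z4)))) (a (b z4 (d z0 z4)) (b z4 (d z0 z4))))))))) _ _ (by decide +kernel)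

theorem okB54 : CKB ⟨8193, 49152, 0, 4096⟩ ⟨0, 49152, 0, 4096⟩ :=
  ckB_sound (c (c (b z0 (d (b z1 (d z0 z1)) (c (b (d (a z1 z0) (a (c (b z0 z1) (b z0 z1)) z0)) z1) (b (d (a (b z0 z1) z0) (a (b z0 (d z1 (c z1 (a z1 z0)))) z0)) (d z1 (a z1 (b z0 z1))))))) (b z0 (d (b (d z0 (a (c z1 (b z0 (d z0 (a (b z0 z5) z0)))) z0)) (d z0 (a (c (b z1 (d (a (b z1 (d z0 (a (c z1 z5) z1))) z1) z1)) (b (d z0 (a (b (d z0 z5) (d z0 z5)) z5)) (d z0 (a (b (d z0 z5) (d z0 z5)) z5)))) z1))) (b (d (a (c (b z0 z1) (b z0 (d (a z5 z0) z5))) z0) (a (c (b z0 (d (a z1 z0) (a z1 z0))) (b z0 (d (a z1 z0) (a z1 z0)))) z0)) (d (a (c z1 (b (d (a z5 z5) z5) (d (a (b z5 (d z5 (c (a (b z5 (d z5 (c z1 z5))) z5) z5))) z5) (a (b z5 (d (c (a (b (d z5 z1) (d (c z1 z5) (c z1 z5))) z5) z5) (c z1 z5))) z5)))) z1) (a (c z1 (b z1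 (d (a (b (d (c z1 z5) z1) (d (c z1 z5) (c z1 (a (b z5 (d (c (a (b z5 (d z5 (c z1 z5))) z5) z5) (c z1 z5))) z5)))) z1) (a (b z1 (d (c z1 (a (b z1 (d (c z1 z5) (c z1 (a (b z5 (d z5 (c z1 z5))) z5)))) z1)) z1)) z1)))) (c (b z0 z1) (b z0 z1)))))))) (b z0 (d z0 (b (d (a (c (b z0 (d z0 (a (c (b z0 z5) z0) z0))) z0) z0) (c (a (b z0 (d (c (a z5 z0) (a (b z0 z5) z0)) (c (a z5 z0) (a z5 z0)))) z0) (a (b z0 (d z0 (a z5 z0))) z0))) (d (a (c (b (d z0 (a (c z5 z0) (c (b z0 z5) z0))) (d z0 (a (c z5 z0) (c z5 z0)))) z0) (c (b z0 (d z0 (c z5 z0))) z0)) (a (c (b (d (a (c z5 z5) (c z5 (b z0 (d z0 (a z5 z0))))) (a z5 (c z5 (b z0 z5)))) (d (a z5 (c z5 (b (d z0 z5) (d z0 z5)))) (a z5 z5))) (b (d z0 (a z5 (c (b z0 (d z0 (a z5 z0))) (b z0 z5)))) (d z0 (a z5 (c z5 z5))))) (c (b z0 (d (c z5 (a (b z0 (d z0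 (c z5 z0))) (b z0 (d z0 z5)))) (c z5 (a z5 z5)))) (b z0 (d z0 (a (c (b z0 (d z0 z5)) (b z0 (d z0 z5))) (c (b z0 (d z0 z5)) (b z0 (d z0 z5))))))))))))) _ _ (by decide +kernel)

theorem okB55 : CKB ⟨0, 4097, 0, 4096⟩ ⟨0, 6144, 4096, 8192⟩ :=
  ckB_sound (b (d (c (b z0 (d z0 (b z0 z0))) (b z0 z0)) (b z0 (d (b z0 (d z0 z0)) z0))) (d z0 (a (b (d (b z0 z0) z0) (d (a (b z0 (d z0 z0)) (b z0 (d z0 z0))) z0)) (b (d z0 z0) (d z0 z0))))) _ _ (by decide +kernel)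

theorem okB56 : CKB ⟨4097, 8193, 0, 2048⟩ ⟨0, 3072, 4096, 6144⟩ :=
  ckB_sound (b z0 (d (c (a (b (d (c (b z0 z0) (b z0 z0)) (c (b z0 (d (c (a z0 z1) (a z0 z1)) (a z0 (b (d z1 (a z1 z0)) z1)))) (b z0 (d (a z0 z1) (a z0 (c (b (d z1 (a z1 z0)) z1) (b (d z1 (a z1 z0)) z1))))))) z0) (b z0 (d (c (b z0 z1) (b z0 z1)) (c (b z0 z1) (b z0 z1))))) (a (b (d (c (b z0 z0) (b z0 z0)) (c (b z0 (d (a z0 z1) (a z0 (c (b (d z1 (a z1 z0)) z1) (b (d z1 (a z1 z0)) z1))))) (b z0 (d (a z0 z1) (a z0 z1))))) z0) (b z0 (d (c (b z0 (d z1 (a z1 z0))) (b z0 (d (a z1 z0) (a z1 z0)))) (c (b z0 (d (a z1 z0) (a z1 z0))) (b z0 (d (a z1 z0) (a z1 z0)))))))) (a (b (d (c (b z0 (d (c (a z0 (b (d (c (a z1 z0) (a z1 z0)) (c (a z1 z0) (a z1 z0))) z1)) (a z0 (b (d (c (a z1 z0) (a z1 z0)) (c (a z1 z0) (a z1 z0))) z1))) (a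 z0 (c (b (d (a z1 z0) (a z1 z0)) z1) (b (d (a z1 z0) (a z1 z0)) z1))))) (b z0 (d (c (a z0 (b (d (c (a z1 z0) (a z1 z0)) (c (a z1 z0) (a z1 z0))) z1)) (a z0 (b (d (c (a z1 z0) z1) (c (a z1 z0) (a z1 z0))) z1))) (c (a z0 (b (d (c (a z1 z0) (a z1 z0)) (c (a z1 z0) (a z1 z0))) z1)) (a z0 (b (d (c (a z1 z0) (a z1 z0)) (c (a z1 z0) (a z1 z0))) z1)))))) (b z0 (d (c (a z0 (b (d (c (a z1 z0) (a z1 z0)) (a (b z0 z1) z0)) z1)) (a z0 (b (d (c (a z1 z0) (a z1 z0)) (c (a (b z0 z1) z0) (a (b z0 z1) z0))) z1))) (a z0 (b (d (c (a (b z0 z1) z0) (a (b z0 z1) z0)) (a (b z0 z1) z0)) (d z1 (a (b z1 (d z1 (a z0 z1))) z0))))))) (d (c (a z0 (b (d (c (b (d z0 z0) z0) z0) (c (b (d (a z0 z1) (a z0 z1)) z0) (b (d (a z0 z1) (a z0 z1)) z0))) z0)) (a z0 (b (d z0 (c (b (d (a z0 z1) (a z0 z1)) z0) (b (d z0 (a z0 z1))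 z0))) z0))) (a z0 (b (d (c (b (d (c (a z0 z1) (a z0 z1)) (a z0 z1)) (d z0 (a z0 (b z1 (d z1 (a z0 z1)))))) (b (d (a z0 z1) (a z0 z1)) (d z0 (a z0 z1)))) (b (d (c (a z0 z1) (a z0 z1)) (a z0 z1)) (d (c (a z0 (b z1 (d (c (a z0 z1) (a z0 z1)) (a z0 z1)))) (a z0 (b z1 (d z1 (c (a z0 z1) (a z0 z1)))))) (a z0 (b z1 (d (c (a z0 z1) (a z0 z1)) (a z0 z1))))))) (d z0 z0))))) (b z0 (d (c (b z0 (d (c z1 (a z1 z0)) (a z1 z0))) (b z0 (d (a z1 z0) (a z1 z0)))) (b z0 (d (c (a z1 z0) (a z1 z0)) (a z1 z0)))))))) _ _ (by decide +kernel)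

theorem okB57 : CKB ⟨4097, 8193, 0, 2048⟩ ⟨3072, 6144, 4096, 6144⟩ :=
  ckB_sound (b z0 (d (a (b (d (c (b z0 z0) (b z0 z0)) (c (b z0 (d z0 (c (a z0 z1) (a z0 z1)))) (b z0 (d z0 (c (a z0 z1) z0))))) z0) (b z0 (d (c (b z0 (d (c (a z1 z0) (a z1 z0)) (c (a z1 z0) (a z1 z0)))) (b z0 (d (a z1 z0) (a z1 z0)))) (c (b z0 (d (c (a z1 z0) (a z1 z0)) (c (a z1 z0) (a z1 z0)))) (b z0 (d (a z1 z0) (a z1 z0))))))) (a (b (d (c (b z0 (d (c (a z0 (b (d z1 (c (a z1 z0) (a z1 z0))) z1)) (a z0 z1)) (c (a z0 (b (d (c (a z1 z0) (a z1 z0)) (c (a z1 z0) (a z1 z0))) z1)) (a z0 (b (d (c (a z1 z0) (a z1 z0)) (c (a z1 z0) (a z1 z0))) z1))))) (b z0 (d (c (a z0 z1) (a z0 z1)) (c (a z0 (b (d z1 (c (a z1 z0) (a z1 z0))) z1)) (a z8 z9))))) (c (b z0 (d (c (a z0 (b (d (c (a z1 z0) (a z1 z0)) (c (a z1 z0) (a z1 z0)))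 z1)) (a z0 (b (d (c (a z1 z0) (a z1 z0)) (c (a z1 z0) (a z1 z0))) z1))) (c (a z0 (b (d (c (a (b z0 z1) z0) (a (b z0 z1) z0)) (c (a (b z0 z1) z0) (a (b z0 z1) z0))) z1)) (a z0 (b (d (c (a z1 z0) (a z1 z0)) (c (a (b z0 z1) z0) (a (b z0 z1) z0))) z1))))) (b z0 (d (c (a z0 (b (d (c (a z1 z0) (a z1 z0)) (c (a z1 z0) (a z1 z0))) z1)) (a z8 (b (d (c (a z9 z0) z9) (c (a z9 z0) (a z9 z0))) z9))) (c (a z0 (b (d (c (a z1 z0) (a z1 z0)) (c (a z1 z0) (a z1 z0))) z1)) (a z8 (b (d (c (a z9 z0) (a z9 z0)) (c (a z1 z0) (a z9 z0))) z9))))))) (d (c (a z0 (b (d z0 (c (b (d z0 (a z0 z1)) z0) z0)) z0)) z0) (c (a z0 (b (d (c (b (d (a z0 z1) (a z0 z1)) z0) (b (d (a z0 z1) (a z0 z1)) z0)) (c (b (d (a z0 z1) (a z0 z1)) (d (a z0 z1) (a z0 (c (b z1 (d (c (a z0 z1) (a z0 z1)) (c (a z0 z1) (a z0 z1)))) (b z1 (d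 (a z0 z1) (a z0 z1))))))) (b (d (a z0 z1) (a z0 z1)) (d z0 (a z0 (c (b z1 (d z1 (a z0 z1))) z1)))))) z0)) (a z0 (b (d (c (b (d z0 (a z0 z1)) z0) z8) (c (b (d (a z0 z1) (a z0 z1)) z0) (b (d z8 (a z8 z9)) z8))) z0))))) (b z0 (d (c (b z0 (d (c (a z1 z0) (a z1 z0)) (c (a z1 z0) (a z1 z0)))) (b z0 (d (a z1 z0) (a z1 z0)))) (c (b z0 (d (c (a z1 z0) (a z1 z0)) (c (a z1 z0) (a z1 z0)))) (b z0 (d (a z1 z0) (a z1 z0))))))))) _ _ (by decide +kernel)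

theorem okB58 : CKB ⟨4097, 8193, 0, 1024⟩ ⟨0, 6144, 6144, 8192⟩ :=
  ckB_sound z0 _ _ (by decide +kernel)

theorem okB59 : CKB ⟨4097, 6145, 1024, 1536⟩ ⟨0, 6144, 6144, 6656⟩ :=
  ckB_sound (c (b z0 (d (c (a (b (d z0 z0) z0) (b (d (c (a (b z0 z1) z0) (a (b z0 z1) z0)) (a (b z0 z1) z0)) (d (c (a (b z1 (d (c (a z0 z1) z1) (a z0 z1))) z0) (a (b z1 (d z1 (c (a z0 z1) z1))) z0)) (a (b z1 (d (c (a z0 z1) (a z0 z1)) (a z0 z1))) z0)))) (a z0 (b (d (c (a (b z0 z1) z0) (a (b z0 z1) z0)) (c (a (b z0 z1) z0) (a (b z0 z1) z0))) (d z1 (c (a (b z1 (d (c (a z0 z1) (a z0 z1)) (c (a z0 z1) (a z0 z1)))) z0) (a (b z1 (d z1 (c (a z0 z1) (a z0 z1)))) z0)))))) (a (b (d (c (b z0 z0) z0) (b z0 z0)) z0) (b (d (c (a (b z0 (d z1 z1)) z0) (a (b z0 z1) z0)) (a (b z0 (d (a z1 z0) (a z1 z0))) z0)) (d (c (a (b (d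 z1 z1) (d (c (a z0 z1) (a z0 z1)) (a z0 z1))) z0) (a (b z1 (d (c (a z0 z1) (a z0 z1)) (c (a z0 z1) (a z0 z1)))) z0)) (a (b (d z1 (a (b z1 (d z1 z0)) z0)) (d (a z0 z1) (a z0 z1))) z0)))))) (b z0 (d (c (a z0 (b (d (c (a (b z0 z1) z0) (a (b z0 z1) z0)) (c (a (b z0 z1) z0) (a (b z0 z1) z0))) z1)) (a z0 (b (d (c (a z1 z0) (a z9 z0)) (c (a (b z0 z1) z0) (a (b z0 z1) z0))) z1))) (c (a (b (d z0 (c (b z0 z0) z0)) z0) (b (d (c (a (b z0 z1) z0) (a (b z0 z1) z0)) (c (a (b z0 (d z1 (c (a z1 z0) z1))) z0) (a (b z0 z1) z0))) (d (c (a (b z1 (d (c (a z0 z1) (a z0 z1)) (c (a z0 z1) (a z0 z1)))) z0) (a (b z1 (d (c (a z0 z1) z1) (c (a z0 z1) (a z0 z1)))) z0)) (c (a (b z1 (d (c (a z0 z1) (a z0 z1)) (c (a z0 z1) (a z0 z1)))) z0) (a (b z1 (d (c (a z0 z1) (a z0 z1)) (c (a z0 z1) (a z0 z1)))) z0))))) (a z0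 (b (d (c (a (b z0 z1) z0) (a (b z0 z1) z0)) (c (a (b z0 z1) z0) (a (b z0 z1) z0))) (d (c (a (b z1 (d z1 (c (a z0 z1) z1))) z0) z1) (c (a (b z1 (d (c (a z0 z1) (a z0 z1)) (c (a z0 z1) (a z0 z1)))) z0) (a (b z1 (d (c (a z0 z1) z1) (c (a z0 z1) (a z0 z1)))) z0))))))))) _ _ (by decide +kernel)

end Vale.Agent.Lib.P154Q5
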