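import Vale.Agent.Lib.P154Q5.CkBDefs

namespace Vale.Agent.Lib.P154Q5

set_option maxRecDepth 100000
set_option exponentiation.threshold 1000

open Tr

theorem okB450 : CKB ⟨24576, 49152, 11008, 11264⟩ ⟨4097, 6145, 1024, 1536⟩ :=
  ckB_sound (d z0 (c (b (d (a (b (d z0 (a (b z2 z2) z3)) (d z0 (b z2 z2))) z3) (a (c (b (d (a z2 z3) (a z2 z3)) (d z2 z2)) (b (d (a z2 z3) z3) z2)) z3)) (d (a (b (d z0 (a (b z2 z2) z3)) (d z0 (b z2 z2))) (b z3 (d z0 z3))) (c (a (b (d (a z2 z3) (c (a z2 z3) z3)) (d z2 z2)) z3) (a (b (d (a z2 z3) z3) z2) z3)))) (b (d (a (c (b (d z0 (a (c (b z6 z6) z0) z7)) (d z0 (c (b z6 z6) z0))) z0) z7) (a (c (b (d (a (c (b z6 z6) z0) z7) (a (c z2 z6) z7)) (d (c (b z6 z6) z0) (c z2 z6))) z0) z7)) (d (a (c (b (d z0 (a (c (b z6 z6) z0) z7)) (d z0 (c (b z6 z6) z0))) z0) (c (b z7 (d z0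 z7)) z0)) (a (c (b (d (a (c (b z6 z6) z0) z7) (a (c z2 z6) z7)) (d (c (b z6 z6) z0) (c z2 z6))) z0) z7))))) _ _ (by decide +kernel)

theorem okB451 : CKB ⟨24576, 49152, 10752, 11264⟩ ⟨4097, 6145, 1536, 2048⟩ :=
  ckB_sound (c (b (d (a (c (b (d (a (b z2 (d (b z2 (d z0 (b z2 z0))) (c (b z2 (d (b z2 z0) z0)) (b z2 z0)))) z3) z2) (d (b z2 (d (b z2 (d z0 (b z2 z0))) (c (b z2 (d z0 z0)) (b z2 z0)))) (c (b z2 (d (b z2 z0) (c (b z2 z0) (b z2 z0)))) (b z2 (d (b z2 z0) (b z2 z0)))))) (b (d (a (b z2 (d (c (b z2 (d (c (b z2 z0) (b z2 z0)) (c (b z2 z0) z0))) (b z2 (d (c (b z2 z0) z0) z0))) (c (b z2 z0) (b z2 z0)))) z3) z2) (d (b z2 (d (c (b z2 (d (c (b z2 z0) (b z2 z0)) z0)) (b z2 z0)) (c (b z2 z0) (b z2 z0)))) (b z2 (d (c (b z2 z0) (b z2 z0)) (c (b z2 z0) (b z2 z0))))))) z3) (a (c (b z2 (d (c (b z2 (d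 (c (b z2 z0) (b z2 z0)) (c (b z2 z0) (b z2 z0)))) (b z2 (d (b z2 z0) (b z2 z0)))) (c (b z2 (d (c (b z2 z0) (b z2 z0)) z0)) (b z2 (d (b z2 z0) z0))))) (b z2 (d (b z2 (d (c (b z2 z0) (b z2 z0)) (c (b z2 z0) (b z2 z0)))) (b z2 (d (c (b z2 z0) (b z2 z0)) z0))))) z3)) (d (c (b (d (a (b (d (a z2 z3) z3) z2) z3) (a z2 z3)) (d (a (b z3 z2) z3) z3)) (b (d (a z2 z3) z3) (d (a z2 z3) z3))) (c (b z3 z3) (b z3 z3)))) (b (d (a (b z2 (d (c (b z2 (d (c (b z2 z0) (b z2 z0)) (c (b z2 z0) (b z2 z0)))) (b z6 (d (c (b z6 z4) z0) (c (b z6 (d z4 (c (b z6 z4) z4))) z0)))) (c (b z2 (d (c (b z2 z0) (b z2 z0)) (c (b z2 z0) (b z2 z0)))) (b z6 (d (c (b z6 (d (c z0 z4) (c z0 z4))) z4) (c (b z2 z0) z4)))))) z3) (a (b z2 (d (c (b z2 (d (c (b z2 z0) (b z2 z0)) (c (b z2 z0) (b z2 z0)))) (b z6 (d (c (b z2 z0) z4) (c (b z2 z0)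 z4)))) (c (b z2 z0) (b z2 z0)))) z3)) (d (b (d (c (a z2 z3) (a z6 z7)) z3) (d (c (a z2 z3) (a z6 z7)) z3)) (b z3 z3)))) _ _ (by decide +kernel)

theorem okB452 : CKB ⟨24576, 49152, 10240, 11264⟩ ⟨6145, 8193, 1024, 2048⟩ :=
  ckB_sound (b (d z0 (a (b z6 (d z0 (c (b z6 z4) z0))) z7)) (d z0 (b z7 z7))) _ _ (by decide +kernel)

theorem okB453 : CKB ⟨24576, 49152, 11264, 12288⟩ ⟨4097, 8193, 0, 1024⟩ :=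
  ckB_sound z0 _ _ (by decide +kernel)

theorem okB454 : CKB ⟨24576, 49152, 11264, 11520⟩ ⟨4097, 6145, 1024, 1536⟩ :=
  ckB_sound (d z0 (c (b (d (a (b (d z0 (a (b z2 (d (b z2 (d z0 (b z2 z0))) (c (b z2 (d (b z2 z0) z0)) (b z2 (d (c (b z2 z0) (b z2 z0)) z0))))) z3)) (d z0 (b z2 (d (b z2 (d z0 (b z2 z0))) (c (b z2 (d (b z2 z0) z0)) (b z2 (d (c (b z2 z0) (b z2 z0)) z0))))))) (b z3 (d z0 z3))) (c (a (b (d (a (b z2 (d z0 (b z2 z0))) z3) z3) (d (b z2 (d z0 (b z2 z0))) (c (b z2 (d (b z2 z0) (c (b z2 z0) z0))) (b z2 (d (c (b z2 z0) (b z2 z0)) (c z0 (b z2 z0))))))) z3) (a (b (d (c (a (b z2 (d (b z2 z0) (c (b z2 z0) (b z2 z0)))) z3) (a (b z2 (d (c (b z2 z0) (b z2 z0)) (c (b z2 z0) (b z2 z0)))) z3)) z3) (d (c (b z2 (d (b z2 z0) (c (b z2 z0) (b z2 z0)))) (b z2 (d (c (b z2 z0) (b z2 z0)) (c (b z2 z0) (b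 z2 z0))))) (c (b z2 (d (c (b z2 z0) (b z2 z0)) (c (b z2 z0) (b z2 z0)))) (b z2 (d (c (b z2 z0) (b z2 z0)) (c (b z2 z0) (b z2 z0))))))) z3))) (d (b (d z0 (a (b (d (a z2 z3) z3) z2) z3)) (d z0 (a (b (d (a z2 z3) z3) z2) z3))) (c (b (d (a z2 z3) z3) (d (a z2 z3) z3)) (b (d (a z2 z3) z3) (d (a z2 z3) z3))))) (b (d (c (a (b (d z0 (c (a (b z6 (d (c (b z6 (d z0 (c (b z6 z4) z0))) z0) (c (b z6 (d (c (b z6 z4) z0) (c (b z6 z4) z4))) z0))) z7) z0)) (d z0 (c (b z6 (d (c (b z6 (d z0 (c (b z6 z4) z0))) z0) (c (b z6 (d (c (b z6 z4) z0) (c (b z6 z4) z4))) z0))) z0))) (b z7 (d z0 z7))) z0) (c (a (b (d (c (a (b z6 (d (c (b z6 (d (c z0 z4) (c z0 z4))) (b z6 z4)) (c (b z2 z0) (b z6 z4)))) z7) z0) (c z3 z7)) (d (c (b z6 (d (c (b z6 (d (c z0 z4) (c z0 z4))) (b z6 z4)) (c (b z2 z0) (b z6 z4)))) z0) (c (b z2 (d (c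 (b z2 z0) (b z6 z4)) (c (b z2 z0) (b z6 z4)))) (b z6 z4)))) (b z7 (d z7 (c z3 z7)))) z0)) (d (c (b (d z0 (a (c (b (d (a z6 z7) z7) z6) z0) z7)) (d z0 (a (c (b (d (a z6 z7) z7) z6) z0) z7))) z0) (c (b (d (a (c (b (d (a z6 z7) (a z6 z7)) z6) z0) z7) (a (c z2 z6) z7)) (d (a (c (b (d (a z6 z7) (a (c z2 z6) z7)) (d z6 (c z2 z6))) z0) z7) (a (c z2 z6) z7))) z0))))) _ _ (by decide +kernel)

theorem okB455 : CKB ⟨24576, 49152, 11520, 11776⟩ ⟨4097, 6145, 1024, 1536⟩ :=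
  ckB_sound (d z0 (c (b (d (b (d z0 (a (b (d (a z2 z3) z3) z2) z3)) (d z0 (a (b (d (a z2 z3) z3) z2) z3))) (c (b (d z3 z3) z3) (b (d (c z3 (a z2 z3)) z3) (d (c z3 (a z2 z3)) z3)))) (d (b (d z0 (b (d (a (b z3 z3) z3) z3) (d (a (b z3 z3) z3) z3))) (d z0 (b (d (a (b z3 z2) z3) z3) (d (a (b z3 z2) z3) z3)))) (c (b z3 z3) (b (d (c z3 (b z3 z3)) z3) (d (c z3 (b z3 z3)) z3))))) (b (d (c (b (d z0 (a (c (b (d (a z6 z7) z7) z6) z0) z7)) (d z0 (c (a (b (d (c (a z6 z7) z0) z7) (d (c (b z7 z6) z0) z6)) z7) z0))) z0) (c (b (d (a (c (b (d (a z6 z7) (a (c z2 z6) z7)) (d z6 (c z2 z6))) z0) z7) (a (c z2 z6) z7)) (d (c (a (b (d (c (a z6 z7) z7) (c z3 z7)) (d z6 (c z2 z6))) z7) z0) (c z3 z7))) z0)) (d (c (b (d z0 (c (b (d (a (c (b z7 z7) z0) z7) z7) (d (a (c (b z7 z7) z0) z7) z7)) z0)) (d z0 (c (b (d (a (c (b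 z7 z6) z0) z7) z7) (d (a (c (b z7 z6) z0) z7) z7)) z0))) z0) (c (b (d (c (b (d (a (c (b z7 z7) z7) z7) (a (c z3 z7) z7)) (d (a (c (b z7 z7) z7) z7) (a (c z3 z7) z7))) z0) (c z3 z7)) (d (c (b (d (a z6 z7) (a (c z2 z6) z7)) (d (a z6 z7) (a (c z2 z6) z7))) z0) (c z3 z7))) z0))))) _ _ (by decide +kernel)

theorem okB456 : CKB ⟨24576, 49152, 11264, 11776⟩ ⟨4097, 6145, 1536, 2048⟩ :=
  ckB_sound (c (b (d (c (b (d (a (b z3 (d (b z2 z0) (c (b z2 z0) (b z2 z0)))) z3) z3) (d (b z3 z3) z3)) (b (d (a (b z3 (d (c (b z2 z0) (b z2 z0)) (c (b z2 z0) (b z2 z0)))) z3) z3) z3)) (c (b z3 z3) (b z3 z3))) (d (c (b z3 z3) (b z3 z3)) z3)) (b (d (b (d (c (a (b z3 (d (c (b z2 (d (c z0 (b z2 z0)) z0)) (b z2 (d (c (b z2 z0) (b z2 z0)) (c (b z2 z0) (b z2 z0))))) (c (b z2 z0) (b z2 z0)))) z3) (a (b z7 (d (c (b z6 (d z4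 (c (b z6 z4) z4))) z0) (c (b z6 (d (c (b z6 z4) z4) (c (b z6 z4) z4))) z0))) z7)) z3) (d (c (b z3 z3) (b z7 z7)) (c z3 (b (d z7 (c z3 z7)) (d z7 (c z3 z7)))))) (b z3 z3)) (d (b (d (c (b z3 z3) (b z7 z7)) (c z3 (b (d z7 (c z3 z7)) (d z7 (c z3 z7))))) (d (c (b z3 z3) (b z7 z7)) (c z3 (b (d z7 (c z3 z7)) (d z7 (c z3 z7)))))) (b z3 z3)))) _ _ (by decide +kernel)

theorem okB457 : CKB ⟨24576, 49152, 11776, 12032⟩ ⟨4097, 6145, 1024, 1536⟩ :=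
  ckB_sound (d z0 (c (b (d (b (d z0 (b (d (a (b z3 z2) z3) z3) (d (a (b z3 z2) z3) z3))) (d z0 (b (d (b z3 z3) z3) (d (b z3 z3) z3)))) (c (b z3 z3) (b (d (c z3 (b z3 z3)) z3) (d (c z3 (b z3 z3)) z3)))) (d (b (d z0 (b (d (b z3 z3) z3) (d (b z3 z3) z3))) (d z0 (b (d (b z3 z3) z3) (d (b z3 z3) z3)))) (c (b z3 z3) (b (d (c z3 (b z3 z3)) z3) (d (c z3 (b z3 z3)) z3))))) (b (d (c (b (d z0 (c (b (d (c (a (b z7 z6) z7) z0) z7) (d (c (a (b z7 z6) z7) z0) z7)) z0)) (d z0 (c (b (d (c (b z7 z7) z0) z7) (d (c (b z7 z7) z0) z7)) z0))) z0) (c (b (d (c (b (d (c (a (b z7 z6) z7) z7) (c z3 z7)) (d (c (a (b z7 z6) z7) z7) (c z3 z7))) z0) (c (b z3 z3) z7)) (d (c (b (d (c (b z7 z7) z7) (c z3 z7)) (d (c (b z7 z7) z7) (c z3 z7))) z0) (c (b z3 z3) z7))) z0)) (d (c (b (d z0 (c (b (d (c (b (d z0 z7) (d z0 z7)) z0) z7)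 (d (c (b (d z0 z7) (d z0 z7)) z0) z7)) z0)) (d z0 (c (b (d (c (b (d z0 z7) (d z0 z7)) z0) z7) (d (c (b (d z0 z7) (d z0 z7)) z0) z7)) z0))) z0) (c (b (d (c (b (d (c (b z7 z7) z7) (c z3 z7)) (d (c (b z7 z7) z7) (c z3 z7))) z0) (c (b z3 z3) z7)) (d (c (b (d (c (b z7 z7) z7) (c z3 z7)) (d (c (b z7 z7) z7) (c z3 z7))) z0) (c (b z3 z3) z7))) z0))))) _ _ (by decide +kernel)

theorem okB458 : CKB ⟨24576, 49152, 12032, 12288⟩ ⟨4097, 6145, 1024, 1280⟩ :=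
  ckB_sound z0 _ _ (by decide +kernel)

theorem okB459 : CKB ⟨24576, 49152, 12032, 12288⟩ ⟨4097, 5473, 1280, 1536⟩ :=
  ckB_sound (b (d (b (d z0 (b (d (b z3 z3) z3) (d (b z3 z3) z3))) (d z0 (b (d (b z3 z3) z3) (d (b z3 z3) z3)))) (c (b z3 z3) (b (d (c z3 (b z3 z3)) z3) z3))) (d (b (d z0 (b (d (b z3 z3) z3) (d (b z3 z3) (c (b z3 z3) (b z3 z3))))) (d z0 (b (d (b z3 (d z0 (b z3 z3))) (c (b z3 (d (b z3 z3) z1)) (b z3 (d (c (b z3 z3) (b z3 z3)) (c (b z3 z3) (b z3 z3)))))) (d (b (d z0 (b z1 z1)) (d z0 (b z1 z1))) (c (b (d (b z1 z1) z1) (d (b z1 z1) z1)) (b (d (c (b z1 z1) (b z1 z1)) (c (b z1 z1) (b z1 z1))) (d (c (b z1 z1) (b z1 z1)) (c (b z1 z1) (b z1 z1))))))))) (c (b (d (b z3 (d z0 z1)) (c (b z3 z1) (b z3 z1))) (d (b (d z0 z1) (d z0 z0)) (c (b z1 z0) (b z1 z0)))) (b (d (c (b z3 (d (b z3 z3) (c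 (b z3 z3) (b z3 z3)))) (b z3 (d (c (b z3 z3) (b z3 z3)) (c (b z3 z3) (b z3 z3))))) (c (b z3 (d (c z1 (b z3 z3)) (c z1 (b z3 z3)))) (b z3 (d (c (b z3 z3) (b z3 z3)) (c (b z3 z3) (b z3 z3)))))) (d (c (b (d (b z3 z1) (c (b z3 z1) (b z3 z1))) (d (b z1 z1) (c (b z1 z1) (b z1 z1)))) (b (d (c (b z3 z1) (b z3 (d (c z1 (b z3 z3)) (c z1 (b z3 z3))))) (c (b z3 z1) (b z3 z1))) (d (c (b z1 z1) (b (d (c z1 (b z1 z1)) (c z1 (b z1 z1))) (d (c z1 (b z1 z1)) (c z1 (b z1 z1))))) (c (b z1 z1) (b z1 z1))))) (c (b (d (c z1 (b z3 z1)) z1) (d (c z0 (b z1 z1)) z0)) (b (d (c (b z3 z1) (b z3 z1)) (c (b z3 z1) (b z3 z1))) (d (c (b z1 z1) (b z1 z1)) (c (b z1 z1) (b z1 z1)))))))))) _ _ (by decide +kernel)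

theorem okB460 : CKB ⟨24576, 49152, 12032, 12288⟩ ⟨5473, 6145, 1280, 1536⟩ :=
  ckB_sound (b (d (c (b (d z0 (c (b (d (c (b (d z0 z7) (d z0 z7)) z0) z7) (d (c (b (d z0 z7) (d z0 z7)) z0) z7)) z0)) (d z0 (c (b (d (c (b (d z0 z7) (d z0 z7)) z0) z7) (d (c (b (d z0 z7) (d z0 z7)) z0) z7)) z0))) z0) (c (b (d (c (b (d (c (b z7 z7) z7) (c z3 z7)) (d (c (b z7 z7) z7) (c z3 z7))) z0) (c (b z3 z3) z7)) (d (c (b (d (c (b z7 z7) z7) (c z3 z7)) (d (c (b z7 z7) z7) (c z3 z7))) z0) (c (b z3 z3) z7))) z0)) (d (c (b (d z0 (c (b (d (c (b (d z0 z7) (d z0 z7)) z0) z7) (d (c (b (d z0 z7) (d z0 z7)) z0) (c (b z7 z7) z0))) z0)) (d z0 (c (b (d (c (b (d z0 z7) (d z0 (c (b z7 z7) z0))) z0) (c (b z7 (d (c (b z7 z7) z0) (c (b z7 z7) (b z7 z7)))) z0)) (d (c (b (d z0 (c (b (d z0 z5) (d z0 z5)) z0)) (d z0 (c (b (d z0 z5)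 (d z0 z5)) z0))) z0) (c (b (d (c (b z5 z5) z0) (c (b z5 z5) (b z5 z5))) (d (c (b z5 z5) z0) (c (b z5 z5) (b z5 z5)))) z0))) z0))) z0) (c (b (d (c (b (d (c (b z7 z7) z7) (c z3 z7)) (d (c (b z7 z7) (b z7 z7)) (c (b z3 z3) (b z7 z7)))) z0) (c (b z3 (d (c (b z3 z3) (b z7 z7)) (c (b z3 z3) (b z7 z7)))) (b z7 (d (c (b z7 z7) z0) (c (b z7 z7) z0))))) (d (c (b (d (c (b z7 (d (c (b z3 z3) (b z7 z7)) (c (b z3 z3) (b z7 z7)))) (b z7 (d z0 z5))) (c (b z3 (d (c (b z3 z3) (b z7 z7)) (c z1 (b z7 z7)))) (b z7 z5))) (d (c (b (d (c (b z1 z1) z5) (c (b z1 z1) (b z5 z5))) (d (c (b z1 z1) z5) (c (b z1 z1) (b z5 z5)))) (b (d z0 z5) (d z0 z5))) (c (b (d (c (b z1 z1) (b z5 z5)) (c z1 (b z5 z5))) (d (c (b z1 z1) (b z5 z5)) (c z1 (b z5 z5)))) (b z5 z5)))) z0) (c (b (d (c (b z3 (d (c z1 (b z3 z3)) z1)) (b z7 (d z5 (c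 (b z7 z7) z5)))) (c (b z3 z1) (b z7 (d (c (b z7 z7) z5) (c z1 z5))))) (d (c (b (d (c z1 (b z1 z1)) z1) (d (c z1 (b z1 z1)) z1)) (b z5 z5)) (c (b z1 z1) (b (d (c (b z5 z5) z5) (c z1 z5)) (d (c (b z5 z5) z5) (c z1 z5)))))) (b (d (c (b z7 z5) z0) (c (b z7 z5) z0)) (d (c (b z5 z5) z0) (c (b z5 z5) z0)))))) z0))) _ _ (by decide +kernel)

theorem okB461 : CKB ⟨24576, 49152, 11776, 12288⟩ ⟨4097, 5121, 1536, 2048⟩ :=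
  ckB_sound (b (d (c (b z3 z3) (b z3 z3)) (c (b z3 z3) (b z3 z3))) (d (c (b (d (b z3 z3) (c (b z3 z3) (b z3 z3))) (d (b (d (b z3 z1) z1) (d (b z1 z0) z0)) (c (b z1 z0) (b z1 z0)))) (b (d (b z3 z3) (b z3 z3)) (d (b (d (c (b z3 z1) (b z3 z1)) (c (b z3 z1) (b z3 z1))) (d (c (b z1 z0) (b z1 z0)) (c (b z1 z0) (b z1 z0)))) (b (d (c (b z3 z1) (b z3 z1)) (c z1 (b z3 z1))) (d (c z0 (b z1 z0)) (c z0 (b z1 z0))))))) (c (b (d (c (b z3 z3) (b z3 z3)) (c (b z3 z3) (b z3 z3))) (d (c (b z1 z0) (b z1 z0)) (c (b z1 z0) (b z1 z0)))) (b (d (b z3 z3) (b z3 z3)) (d (b (d (c z1 (b z3 z1)) z1) (d (c z0 (b z1 z0)) z0)) (b z1 z0)))))) _ _ (by decide +kernel)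

theorem okB462 : CKB ⟨24576, 49152, 11776, 12032⟩ ⟨5121, 6145, 1536, 2048⟩ :=
  ckB_sound (d (b (d (c (b z3 z3) (b z7 z7)) (c z3 (b (d z7 (c z3 z7)) (d (c (b z7 z7) z7) (c z3 z7))))) (d (c (b z3 z3) (b z7 z7)) (c z3 (b (d (c (b z7 z7) z7) (c z3 z7)) (d (c (b z7 z7) z7) (c z3 z7)))))) (b z3 z3)) _ _ (by decide +kernel)

theorem okB463 : CKB ⟨24576, 49152, 12032, 12288⟩ ⟨5121, 6145, 1536, 1792⟩ :=
  ckB_sound (b (d (c (b z3 z3) (b z7 z7)) (c (b z3 z3) (b (d (c (b z7 z7) z7) (c z3 z7)) (d (c (b z7 z7) z7) (c z3 z7))))) (d (c (b (d (c (b z3 (d (c z1 (b z3 z3)) z1)) (b z3 (d (c (b z3 z3) (b z3 z3)) (c (b z3 z3) (b z3 z3))))) (c (b z3 z1) (b z3 (d (c (b z3 z3) (b z3 z3)) (c z1 (b z3 z3)))))) (d (c (b (d (c z1 (b z3 z1)) z1) (d (c z0 (b z1 z1)) z0)) (b (d (c (b z3 z1) (b z3 z1)) (c (b z3 z1) (b z3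 z1))) (d (c (b z1 z1) (b z1 z1)) (c (b z1 z1) (b z1 z1))))) (c (b z1 z0) (b (d (c (b z3 z1) (b z3 z1)) (c z1 (b z3 z1))) (d (c (b z1 z1) (b z1 z1)) (c z0 (b z1 z1))))))) (b (d (c (b z7 (d (c (b z7 z7) z0) (c (b z7 z7) z5))) z0) (c (b z7 (d (c (b z7 z7) z5) (c (b z7 z7) z5))) z0)) (d (c (b (d (c (b z7 z5) z0) (c (b z7 z5) z5)) (d (c (b z5 z5) z0) (c (b z5 z5) z4))) z0) (c (b (d (c (b z7 z5) z5) (c (b z7 (d (c z1 z5) (c z1 z5))) z5)) (d (c (b z5 z5) z4) (c (b (d (c z1 z5) (c z1 z5)) (d (c z1 z5) (c z1 z5))) z4))) z0)))) (c (b (d (c (b z3 z1) (b z3 (d (c z1 (b z3 z3)) (c z1 (b z3 z3))))) (c (b z3 z1) (b z3 z1))) (d (c (b z1 z0) (b (d (c z1 (b z3 z1)) (c z1 (b z3 z1))) (d (c z0 (b z1 z1)) (c z0 (b z1 z1))))) (c (b z1 z0) (b z1 z0)))) (b (d (c (b z7 (d (c (b z3 z3) z5) (c (b z3 z3) z5))) (b z7 z5))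 (c (b z3 (d (c (b z3 z3) (b z7 z7)) (c (b z3 z3) (b z7 z7)))) (b z7 z5))) (d (c (b (d (c (b z3 z1) z5) (c (b z3 z1) z5)) (d (c (b z1 z1) z4) (c (b z1 z1) z4))) (b z5 z4)) (c (b (d (c (b z3 z1) (b z7 z5)) (c (b z3 z1) (b z7 z5))) (d (c (b z1 z1) (b z5 z5)) (c (b z1 z1) (b z5 z5)))) (b z5 z4))))))) _ _ (by decide +kernel)

theorem okB464 : CKB ⟨24576, 49152, 12032, 12288⟩ ⟨5121, 6145, 1792, 2048⟩ :=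
  ckB_sound (b (d (c (b z3 z3) (b (d (c z3 z7) (c z3 z7)) (d (c z3 z7) (c z3 z7)))) (c (b z3 z3) (b z3 z3))) (d (c (b (d (c (b z3 z1) (b z3 z1)) (c (b z3 z1) (b z3 z1))) (d (c (b z1 z0) (b z1 z0)) (c (b z1 z0) (b z1 z0)))) (b (d (c (b z3 (d (c z1 (b z7 z7)) (c z1 (b z3 z3)))) (b z7 z5)) (c (b z3 (d (c z1 (b z3 z3)) z1)) (b z7 z5))) (d (c (b (d (c z1 (b z7 z5)) (c z1 (b z3 z1))) (d (c z0 (b z5 z5)) (c z0 (b z1 z1)))) (b z5 z4)) (c (b (d (c z1 (b z3 z1)) z1) (d (c z0 (b z1 z1)) z0)) (b z5 z4))))) (c (b (d (c (b z3 z1) (b z3 z1)) (c z1 (b z3 z1))) (d (c (b z1 z0) (b z1 z0)) (c z0 (b z1 z0)))) (b (d (c (b z3 z1) (b z7 (d (c (b z7 z7) z5) (c (b z7 z7) z5)))) (c (b z3 z1) (b z7 (d (c z1 z5) (c z1 z5))))) (d (c (b z1 z0) (b (d (c (b z7 z5) z5) (c (b z7 z5) z5)) (d (c (b z5 z5) z4) (c (b z5 z5) z4))))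 (c (b z1 z0) (b (d (c z1 z5) (c z1 z5)) (d (c z0 z4) (c z0 z4))))))))) _ _ (by decide +kernel)

end Vale.Agent.Lib.P154Q5
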