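import Vale.Agent.Lib.P154Q5.CkBDefs

namespace Vale.Agent.Lib.P154Q5

set_option maxRecDepth 100000
set_option exponentiation.threshold 1000

open Tr

theorem okB465 : CKB ⟨24576, 49152, 11264, 12288⟩ ⟨6145, 8193, 1024, 2048⟩ :=
  ckB_sound (b (d z0 (b z7 (d z0 z7))) (d z0 (b (d z0 (c (b z7 z7) z0)) (d z0 (c (b (d (c (b z7 z7) z0) (c (b z7 z7) z0)) (d (c (b z5 z4) z0) (c (b z5 z4) z0))) z0))))) _ _ (by decide +kernel)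

theorem okB466 : CKB ⟨24576, 49152, 10240, 11264⟩ ⟨4097, 8193, 2048, 4096⟩ :=
  ckB_sound (d (c (b (d (a (c (b z2 (d (c (b z2 (d (c (b (d (c (b z2 z0) z0) z0) z0) (b z0 z0)) (c (b z0 z0) (b z0 z0)))) (b z2 (d (b z0 z0) (b z0 z0)))) (c (b z2 (d (c (b z0 z0) (b z0 z0)) (c (b z0 z0) (b z0 z0)))) (b z2 (d (b z0 z0) (b z0 z0)))))) (b z2 (d (b z2 (d (c (b z0 z0) (b z0 z0)) (c (b z0 z0) (b z0 z0)))) (b z2 (d (c (b z0 z0) (b z0 z0)) (c (b z0 z0) (b z0 z0))))))) z3) (a (c (b z2 (d (c (b z2 (d (c (b z0 z0) (b z0 z0)) (c (b z0 z0) (b z0 z0)))) (b z2 (d (b z0 z0) (b z0 z0)))) (c (b z2 (d (c (b z0 z0) (b z0 z0)) z0)) (b z2 z0)))) (b z2 (d (b z2 (d (c (b z0 z0) (b z0 z0)) (c (b z0 z0) z0))) (b z2 z0)))) z3)) (d (c (b (d (a (c (b z2 (d (c (b z2 z0) (b z2 z0)) (c (b z2 z0) (b z2 z0)))) (b z2 (d (b z2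 z0) (b z2 z0)))) z3) z3) z3) (b (d (a (b z2 (d (c (b z2 z0) (b z2 z0)) (c (b z2 z0) (b z2 z0)))) z3) z3) z3)) (c (b z3 z3) z3))) (b (d (a (b z6 (d (c (b z6 (d (c (b z4 z0) z4) (c (b z4 z0) z4))) z0) (c (b z6 (d (c (b z4 z0) z4) (c (b z0 z0) z4))) z4))) z7) (a (b (d z6 (c z2 z6)) (d (c (b z6 (d (c (b z0 z0) z4) z0)) z4) (c (b z2 z0) (b z6 z4)))) (b z7 (d (c (b z7 (d z7 z3)) z7) (c z3 z7))))) (d (b (d z7 (c (a (b z6 (d (c (b z6 z4) z4) (c (b z2 z0) z4))) z7) z7)) (d z7 (c (b z7 z7) z7))) (b (d (c (a (b z6 (d (c (b z2 z0) z4) (c (b z2 z0) (b z6 z4)))) z7) z7) (c z3 z7)) (d (c (b (d z7 z3) (d z7 z3)) z7) (c z3 z7)))))) (c (b (d (a (c (b z2 (d (c (b z2 z0) (b z2 z0)) (c (b z2 z0) (b z2 z0)))) (b z2 (d (b z2 z0) (b z2 z0)))) z3) z3) z3) (b z3 z3))) _ _ (by decide +kernel)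

theorem okB467 : CKB ⟨24576, 49152, 11264, 12288⟩ ⟨4097, 6145, 2048, 3072⟩ :=
  ckB_sound (b z2 (d (c (b (d (c (b z3 z3) (b z3 z3)) (c (b z3 z3) (b z3 z3))) (d (c (b (d (c (b z3 z3) (b z3 z3)) (c (b z3 z3) (b z3 z3))) (d (c (b z1 z0) (b z1 z0)) (c (b z1 z0) (b z1 z0)))) (b (d (b z3 z3) (b z3 z3)) (d (b z1 z0) (b z1 z0)))) (c (b (d (c (b z3 z3) (b z3 z3)) (c (b z3 z3) (b z3 z3))) (d (c (b z1 z0) (b z1 z0)) (c (b z1 z0) (b z1 z0)))) (b (d (b z3 z3) (b z3 z3)) (d (b z1 z0) (b z1 z0)))))) (b (d (b z3 z3) (b z3 z3)) (d (b (d (c (b z3 z3) (b z3 z3)) (c (b z3 z3) (b z3 z3))) (d (c (b (d (c z1 (b z3 z1)) (c z1 (b z3 z1))) (d (c z0 (b z1 z0)) (c z0 (b z1 z0)))) (b (d (c (b z3 z1) (b z3 z1)) (c (b z3 z1) (b z3 z1))) (d (c (b z1 z0) (b z1 z0)) (c (b z1 z0) (b z1 z0))))) (c (b z1 z0) (b (d (c (b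 z3 z1) (b z3 z1)) (c (b z3 z1) (b z3 z1))) (d (c (b z1 z0) (b z1 z0)) (c (b z1 z0) (b z1 z0))))))) (b (d (c (b z3 z3) (b z3 z3)) (c (b z3 z3) (b z3 z3))) (d (c (b z1 z0) (b (d (c z1 (b z3 z1)) (c z1 (b z3 z1))) (d (c z0 (b z1 z0)) (c z0 (b z1 z0))))) (c (b z1 z0) (b z1 (d (c z0 (b z1 z0)) z0)))))))) (c (b (d (c (b z3 z3) (b z3 z3)) (c (b z3 z3) (b z3 z3))) (d (c (b (d (c (b z3 z3) (b z3 z3)) z1) (d (c z0 (b z1 z0)) z0)) (b (d (b z3 z3) (b z3 z3)) (d (b z1 z0) (b z1 z0)))) (c (b z1 z0) (b (d (b z3 z3) z1) (d (b z1 z0) z0))))) (b (d (b z3 z3) (b z3 z3)) (d (b (d (c (b z3 z3) (b z3 z3)) (c (b z3 z3) (b z3 z3))) (d (c (b z1 z0) (b z1 z0)) (c (b z1 z0) (b z1 z0)))) (b (d (c (b z3 z3) (b z3 z3)) (c (b z3 z3) (b z3 z3))) (d (c (b z1 z0) (b z1 z0)) (c (b z1 z0) (b z1 z0))))))))) _ _ (by decide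 +kernel)

theorem okB468 : CKB ⟨24576, 49152, 11264, 12288⟩ ⟨6145, 8193, 2048, 3072⟩ :=
  ckB_sound (b (d (b z7 z7) (b (d (c (b (d z7 z3) (d z7 z3)) z7) (c z3 z7)) (d (c (b (d z7 z3) (d z7 z3)) z7) (c z3 z7)))) (d (b (d (c (b z7 z7) z0) (c (b z7 z7) (b z7 z7))) (d (c (b (d (c (b z7 z7) z5) (c (b z7 z7) z5)) (d (c (b (d (c (b z7 z5) z5) (c (b z7 z5) z5)) (d (c (b z5 z4) z4) (c (b z5 z4) z4))) z4) (c (b (d (c (b z7 z5) z5) (c (b z7 z5) z5)) (d (c (b z5 z4) z4) (c (b z5 z4) z4))) z4))) z0) (c (b (d (c (b z7 z7) (b z7 z7)) (c (b z3 z3) (b z7 z7))) (d (c (b (d (c (b z7 (d z5 (c z1 z5))) z5) (c (b z3 z1) z5)) (d (c (b (d z5 (c z1 z5)) (d z4 (c z0 z4))) z4) (c (b z1 z0) z4))) (b z5 z4)) (c (b (d (c (b z3 z1) (b z7 z5)) (c (b z3 z1) (b z7 z5))) (d (c (b z1 z0) (b z5 z4)) (c (b z1 z0) (b z5 z4))))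 (b z5 z4)))) (b z5 z4)))) (b (d (c (b (d z7 z3) (d z7 z3)) (b z7 z7)) (c (b z3 z3) (b z7 z7))) (d (c (b (d (c (b z3 z3) (b z7 z7)) (c (b z3 z3) (b z7 z7))) (d (c (b (d (c (b z3 z1) (b z7 z5)) (c z1 (b z3 z1))) (d (c (b z1 z0) (b z5 z4)) (c z0 (b z1 z0)))) (b z5 z4)) (c (b (d (c z1 (b z3 z1)) z1) (d (c z0 (b z1 z0)) (c z0 (b z1 z0)))) (b (d z5 (c (b z7 z5) z5)) (d z4 (c (b z5 z4) z4)))))) (b z5 z4)) (c (b (d (c (b z3 z3) (b z7 z7)) (c (b z3 z3) (b z3 z3))) (d (c (b z1 z0) (b (d (c (b z7 z5) z5) (c (b z3 z1) z5)) (d (c (b z5 z4) z4) (c (b z1 z0) z4)))) (c (b z1 z0) (b (d (c z1 z5) (c z1 z5)) (d (c z0 z4) (c z0 (b z5 z4))))))) (b (d z5 (c (b z7 z7) z5)) (d (c (b z5 z4) z4) (c (b z5 z4) z4)))))))) _ _ (by decide +kernel)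

theorem okB469 : CKB ⟨24576, 49152, 11264, 12288⟩ ⟨4097, 8193, 3072, 4096⟩ :=
  ckB_sound (c (b z2 (d (c (b (d (c (b z3 z3) (b z3 z3)) (c (b z3 z3) (b z3 z3))) (d (c (b z1 z0) (b z1 z0)) (c (b z1 z0) (b z1 z0)))) (b (d (b z3 z3) (b z3 z3)) (d (b (d (c (b z3 z3) (b z3 z3)) (c z1 (b z3 z3))) (d (c (b z1 z0) (b z1 z0)) (c z0 (b z1 z0)))) (b (d (c z1 (b z3 z3)) z1) (d (c z0 (b z1 z0)) (c z0 (b z1 z0))))))) (c (b (d (c (b z3 z3) (b z3 z3)) (c (b z3 z3) (b z3 z3))) (d (c (b z1 z0) (b z1 z0)) (c (b z1 z0) (b z1 z0)))) (b (d (b z3 z3) (b z3 z3)) (d (b z1 z0) (b z1 z0)))))) (b (d (b z3 z3) (b z3 z3)) (d (b (d (c (b z3 z3) (b z7 z7)) (c (b z3 z3) (b z7 z7))) (d (c (b (d (c (b z3 z3) (b z3 z3)) (c (b z3 z3) (b z3 z3))) (d (c (b z1 z0) (b z1 (d (c z0 (b z5 z4)) z0))) (c (b z1 z0) (b z1 z0)))) (b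 (d (c (b z7 z7) z5) (c (b z7 z7) z5)) (d (c (b z5 z4) z4) (c (b z5 z4) z4)))) (c (b (d (c (b z3 z3) (b z3 z3)) (c (b z3 z3) (b z3 z3))) (d (c (b z1 z0) (b z1 z0)) (c (b z1 z0) (b z1 z0)))) (b (d (c (b z7 z7) (b z7 z7)) (c (b z3 z3) (b z7 z7))) (d (c (b (d (c (b z7 z5) z5) (c z1 z5)) (d (c (b z5 z4) z4) (c z0 z4))) (b z5 z4)) (c (b z1 z0) (b z5 z4))))))) (b (d (c (b z3 z3) (b z3 z3)) (c (b z3 z3) (b z3 z3))) (d (c (b (d (c (b z3 z3) (b z3 z3)) (c z1 (b z3 z3))) (d (c (b z1 z0) (b z1 z0)) (c (b z1 z0) (b z1 z0)))) (b (d (c (b z3 z3) (b z7 z7)) (c (b z3 z3) (b z7 z7))) (d (c (b z1 z0) (b z5 z4)) (c (b z1 z0) (b z5 z4))))) (c (b (d (c z1 (b z3 z3)) (c z1 (b z3 z3))) (d (c z0 (b z1 z0)) (c z0 (b z1 z0)))) (b (d (c (b z3 z3) (b z3 z3)) (c (b z3 z3) (b z3 z3))) (d (c (b z1 z0) (b z1 z0)) (c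 (b z1 z0) (b z1 z0)))))))))) _ _ (by decide +kernel)

theorem okB470 : CKB ⟨24576, 49152, 4096, 12288⟩ ⟨8193, 49152, 0, 4096⟩ :=
  ckB_sound (b (b z0 (d z0 (b z0 (d (c z7 z0) (c z7 (b z0 (d z0 z7))))))) (b (d z0 (b (d (c z7 z0) (c z7 (b (d z0 z7) (d z0 z7)))) (d (c z7 z0) (c z7 (b (d z0 z7) (d z0 (a (c z6 (b z7 (d z0 z6))) z7))))))) (d z0 (b (d (c (b z7 z7) z0) (c (b z7 z7) (b (d z0 (a (c z4 (b (d z0 z6) (d z0 (b z6 z4)))) (c z7 (b z7 (d z0 z7))))) (d z0 (c z7 (b (d z0 z7) (d z0 z7))))))) (d (c (b (d z0 (c z6 z0)) (d z0 (c (b z5 z4) z0))) z0) (c (b (d z6 (c (b z7 z7) z6)) (d (c (b (d z5 (c (b z7 z7) z5)) (d (c (b z5 z4) z4) (c (b z5 z4) z4))) (b z5 z4)) (c (b (d (c (b z7 z7) z5) (c (b z7 z7) z5)) (d (c (b z5 (d z4 (c (b z5 z4) z4))) z4) (c (b (d (c (b z7 z7) z5) (c (b z7 z7) z5)) (d (c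 (b z5 z4) z4) (c (b z5 z4) z4))) (b z5 z4)))) z4))) (b (d z0 (c z6 (b (d z0 z7) (d z0 (b z7 (d z0 z7)))))) (d z0 (c (b z5 z4) (b (d z0 (b (d z0 z7) (d z0 z7))) (d z0 (b (d z0 (c z5 (b z7 z7))) (d z0 (c z4 (b (d z0 z5) (d z0 (c z4 (b z5 z4)))))))))))))))))) _ _ (by decide +kernel)

theorem okB471 : CKB ⟨0, 6144, 4096, 6144⟩ ⟨0, 6144, 4096, 8192⟩ :=
  ckB_sound (d (a (c (b (d z0 (a (b z0 (d z0 z0)) z0)) (d (c (b z0 z0) z0) (b (d z0 (a (b z0 (d z0 z0)) z0)) (d (c (b z0 z0) z0) (b (d z0 z0) (d z0 (b z0 z0))))))) (b z0 (d z0 (b z0 (d z0 (c (b z0 z0) z0)))))) (c (b z0 (d z0 (b z0 (d z0 (a (b z0 (d z0 z0)) z0))))) z0)) (a (b (d (a (b (d z0 (a (b z0 (d z0 z0)) z0)) (d (c (a (b z0 (d z0 z0)) z0) z0) (a (b (d z0 z0) (d z0 z0)) (b (d z0 z0) (d z0 z0))))) (b (d z0 z0) (d z0 (a (b z0 (d z0 z0)) (b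 z0 (d z0 z0)))))) z0) (d (b (d (a (c (b (d z0 z0) (d z0 (a (b z0 z0) z0))) z0) (c (b z0 (d z0 z0)) z0)) (a (b (d (a (c (b z0 z0) z0) z0) (a (b z0 (d z0 z0)) z0)) (d (c (a (b z0 (d z0 z0)) (b z0 (d z0 z0))) z0) (a (b (d z0 z0) (d z0 z0)) (b z0 (d z0 z0))))) (b (d z0 z0) (d z0 (a (b z0 (d z0 z0)) z0))))) (d (c (b (d (a (c (b z0 z0) z0) z0) (a (b (d z0 z0) (d z0 z0)) z0)) (d (c (b (d z0 z0) (d z0 z0)) z0) (b (d z0 z0) (d z0 (b z0 z0))))) (b z0 (d z0 (c (b z0 z0) z0)))) (b (d (a (c (b (d z0 z0) (d z0 z0)) (b z0 z0)) (c (b z0 (d z0 z0)) z0)) (a (b (d z0 z0) (d (b z0 z0) z0)) (b (d z0 z0) (d z0 z0)))) (d (c (b (d z0 (a (b z0 z0) z0)) (d (c (b z0 z0) z0) (b z0 (d z0 z0)))) (b z0 (d z0 (c (b z0 z0) z0)))) (b (d (a (b z0 z0) z0) z0) (d (b (d z0 z0) (d z0 z0)) z0)))))) z0)) (b (d (b (d z0 z0) (d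 z0 z0)) z0) (d (b (d z0 (a (b (d z0 z0) (d z0 z0)) (b z0 (d z0 z0)))) (d (a (c (b (d z0 z0) (d z0 (a (b z0 (d z0 z0)) z0))) z0) (c (b z0 (d z0 z0)) z0)) (a (b (d z0 (a (b z0 (d z0 z0)) z0)) (d (a (c (b (d z0 z0) (d z0 z0)) z0) (c (b z0 (d z0 z0)) z0)) (a (b (d z0 z0) (d z0 z0)) (b (d z0 z0) (d z0 z0))))) (b (d z0 z0) (d z0 (a (b z0 (d z0 z0)) z2)))))) z0)))) _ _ (by decide +kernel)

theorem okB472 : CKB ⟨0, 6144, 6144, 8192⟩ ⟨0, 6144, 4096, 6144⟩ :=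
  ckB_sound (c (b (d (c (b (d z0 (a (c (b z0 z0) z0) z0)) (d (c (b z0 z0) z0) (c (b z0 (d z0 z0)) (b z0 z0)))) (b z0 (d z0 (c (b z0 z0) (b z0 z0))))) (b (d (c (a (b (d z0 z0) (d z0 (c (b z0 z0) z0))) z0) (a (b z0 z0) z0)) (a (b (d (c (a (b z0 z0) z0) z0) (a (b (d z0 z0) (d z0 z0)) z0)) (d (c (b z0 (d z0 z0)) z0) (b (d z0 z0) (d z0 (b z0 z0))))) (b (d z0 z0) (d z0 (a (b z0 (d z0 z0)) z0))))) (d (c (b (d (c (a (b z0 z0) z0) z0) (a (c (b z0 z0) (b z0 z0)) z0)) (d (c (b z0 z0) z0) (c (b z0 z0) (b z0 z0)))) (b z0 (d z0 (c (b z0 z0) z0)))) (b (d (c (a (b (d z0 z0) (d z0 z0)) (b z0 (d z0 z0))) (a (b z0 z0) z0)) (a (b (d z0 (a (b z0 z0) z0)) (d (c (b z0 z0) z0) (b z0 z0))) (b z0 (d z0 (a (b z0 z0) z0))))) (d (c (b (d z0 (b z0 z0)) z0) (b z0 z0)) (b (d (c (b z0 z0) z0) (b z0 z0)) z0)))))) z0)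 (b (d (b z0 z0) (b (d z0 (a (c (b z0 (d z0 (c (b z0 z0) z0))) (b z0 z0)) z0)) (d (c (b z0 z0) (b z0 z0)) (c (b (d z0 (c (a (b z0 z0) z0) (a (b z0 z0) z0))) (d (c (b z0 z0) z0) (c (b z0 z0) (b z0 z0)))) (b z0 (d z0 (c (b z0 z0) z8))))))) z0)) _ _ (by decide +kernel)

theorem okB473 : CKB ⟨0, 6144, 6144, 6656⟩ ⟨0, 6144, 6144, 6656⟩ :=
  ckB_sound (a (c (b (d (a (c (b (d z0 z0) (d z0 (b z0 z0))) (b z0 z0)) (c (b z0 (d z0 z0)) z0)) (a (b (d (a (c (b z0 z0) z0) z0) (a (b z0 z0) z0)) (d (c (b z0 z0) z0) (b (d z0 z0) (d z0 z0)))) (b (d z0 z0) (d z0 z0)))) (d (c (b (d (c (a (b z0 z0) z0) z0) (a (b z0 z0) z0)) (d (c (b z0 z0) z0) (b z0 (d z0 z0)))) (b z0 z0)) (b (d (a (c (b (d z0 z0) (d z0 z0)) z0) z0) (a (b (d z0 z0) (d z0 z0)) (b z0 (d z0 z0)))) (d (c (b (d z0 z0) (d z0 z0)) (b z0 z0)) (b (d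 z0 z0) (d z0 (b z0 z0))))))) (b (d z0 (a (c (b z0 z0) z0) z0)) (d (c (b z0 z0) z0) (c (b (d z0 (a (c (b z0 z0) z0) z0)) (d z0 (c (b z0 z0) z0))) (b z0 z0))))) (c (b (d z0 (a (b z0 (d z0 z0)) z0)) (d (c (a (b (d z0 z0) (d z0 z0)) z0) z0) (a (b (d z0 z0) (d (c (a (b z0 (d z0 z0)) z0) z0) (a (b z0 (d z0 z0)) z0))) (b (d z0 z0) (d z0 z0))))) z0)) _ _ (by decide +kernel)

theorem okB474 : CKB ⟨0, 6144, 6144, 6656⟩ ⟨0, 6144, 6656, 7168⟩ :=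
  ckB_sound (a (b (d (a (c (b (d (a (c (b (d z0 z0) (d z0 z0)) z0) z0) (a (b (d z0 z0) (d z0 z0)) z0)) (d (c (b (d z0 z0) (d z0 z0)) (b z0 z0)) (b (d z0 z0) (d z0 z0)))) (b (d z0 (a (c (b z0 z0) z0) z0)) (d z0 (c (b (d z0 z0) (d z0 z0)) z0)))) (c (b (d z0 z0) (d z0 (a (b z0 (d z0 z0)) z0))) z0)) (a (b (d (a (b (d z0 z0) (d z0 z0)) (b z0 (d z0 z0))) z0) (d (b (d z0 z0) (d z0 (b z0 z0))) z0)) (b (d z0 z0) (d (a (b z0 (d z0 z0)) z0) z0)))) (d (c (b (d (a (c (b (d z0 z0) (d z0 z0)) (b z0 z0)) (c (b z0 (d z0 z0)) z0)) (a (b (d z0 z0) (d (b z0 z0) z0)) (b (d z0 z0) (d z0 z0)))) (d (c (b (d (c (a (b z0 z0) z0) z0) (a (b z0 z0) z0)) (d (c (b z0 z0) z0) (b z0 z0))) (b z0 z0)) (b (d (a (b z0 z0) z0) z0) (d (b z0 z0) z0)))) (b (d z0 (a (c (b (d z0 (a (b z0 z0) z0)) (d z0 (b z0 z0))) z0) z0)) (d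 z0 (c (b (d z0 (a (b z0 z0) z0)) (d z0 (b z0 z0))) (b z0 z0))))) (b (d (a (b (d (a (c (b z0 z0) z0) z0) (a (b z0 z0) z0)) (d (c (b z0 z0) z0) (b z0 z0))) (b (d z0 z0) (d z0 z0))) z0) (d (b (d (c (a (b z0 (d z0 z0)) z0) z0) (a (b (d z0 z0) (d z0 z0)) (b z0 (d z0 z0)))) (d (c (b (d z0 z0) z0) z0) (b (d z0 z0) z0))) z0)))) (b (d (a (c (b (d z0 z0) (d z0 z0)) z0) (c (b z0 (d z0 z0)) z0)) (a (b (d z0 z0) (d z0 z0)) (b (d z0 z0) (d z0 z0)))) (d (a (c (b (d z0 (a (b z0 (d z0 z0)) z0)) (d (a (c (b (d z0 z0) (d z0 (a (b z0 z0) z0))) z0) (c (b z0 (d z0 z0)) z0)) (a (b (d z0 z0) (d (a (b z0 z0) z0) z0)) (b z0 (d z0 z0))))) (b z0 (d z0 (a (c (b z0 (d z0 (a (b z0 (d z0 z0)) z0))) z0) z0)))) (c (b (d z0 z0) (d z0 z0)) z0)) (a (b (d (a (b z0 (d z0 z0)) z0) z0) (d (a (b (d z0 z0) (d (a (c (b z0 (d z0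 z0)) z0) z0) (a (b (d z0 z0) (d z0 z0)) z0))) (b (d z0 z0) (d z0 z0))) z0)) (b (d z0 z0) (d (a (b z0 (d z0 z0)) z0) z0)))))) _ _ (by decide +kernel)

theorem okB475 : CKB ⟨0, 6144, 6656, 7168⟩ ⟨0, 6144, 6144, 6656⟩ :=
  ckB_sound (c (b (d (c (a (b (d (c (a (b z0 z0) z0) z0) (a (b (d z0 z0) (d z0 z0)) (b z0 (d z0 z0)))) (d (c (b (d z0 z0) z0) z0) (b (d z0 z0) z0))) (b (d z0 z0) (d (c (a (b z0 (d z0 z0)) z0) z0) (a (b z0 (d z0 z0)) z0)))) (a (b z0 (d z0 (c (b z0 z0) z0))) z0)) (a (b (d (c (a (b (d z0 z0) (d z0 z0)) (b z0 (d z0 z0))) (a (b z0 z0) z0)) (a (b (d (a (c (b z0 z0) z0) z0) (a (b z0 z0) z0)) (d (c (b z0 z0) z0) (b z0 z0))) (b z0 (d z0 z0)))) (d (c (b (d z0 (b z0 z0)) z0) (b z0 z0)) (b (d (c (b z0 z0) z0) (b z0 z0)) z0))) (b (d z0 z0) (d (c (a (b (d z0 z0) (d (c (b z0 z0) z0) (b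 z0 z0))) z0) z0) (a (b (d z0 z0) (d (c (b z0 z0) z0) (b z0 (d z0 z0)))) (b z0 (d z0 z0))))))) (d (c (b (d (c (b (d z0 z0) (d z0 z0)) (b z0 z0)) (b (d z0 z0) (d z0 (b z0 z0)))) z0) (b (d z0 (c (b z0 z0) z0)) z0)) (b (d (c (b (d (c (a (b z0 z0) z0) z0) (a (b z0 z0) z0)) (d (c (b z0 z0) z0) (b z0 z0))) (b z0 z0)) (b (d (a (c (b z0 z0) z0) z0) (a (b (d z0 z0) (d z0 z0)) z0)) (d (c (b z0 z0) (b z0 z0)) (b (d z0 z0) z0)))) z0))) (b (d (c (a (b z0 z0) z0) (a (b z0 z0) z0)) (c (a (b (d z0 (c (a (b z0 (d z0 (c (b z0 z0) z0))) z0) (a (b z0 z0) z0))) (d (c (b z0 z0) z0) (c (b (d z0 (c (b z0 z0) z0)) z0) (b z0 z0)))) (b z0 (d z0 (c (a (b z0 (d z0 (c (b z0 z0) z0))) z0) z0)))) (a (b z0 z0) z0))) (d (c (b z0 z0) (b z0 z0)) (c (b (d (c (b z0 z0) z0) (c (b (d z0 (c (a (b z0 z0) z0) z0)) (d z0 (c (b z0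 z0) z0))) (b z0 z0))) z0) (b (d z0 (c (b z0 z0) z0)) z0))))) _ _ (by decide +kernel)

theorem okB476 : CKB ⟨0, 6144, 6656, 6912⟩ ⟨0, 6144, 6656, 7168⟩ :=
  ckB_sound (d (a (c (b (d (a (c (b (d (a (c (b z0 z0) z0) z0) (a (b z0 z0) z0)) (d (c (b z0 z0) z0) (b (d z0 z0) z0))) (b (d z0 (a (c (b z0 z0) z0) z0)) (d z0 (c (b z0 z0) z0)))) (c (b (d z0 z0) (d (c (a (b z0 z0) z0) z0) (a (b z0 (d z0 z0)) z0))) z0)) (a (b (d (a (b (d z0 z0) (d z0 z0)) z0) z0) (d (b (d z0 z0) z0) z0)) (b (d z0 z0) (d (a (b z0 (d z0 z0)) z0) z0)))) (d (c (b (d (c (b z0 (d z0 z0)) z0) (b (d z0 z0) (d z0 z0))) z0) (b (d z0 (c (b z0 z0) z0)) z0)) (b (d (b (d z0 z0) (d z0 z0)) z0) z0))) (b (d (a (c (b z0 z0) z0) z0) (a (c (b (d z0 (a (b (d z0 z0) (d z0 z0)) z0)) (d z0 (b (d z0 z0) z0))) (b z0 z0)) (c (b z0 (d z0 (a (b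 z0 (d z0 z0)) z0))) z0))) (d (c (b z0 z0) (b z0 z0)) (c (b (d (c (b z0 z0) z0) (b (d z0 z0) (d z0 z0))) z0) (b z0 z0))))) (c (b (d (c (a (b z0 (d z0 z0)) z0) z0) (a (b (d z0 z0) (d z0 z0)) (b z0 (d z0 z0)))) (d (c (a (b (d z0 z0) (d (c (b (d z0 z0) (d z0 z0)) z0) (b (d z0 z0) (d z0 z0)))) (b (d z0 z0) (d z0 z0))) (a (b z0 (d z0 (c (b z0 z0) z0))) z0)) (a (b (d (a (b z0 (d z0 z0)) z0) z0) (d (b (d z0 z0) (d z0 z0)) z0)) (b (d z0 z0) (d z0 z0))))) (b z0 (d z0 (a (c (b (d z0 (a (b z0 (d z0 z0)) z0)) (d (c (b z0 z0) z0) (b (d z0 z0) (d z0 z0)))) (b z0 z0)) (c (b z0 (d z0 z0)) z0)))))) (a (b (d (a (b (d (a (c (b (d z0 z0) (d z0 z0)) (b z0 z0)) (c (b z0 (d z0 z0)) z0)) (a (b (d z0 z0) (d z0 z0)) (b z0 (d z0 z0)))) (d (c (b (d z0 z0) z0) (b z0 z0)) (b (d z0 z0) z0))) (b (d z0 z0) (d (a (c (b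 z0 (d z0 z0)) z0) z0) (a (b (d z0 z0) (d z0 z0)) z0)))) z0) (d (b (d (c (b (d z0 z0) (d z0 z0)) (b z0 z0)) (b (d z0 z0) (d z0 z0))) z0) z0)) (b (d (a (b (d z0 z0) (d z0 z0)) (b (d z0 z0) (d z0 z0))) z0) (d (a (b (d (a (c (b z0 (d z0 z0)) z0) z0) (a (b z0 (d z0 z0)) z0)) (d (c (b (d z0 z0) (d (c (b z0 z0) z0) (b z0 z0))) (b z0 z0)) (b (d (a (b z0 z0) z0) z0) (d (b z0 z0) z0)))) (b (d z0 z0) (d (a (c (b z0 (d z0 z0)) z0) z0) (a (b z0 (d z0 z0)) z0)))) z0)))) _ _ (by decide +kernel)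

theorem okB477 : CKB ⟨0, 6144, 6912, 7168⟩ ⟨0, 6144, 6656, 7168⟩ :=
  ckB_sound (d (c (b (d (c (b (d (c (a (b (d z0 z0) (d z0 z0)) (b z0 (d z0 z0))) (a (b z0 z0) z0)) (a (b (d z0 z0) (d z0 z0)) (b z0 (d z0 z0)))) (d (c (b (d z0 z0) z0) (b z0 z0)) (b (d z0 z0) z0))) (b (d z0 (c (a (b z0 z0) z0) z0)) (d z0 (c (b (d z0 z0) z0) z0)))) (b (d (a (b (d z0 z0) (d z0 z0)) (b z0 (d z0 z0))) z0) (d (b (d z0 z0) z0) z0))) z0) (b (d (c (b z0 z0) (b z0 z0)) (c (b (d (c (a (b z0 z0) z0) z0) (a (b (d z0 (a (b z0 z0) z0)) (d z0 (b z0 z0))) (b z0 (d z0 z0)))) (d (c (b z0 z0) z0) (b (d (c (b z0 z0) z0) (b z0 z0)) z0))) (b (d z0 (a (c (b z0 z0) z0) z0)) (d z0 (c (b z0 z0) z0))))) z0)) (b (d (b (d (a (c (b (d (a (c (b z0 z0) z0) z0) (a (b z0 z0) z0)) (d (c (b z0 z0) z0) (b z0 z0))) (b z0 z0)) (c (b (d z0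 z0) (d z0 z0)) z0)) (a (b (d (a (b z0 z0) z0) z0) (d (b z0 z0) z0)) (b (d z0 z0) (d (a (b z0 z0) z0) z0)))) (d (c (b (d (c (b z0 z0) z0) (b z0 z0)) z0) (b (d z0 (c (b z0 z0) z0)) z0)) (b (d (b z0 z0) z0) z0))) z0) z0)) _ _ (by decide +kernel)

theorem okB478 : CKB ⟨0, 6144, 6144, 7168⟩ ⟨0, 6144, 7168, 8192⟩ :=
  ckB_sound z0 _ _ (by decide +kernel)

theorem okB479 : CKB ⟨0, 6144, 7168, 8192⟩ ⟨0, 6144, 6144, 8192⟩ :=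
  ckB_sound z0 _ _ (by decide +kernel)

end Vale.Agent.Lib.P154Q5
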