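import Vale.Agent.Lib.P154Q5.CkBDefs

namespace Vale.Agent.Lib.P154Q5

set_option maxRecDepth 100000
set_option exponentiation.threshold 1000

open Tr

theorem okB480 : CKB ⟨0, 3072, 4096, 5120⟩ ⟨6144, 12288, 4096, 5120⟩ :=
  ckB_sound (a (c (b (d (a (c z0 (b z0 (d (a (c z0 z4) (c z0 z4)) z0))) z0) z8) (d (a (c z0 (b (d (a (c z0 z4) (c z0 z4)) z0) (d (c z0 z4) (c z0 (b (d z4 z8) (d z4 z8)))))) (c z0 (b (d (a (c z0 z4) (c z0 z4)) z0) (d (a (c z0 z4) (c z0 z4)) z0)))) z8)) (b (d z12 (a (b (d z12 (c (a (b z12 (d z12 (c z8 z12))) z12) z12)) (d z12 (c (a (b (d z12 (c z8 z12)) (d z12 (c z8 z12))) (b (d z12 (c z8 z12)) (d z12 (c z8 z12)))) z12))) (b z12 (d z12 (c (a (b z12 (d z12 (c z8 z12))) z12) z12))))) (d z12 (a (b (d z12 (c (a (b (d z12 (c z8 z12)) (d z12 (c z8 z12))) (b (d z12 (c z8 z12)) (d z12 (c z8 z12)))) z12)) (d z12 (c (b (d z12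 (c z8 z12)) (d (c (b z12 (d z12 (c z8 z12))) z12) (c z8 z12))) z12))) (b (d z12 (c (a (b (d z12 (c z8 z12)) (d z12 (c z8 z12))) (b (d z12 (c z8 z12)) (d z12 (c z8 z12)))) z12)) (d z12 (c (a (b (d z12 (c z8 z12)) (d z12 (c z8 z12))) (b (d z12 (c z8 z12)) (d z12 (c z8 z12)))) z12))))))) (c (b z0 (d (c z0 (a (b (d (a (c z0 z4) (c z0 z4)) z0) (d (a (c z0 z4) (c z0 z4)) z0)) (b z0 (d (c z0 z4) z0)))) z8)) (b z12 (d z12 (a (b (d z12 (c (a (b (d z12 (c z8 z12)) (d z12 (c z8 z12))) (b z12 (d z12 (c z8 z12)))) z12)) (d z12 (c (a (b (d z12 (c z8 z12)) (d z12 (c z8 z12))) (b (d z12 (c z8 z12)) (d z12 (c z8 z12)))) z12))) (b z12 (d z12 (c (b (d z12 (a (c z8 z12) z12)) (d z12 (a (c z8 z12) (c z8 z12)))) z12)))))))) _ _ (by decide +kernel)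

theorem okB481 : CKB ⟨0, 1536, 4096, 5120⟩ ⟨6144, 9216, 5120, 6144⟩ :=
  ckB_sound z8 _ _ (by decide +kernel)

theorem okB482 : CKB ⟨0, 1536, 4096, 4608⟩ ⟨9216, 12288, 5120, 6144⟩ :=
  ckB_sound (d (a (b (d (c z8 z12) (c z8 z12)) (d (c (a (b (d (c z8 z12) z8) (d (c z8 z12) z8)) (b z8 (d (c z8 z12) z8))) z12) (c z8 z12))) (b (d (c z8 z12) (c z8 z12)) (d (c (a (b z8 (d (c z8 z12) z8)) z8) z12) (c z8 z12)))) (a (b (d (c z8 z12) (c z8 (a (b (d (c z8 z12) z8) (d (c z8 z12) z8)) (b (d (c z8 z12) z8) (d (c z8 z12) z8))))) (d (c z8 (a (b (d z12 (c (a (b z12 (d z12 (c z8 z12))) z12) z12)) (d z12 (c (a (b (d z12 (c z8 z12)) (d z12 (c z8 z12))) (b (d z12 (c z8 z12)) (d z12 (c z8 z12)))) z12))) (b z12 (d z12 (c (a (b z12 (d z12 (c z8 z12))) z12) z12))))) (c z8 (a (b (d (c z8 z12) (c z8 z12)) (d (c z8 z12) (c z8 z12))) (b (d (c z8 z12) z8) (d (c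 z8 z12) (c z8 z12))))))) (b (d (c z8 z12) (c z8 (a (b (d (c z8 z12) z8) (d (c z8 z12) z8)) (b (d (c z8 z12) z8) (d (c z8 z12) z8))))) (d (c z8 z12) (c z8 (a (b (d (c z8 z12) z8) (d (c z8 z12) z8)) (b (d (c z8 z12) z8) (d (c z8 z12) z8)))))))) _ _ (by decide +kernel)

theorem okB483 : CKB ⟨0, 1536, 4608, 5120⟩ ⟨9216, 12288, 5120, 5632⟩ :=
  ckB_sound (a (b (d (c (a (b (d (c z8 z12) (c z8 z12)) (d (c z8 z12) (c z8 z12))) (b (d (c z8 z12) z8) (d (c z8 z12) (c z8 z12)))) z12) (c z8 z12)) (d (c (b (d (c z8 z12) (c z8 z12)) (d (c z8 z12) (c z8 z12))) z12) (c (b z8 (d (c z8 (b (d (a (c z8 z12) (c z8 z12)) z8) (d (c z8 z12) z8))) z8)) z12))) (b (d (c (a (b (d (c z8 z12) z8) (d (c z8 z12) z8)) (b (d (c z8 z12) z8) (d (c z8 z12) z8))) z12) (c z8 z12)) (d (c (a (b (d (c z8 z12) (c z8 z12)) (d (c z8 z12) (c z8 z12))) (b (d (c z8 z12) (c z8 z12))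 (d (c z8 z12) (c z8 z12)))) z12) (c z8 z12)))) _ _ (by decide +kernel)

theorem okB484 : CKB ⟨0, 1536, 4608, 5120⟩ ⟨9216, 12288, 5632, 6144⟩ :=
  ckB_sound (a (b (d (c z8 (a (b (d z12 (c (a (b (d z12 (c z8 z12)) (d z12 (c z8 z12))) (b (d z12 (c z8 z12)) (d z12 (c z8 z12)))) z12)) (d z12 (c (b (d z12 (a (c z8 z12) (c z8 z12))) (d (c z8 z12) (c z8 z12))) z12))) (b (d z12 (c (a (b (d z12 (c z8 z12)) (d z12 (c z8 z12))) (b (d z12 (c z8 z12)) (d z12 (c z8 z12)))) z12)) (d z12 (c (a (b (d z12 (c z8 z12)) (d z12 (c z8 z12))) (b (d z12 (c z8 z12)) (d z12 (c z8 z12)))) z12))))) (c z8 (a (b (d (c z8 z12) (c z8 z12)) (d (c z8 z12) (c z8 z12))) (b (d (c z8 z12) (c z8 z12)) (d (c z8 z12) (c z8 z12)))))) (d (c z8 (b (d z12 (c (a (b (d (c z8 z12) (c z8 z12)) (d (c z8 z12) (c z8 z12))) (b (d z12 (c z8 z12)) (d (c z8 z12) (c z8 z12)))) z12)) (d z12 (c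 (b (d (a (c z8 z12) (c z8 z12)) (a (c z8 z12) (c z8 z12))) (d (c z8 z12) (c z8 z12))) z12)))) (c z8 (b (d (c z8 z12) (c z8 (a (b z12 (d z12 (c (b z12 z12) z12))) z12))) (d (c z8 z12) (c z8 (b (d z12 (a (c (b (d z12 (a (c z8 z12) z12)) (d z12 (c z8 z12))) z12) z12)) (d z12 (c (a (b (d z12 (c z8 z12)) (d z12 (c z8 z12))) (b z12 (d z12 (c z8 z12)))) z12))))))))) (b (d (c z8 (a (b (d z12 (c (a (b z12 (d z12 (c z8 z12))) z12) z12)) (d z12 (c (a (b (d z12 (c z8 z12)) (d z12 (c z8 z12))) (b (d z12 (c z8 z12)) (d z12 (c z8 z12)))) z12))) (b z12 (d z12 (c (a (b z12 (d z12 (c z8 z12))) z12) z12))))) (c z8 (a (b (d (c z8 z12) (c z8 z12)) (d (c z8 z12) (c z8 z12))) (b (d (c z8 z12) z8) (d (c z8 z12) (c z8 z12)))))) (d (c z8 (a (b (d z12 (c (a (b (d z12 (c z8 z12)) (d z12 (c z8 z12))) (b (d z12 (c z8 z12)) (d z12 (c z8 z12)))) z12)) (d z12 (c (a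 (b (d (c z8 z12) (c z8 z12)) (d (c z8 z12) (c z8 z12))) (b (d z12 (c z8 z12)) (d (c z8 z12) (c z8 z12)))) z12))) (b (d z12 (c (a (b (d z12 (c z8 z12)) (d z12 (c z8 z12))) (b (d z12 (c z8 z12)) (d z12 (c z8 z12)))) z12)) (d z12 (c (a (b (d z12 (c z8 z12)) (d z12 (c z8 z12))) (b (d z12 (c z8 z12)) (d z12 (c z8 z12)))) z12))))) (c z8 (a (b (d (c z8 z12) (c z8 z12)) (d (c z8 z12) (c z8 z12))) (b (d (c z8 z12) (c z8 z12)) (d (c z8 z12) (c z8 z12)))))))) _ _ (by decide +kernel)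

theorem okB485 : CKB ⟨1536, 3072, 4096, 5120⟩ ⟨6144, 12288, 5120, 6144⟩ :=
  ckB_sound (c z8 (b (d (a (b (d (c z8 z12) (c z8 z12)) (d (c z8 z12) (c z8 z12))) (b (d (c z8 z12) (c z8 z12)) (d (c z8 z12) (c z8 z12)))) (a (b (d (c z8 z12) z8) (d (c z8 z12) (c z8 (a (b (d (c z8 z12) z8) (d (c z8 z12) z8)) (b (d (c z8 z12) z8) (d (c z8 z12) z8)))))) (b (d (c z8 z12) z8) (d (c z8 z12) z8)))) (d (a (b (d (c (a (b z8 (d (c z8 z12) z8)) z8) z12) (c z8 z12)) (d (c (a (b (d (c z8 z12) z8) (d (c z8 z12) (c z8 z12))) (b (d (c z8 z12) z8) (d (c z8 z12) z8))) z12) (c z8 z12))) (b (d (c z8 z12) (c z8 z12)) (d (c (b z8 (d (a (c z8 z12) (c z8 z12)) z8)) z12) (c z8 z12)))) (a (b (d (c z8 z12) (c z8 (a (b (d (c z8 z12) z8) (d (c z8 z12) z8)) (b (d (c z8 z12) z8) (d (c z8 z12) z8))))) (d (c z8 (a (b (d z12 (c (a (b (d z12 (c z8 z12)) (d z12 (c z8 z12)))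 (b z12 (d z12 (c z8 z12)))) z12)) (d z12 (c (a (b (d z12 (c z8 z12)) (d z12 (c z8 z12))) (b (d z12 (c z8 z12)) (d z12 (c z8 z12)))) z12))) (b z12 (d z12 (c (a (b (d z12 (c z8 z12)) (d z12 (c z8 z12))) (b z12 (d z12 (c z8 z12)))) z12))))) (c z8 (a (b (d (c z8 z12) (c z8 z12)) (d (c z8 z12) (c z8 z12))) (b (d (c z8 z12) z8) (d (c z8 z12) (c z8 z12))))))) (b (d (c z8 z12) (c z8 (b (d (a (c z8 z12) (c z8 z12)) z8) (d (a (c z8 z12) (c z8 z12)) z8)))) (d (c z8 z12) (c z8 (b (d (a (c z8 z12) (c z8 z12)) z8) (d (a (c z8 z12) (c z8 z12)) z8))))))))) _ _ (by decide +kernel)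

theorem okB486 : CKB ⟨0, 3072, 5120, 6144⟩ ⟨6144, 9216, 4096, 5120⟩ :=
  ckB_sound (b (d (a (c z0 (b (d (a (c z0 z4) (c z0 z4)) (a (c z0 (b (d z4 z8) (d (a (b z4 (d z4 (c z0 z4))) (b z4 (d z4 (c z0 z4)))) z8))) (c z0 (b (d z4 z8) (d z4 z8))))) (d (a (c z0 z4) (c z0 z4)) (a (c z0 (b (d (a (b (d z4 (c z0 z4)) (d z4 (c z0 z4))) (b (d z4 (c z0 z4)) (d z4 (c z0 z4)))) z8) (d (b (d z4 (c z0 z4)) z0) (b z8 z0)))) (c z0 (b (d (a (b z4 (d z4 (c z0 z4))) z4) z8) (d (a (b (d z4 (c z0 z4)) (d z4 (c z0 z4))) (b (d z4 (c z0 z4)) (d z4 (c z0 z4)))) z8))))))) (c z0 (b (d (a (c z0 z4) (c z0 z4)) z0) (d (a (c z0 z4) (c z0 z4)) (a (c z0 (b (d z4 z8) (d (a (b z4 (d z4 (c z0 z4))) z4) z8))) z0))))) (a (c z0 (b z8 z8)) z8)) (d (c z0 (b (d (a (c z0 z4) (c z0 z4)) (a (c z0 (b (d (a (b (d z4 (c z0 z4)) (d z4 (c z0 z4))) (b (d z4 (c z0 z4)) (d z4 (c z0 z4))))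 (a (b z8 (d (c z0 z12) z8)) z8)) (d (b (d z4 (c z0 z4)) (d z4 (c z0 z4))) (b (d (c z0 z12) z8) (d (c z0 z12) z8))))) (c z0 (b (d (a (b z4 (d z4 (c z0 z4))) z4) z8) (d (a (b (d z4 (c z0 z4)) (d z4 (c z0 z4))) (b (d z4 (c z0 z4)) (d z4 (c z0 z4)))) z8))))) (d (c z0 z4) (c z0 (b (d (a (b (d z4 (c z0 z4)) (d (c (b z4 z4) z4) (c z0 z4))) (b (d z4 (c z0 z4)) (d z4 (c z0 z4)))) (a (b (d (c z0 z12) z8) (d (c z0 z12) z8)) z8)) (d (b (d (c (a (b z4 z4) z4) z4) (c z0 z4)) (d (c (b z4 z4) z4) (c z0 z4))) (b (d (c z0 z12) z8) (d (c z0 z12) z8)))))))) (c z0 (b (d (a (c z8 (b z8 z8)) z8) z8) (d (c z8 (b z8 z8)) z8))))) _ _ (by decide +kernel)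

theorem okB487 : CKB ⟨0, 3072, 5120, 5632⟩ ⟨9216, 12288, 4096, 5120⟩ :=
  ckB_sound (d z12 (a (b (d z12 (a (c (b (d (a (c (b (d z12 (a (c z8 z12) (c z8 z12))) (d z12 (c z8 z12))) z12) (c (b z12 (d z12 (c z8 z12))) z12)) (a (c z8 z12) (c z8 z12))) (d (c (a (b (d z12 (c z8 z12)) (d z12 (c z8 z12))) (b (d z12 (c z8 z12)) (d z12 (c z8 z12)))) z12) (c z8 z12))) z12) (c (b (d z12 (c z8 z12)) (d (c (a (b (d z12 (c z8 z12)) (d z12 (c z8 z12))) (b z12 (d z12 (c z8 z12)))) z12) (c z8 z12))) z12))) (d z12 (c (a (b (d (c (a (b (d z12 (c z8 z12)) (d z12 (c z8 z12))) (b (d z12 (c z8 z12)) (d z12 (c z8 z12)))) z12) (c (a (b z8 (d (c z8 z12) z8)) z8) z12)) (d (c (b (d z12 (c z8 z12)) z0) z12) (c (b (d (c z8 z12) z8) z0) z12))) (b (d (c (a (b (d z12 (c z8 z12)) (d z12 (c z8 z12))) (b (d z12 (c z8 z12)) (d z12 (c z8 z12)))) z12) (c z8 z12)) (d (c (a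 (b (d z12 (c z8 z12)) (d (c (b z12 z12) z12) (c z8 z12))) (b (d z12 (c z8 z12)) (d z12 (c z8 z12)))) z12) (c (a (b z8 (d (c z8 z12) z8)) z8) z12)))) z12))) (b (d z12 (c (a (b (d z12 (c z8 z12)) (d z12 (c z8 z12))) (b (d z12 (c z8 z12)) (d z12 (c z8 z12)))) z12)) (d z12 (c (a (b (d (c (a (b (d z12 (c z8 z12)) (d z12 (c z8 z12))) z12) z12) (c z8 z12)) (d (c (a (b (d z12 (c z8 z12)) (d z12 (c z8 z12))) (b (d z12 (c z8 z12)) (d z12 (c z8 z12)))) z12) (c z8 z12))) (b (d z12 (c z8 z12)) (d (c (a (b z12 (d z12 (c z8 z12))) z12) z12) (c z8 z12)))) z12))))) _ _ (by decide +kernel)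

theorem okB488 : CKB ⟨0, 3072, 5632, 6144⟩ ⟨9216, 12288, 4096, 5120⟩ :=
  ckB_sound (d z12 (b (d (a (c (b z12 z12) z12) z12) (a (c (b (d (a (c (b (d (a (c (b (d z12 (a (c z8 z12) z12)) (d z12 (c z8 z12))) z12) z12) (a (c z8 z12) (c z8 z12))) (d (c (a (b (d z12 (c z8 z12)) (d z12 (c z8 z12))) (b z12 (d z12 (c z8 z12)))) z12) (c z8 z12))) z12) (c (b (d z12 (c z8 z12)) (d z12 (c z8 z12))) z12)) (a (c (b (d (a (c z8 z12) (c z8 z12)) z8) (d (c z8 z12) z8)) z12) (c (b z8 (d (c z8 z12) z8)) z12))) (d (c (b (d (a (c (b (d z12 (a (c z8 z12) z12)) (d z12 (c z8 z12))) z12) z12) (a (c z8 z12) (c z8 z12))) (d (c (a (b (d z12 (c z8 z12)) (d z12 (c z8 z12))) (b (d z12 (c z8 z12)) (d z12 (c z8 z12)))) z12) (c z8 z12))) z12) (c (b (d (a (c z8 z12) (c z8 z12)) (a (c z8 z12) z8)) (d (c z8 z12) (c z8 z12))) z12))) z12) (c (b (d (c (a (b (d z12 (c z8 z12))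 (d z12 (c z8 z12))) (b (d z12 (c z8 z12)) (d z12 (c z8 z12)))) z12) (c z8 z12)) (d (c (a (b (d z12 (c z8 z12)) (d (c (a (b z12 (d z12 (c z8 z12))) z12) z12) (c z8 z12))) (b (d z12 (c z8 z12)) (d z12 (c z8 z12)))) z12) (c (a (b z8 (d (c z8 z12) z8)) z8) z12))) z12))) (d (c (b z12 z12) z12) (c (b (d (c (a (b (d (c (a (b (d z12 (c z8 z12)) (d z12 (c z8 z12))) (b z12 (d z12 (c z8 z12)))) z12) (c z8 z12)) (d (c (b (d z12 (c z8 z12)) (d z12 (c z8 z12))) z12) (c z8 z12))) (b (d z12 (c z8 z12)) (d (c (a (b (d z12 (c z8 z12)) (d z12 (c z8 z12))) z12) z12) (c z8 z12)))) z12) (c (a (b (d (c z8 z12) (c z8 z12)) (d (c z8 z12) (c z8 (b z12 z12)))) (b z8 (d (c z8 z12) z8))) z12)) (d (c (b (d (c (a (b (d z12 (c z8 z12)) (d z12 (c z8 z12))) (b (d z12 (c z8 z12)) (d z12 (c z8 z12)))) z12) (c z8 z12)) (d (c (b (d z12 (c z8 z12)) (d z12 (c z8 z12))) z12)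 (c z8 z12))) z12) (c (b (d (c z8 z12) (c z8 (a (b z12 z12) z12))) (d (c z8 z12) (c z8 (b z12 z12)))) z12))) z12)))) _ _ (by decide +kernel)

theorem okB489 : CKB ⟨0, 3072, 5120, 6144⟩ ⟨6144, 9216, 5120, 6144⟩ :=
  ckB_sound (b z8 z8) _ _ (by decide +kernel)

theorem okB490 : CKB ⟨0, 1920, 5120, 5632⟩ ⟨9216, 12288, 5120, 5632⟩ :=
  ckB_sound (b (d (a (c (b (d (a (c z8 z12) (c z8 z12)) (a (c z8 z12) (c z8 z12))) (d (c z8 z12) (c z8 (a (b z12 (d z12 (c (b z12 z12) z12))) z12)))) z12) (c (b (d (c z8 z12) (c z8 z12)) (d (c z8 z12) (c z8 z12))) z12)) (a (c (b (d (a (c z8 (b (d (a (c z8 z12) (c z8 z12)) z8) (d (c z8 z12) z8))) (c z8 (b (d (a (c z8 z12) (c z8 z12)) z8) (d (a (c z8 z12) (c z8 z12)) z8)))) z8) (d (c z8 (a (b (d (c z8 z12) (c z8 z12)) (d (c z8 z12) (c z8 z12))) (b (d (c z8 z12) z8) (d (c z8 z12) (c z8 z12))))) z8)) z12) (c (b z8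 (d (c z8 (a (b (d (c z8 z12) z8) (d (c z8 z12) z8)) (b (d (c z8 z12) z8) (d (c z8 z12) z8)))) z8)) z12))) (d (c (a (b (d (c z8 z12) (c z8 (a (b (d z12 (c (a (b z12 (d z12 (c z8 z12))) z12) z12)) (d z12 (c (b (d z12 (c z8 z12)) z0) z12))) (b z12 (d z12 (c (a (b z12 (d z12 (c z8 z12))) (b z12 (d z12 (c z8 z12)))) z12)))))) (d (c z8 z12) (c z8 (b (d z12 (c (b (d z12 (c z8 z12)) (d z12 (c z8 z12))) z12)) z0)))) (b (d (c z8 z12) (c z8 z12)) (d (c z8 z12) (c z8 (a (b (d z12 (c (a (b (d z12 (c z8 z12)) (d z12 (c z8 z12))) (b z12 (d z12 (c z8 z12)))) z12)) (d z12 (c (b (d z12 (c z8 z12)) (d z12 (c z8 z12))) z12))) (b z12 (d z12 (c (b (d z12 (a (c z8 z12) z12)) (d z12 (a (c z8 z12) (c z8 z12)))) z12)))))))) z12) (c (a (b (d (c z8 (a (b (d (c z8 z12) (c z8 z12)) (d (c z8 z12) (c z8 z12))) (b (d (c z8 z12) (c z8 z12)) (d (c z8 z12) (c z8 z12)))))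 (c z8 (a (b z8 z8) z8))) (d (c z8 (b (d (c z8 z12) (c z8 z12)) z0)) (c z8 (b (d (c z8 (b (d z12 (c z8 z12)) (d z12 (c z8 z12)))) z8) z0)))) (b (d (c z8 (a (b (d (c z8 z12) z8) (d (c z8 z12) (c z8 z12))) (b (d (c z8 z12) z8) (d (c z8 z12) z8)))) z8) (d (c z8 (a (b (d (c z8 z12) (c z8 z12)) (d (c z8 z12) (c z8 z12))) (b (d (c z8 z12) (c z8 z12)) (d (c z8 z12) (c z8 z12))))) (c z8 (a (b z8 (d (c z8 (b (d z12 (a (c z8 z12) (c z8 z12))) (d z12 (c z8 z12)))) z8)) z8))))) z12))) _ _ (by decide +kernel)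

theorem okB491 : CKB ⟨1920, 3072, 5120, 5632⟩ ⟨9216, 12288, 5120, 5632⟩ :=
  ckB_sound (b (d (c (a (b (d (c z8 z12) (c z8 z12)) (d (c z8 z12) (c z8 z12))) (b (d (c z8 z12) z8) (d (c z8 z12) z8))) z12) (c z8 z12)) (d (c (a (b (d (c z8 z12) (c z8 z12)) (d (c z8 z12) (c z8 z12))) (b (d (c z8 z12) (c z8 z12)) (d (c z8 z12) (c z8 z12)))) z12) (c (a (b (d (c z8 (a (b (d (c z8 z12) z8) (d (c z8 z12) z8)) (b (d (c z8 z12) z8) (d (c z8 z12) z8)))) z8) (d (c z8 (a (b (d (c z8 z12) z8) (d (c z8 z12) (c z8 z12))) (b (d (c z8 z12) z8) (d (c z8 z12) z8)))) z8)) z8) z12))) _ _ (by decide +kernel)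

theorem okB492 : CKB ⟨0, 1920, 5120, 5376⟩ ⟨9216, 12288, 5632, 5888⟩ :=
  ckB_sound (a (c z8 (b (d (a (c (b z12 z12) z12) z12) (a (c (b (d (a (c z8 z12) (c z8 z12)) (a (c z8 z12) (c z8 z12))) (d (c z8 z12) (c z8 z12))) z12) (c (b (d (a (c z8 z12) (c z8 z12)) (a (c z8 z12) (c z8 z12))) (d (a (c z8 z12) (c z8 z12)) (a (c z8 z12) (c z8 z12)))) z12))) (d (c (a (b (d z12 (c (a (b z12 z12) z12) z12)) (d z12 (c (b z12 (d z12 (c z8 z12))) z12))) z12) z12) (c (a (b (d (c z8 z12) (c z8 z12)) (d (c z8 z12) (c z8 z12))) (b (d (c z8 z12) (c z8 z12)) (d (c z8 z12) (c z8 z12)))) z12)))) (c z8 (b (d z12 (a (c (b (d (a (c z8 z12) z12) (a (c z8 z12) (c z8 z12))) (d (a (c z8 z12) (c z8 z12)) (a (c z8 z12) (c z8 z12)))) z12) (c (b (d z12 (c z8 z12)) (d z12 (c z8 z12))) z12))) (d z12 (a (c (b (d (a (c z8 z12) (c z8 z12)) (a (c z8 z12) (c z8 z12))) (d (a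 (c z8 z12) (c z8 z12)) (a (c z8 z12) (c z8 z12)))) z12) (c (b (d (c z8 z12) (c z8 z12)) (d (c z8 z12) (c z8 z12))) z12)))))) _ _ (by decide +kernel)

theorem okB493 : CKB ⟨0, 1920, 5120, 5376⟩ ⟨9216, 12288, 5888, 6144⟩ :=
  ckB_sound (a (c z8 (b (d (a (c (b z8 (d (c z8 (a (b z12 (d z12 (c z8 z12))) z12)) z8)) z12) (c z8 z12)) (a (c z8 (b (d z12 (a (c (b (d z12 (a (c z8 z12) (c z8 z12))) (d z12 (c z8 z12))) z12) (c (b (d z12 (a (c z8 z12) z12)) (d z12 (a (c z8 z12) (c z8 z12)))) z12))) (d z12 (c (a (b (d z12 (c z8 z12)) (d z12 (c z8 z12))) (b (d z12 (c z8 z12)) (d z12 (c z8 z12)))) z12)))) (c z8 (b z12 (d z12 (a (c (b (d z12 (a (c z8 z12) (c z8 z12))) (d z12 (a (c z8 z12) (c z8 z12)))) z12) (c (b z12 (d z12 (a (c z8 z12) z12))) z12))))))) (d (c (a (b (d (c z8 (a (b (d z12 (c z8 z12)) (d z12 (c z8 z12))) (b z12 (d z12 (c z8 z12))))) z8)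 (d (c z8 (b (d z12 (c z8 z12)) (d z12 (c z8 z12)))) z8)) (b z8 (d (c z8 (a (b (d z12 (c z8 z12)) (d z12 (c z8 z12))) (b z12 (d z12 (c z8 z12))))) z8))) z12) (c z8 (a (b (d z12 (c (a (b (d z12 (c z8 z12)) (d (c z8 z12) (c z8 z12))) (b (d z12 (c z8 z12)) (d z12 (c z8 z12)))) z12)) (d z12 (c (b (d (c z8 z12) (c z8 z12)) (d (c z8 z12) (c z8 z12))) z12))) (b (d z12 (c (a (b (d z12 (c z8 z12)) (d z12 (c z8 z12))) (b (d z12 (c z8 z12)) (d z12 (c z8 z12)))) z12)) (d z12 (c (a (b (d z12 (c z8 z12)) (d (c z8 z12) (c z8 z12))) (b (d z12 (c z8 z12)) (d z12 (c z8 z12)))) z12)))))))) (c z8 (b (d (a (c z8 z12) (c z8 z12)) (a (c z8 z12) (c z8 z12))) (d (a (c z8 z12) (c z8 z12)) (a (c z8 (b (d z12 (a (c (b z12 (d z12 (a (c z8 z12) z12))) z12) z12)) (d z12 (a (c (b (d z12 (a (c z8 z12) (c z8 z12))) (d z12 (a (c z8 z12) (c z8 z12)))) z12) (c (b (d z12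 (a (c z8 z12) z12)) (d z12 (a (c z8 z12) (c z8 z12)))) z12))))) (c z8 z12)))))) _ _ (by decide +kernel)

theorem okB494 : CKB ⟨0, 1920, 5376, 5632⟩ ⟨9216, 12288, 5632, 5888⟩ :=
  ckB_sound (c (a (b z8 z8) z8) (a (b (d (c (a (b (d z12 (c (a (b (d z12 (c z8 z12)) (d z12 (c z8 z12))) (b z12 (d z12 (c z8 z12)))) z12)) (d z12 (c (b (d z12 (c z8 z12)) z0) z12))) (b z12 (d z12 (c (a (b (d z12 (c z8 z12)) (d z12 (c z8 z12))) (b z12 (d z12 (c z8 z12)))) z12)))) z12) (c (a (b (d (c z8 z12) (c z8 z12)) (d (c z8 z12) (c z8 z12))) (b (d (c z8 z12) (c z8 z12)) (d (c z8 z12) (c z8 z12)))) z12)) (d (c (b (d z12 (c (b (d z12 (c z8 z12)) (d z12 (c z8 z12))) z12)) z0) z12) (c (b (d (c z8 z12) (c z8 z12)) z0) z12))) (b (d z12 (c (a (b (d (c z8 z12) (c z8 z12)) (d (c z8 z12) (c z8 z12))) (b (d (c z8 z12) (c z8 z12)) (d (c z8 z12) (c z8 z12)))) z12)) (d (c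 (a (b (d z12 (c (a (b (d z12 (c z8 z12)) (d z12 (c z8 z12))) (b z12 (d z12 (c z8 z12)))) z12)) (d z12 (c (b (d z12 (a (c z8 z12) (c z8 z12))) (d z12 (c z8 z12))) z12))) (b z12 (d z12 (c (b (d z12 (a (c z8 z12) z12)) (d z12 (a (c z8 z12) (c z8 z12)))) z12)))) z12) (c (a (b (d (c z8 z12) (c z8 z12)) (d (c z8 z12) (c z8 z12))) (b (d (c z8 z12) (c z8 z12)) (d (c z8 z12) (c z8 z12)))) z12))))) _ _ (by decide +kernel)

end Vale.Agent.Lib.P154Q5
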