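import Vale.Agent.Lib.P154Q5.CkBDefs

namespace Vale.Agent.Lib.P154Q5

set_option maxRecDepth 100000
set_option exponentiation.threshold 1000

open Tr

theorem okB495 : CKB ⟨0, 1920, 5376, 5632⟩ ⟨9216, 10752, 5888, 6144⟩ :=
  ckB_sound z8 _ _ (by decide +kernel)

theorem okB496 : CKB ⟨0, 1560, 5376, 5632⟩ ⟨10752, 12288, 5888, 6144⟩ :=
  ckB_sound (b (d (c (a (b (d (c z8 (a (b (d z12 (c z8 z12)) (d z12 (c z8 z12))) (b (d z12 (c z8 z12)) (d z12 (c z8 z12))))) z8) (d (c z8 (b (d z12 (c z8 z12)) z0)) z8)) (b (d (c z8 (a (b (d z12 (c z8 z12)) (d z12 (c z8 z12))) (b z12 (d z12 (c z8 z12))))) z8) (d (c z8 (a (b (d z12 (c z8 z12)) (d z12 (c z8 z12))) (b (d z12 (c z8 z12)) (d z12 (c z8 z12))))) z8))) z12) (c z8 (a (b (d z12 (c (a (b (d (c z8 z12) (c z8 z12)) (d (c z8 z12) (c z8 z12))) (b (d z12 (c z8 z12)) (d (c z8 z12) (c z8 z12)))) z12)) (d z12 (c (b (d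 (c z8 z12) (c z8 z12)) z0) z12))) (b (d z12 (c (a (b (d z12 (c z8 z12)) (d z12 (c z8 z12))) (b (d z12 (c z8 z12)) (d z12 (c z8 z12)))) z12)) (d z12 (c (a (b (d (c z8 z12) (c z8 z12)) (d (c z8 z12) (c z8 z12))) (b (d z12 (c z8 z12)) (d (c z8 z12) (c z8 z12)))) z12)))))) (d (c (b (d (c z8 (b (d z12 (c z8 z12)) (d (c (b z12 z12) z12) (c z8 z12)))) (c z8 (b z8 z8))) z0) z12) (c (b z8 z0) (b (d (c (b z12 z12) z12) (c (b (d (c z8 z12) (c z8 z12)) (d (c z8 z12) (c z8 z12))) z12)) z0)))) _ _ (by decide +kernel)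

theorem okB497 : CKB ⟨1560, 1920, 5376, 5632⟩ ⟨10752, 12288, 5888, 6144⟩ :=
  ckB_sound (b (d (c (a (b z8 (d (c z8 (a (b (d z12 (c z8 z12)) (d z12 (c z8 z12))) (b z12 (d z12 (c z8 z12))))) z8)) z8) z12) (c z8 (a (b (d z12 (c (a (b (d z12 (c z8 z12)) (d z12 (c z8 z12))) (b (d z12 (c z8 z12)) (d z12 (c z8 z12)))) z12)) (d z12 (c (a (b (d z12 (c z8 z12)) (d z12 (c z8 z12))) (b (d z12 (c z8 z12)) (d z12 (c z8 z12)))) z12))) (b (d z12 (c (b z12 (d z12 (a (c z8 z12) z12))) z12)) (d z12 (c (b (d z12 (a (c z8 z12) (c z8 z12))) (d z12 (a (c z8 z12) (c z8 z12)))) z12)))))) (d (c (a (b (d (c z8 (a (b (d z12 (c z8 z12)) (d z12 (c z8 z12))) (b (d z12 (c z8 z12)) (d z12 (c z8 z12))))) z8) (d (c z8 (b (d (a (c (b z12 z12) z12) z12) (a (c z8 z12) (c z8 z12))) (d (c (b z12 z12) z12) (c z8 z12)))) (c z8 (b z8 z8)))) (b (d (c z8 (b (d z12 (a (c z8 z12) z12)) (d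 z12 (a (c z8 z12) (c z8 z12))))) z8) (d (c z8 (b (d z12 (a (c z8 z12) (c z8 z12))) (d z12 (a (c z8 z12) (c z8 z12))))) z8))) z12) (c z8 (a (b (d z12 (c (a (b (d (c z8 z12) (c z8 z12)) (d (c z8 z12) (c z8 z12))) (b (d z12 (c z8 z12)) (d (c z8 z12) (c z8 z12)))) z12)) (d (c (b z12 z12) z12) (c (b (d (a (c z8 z12) (c z8 z12)) (a (c z8 z12) (c z8 z12))) (d (c z8 z12) (c z8 z12))) z12))) (b (d z12 (c (b (d z12 (a (c z8 z12) (c z8 z12))) (d (a (c z8 z12) z12) (a (c z8 z12) (c z8 z12)))) z12)) (d z12 (c (b (d (a (c z8 z12) (c z8 z12)) (a (c z8 z12) (c z8 z12))) (d (a (c z8 z12) (c z8 z12)) (a (c z8 z12) (c z8 z12)))) z12))))))) _ _ (by decide +kernel)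

theorem okB498 : CKB ⟨1920, 3072, 5120, 5632⟩ ⟨9216, 12288, 5632, 6144⟩ :=
  ckB_sound (b (d (c z8 (a (b (d z12 (c (a (b (d z12 (c z8 z12)) (d z12 (c z8 z12))) (b (d z12 (c z8 z12)) (d z12 (c z8 z12)))) z12)) (d z12 (c (a (b (d z12 (c z8 z12)) (d (c z8 z12) (c z8 z12))) (b (d z12 (c z8 z12)) (d z12 (c z8 z12)))) z12))) (b (d z12 (c (a (b z12 (d z12 (c z8 z12))) z12) z12)) (d z12 (c (a (b (d z12 (c z8 z12)) (d z12 (c z8 z12))) (b (d z12 (c z8 z12)) (d z12 (c z8 z12)))) z12))))) (c z8 (a (b (d (c z8 z12) (c z8 z12)) (d (c z8 z12) (c z8 z12))) (b (d (c z8 z12) (c z8 z12)) (d (c z8 z12) (c z8 z12)))))) (d (c z8 (a (b (d z12 (c (a (b (d (c z8 z12) (c z8 z12)) (d (c z8 z12) (c z8 z12))) (b (d z12 (c z8 z12)) (d (c z8 z12) (c z8 z12)))) z12)) (d z12 (c (a (b (d (c z8 z12) (c z8 z12)) (d (c z8 z12) (c z8 z12))) (b (d (c z8 z12) (c z8 z12)) (d (c z8 z12)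 (c z8 z12)))) z12))) (b (d z12 (c (a (b (d z12 (c z8 z12)) (d z12 (c z8 z12))) (b (d z12 (c z8 z12)) (d z12 (c z8 z12)))) z12)) (d z12 (c (a (b (d (c z8 z12) (c z8 z12)) (d (c z8 z12) (c z8 z12))) (b (d z12 (c z8 z12)) (d z12 (c z8 z12)))) z12))))) (c z8 (a (b (d (c z8 z12) (c z8 (a (b z12 (d z12 (c (a (b z12 (d z12 (c z8 z12))) z12) z12))) z12))) (d (c (a (b z8 (d (c z8 (a (b (d z12 (c z8 z12)) (d z12 (c z8 z12))) (b z12 (d z12 (c z8 z12))))) z8)) z8) z12) (c z8 (a (b (d z12 (c (a (b (d z12 (c z8 z12)) (d z12 (c z8 z12))) (b z12 (d z12 (c z8 z12)))) z12)) (d z12 (c (a (b (d z12 (c z8 z12)) (d (c z8 z12) (c z8 z12))) (b (d z12 (c z8 z12)) (d z12 (c z8 z12)))) z12))) (b z12 (d z12 (c (a (b (d z12 (c z8 z12)) (d z12 (c z8 z12))) z12) z12))))))) (b (d (c z8 z12) (c z8 z12)) (d (c z8 z12) (c z8 z12))))))) _ _ (by decide +kernel)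

theorem okB499 : CKB ⟨0, 3072, 5632, 5888⟩ ⟨9216, 12288, 5120, 5632⟩ :=
  ckB_sound (d (a (c (b (d (a (c z8 z12) (c z8 z12)) (a (c z8 (b (d z12 (a (c (b (d z12 (a (c z8 z12) (c z8 z12))) (d z12 (c z8 z12))) z12) (c (b (d z12 (a (c z8 z12) (c z8 z12))) (d z12 (a (c z8 z12) (c z8 z12)))) z12))) (d z12 (c (a (b (d z12 (c z8 z12)) (d z12 (c z8 z12))) (b (d z12 (c z8 z12)) (d z12 (c z8 z12)))) z12)))) (c z8 (b (d z12 (a (c (b z12 (d z12 (a (c z8 z12) z12))) z12) z12)) (d z12 (a (c (b (d z12 (a (c z8 z12) (c z8 z12))) (d z12 (a (c z8 z12) (c z8 z12)))) z12) (c (b z12 (d z12 (c z8 z12))) z12))))))) (d (c z8 z12) (c z8 (b (d z12 (a (c (b (d z12 (a (c z8 z12) (c z8 z12))) (d z12 (c z8 z12))) z12) (c (b (d z12 (a (c z8 z12) (c z8 z12))) (d z12 (a (c z8 z12) (c z8 z12)))) z12))) (d z12 (c (a (b (d (c z8 z12) (c z8 z12)) (d (c z8 z12) (c z8 z12))) (b (d z12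 (c z8 z12)) (d z12 (c z8 z12)))) z12)))))) z12) (c (b (d (c z8 z12) (c z8 z12)) (d (c z8 z12) (c z8 (a (b (d z12 (c (a (b z12 (d z12 (c z8 z12))) z12) z12)) (d z12 (c (a (b (d z12 (c z8 z12)) (d z12 (c z8 z12))) (b (d z12 (c z8 z12)) (d z12 (c z8 z12)))) z12))) z12)))) z12)) (a (c (b (d (a (c z8 (b (d (a (c z8 z12) (c z8 z12)) (a (c z8 z12) (c z8 z12))) (d (c z8 z12) (c z8 z12)))) (c z8 (b (d (a (c z8 z12) (c z8 z12)) (a (c z8 z12) z8)) (d (a (c z8 z12) (c z8 z12)) (a (c z8 z12) (c z8 z12)))))) (a (c z8 (b (d (a (c z8 (b (d z12 (a (c z8 z12) (c z8 z12))) (d z12 (c z8 z12)))) z8) z8) (d (c z8 (a (b (d z12 (c z8 z12)) (d z12 (c z8 z12))) (b (d z12 (c z8 z12)) (d z12 (c z8 z12))))) z8))) z8)) (d (c z8 (b (d (a (c z8 z12) (c z8 z12)) (a (c z8 z12) (c z8 z12))) (d (c z8 z12) (c z8 z12)))) (c z8 (b (d (a (c z8 (b (d z12 (a (c z8 z12) (c z8 z12))) (d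 z12 (c z8 z12)))) z8) z8) (d (c z8 (a (b (d z12 (c z8 z12)) (d z12 (c z8 z12))) (b (d z12 (c z8 z12)) (d z12 (c z8 z12))))) z8))))) z12) (c (b (d (c z8 (a (b (d (c z8 z12) z8) (d (c z8 z12) z8)) (b (d (c z8 z12) z8) (d (c z8 z12) z8)))) z8) (d (c z8 (a (b (d (c z8 z12) (c z8 z12)) (d (c z8 z12) (c z8 z12))) (b (d (c z8 z12) z8) (d (c z8 z12) z8)))) z8)) z12))) _ _ (by decide +kernel)

theorem okB500 : CKB ⟨0, 3072, 5888, 6144⟩ ⟨9216, 12288, 5120, 5632⟩ :=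
  ckB_sound (d (c (b (d (c (a (b z8 z8) z8) z12) (c z8 (a (b (d z12 (a (c (b (d (a (c z8 z12) z12) (a (c z8 z12) (c z8 z12))) (d (c z8 z12) (c z8 z12))) z12) (c (b (d z12 (c z8 z12)) (d z12 (c z8 z12))) z12))) (d z12 (c (b (d (a (c z8 z12) z12) (a (c z8 z12) (c z8 z12))) (d (c z8 z12) (c z8 z12))) z12))) (b (d z12 (c (a (b (d z12 (c z8 z12)) (d z12 (c z8 z12))) z12) z12)) (d z12 (c (a (b (d z12 (c z8 z12)) (d z12 (c z8 z12))) (b (d z12 (c z8 z12)) (d z12 (c z8 z12)))) z12)))))) (d (c (b z8 z8) z12) (c z8 (b (d z12 (a (c (b (d (a (c z8 z12) z12) (a (c z8 z12) (c z8 z12))) (d (c z8 z12) (c z8 z12))) z12) (c (b (d z12 (c z8 z12)) (d z12 (c z8 z12))) z12))) (d z12 (c (b (d (c z8 z12) (c z8 z12)) (d (c z8 z12) (c z8 z12))) z12)))))) z12) (c (b (d (c z8 (a (b (d (a (c z8 z12) (c z8 z12)) (a (c z8 z12) (c z8 z12))) (d (c z8 z12) (c z8 z12))) (b (d (c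 z8 z12) (c z8 z12)) (d (c z8 z12) (c z8 z12))))) (c z8 (a (b (d (a (c z8 (b (d z12 (a (c z8 z12) (c z8 z12))) (d z12 (c z8 z12)))) (c z8 (b (d z12 (a (c z8 z12) (c z8 z12))) (d z12 (a (c z8 z12) (c z8 z12)))))) z8) (d (c z8 (b (d z12 (a (c z8 z12) (c z8 z12))) (d (c (b z12 z12) z12) (c z8 z12)))) z8)) z8))) (d (c z8 (b (d (a (c z8 z12) (c z8 z12)) (a (c z8 z12) (c z8 z12))) (d (c z8 z12) (c z8 z12)))) (c z8 (b (d (a (c z8 (b (d (a (c (b z12 z12) z12) z12) (a (c z8 z12) (c z8 z12))) (d (c (b z12 z12) z12) (c z8 z12)))) z8) (a (c z8 (b z8 z8)) z8)) (d (c z8 (b (d (a (c (b z12 z12) z12) z12) (a (c z8 z12) (c z8 z12))) (d (c (b z12 z12) z12) (c z8 z12)))) z8))))) z12)) _ _ (by decide +kernel)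

theorem okB501 : CKB ⟨0, 3072, 5632, 5888⟩ ⟨9216, 12288, 5632, 5888⟩ :=
  ckB_sound (a (c (b z8 z8) (b (d (a (c (b (d z12 (a (c (b (d z12 (a (c z8 z12) (c z8 z12))) (d z12 (c z8 z12))) z12) (c (b (d z12 (a (c z8 z12) (c z8 z12))) (d z12 (a (c z8 z12) (c z8 z12)))) z12))) (d z12 (c (a (b (d z12 (c z8 z12)) (d z12 (c z8 z12))) (b (d z12 (c z8 z12)) (d z12 (c z8 z12)))) z12))) z12) (c (b (d z12 (a (c (b z12 (d z12 (a (c z8 z12) z12))) z12) z12)) (d z12 (a (c (b (d z12 (a (c z8 z12) (c z8 z12))) (d z12 (a (c z8 z12) (c z8 z12)))) z12) (c (b z12 (d z12 (a (c z8 z12) z12))) z12)))) z12)) (a (c (b (d (a (c (b z8 z8) z12) (c z8 z12)) (a (c z8 z12) (c z8 z12))) (d (c (a (b z8 z8) z8) z12) (c z8 z12))) z12) (c (b (d (a (c z8 z12) (c z8 z12)) (a (c z8 z12) (c z8 z12))) (d (a (c z8 z12) (c z8 z12)) (a (c z8 z12) (c z8 z12)))) z12))) (d (c (b (d z12 (a (c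 (b (d z12 (a (c z8 z12) (c z8 z12))) (d (c (a (b z12 z12) z12) z12) (c z8 z12))) z12) (c (b (d z12 (a (c z8 z12) (c z8 z12))) (d z12 (a (c z8 z12) (c z8 z12)))) z12))) (d z12 (c (a (b (d (c (a (b z12 z12) z12) z12) (c z8 z12)) (d (c (b z12 z0) z12) (c z8 z12))) (b (d z12 (c z8 z12)) (d z12 (c z8 z12)))) z12))) z12) (c (b (d (a (c (b z8 z8) z12) (c z8 z12)) (a (c z8 z12) (c z8 z12))) (d (c (a (b z8 z8) z8) z12) (c z8 z12))) z12)))) (c z8 (b (d z12 (a (c (b (d (a (c z8 z12) (c z8 z12)) (a (c z8 z12) (c z8 z12))) (d (a (c z8 z12) (c z8 z12)) (a (c z8 z12) (c z8 z12)))) z12) (c (b (d (c z8 z12) (c z8 z12)) (d (c z8 z12) (c z8 z12))) z12))) (d (a (c (b (d z12 (a (c (b z12 (d z12 (a (c z8 z12) z12))) z12) z12)) (d z12 (a (c (b (d z12 (a (c z8 z12) (c z8 z12))) (d z12 (a (c z8 z12) (c z8 z12)))) z12) (c (b z12 (d z12 (c z8 z12))) z12)))) z12) z12) (a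 (c (b (d (a (c z8 z12) (c z8 z12)) (a (c z8 z12) (c z8 z12))) (d (a (c z8 z12) (c z8 z12)) (a (c z8 z12) (c z8 z12)))) z12) (c (b (d (c z8 z12) (c z8 z12)) (d (c z8 z12) (c z8 z12))) z12)))))) _ _ (by decide +kernel)

theorem okB502 : CKB ⟨0, 2400, 5632, 5888⟩ ⟨9216, 10752, 5888, 6144⟩ :=
  ckB_sound z8 _ _ (by decide +kernel)

theorem okB503 : CKB ⟨0, 2400, 5632, 5760⟩ ⟨10752, 12288, 5888, 6144⟩ :=
  ckB_sound (d (a (c (b (d (a (c z8 (b (d (a (c (b (d z12 z8) (d z12 z8)) z12) z12) (a (c z8 z12) (c z8 z12))) (d (c (a (b (d z12 z8) (d z12 z8)) (b z12 (d z12 z8))) z12) (c z8 z12)))) (c z8 (b (d z12 (a (c z8 z12) (c z8 z12))) (d z12 (a (c z8 z12) (c z8 z12)))))) (a (c z8 (b z8 (d (c z8 z12) z8))) z8)) (d (c z8 (a (b (d (c (a (b (d z12 z8) (d z12 z8)) (b z12 (d z12 z8))) z12) (c z8 z12)) (d (c (b (d z12 z8) z0) z12) (c z8 z12))) (b (d z12 (c z8 z12))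 (d (c (a (b (d z12 z8) (d z12 z8)) (b z12 (d z12 z8))) z12) (c z8 z12))))) (c z8 (a (b (d (c z8 z12) z8) (d (c z8 z12) z8)) (b z8 (d (c z8 z12) z8)))))) z12) (c (b (d (a (c z8 (b (d z12 (a (c z8 z12) (c z8 z12))) (d z12 (a (c z8 z12) (c z8 z12))))) z8) z8) (d (a (c z8 (b (d z12 (a (c z8 z12) (c z8 z12))) (d z12 (a (c z8 z12) (c z8 z12))))) (c z8 (b (d z12 (a (c z8 z12) (c z8 z12))) (d z12 (a (c z8 z12) (c z8 z12)))))) z8)) z12)) (a (c (b z8 z8) (b (d (a (c (b z12 z12) z12) z12) (a (c (b (d (a (c z8 z12) (c z8 z12)) (a (c z8 z12) (c z8 z12))) (d (c z8 z12) (c z8 z12))) z12) (c (b (d (a (c z8 z12) (c z8 z12)) (a (c z8 z12) (c z8 z12))) (d (a (c z8 z12) (c z8 z12)) (a (c z8 z12) (c z8 z12)))) z12))) (d (c (a (b z12 (d z12 (c (b z12 z0) z12))) z12) z12) (c (a (b (d (c z8 z12) (c z8 z12)) (d (c z8 z12) (c z8 z12))) (b (d (c z8 z12) (c z8 z12)) (d (c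 z8 z12) (c z8 z12)))) z12)))) (c z8 (b (d z12 (a (c (b (d z12 (a (c z8 z12) (c z8 z12))) (d (a (c z8 z12) z12) (a (c z8 z12) (c z8 z12)))) z12) (c (b (d z12 (a (c z8 z12) (c z8 z12))) (d z12 (a (c z8 z12) (c z8 z12)))) z12))) (d z12 (a (c (b (d (a (c z8 z12) (c z8 z12)) (a (c z8 z12) (c z8 z12))) (d (a (c z8 z12) (c z8 z12)) (a (c z8 z12) (c z8 z12)))) z12) (c (b (d z12 (a (c z8 z12) (c z8 z12))) (d (a (c z8 z12) z12) (a (c z8 z12) (c z8 z12)))) z12))))))) _ _ (by decide +kernel)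

theorem okB504 : CKB ⟨0, 2400, 5760, 5888⟩ ⟨10752, 12288, 5888, 6144⟩ :=
  ckB_sound (d (c (b (d (a (c z8 (b (d (a (c (b (d z12 z8) (d z12 z8)) z12) z12) (a (c z8 z12) (c z8 z12))) (d (c (a (b (d z12 z8) (d z12 z8)) (b z12 (d z12 z8))) z12) (c z8 z12)))) (c z8 (b (d z12 (a (c z8 z12) (c z8 z12))) (d z12 (a (c z8 z12) (c z8 z12)))))) (a (c z8 (b (d (a (c z8 z12) z8) z8) (d (c z8 z12) z8))) z8)) (d (c z8 (a (b (d (c (a (b (d z12 z8) (d z12 z8)) (b (d z12 z8) (d z12 z8))) z12) (c z8 z12)) (d (c (b (d z12 z8) z0) z12) (c z8 z12))) (b (d z12 (c z8 z12)) (d (c (a (b (d z12 z8) (d z12 z8)) (b z12 (d z12 z8))) z12) (c z8 z12))))) (c z8 (a (b (d (c z8 z12) z8) (d (c z8 z12) z8)) (b z8 (d (c z8 z12) z8)))))) z12) (c (b z8 z8) (b (d (a (c (b (d z12 (a (c (b z12 z12) z12) z12)) (d z12 (c (a (b z12 z12) z12) z12))) z12) z12) (a (c (b (d (a (c z8 z12) (c z8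 z12)) (a (c z8 z12) (c z8 z12))) (d (c z8 z12) (c z8 z12))) z12) (c (b (d (a (c z8 z12) (c z8 z12)) (a (c z8 z12) (c z8 z12))) (d (a (c z8 z12) (c z8 z12)) (a (c z8 z12) (c z8 z12)))) z12))) (d (c (a (b (d z12 (c (a (b z12 z12) z12) z12)) (d z12 (c (b z12 z0) z12))) (b z12 (d z12 (c (a (b z12 z12) z12) z12)))) z12) (c (a (b (d (c z8 z12) (c z8 z12)) (d (c z8 z12) (c z8 z12))) (b (d (c z8 z12) (c z8 z12)) (d (c z8 z12) (c z8 z12)))) z12))))) _ _ (by decide +kernel)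

theorem okB505 : CKB ⟨2400, 3072, 5632, 5888⟩ ⟨9216, 12288, 5888, 6144⟩ :=
  ckB_sound (c z8 (b (d (a (c z8 z12) (c z8 z12)) (a (c z8 (b (d z12 (a (c (b (d z12 (a (c z8 z12) z12)) (d z12 (a (c z8 z12) (c z8 z12)))) z12) z12)) (d z12 (a (c (b (d z12 (a (c z8 z12) (c z8 z12))) (d z12 (a (c z8 z12) (c z8 z12)))) z12) (c (b (d z12 (a (c z8 z12) z12)) (d z12 (a (c z8 z12) (c z8 z12)))) z12))))) (c z8 z12))) (d (a (c (b (d (a (c z8 (b (d z12 (a (c z8 z12) (c z8 z12))) (d z12 (a (c z8 z12) (c z8 z12))))) z8) z8) (d (a (c z8 (b (d z12 (a (c z8 z12) (c z8 z12))) (d z12 (a (c z8 z12) (c z8 z12))))) (c z8 (b (d z12 (a (c z8 z12) (c z8 z12))) (d z12 (a (c z8 z12) (c z8 z12)))))) z8)) z12) (c z8 z12)) (a (c z8 (b (d z12 (a (c (b (d z12 (a (c z8 z12) (c z8 z12))) (d (a (c z8 z12) z12) (a (c z8 z12) (c z8 z12)))) z12) (c (b (d z12 (a (c z8 z12) (c z8 z12)))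 (d z12 (a (c z8 z12) (c z8 z12)))) z12))) (d z12 (a (c (b (d (a (c z8 z12) (c z8 z12)) (a (c z8 z12) (c z8 z12))) (d (a (c z8 z12) (c z8 z12)) (a (c z8 z12) (c z8 z12)))) z12) (c (b (d z12 (a (c z8 z12) (c z8 z12))) (d (a (c z8 z12) z12) (a (c z8 z12) (c z8 z12)))) z12))))) (c z8 (b (d z12 (a (c (b (d z12 (a (c z8 z12) z12)) (d z12 (a (c z8 z12) (c z8 z12)))) z12) z12)) (d z12 (a (c (b (d z12 (a (c z8 z12) (c z8 z12))) (d z12 (a (c z8 z12) (c z8 z12)))) z12) (c (b (d z12 (c z8 z12)) (d z12 (c z8 z12))) z12))))))))) _ _ (by decide +kernel)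

theorem okB506 : CKB ⟨0, 3072, 5888, 6144⟩ ⟨9216, 12288, 5632, 5888⟩ :=
  ckB_sound (c (b (d (c z8 (a (b z8 z8) z8)) z8) (d (c z8 (b z8 z8)) z8)) (b (d (a (c (b (d z12 (a (c (b (d (a (c (b z12 z12) z12) z12) (a (c z8 z12) (c z8 z12))) (d (c (b z12 z12) z12) (c z8 z12))) z12) (c (b (d z12 (a (c z8 z12) (c z8 z12))) (d z12 (a (c z8 z12) (c z8 z12)))) z12))) (d z12 (c (b (d (a (c (b z12 z12) z12) z12) (a (c z8 z12) (c z8 z12))) (d (c (b z12 z12) z12) (c z8 z12))) z12))) z12) (c (b (d z12 (a (c (b (d z12 (a (c z8 z12) z12)) (d z12 (a (c z8 z12) (c z8 z12)))) z12) z12)) (d z12 (a (c (b (d z12 (a (c z8 z12) (c z8 z12))) (d z12 (a (c z8 z12) (c z8 z12)))) z12) (c (b (d z12 (c z8 z12)) (d z12 (c z8 z12))) z12)))) z12)) (a (c (b (d (a (c (b z8 z8) z12) (c z8 z12)) (a (c z8 z12) (c z8 z12))) (d (c (b z8 (d (c z8 z12) z8)) z12) (c z8 z12))) z12) (c (b (d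 (a (c z8 z12) (c z8 z12)) (a (c z8 z12) (c z8 z12))) (d (a (c z8 z12) (c z8 z12)) (a (c z8 z12) (c z8 z12)))) z12))) (d (c (b (d z12 (a (c (b (d (a (c (b z12 z12) z12) z12) (a (c z8 z12) (c z8 z12))) (d (c (b z12 z12) z12) (c z8 z12))) z12) (c (b (d z12 (a (c z8 z12) (c z8 z12))) (d z12 (a (c z8 z12) (c z8 z12)))) z12))) (d z12 (c (b (d (a (c (b z12 z12) z12) z12) (a (c z8 z12) (c z8 z12))) (d (c (b z12 z12) z12) (c z8 z12))) z12))) z12) (c (b (d (a (c (b z8 z8) z12) (c z8 z12)) (a (c z8 z12) (c z8 z12))) (d (c (b z8 z8) z12) (c z8 z12))) z12)))) _ _ (by decide +kernel)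

theorem okB507 : CKB ⟨0, 3072, 5888, 6144⟩ ⟨9216, 10752, 5888, 6144⟩ :=
  ckB_sound z8 _ _ (by decide +kernel)

theorem okB508 : CKB ⟨0, 3072, 5888, 6016⟩ ⟨10752, 12288, 5888, 6144⟩ :=
  ckB_sound (d (a (c (b (d (a (c z8 (b (d (a (c (b (d z12 z8) (d z12 z8)) z12) (c (b z12 (d z12 z8)) z12)) (a (c z8 z12) (c z8 z12))) (d (c (b (d z12 z8) (d z12 z8)) z12) (c z8 z12)))) (c z8 (b (d z12 (a (c z8 z12) (c z8 z12))) (d (a (c (b z12 (d z12 z8)) z12) z12) (a (c z8 z12) (c z8 z12)))))) (a (c z8 (b (d (a (c z8 z12) z8) z8) (d (c z8 z12) z8))) z8)) (d (c z8 (b (d (a (c (b (d z12 z8) (d z12 z8)) z12) (c (b z12 (d z12 z8)) z12)) (a (c z8 z12) (c z8 z12))) (d (c (b (d z12 z8) (d z12 z8)) z12) (c z8 z12)))) (c z8 (b (d (a (c z8 z12) z8) z8) (d (c z8 z12) z8))))) z12) (c (b (d (a (c z8 (b (d z12 (a (c z8 z12) (c z8 z12))) (d z12 (a (c z8 z12) (c z8 z12))))) z8)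 z8) (d (a (c z8 (b (d z12 (a (c z8 z12) (c z8 z12))) (d (a (c (b z12 (d z12 z8)) z12) z12) (a (c z8 z12) (c z8 z12))))) (c z8 (b (d z12 (a (c z8 z12) (c z8 z12))) (d z12 (a (c z8 z12) (c z8 z12)))))) z8)) z12)) (a (c (b z8 z8) (b (d (a (c (b (d z12 (a (c (b z12 z12) z12) z12)) (d z12 (c (b z12 z12) z12))) z12) z12) (a (c (b (d (a (c z8 z12) (c z8 z12)) (a (c z8 z12) (c z8 z12))) (d (c z8 z12) (c z8 z12))) z12) (c (b (d (a (c z8 z12) (c z8 z12)) (a (c z8 z12) (c z8 z12))) (d (a (c z8 z12) (c z8 z12)) (a (c z8 z12) (c z8 z12)))) z12))) (d (c (b (d z12 (a (c (b z12 z12) z12) z12)) (d z12 (c (b z12 z12) z12))) z12) (c (b (d (a (c z8 z12) (c z8 z12)) (a (c z8 z12) (c z8 z12))) (d (c z8 z12) (c z8 z12))) z12)))) (c z8 (b (d z12 (a (c (b (d z12 (a (c z8 z12) (c z8 z12))) (d (a (c z8 z12) z12) (a (c z8 z12) (c z8 z12)))) z12) (c (b (d z12 (a (c z8 z12)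 (c z8 z12))) (d z12 (a (c z8 z12) (c z8 z12)))) z12))) (d z12 (a (c (b (d (a (c z8 z12) (c z8 z12)) (a (c z8 z12) (c z8 z12))) (d (a (c z8 z12) (c z8 z12)) (a (c z8 z12) (c z8 z12)))) z12) (c (b (d z12 (a (c z8 z12) (c z8 z12))) (d (a (c z8 z12) z12) (a (c z8 z12) (c z8 z12)))) z12))))))) _ _ (by decide +kernel)

theorem okB509 : CKB ⟨0, 3072, 6016, 6144⟩ ⟨10752, 12288, 5888, 6144⟩ :=
  ckB_sound (d (c (b (d (a (c z8 (b (d (a (c (b (d z12 z8) (d z12 z8)) z12) (c (b z12 (d z12 z8)) z12)) (a (c z8 z12) (c z8 z12))) (d (c (b (d z12 z8) (d z12 z8)) z12) (c z8 z12)))) (c z8 (b (d z12 (a (c z8 z12) (c z8 z12))) (d (a (c (b z12 (d z12 z8)) z12) z12) (a (c z8 z12) (c z8 z12)))))) (a (c z8 (b (d (a (c z8 z12) z8) z8) (d (c z8 z12) z8))) z8)) (d (c z8 (b (d (a (c (b (d z12 z8) (d z12 z8)) z12) (c (b z12 (d z12 z8)) z12)) (a (c z8 z12) (c z8 z12))) (d (c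 (b (d z12 z8) (d z12 z8)) z12) (c z8 z12)))) (c z8 (b (d (a (c z8 z12) z8) z8) (d (c z8 z12) z8))))) z12) (c (b z8 z8) (b (d (a (c (b (d z12 (a (c (b z12 z12) z12) z12)) (d z12 (c (b z12 z12) z12))) z12) z12) (a (c (b (d (a (c z8 z12) (c z8 z12)) (a (c z8 z12) (c z8 z12))) (d (c z8 z12) (c z8 z12))) z12) (c (b (d (a (c z8 z12) (c z8 z12)) (a (c z8 z12) (c z8 z12))) (d (a (c z8 z12) (c z8 z12)) (a (c z8 z12) (c z8 z12)))) z12))) (d (c (b (d z12 (a (c (b z12 z12) z12) z12)) (d z12 (c (b z12 z12) z12))) z12) (c (b (d (a (c z8 z12) (c z8 z12)) (a (c z8 z12) (c z8 z12))) (d (c z8 z12) (c z8 z12))) z12))))) _ _ (by decide +kernel)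

end Vale.Agent.Lib.P154Q5
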