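import Vale.Agent.Lib.P154Q5.CkBDefs

namespace Vale.Agent.Lib.P154Q5

set_option maxRecDepth 100000
set_option exponentiation.threshold 1000

open Tr

theorem okB510 : CKB ⟨3072, 6144, 4096, 5120⟩ ⟨6144, 12288, 4096, 6144⟩ :=
  ckB_sound (d (c z0 (b z12 (d z12 (a (b z12 (d z12 (c (a (b z12 (d z12 (c z8 z12))) z12) z12))) z12)))) (c z8 (b (d (a (b (d (c z8 z12) (c z8 z12)) (d (c z8 z12) (c z8 z12))) (b (d (c z8 z12) (c z8 z12)) (d (c z8 z12) (c z8 z12)))) (a (b (d (c z8 z12) z8) (d (c z8 z12) z8)) z8)) (d (a (b (d (c z8 z12) (c z8 z12)) (d (c z8 z12) (c z8 z12))) (b (d (c z8 z12) (c z8 z12)) (d (c z8 z12) (c z8 z12)))) (a (b (d (c z8 z12) z8) (d (c z8 z12) (c z8 (a (b (d (a (c z8 z12) (c z8 z12)) z8) (d (a (c z8 z12) (c z8 z12)) z8)) (b (d (c z8 z12) z8) (d (c z8 z12) z8)))))) (b (d (c z8 z12) z8) (d (c z8 z12) z8))))))) _ _ (by decide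 +kernel)

theorem okB511 : CKB ⟨3072, 6144, 5120, 6144⟩ ⟨6144, 12288, 4096, 5120⟩ :=
  ckB_sound (c (b (d (a (c z0 (b (d (a (c z0 z4) (c z0 z4)) z0) (d (a (c z0 z4) (c z0 z4)) z0))) z0) z8) (d (a (c z0 (b (d (a (c z0 z4) (c z0 z4)) (a (c z0 (b (d z4 z8) (d (a (b z4 (d z4 (c z0 z4))) z4) z8))) z0)) (d (a (c z0 z4) (c z0 z4)) (a (c z0 (b (d (a (b (d z4 (c z0 z4)) (d z4 (c z0 z4))) (b z4 (d z4 (c z0 z4)))) z8) (d (a (b (d z4 (c z0 z4)) (d z4 (c z0 z4))) (b (d z4 (c z0 z4)) (d z4 (c z0 z4)))) z8))) (c z0 (b (d z4 z8) (d (a (b z4 (d z4 (c z0 z4))) z4) z8))))))) (c z0 (b (d (a (c z0 z4) (c z2 z6)) z0) (d (a (c z0 z4) (c z2 z6)) z0)))) z8)) (b (d z12 (a (b (d z12 (c (a (b (d z12 (c z8 z12)) (d z12 (c z8 z12))) (b z12 (d z12 (c z8 z12)))) z12)) (d z12 (c (a (b (d z12 (c z8 z12)) (d z12 (c z8 z12))) (b (d z12 (c z8 z12)) (d z12 (c z8 z12))))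 z12))) (b z12 (d z12 (c (a (b (d z12 (c z8 z12)) (d z12 (c z8 z12))) z14) z12))))) (d z12 (a (b (d z12 (c (a (b (d z12 (c z8 z12)) (d (c (a (b (d z12 (c z8 z12)) (d z12 (c z8 z12))) z12) z12) (c z8 z12))) (b (d z12 (c z8 z12)) (d z12 (c z8 z12)))) z12)) (d z12 (c (a (b (d (c (a (b (d z12 (c z8 z12)) (d z12 (c z8 z12))) (b (d z12 (c z8 z12)) (d z12 (c z8 z12)))) z12) (c z8 z12)) (d (c (a (b (d z12 (c z8 z12)) (d (c (a (b (d z12 (c z8 z12)) (d z12 (c z8 z12))) z12) z12) (c z8 z12))) (b (d z12 (c z8 z12)) (d z12 (c z8 z12)))) z12) (c (a (b z8 (d (c z8 z12) z8)) z8) z12))) (b (d z12 (c z8 z12)) (d (c (a (b (d z12 (c z8 z12)) (d z12 (c z8 z12))) z12) z12) (c z8 z12)))) z12))) (b (d z12 (c (a (b (d z12 (c z8 z12)) (d z12 (c z8 z12))) (b (d z14 (c z10 z14)) (d z14 (c z10 z14)))) z12)) (d z12 (c (a (b (d z12 (c z8 z12)) (d z12 (c z8 z12)))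 (b (d z14 (c z10 z14)) (d z14 (c z10 z14)))) z12))))))) _ _ (by decide +kernel)

theorem okB512 : CKB ⟨3072, 6144, 5120, 6144⟩ ⟨6144, 9216, 5120, 6144⟩ :=
  ckB_sound z8 _ _ (by decide +kernel)

theorem okB513 : CKB ⟨3072, 6144, 5120, 5632⟩ ⟨9216, 12288, 5120, 6144⟩ :=
  ckB_sound (d (a (b (d (c (a (b (d (c z8 z12) z8) (d (c z8 z12) z8)) z8) z12) (c z8 z12)) (d (c (a (b (d (c z8 z12) z8) (d (c z8 z12) (c z8 z12))) (b (d (c z8 z12) z8) (d (c z8 z12) z8))) z12) (c z8 z12))) (b (d (c z8 z12) (c z8 z12)) (d (c z8 z12) (c z8 z12)))) (a (b (d (c z8 z12) (c z8 (a (b (d (a (c z8 z12) (c z8 z12)) z8) (d (a (c z8 z12) (c z8 z12)) z8)) (b (d (c z8 z12) z8) (d (c z8 z12) z8))))) (d (c z8 (a (b (d z12 (a (c (b (d z12 (a (c z8 z12) z12)) (d z12 (a (c z8 z12) (c z8 z12)))) z12) z12)) (d z12 (a (c (b (d z12 (a (c z8 z12) (c z8 z12))) (d z12 (a (c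 z8 z12) (c z8 z12)))) z12) (c (b (d z12 (c z8 z12)) (d z12 (c z8 z12))) z12)))) z12)) (c z8 (a (b (d (a (c z8 z12) (c z8 z12)) (a (c z8 z12) z8)) (d (a (c z8 z12) (c z8 z12)) (a (c z8 z12) (c z8 z12)))) (b (d (c z8 z12) z8) (d (c z8 z12) z8)))))) (b (d (c z8 z12) z8) (d (c z8 z12) z8)))) _ _ (by decide +kernel)

theorem okB514 : CKB ⟨3072, 6144, 5632, 6144⟩ ⟨9216, 12288, 5120, 5632⟩ :=
  ckB_sound (a (b (d (c (a (b (d (c z8 z12) (c z8 z12)) (d (c z8 z12) (c z8 z12))) (b (d (c z8 z12) z8) (d (c z8 z12) (c z8 z12)))) z12) (c (a (b z8 (d (c z8 (a (b (d (c z8 z12) z8) (d (c z8 z12) z8)) (b (d z12 z8) (d (c z8 z12) z8)))) z8)) z8) z12)) (d (c (a (b (d (c z8 z12) (c z8 z12)) (d (c z8 z12) (c z8 (a (b (d z12 (c (a (b (d z12 (c z8 z12)) (d z12 (c z8 z12))) z12) z12)) (d z12 (c (a (b (d z12 (c z8 z12)) (d z12 (c z8 z12))) (b (d z12 (c z8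 z12)) (d z12 (c z8 z12)))) z12))) z12)))) (b (d (c z8 z12) (c z8 z12)) (d (c z8 z12) (c z8 z12)))) z12) (c (a (b (d (c z8 (a (b (d (c z8 z12) z8) (d (c z8 z12) z8)) (b (d (c z8 z12) z8) (d (c z8 z12) z8)))) z8) (d (c z8 (a (b (d (c z8 z12) (c z8 z12)) (d (c z8 z12) (c z8 z12))) (b (d (c z8 z12) z8) (d (c z8 z12) z8)))) z8)) z8) z12))) (b (d (c (a (b z8 (d (c z8 z12) z8)) z10) z12) (c z8 z12)) (d (c (a (b (d (c z8 z12) z8) (d (c z8 z12) z8)) z10) z12) (c z8 z12)))) _ _ (by decide +kernel)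

theorem okB515 : CKB ⟨3072, 4608, 5632, 5888⟩ ⟨9216, 12288, 5632, 6144⟩ :=
  ckB_sound (d (c z8 (a (b (d z12 (a (c (b (d z12 (a (c z8 z12) (c z8 z12))) (d (a (c z8 z12) z12) (a (c z8 z12) (c z8 z12)))) z12) (c (b (d z12 (c z8 z12)) (d z12 (c z8 z12))) z12))) (d z12 (a (c (b (d (a (c z8 z12) (c z8 z12)) (a (c z8 z12) (c z8 z12))) (d (a (c z8 z12) (c z8 z12)) (a (c z8 z12) (c z8 z12)))) z12) (c (b (d z12 (c z8 z12)) (d (c z8 z12) (c z8 z12))) z12)))) (b (d z12 (c (a (b (d z12 (c z8 z12)) (d z12 (c z8 z12))) z12) z12)) (d z12 (c (a (b (d z12 (c z8 z12)) (d z12 (c z8 z12))) (b (d z12 (c z8 z12)) (d z12 (c z8 z12)))) z12))))) (c z8 (a (b (d (a (c z8 z12) (c z8 z12)) (a (c z8 z12) (c z8 z12))) (d (a (c z8 z12) (c z8 z12)) (a (c z8 z12) (c z8 z12)))) (b (d (c z8 z12) z8) (d (c z8 z12) (c z8 z12)))))) _ _ (by decide +kernel)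

theorem okB516 : CKB ⟨3072, 4608, 5888, 6144⟩ ⟨9216, 12288, 5632, 6144⟩ :=
  ckB_sound (d (c z8 (a (b (d z12 (a (c (b (d (a (c z8 z12) (c z8 z12)) (a (c z8 z12) (c z8 z12))) (d (a (c z8 z12) (c z8 z12)) (a (c z8 z12) (c z8 z12)))) z12) (c (b (d (c z8 z12) (c z8 z12)) (d (c z8 z12) (c z8 z12))) z12))) (d (a (c (b (d z12 (a (c (b (d z12 (a (c z8 z12) z12)) (d z12 (a (c z8 z12) z12))) z12) z12)) (d z12 (a (c (b (d z12 (a (c z8 z12) (c z8 z12))) (d z12 (a (c z8 z12) (c z8 z12)))) z12) (c (b z12 (d z12 (a (c z8 z12) z12))) z12)))) z12) z12) (a (c (b (d (a (c z8 z12) (c z8 z12)) (a (c z8 z12) (c z8 z12))) (d (a (c z8 z12) (c z8 z12)) (a (c z8 z12) (c z8 z12)))) z12) (c (b (d (c z8 z12) (c z8 z12)) (d (c z8 z12) (c z8 z12))) z12)))) (b (d z12 (c (a (b (d z12 (c z8 z12)) (d z12 (c z8 z12))) (b (d z12 (c z8 z12)) (d z12 (c z8 z12)))) z12))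 (d z12 (c (a (b (d (c z8 z12) (c z8 z12)) (d (c z8 z12) (c z8 z12))) (b (d z12 (c z8 z12)) (d z12 (c z8 z12)))) z12))))) (c z8 (a (b (d (a (c z8 z12) (c z8 z12)) (a (c z8 (b (d z12 (a (c (b (d z12 (a (c z8 z12) z12)) (d z12 (a (c z8 z12) (c z8 z12)))) z12) z12)) (d z12 (a (c (b (d z12 (a (c z8 z12) (c z8 z12))) (d z12 (a (c z8 z12) (c z8 z12)))) z12) (c (b (d z12 (a (c z8 z12) z12)) (d z12 (a (c z8 z12) z12))) z12))))) (c z8 z12))) (d (a (c (b (d (a (c z8 (b (d z12 (a (c z8 z12) (c z8 z12))) (d z12 (a (c z8 z12) (c z8 z12))))) z8) z8) (d (a (c z8 (b (d z12 (a (c z8 z12) (c z8 z12))) (d z12 (a (c z8 z12) (c z8 z12))))) z8) z8)) z12) (c z8 z12)) (a (c z8 (b (d z12 (a (c (b (d z12 (a (c z8 z12) (c z8 z12))) (d (a (c z8 z12) z12) (a (c z8 z12) (c z8 z12)))) z12) (c (b (d z12 (a (c z8 z12) (c z8 z12))) (d z12 (a (c z8 z12) (c z8 z12))))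 z12))) (d z12 (a (c (b (d (a (c z8 z12) (c z8 z12)) (a (c z8 z12) (c z8 z12))) (d (a (c z8 z12) (c z8 z12)) (a (c z8 z12) (c z8 z12)))) z12) (c (b (d z12 (a (c z8 z12) (c z8 z12))) (d (a (c z8 z12) z12) (a (c z8 z12) (c z8 z12)))) z12))))) (c z8 (b (d z12 (a (c (b z12 (d z12 (a (c z8 z12) z12))) z12) z12)) (d z12 (a (c (b (d z12 (a (c z8 z12) (c z8 z12))) (d z12 (a (c z8 z12) (c z8 z12)))) z12) (c (b z12 (d z12 (a (c z8 z12) z12))) z12)))))))) (b (d (c z8 z12) (c z8 z12)) (d (c z8 z12) (c z8 z12)))))) _ _ (by decide +kernel)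

theorem okB517 : CKB ⟨4608, 6144, 5632, 6144⟩ ⟨9216, 12288, 5632, 6144⟩ :=
  ckB_sound (b (d (c z8 z12) (c z8 (a (b (d (c z8 z12) z8) (d (c z8 z12) z8)) (b (d (c z10 z14) z10) (d (c z10 z14) z10))))) (d (c z8 (a (b (d z12 (c (a (b z12 (d z12 (c z8 z12))) z12) z12)) (d z12 (c (a (b (d z12 (c z8 z12)) (d z12 (c z8 z12))) (b z12 (d z12 (c z8 z12)))) z12))) z14)) (c z8 (a (b (d (c z8 z12) z8) (d (c z8 z12) z8)) (b (d (c z10 z14) z10) (d (c z10 z14) z10)))))) _ _ (by decide +kernel)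

theorem okB518 : CKB ⟨0, 3072, 4096, 5120⟩ ⟨6144, 12288, 6144, 8192⟩ :=
  ckB_sound (d (a (c z8 (b z8 (d (a (b (d (c z8 (a (b (d (c z8 (a (b (d (c z8 z12) z8) (d (c z8 z12) z8)) (b (d (c z8 z12) z8) (d (c z8 z12) z8)))) z8) (d (c z8 (b (d (a (c z8 z12) (c z8 z12)) z8) (d (c z8 z12) z8))) z8)) (b z8 (d (c z8 (a (b (d (c z8 z12) z8) (d (c z8 z12) z8)) (b (d (c z8 z12) z8) (d (c z8 z12) z8)))) z8)))) z8) (d (c z8 (b (d (c z8 (a (b (d (c z8 z12) z8) (d (c z8 z12) (c z8 z12))) (b (d (c z8 z12) z8) (d (c z8 z12) z8)))) z8) (d (c z8 (b (d (a (c z8 z12) (c z8 z12)) (a (c z8 z12) (c z8 z12))) (d (c z8 z12) (c z8 z12)))) (c z8 (b z8 z8))))) z8)) (b z8 (d (c z8 (a (b (d (c z8 (a (b (d (c z8 z12) z8) (d (c z8 z12) z8)) (b (d (c z8 z12) z8) (d (c z8 z12) z8)))) z8) (d (c z8 (a (b (d (c z8 z12) z8) (d (c z8 z12) (c z8 z12))) (b (d (c z8 z12)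 z8) (d (c z8 z12) z8)))) z8)) (b z8 (d (c z8 (a (b (d (c z8 z12) z8) (d (c z8 z12) z8)) (b (d (c z8 z12) z8) (d (c z8 z12) z8)))) z8)))) z8))) z8))) z8) (a (b (d z8 (a (b (d z0 z0) (d z0 (a (b z0 (d z0 z0)) z0))) (b (d z0 z0) (d z0 z0)))) (d z8 (a (b (d (c (a (b z0 (d z0 z0)) z0) z8) (a (b (d z0 z0) (d z0 z0)) (b z0 (d z0 z0)))) (d (c (b (d z0 z0) (d z0 z0)) z8) (b (d z0 z0) (d z0 z0)))) (b (d z0 z0) (d (c (a (b z0 (d z0 z0)) (b z0 (d z0 z0))) z8) (a (b (d z0 z0) (d z0 z0)) (b (d z0 z0) (d z0 z0)))))))) (b (d z8 (a (b (d z0 z0) (d z0 z0)) (b (d z0 z0) (d z0 z0)))) (d z8 (a (b (d z0 z0) (d z0 (a (b z0 (d z0 z0)) z0))) (b (d z0 z0) (d z0 z0))))))) _ _ (by decide +kernel)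

theorem okB519 : CKB ⟨0, 3072, 5120, 6144⟩ ⟨6144, 9216, 6144, 7168⟩ :=
  ckB_sound (b (d z8 (a (c (b z0 (d z0 (c (a (b z0 (d z0 z0)) z0) z0))) z8) z8)) (d (c (b z8 z8) z8) (c (b (d z0 (a (c (b (d z0 z0) (d z0 (b z0 z0))) z0) z0)) (d z0 (c (b (d z0 (a (b z0 (d z0 z0)) z0)) (d z0 (b (d z0 z0) (d z0 z0)))) (b z0 z0)))) (b z8 z8)))) _ _ (by decide +kernel)

theorem okB520 : CKB ⟨0, 1920, 5120, 5376⟩ ⟨9216, 12288, 6144, 6656⟩ :=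
  ckB_sound (d (a (c z8 (b (d (a (c z8 (b (d (a (c z8 z12) (c z8 z12)) (a (c z8 z12) (c z8 z12))) (d (c z8 z12) (c z8 (a (b z12 z12) z12))))) (c z8 (b (d (a (c z8 z12) (c z8 z12)) (a (c z8 z12) z8)) (d (a (c z8 z12) (c z8 z12)) (a (c z8 z12) (c z8 z12)))))) (a (c z8 (b (d (a (c z8 (b z8 z8)) z8) z8) (d (c z8 (a (b z8 (d (c z8 z12) z8)) z8)) z8))) z8)) (d (c z8 (a (b (d (c z8 z12) (c z8 (a (b z12 z12) z12))) (d (c z8 z12) (c z8 (b (d z12 (c (b z12 z12) z12)) (d z12 (c (b z12 z0) z12)))))) (b (d (c z8 z12) (c z8 z12)) (d (c z8 z12) (c z8 (a (b z12 (d z12 (c (a (b z12 (d z12 z8)) z12) z12))) z12)))))) (c z8 (a (b (d (c z8 (a (b (d (c z8 z12) z8) (d (c z8 z12) z8)) (b z8 (d (c z8 z12) z8)))) z8) (d (c z8 (b (d (c z8 z12) z8) (d (c z8 z12) z8))) z8)) (b z8 (d (c z8 (a (b (d (c z8 z12) z8) (d (c z8 z12) z8)) z8)) z8))))))) (c z8 (b (d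 (a (c z8 (b (d (a (c z8 z12) (c z8 z12)) z8) (d (a (c z8 z12) (c z8 z12)) z8))) (c z8 (b (d (a (c z8 z12) (c z8 z12)) z8) (d (a (c z8 z12) (c z8 z12)) z8)))) z8) (d (a (c z8 (b (d (a (c z8 z12) (c z8 z12)) (a (c z8 z12) z8)) (d (a (c z8 z12) (c z8 z12)) (a (c z8 z12) (c z8 z12))))) (c z8 (b (d (a (c z8 z12) (c z8 z12)) z8) (d (a (c z8 z12) (c z8 z12)) z8)))) z8)))) (a (c z8 (b z8 z8)) z8)) _ _ (by decide +kernel)

theorem okB521 : CKB ⟨0, 1920, 5376, 5632⟩ ⟨9216, 10752, 6144, 6400⟩ :=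
  ckB_sound z8 _ _ (by decide +kernel)

theorem okB522 : CKB ⟨0, 1560, 5376, 5632⟩ ⟨10752, 12288, 6144, 6400⟩ :=
  ckB_sound (b (d (c z8 (a (b (d (c z8 z12) (c z8 (a (b (d z12 (c (a (b (d z12 z8) (d z12 z8)) (b z12 (d z12 z8))) z12)) (d z12 (c (b (d z12 z8) z0) z12))) (b z12 (d z12 (c (a (b z12 (d z12 z8)) z12) z12)))))) (d (c (b z8 z0) z12) (c z8 (b (d z12 (c (b (d z12 z8) (d z12 z8)) z12)) z0)))) (b (d (c z8 z12) (c z8 z12)) (d (c z8 z12) (c z8 (a (b (d z12 (c (a (b z12 (d z12 z8)) z12) z12)) (d z12 (c (b (d z12 z8) (d z12 z8)) z12))) (b z12 (d z12 (c (a (b z12 (d z12 z8)) z12) z12))))))))) (c z8 (a (b (d (c z8 (a (b (d (c z8 z12) (c z8 z12)) (d (c z8 z12) (c z8 z12))) (b (d (c z8 z12) z8) (d (c z8 z12) z8)))) z8) (d (c z8 (b (d (c z8 z12) (c z8 z12)) z0)) (c z8 (b z8 z0)))) (b (d (c z8 (a (b z8 (d (c z8 z12) z8)) z8)) z8) (d (c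 z8 (a (b (d (c z8 z12) z8) (d (c z8 z12) (c z8 (b z12 z12)))) (b (d (c z8 z12) z8) (d (c z8 z12) z8)))) z8))))) (d (c z8 (b (d (c (b z8 z8) z12) (c z8 (b (d z12 (c (a (b (d z12 z8) (d z12 z8)) (b (d z12 z8) (d z12 z8))) z12)) (d z12 (c (b (d z12 z8) (d z12 z8)) z12))))) z0)) (c z8 (b (d (c z8 (b (d (c z8 z12) (c z8 (a (b z12 z12) z12))) (d (c z8 z12) (c z8 (b z12 z12))))) (c z8 (b z8 z8))) z0)))) _ _ (by decide +kernel)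

theorem okB523 : CKB ⟨1560, 1920, 5376, 5632⟩ ⟨10752, 12288, 6144, 6400⟩ :=
  ckB_sound (b (d (c z8 (a (b (d (c z8 z12) (c z8 z12)) (d (c z8 z12) (c z8 z12))) (b (d (c z8 z12) (c z8 z12)) (d (c z8 z12) (c z8 z12))))) (c z8 (a (b z8 (d (c z8 (a (b z8 (d (c z8 z12) z8)) z8)) z8)) z8))) (d (c z8 (a (b (d (c z8 z12) (c z8 (a (b (d z12 (c (a (b z12 (d z12 z8)) z12) z12)) (d z12 (c (a (b (d z12 z8) (d z12 z8)) (b (d z12 z8) (d z12 z8))) z12))) (b z12 (d z12 (c (a (b z12 (d z12 z8)) z12) z12)))))) (d (c (b z8 (d (c z8 (b (d z12 (a (c z8 z12) z12)) (d z12 (c z8 z12)))) z8)) z12) (c z8 (b (d z12 (a (c (b (d z12 z8) (d (c z8 z12) z8)) z12) (c (b (d z12 z8) (d z12 z8)) z12))) (d z12 (c (b (d (a (c z8 z12) z12) z8) (d (c z8 z12) z8)) z12)))))) (b (d (c z8 z12) (c z8 z12)) (d (c z8 z12) (c z8 (b (d z12 (a (c (b z12 (d z12 z8)) z12) z12)) (d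 z12 (a (c (b (d z12 z8) (d z12 z8)) z12) (c (b z12 (d z12 z8)) z12))))))))) (c z8 (a (b (d (c z8 (a (b (d (c z8 z12) z8) (d (c z8 z12) (c z8 z12))) (b (d (c z8 z12) z8) (d (c z8 z12) z8)))) z8) (d (c z8 (b (d (a (c z8 z12) (c z8 z12)) (a (c z8 (b z12 (d z12 (c z8 z12)))) (c z8 z12))) (d (c z8 z12) (c z8 (b (d z12 (a (c z8 z12) z12)) (d z12 (c z8 z12))))))) (c z8 (b z8 z8)))) (b (d (c z8 (b z8 (d (a (c z8 z12) (c z8 z12)) z8))) z8) (d (c z8 (b (d (a (c z8 z12) (c z8 z12)) z8) (d (a (c z8 z12) (c z8 z12)) (a (c z8 z12) z8)))) z8)))))) _ _ (by decide +kernel)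

theorem okB524 : CKB ⟨0, 1920, 5376, 5632⟩ ⟨9216, 12288, 6400, 6656⟩ :=
  ckB_sound (c z8 (a (b z8 (d (c z8 (b z8 z0)) z8)) z8)) _ _ (by decide +kernel)

end Vale.Agent.Lib.P154Q5
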