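import Vale.Agent.Lib.P154Q5.CkBDefs

namespace Vale.Agent.Lib.P154Q5

set_option maxRecDepth 100000
set_option exponentiation.threshold 1000

open Tr

theorem okB525 : CKB ⟨1920, 3072, 5120, 5632⟩ ⟨9216, 12288, 6144, 6656⟩ :=
  ckB_sound (b (d (c z8 (a (b z8 (d (c z8 (a (b (d (c z8 z12) z8) (d (c z8 z12) z8)) (b (d (c z8 z12) z8) (d (c z8 z12) z8)))) z8)) z8)) z8) (d (c z8 (a (b (d (c z8 (a (b (d (c z8 z12) z8) (d (c z8 z12) (c z8 z12))) (b (d (c z8 z12) z8) (d (c z8 z12) z8)))) z8) (d (c z8 (a (b (d (c z8 z12) (c z8 z12)) (d (c z8 z12) (c z8 z12))) (b (d (c z8 z12) z8) (d (c z8 z12) (c z8 z12))))) (c z8 (a (b z8 (d (c z8 (a (b z8 (d (a (c z8 z12) (c z8 z12)) z8)) z8)) z8)) z8)))) (b z8 (d (c z8 (a (b (d (c z8 z12) z8) (d (c z8 z12) z8)) (b (d (c z8 z12) z8) (d (c z8 z12) z8)))) z8)))) z8)) _ _ (by decide +kernel)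

theorem okB526 : CKB ⟨0, 3072, 5120, 5632⟩ ⟨9216, 12288, 6656, 7168⟩ :=
  ckB_sound (a (b z8 z8) z8) _ _ (by decide +kernel)

theorem okB527 : CKB ⟨0, 2400, 5632, 5888⟩ ⟨9216, 10752, 6144, 6400⟩ :=
  ckB_sound z8 _ _ (by decide +kernel)

theorem okB528 : CKB ⟨0, 2400, 5632, 5760⟩ ⟨10752, 12288, 6144, 6272⟩ :=
  ckB_sound (a (c z8 (b (d (a (c (b (d (a (c z8 (b (d z12 (a (c z8 z12) z12)) (d z12 (c z8 z12)))) z8) z8) (d (c z8 (a (b (d z12 (c z8 z12)) (d z12 (c z8 z12))) (b z12 (d z12 (c z8 z12))))) z8)) z12) (c z8 z12)) (a (c z8 (b (d z12 (a (c (b (d (a (c z8 z12) z12) z8) (d (c z8 z12) z8)) z12) (c (b (d z12 z8) (d z12 z8)) z12))) (d z12 (c (a (b (d (c z8 z12) z8) (d (c z8 z12) z8)) (b (d z12 z8) (d (c z8 z12) z8))) z12)))) (c z8 (b (d z12 (a (c (b (d z12 z8) (d z12 z8)) z12) z12)) (d z12 (a (c (b (d z12 z8) (d z12 z8)) z12)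 (c (b (d z12 z8) (d z12 z8)) z12))))))) (d (c (a (b (d (c z8 (a (b (d z12 (c z8 z12)) (d z12 (c z8 z12))) (b z12 (d z12 (c z8 z12))))) z8) (d (c z8 (b (d z12 (c z8 z12)) z0)) z8)) (b z8 (d (c z8 (a (b (d z12 (c z8 z12)) (d z12 (c z8 z12))) (b z12 (d z12 (c z8 z12))))) z8))) z12) (c z8 (a (b (d z12 (c (a (b (d (c z8 z12) z8) (d (c z8 z12) z8)) (b (d z12 z8) (d (c z8 z12) z8))) z12)) (d z12 (c (b (d (c z8 z12) z8) z0) z12))) (b (d z12 (c (a (b (d z12 z8) (d z12 z8)) (b (d z12 z8) (d z12 z8))) z12)) (d z12 (c (a (b (d (c z8 z12) z8) (d (c z8 z12) z8)) (b (d z12 z8) (d (c z8 z12) z8))) z12)))))))) (c z8 (b (d (a (c z8 z12) (c z8 z12)) (a (c z8 z12) (c z8 z12))) (d (a (c z8 z12) (c z8 z12)) (a (c z8 (b (d z12 (a (c (b (d z12 z8) (d z12 z8)) z12) z12)) (d z12 (a (c (b (d z12 z8) (d z12 z8)) z12) (c (b (d z12 z8) (d z12 z8)) z12)))))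 (c z8 z12)))))) _ _ (by decide +kernel)

theorem okB529 : CKB ⟨0, 2400, 5632, 5760⟩ ⟨10752, 12288, 6272, 6400⟩ :=
  ckB_sound (a (c z8 (b (d (a (c z8 (b (d (a (c z8 z12) (c z8 z12)) (a (c z8 (b (d z12 (a (c z8 z12) z12)) (d z12 (c z8 z12)))) (c z8 z12))) (d (c z8 z12) (c z8 (a (b (d z12 (c z8 z12)) (d z12 (c z8 z12))) (b z12 (d z12 (c z8 z12)))))))) (c z8 (b (d (a (c z8 z12) (c z8 z12)) z8) (d (a (c z8 z12) (c z8 z12)) (a (c z8 z12) z8))))) (a (c z8 (b (d (a (c z8 (b z8 z8)) z8) z8) (d (c z8 (a (b z8 z8) z8)) z8))) z8)) (d (c z8 (a (b (d (c z8 z12) (c z8 (a (b (d z12 (c z8 z12)) (d z12 (c z8 z12))) (b z12 (d z12 (c z8 z12)))))) (d (c z8 z12) (c z8 (b (d z12 (c z8 z12)) z0)))) (b (d (c z8 z12) (c z8 z12)) (d (c z8 z12) (c z8 (a (b (d z12 (c z8 z12)) (d z12 (c z8 z12))) (b z12 (d z12 (c z8 z12))))))))) (c z8 (a (b (d (c z8 (a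 (b z8 z8) z8)) z8) (d (c z8 (b z8 z0)) z8)) (b z8 (d (c z8 (a (b z8 z8) z8)) z8))))))) (c z8 (b (d (a (c z8 (b z8 (d (a (c z8 z12) (c z8 z12)) z8))) z8) z8) (d (a (c z8 (b (d (a (c z8 z12) (c z8 z12)) z8) (d (a (c z8 z12) (c z8 z12)) (a (c z8 z12) z8)))) (c z8 (b z8 (d (a (c z8 z12) (c z8 z12)) z8)))) z8)))) _ _ (by decide +kernel)

theorem okB530 : CKB ⟨0, 2400, 5760, 5888⟩ ⟨10752, 12288, 6144, 6400⟩ :=
  ckB_sound (d (c z8 (b (d (a (c (b (d (a (c z8 (b (d z12 (a (c z8 z12) (c z8 z12))) (d z12 (c z8 z12)))) z8) z8) (d (c z8 (a (b (d z12 (c z8 z12)) (d z12 (c z8 z12))) (b (d z12 (c z8 z12)) (d z12 (c z8 z12))))) z8)) z12) (c z8 z12)) (a (c z8 (b (d z12 (a (c (b (d (a (c z8 z12) z12) z8) (d (c z8 z12) z8)) z12) (c (b (d z12 z8) (d z12 z8)) z12))) (d z12 (c (a (b (d (c z8 z12) z8) (d (c z8 z12) z8)) (b (d z12 z8) (d (c z8 z12)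 z8))) z12)))) (c z8 (b (d z12 (a (c (b (d z12 z8) (d z12 z8)) z12) z12)) (d z12 (a (c (b (d z12 z8) (d z12 z8)) z12) (c (b (d z12 z8) (d z12 z8)) z12))))))) (d (c (a (b (d (c z8 (a (b (d z12 (c z8 z12)) (d z12 (c z8 z12))) (b (d z12 (c z8 z12)) (d z12 (c z8 z12))))) z8) (d (c z8 (b (d z12 (c z8 z12)) z0)) z8)) (b z8 (d (c z8 (a (b (d z12 (c z8 z12)) (d z12 (c z8 z12))) (b (d z12 (c z8 z12)) (d z12 (c z8 z12))))) z8))) z12) (c z8 (a (b (d z12 (c (a (b (d (c z8 z12) z8) (d (c z8 z12) z8)) (b (d (c z8 z12) z8) (d (c z8 z12) z8))) z12)) (d (c (b z12 z0) z12) (c (b (d (c z8 z12) z8) z0) z12))) (b (d z12 (c (a (b (d z12 z8) (d z12 z8)) (b (d z12 z8) (d z12 z8))) z12)) (d z12 (c (a (b (d (c z8 z12) z8) (d (c z8 z12) z8)) (b (d z12 z8) (d (c z8 z12) z8))) z12)))))))) (c z8 (b (d (a (c z8 (b (d (a (c z8 z12) (c z8 z12)) (a (c z8 (b (d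 z12 (a (c z8 z12) z12)) (d z12 (c z8 z12)))) (c z8 z12))) (d (c z8 z12) (c z8 (a (b (d z12 (c z8 z12)) (d z12 (c z8 z12))) (b z12 (d z12 (c z8 z12)))))))) (c z8 (b (d (a (c z8 z12) (c z8 z12)) z8) (d (a (c z8 z12) (c z8 z12)) (a (c z8 z12) z8))))) (a (c z8 (b (d (a (c z8 (b z8 z8)) z8) z8) (d (c z8 (a (b z8 z8) z8)) z8))) z8)) (d (c z8 (a (b (d (c z8 z12) (c z8 (a (b (d z12 (c z8 z12)) (d z12 (c z8 z12))) (b (d z12 (c z8 z12)) (d z12 (c z8 z12)))))) (d (c z8 z12) (c z8 (b (d z12 (c z8 z12)) z0)))) (b (d (c z8 z12) (c z8 z12)) (d (c z8 z12) (c z8 (a (b (d z12 (c z8 z12)) (d z12 (c z8 z12))) (b z12 (d z12 (c z8 z12))))))))) (c z8 (a (b (d (c z8 (a (b z8 z8) z8)) z8) (d (c z8 (b z8 z0)) z8)) (b z8 (d (c z8 (a (b z8 z8) z8)) z8)))))))) _ _ (by decide +kernel)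

theorem okB531 : CKB ⟨2400, 3072, 5632, 5888⟩ ⟨9216, 12288, 6144, 6400⟩ :=
  ckB_sound (c z8 (b (d (a (c z8 (b (d (a (c z8 z12) (c z8 z12)) (a (c z8 z12) z8)) (d (a (c z8 z12) (c z8 z12)) (a (c z8 z12) (c z8 z12))))) (c z8 (b (d (a (c z8 z12) (c z8 z12)) z8) (d (a (c z8 z12) (c z8 z12)) z8)))) z8) (d (a (c z8 (b (d (a (c z8 z12) (c z8 z12)) (a (c z8 z12) (c z8 z12))) (d (a (c z8 z12) (c z8 z12)) (a (c z8 (b (d z12 (a (c (b (d z12 z8) (d z12 z8)) z12) z12)) (d z12 (a (c (b (d z12 z8) (d z12 z8)) z12) (c (b (d z12 z8) (d z12 z8)) z12))))) (c z8 z12))))) (c z8 (b (d (a (c z8 z12) (c z8 z12)) (a (c z8 z12) z8)) (d (a (c z8 z12) (c z8 z12)) (a (c z8 z12) (c z8 z12)))))) (a (c z8 (b (d (a (c z8 (b z8 (d (a (c z8 z12) (c z8 z12)) z8))) z8) z8) (d (a (c z8 (b (d (a (c z8 z12) (c z8 z12)) z8) (d (a (c z8 z12) (c z8 z12)) (a (c z8 z12)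 z8)))) (c z8 (b z8 (d (a (c z8 z12) (c z8 z12)) z8)))) z8))) z8)))) _ _ (by decide +kernel)

theorem okB532 : CKB ⟨0, 3072, 5632, 5888⟩ ⟨9216, 12288, 6400, 6656⟩ :=
  ckB_sound (a (c z8 (b (d (a (c z8 (b z8 z8)) z8) z8) (d (c z8 (b z8 z8)) z8))) z8) _ _ (by decide +kernel)

theorem okB533 : CKB ⟨0, 3072, 5888, 6144⟩ ⟨9216, 10752, 6144, 6400⟩ :=
  ckB_sound z8 _ _ (by decide +kernel)

theorem okB534 : CKB ⟨0, 3072, 5888, 6016⟩ ⟨10752, 12288, 6144, 6272⟩ :=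
  ckB_sound (a (c z8 (b (d (a (c (b (d (a (c z8 (b (d z12 (a (c z8 z12) (c z8 z12))) (d z12 (c z8 z12)))) z8) z8) (d (c z8 (b (d z12 (a (c z8 z12) (c z8 z12))) (d z12 (c z8 z12)))) z8)) z12) (c z8 z12)) (a (c z8 (b (d (a (c (b z12 z12) z12) z12) (a (c (b (d (a (c z8 z12) (c z8 z12)) z8) (d (c z8 z12) z8)) z12) (c (b (d z12 z8) (d (a (c z8 z12) z12) z8)) z12))) (d (c (b z12 z12) z12) (c (b (d (a (c z8 z12) (c z8 z12)) z8) (d (c z8 z12) z8)) z12)))) (c z8 (b (d z12 (a (c (b (d z12 z8) (d z12 z8)) z12) (c (b z12 (d z12 z8)) z12))) (d z12 (a (c (b (d z12 z8) (d (a (c z8 z12) z12) z8)) z12) (c (b (d z12 z8) (d z12 z8)) z12))))))) (d (c (b (d (a (c z8 (b (d z12 (a (c z8 z12) (c z8 z12))) (d z12 (c z8 z12)))) z8) z8) (d (c z8 (b (d z12 (a (c z8 z12) (c z8 z12))) (d z12 (c z8 z12)))) z8)) z12) (c z8 (b (d (a (c (b z12 z12) z12) z12)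 (a (c (b (d (a (c z8 z12) (c z8 z12)) z8) (d (c z8 z12) z8)) z12) (c (b (d z12 z8) (d (a (c z8 z12) z12) z8)) z12))) (d (c (b z12 z12) z12) (c (b (d (a (c z8 z12) z12) z8) (d (c z8 z12) z8)) z12))))))) (c z8 (b (d (a (c z8 z12) (c z8 z12)) (a (c z8 (b z12 (d z12 (a (c (b z12 (d z12 z8)) z12) z12)))) (c z8 z12))) (d (a (c z8 z12) (c z8 z12)) (a (c z8 (b (d z12 (a (c (b (d z12 z8) (d z12 z8)) z12) (c (b z12 (d z12 z8)) z12))) (d z12 (a (c (b (d z12 z8) (d z12 z8)) z12) (c (b (d z12 z8) (d z12 z8)) z12))))) (c z8 z12)))))) _ _ (by decide +kernel)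

theorem okB535 : CKB ⟨0, 3072, 5888, 6016⟩ ⟨10752, 12288, 6272, 6400⟩ :=
  ckB_sound (a (c z8 (b (d (a (c z8 (b (d (a (c z8 z12) (c z8 z12)) (a (c z8 (b (d z12 (a (c z8 z12) (c z8 z12))) (d z12 (c z8 z12)))) (c z8 (b z12 (d z12 (a (c z8 z12) z12)))))) (d (c z8 z12) (c z8 (b (d z12 (a (c z8 z12) (c z8 z12))) (d z12 (c z8 z12))))))) (c z8 (b (d (a (c z8 z12) (c z8 z12)) z8) (d (a (c z8 z12) (c z8 z12)) (a (c z8 (b z12 (d z12 (a (c z8 z12) z12)))) z8))))) (a (c z8 (b (d (a (c z8 (b z8 z8)) z8) z8) (d (c z8 (b z8 z8)) z8))) z8)) (d (c z8 (b (d (a (c z8 z12) (c z8 z12)) (a (c z8 (b (d z12 (a (c z8 z12) (c z8 z12))) (d z12 (c z8 z12)))) (c z8 z12))) (d (c z8 z12) (c z8 (b (d z12 (a (c z8 z12) z12)) (d z12 (c z8 z12))))))) (c z8 (b (d (a (c z8 (b z8 z8)) z8) z8) (d (c z8 (b z8 z8)) z8)))))) (c z8 (b (d (a (c z8 (b z8 (d (a (c z8 z12)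 (c z8 z12)) z8))) z8) z8) (d (a (c z8 (b (d (a (c z8 z12) (c z8 z12)) z8) (d (a (c z8 z12) (c z8 z12)) (a (c z8 z12) z8)))) (c z8 (b z8 (d (a (c z8 z12) (c z8 z12)) z8)))) z8)))) _ _ (by decide +kernel)

theorem okB536 : CKB ⟨0, 3072, 6016, 6144⟩ ⟨10752, 12288, 6144, 6400⟩ :=
  ckB_sound (d (c z8 (b (d (a (c (b (d (a (c z8 (b (d z12 (a (c z8 z12) (c z8 z12))) (d z12 (c z8 z12)))) z8) z8) (d (c z8 (b (d z12 (a (c z8 z12) (c z8 z12))) (d z12 (c z8 z12)))) z8)) z12) (c z8 z12)) (a (c z8 (b (d z12 (a (c (b (d (a (c z8 z12) z12) z8) (d (c z8 z12) z8)) z12) (c (b (d z12 z8) (d z12 z8)) z12))) (d z12 (c (b (d (a (c z8 z12) z12) z8) (d (c z8 z12) z8)) z12)))) (c z8 (b (d z12 (a (c (b (d z12 z8) (d z12 z8)) z12) z12)) (d z12 (a (c (b (d z12 z8) (d z12 z8)) z12) (c (b (d z12 z8) (d z12 z8)) z12))))))) (d (c (b (d (a (c z8 (b (d z12 (a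 (c z8 z12) z12)) (d z12 (c z8 z12)))) z8) z8) (d (c z8 (b (d z12 (a (c z8 z12) z12)) (d z12 (c z8 z12)))) z8)) z12) (c z8 (b (d z12 (a (c (b (d (a (c z8 z12) z12) z8) (d (c z8 z12) z8)) z12) (c (b (d z12 z8) (d z12 z8)) z12))) (d z12 (c (b (d (a (c z8 z12) z12) z8) (d (c z8 z12) z8)) z12))))))) (c z8 (b (d (a (c z8 (b (d (a (c z8 z12) (c z8 z12)) (a (c z8 (b (d z12 (a (c z8 z12) z12)) (d z12 (c z8 z12)))) (c z8 z12))) (d (c z8 z12) (c z8 (b (d z12 (a (c z8 z12) z12)) (d z12 (c z8 z12))))))) (c z8 (b (d (a (c z8 z12) (c z8 z12)) z8) (d (a (c z8 z12) (c z8 z12)) (a (c z8 z12) z8))))) (a (c z8 (b (d (a (c z8 (b z8 z8)) z8) z8) (d (c z8 (b z8 z8)) z8))) z8)) (d (c z8 (b (d (a (c z8 z12) (c z8 z12)) (a (c z8 (b (d z12 (a (c z8 z12) z12)) (d z12 (c z8 z12)))) z8)) (d (c z8 z12) (c z8 (b (d z12 (a (c z8 z12) z12)) (d z12 (c z8 z12)))))))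 (c z8 (b (d (a (c z8 (b z8 z8)) z8) z8) (d (c z8 (b z8 z8)) z8))))))) _ _ (by decide +kernel)

theorem okB537 : CKB ⟨0, 3072, 5888, 6144⟩ ⟨9216, 12288, 6400, 6656⟩ :=
  ckB_sound (c z8 (b (d (a (c z8 (b z8 z8)) z8) z8) (d (c z8 (b z8 z8)) z8))) _ _ (by decide +kernel)

theorem okB538 : CKB ⟨0, 3072, 5632, 6144⟩ ⟨9216, 12288, 6656, 7168⟩ :=
  ckB_sound (b z8 (d (c z8 (b z8 z8)) z8)) _ _ (by decide +kernel)

theorem okB539 : CKB ⟨0, 3072, 5120, 5632⟩ ⟨6144, 12288, 7168, 8192⟩ :=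
  ckB_sound (d (c (a (b (d (c (a (b (d z0 z0) (d z0 z0)) (b z0 (d z0 z0))) z8) (a (b (d z0 z0) (d z0 z0)) (b (d z0 z0) (d z0 z0)))) (d (c (a (b (d z0 z0) (d z0 z0)) (b (d z0 z0) (d z0 z0))) z8) (a (b (d z0 z0) (d z0 (c (b z0 z0) z0))) (b (d z0 z0) (d z0 z0))))) (b (d z0 (a (b z0 (d z0 z0)) z0)) (d (c (a (b (d z0 z0) (d z0 z0)) (b z0 (d z0 z0))) z8) (a (b (d z0 z0) (d z0 z0)) (b (d z0 z0) (d z0 z0)))))) z8) (a (b (d (a (c (b (d z0 z0) (d z0 z0)) z8) (c (b (d z0 z0) (d z0 z0)) z8)) (a (b (d z0 z0) (d z0 z0)) (b (d z0 z0) (d z0 z0)))) (d (c (a (b (d z0 z0) (d (c (b z0 z0) z0) (b z0 z0))) (b (d z0 z0) (d z0 z0))) z8) (a (b (d z0 z0) (d (c (b z0 z0) z8) z0)) (b (d z0 z0) (d z0 z0))))) (b (d (c (a (b (d z0 z0) (d z0 z0)) (b z0 (d z0 z0))) z8) (a (b (d z0 z0) (d z0 z0)) (b z0 (d z0 z0)))) (d (c (a (b (d z0 z0) (d z0 z0)) (b (d z0 z0)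 (d z0 z0))) z8) (a (b (d z0 z0) (d z0 z0)) (b (d z0 z0) (d z0 z0))))))) _ _ (by decide +kernel)

end Vale.Agent.Lib.P154Q5
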