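import Vale.Agent.Lib.P154Q5.CkBDefs

namespace Vale.Agent.Lib.P154Q5

set_option maxRecDepth 100000
set_option exponentiation.threshold 1000

open Tr

theorem okB540 : CKB ⟨0, 3072, 5632, 6144⟩ ⟨6144, 12288, 7168, 8192⟩ :=
  ckB_sound (d (c (b (d (c (a (b (d (c (a (b z0 z0) z0) z0) (a (c (b z0 z0) z0) z0)) (d (c (b z0 z0) z0) (c (b z0 (d z0 z0)) z0))) (b (d z0 z0) (d z0 z0))) z8) (a (b (d (c (a (b z0 z0) z0) z0) (a (c (b z0 z0) z0) z0)) (d (c (b (d z0 z0) (d z0 z0)) z0) (c (b (d z0 z0) (d z0 z0)) z0))) (b (d z0 z0) (d z0 z0)))) (d (c (b (d (c (a (b (d z0 z0) (d z0 z0)) z0) z0) (a (c (b (d z0 z0) (d z0 z0)) z0) z0)) (d (c (b (d z0 z0) (d z0 z0)) z0) (c (b (d z0 z0) (d z0 z0)) (b z0 z0)))) (b z8 z8)) (b (d (c (a (b (d z0 z0) (d z0 z0)) z0) z0) (a (c (b (d z0 z0) (d z0 z0)) z0) (c (b z0 (d z0 z0)) z0))) (d (c (b (d z0 z0) (d z0 z0))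 z0) (c (b (d z0 z0) (d z0 z0)) z0))))) (b z8 z8)) (b (d (a (c (b (d (a (c (b z0 z0) z0) z0) (a (b z0 z0) z0)) (d (c (b (d z0 z0) (d z0 z0)) z0) (b (d z0 z0) (d z0 z0)))) z8) (c (b (d z0 z0) (d z0 z0)) z8)) (a (b (d (a (c (b z0 z0) z8) z0) (a (b z0 z0) z0)) (d (c (b (d z0 z0) (d z0 z0)) z8) (b z0 (d z0 z0)))) (b (d z0 z0) (d z0 z0)))) (d (c (b (d (a (c (b (d z0 z0) (d z0 z0)) z0) (c (b z0 (d z0 z0)) z0)) (a (b (d z0 z0) (d z0 z0)) z0)) (d (c (b (d z0 z0) (d z0 z0)) z0) (b (d z0 z0) (d z0 z0)))) z8) (b (d (a (c (b (d z0 z0) (d z0 z0)) z8) z0) (a (b (d z0 z0) (d z0 z0)) z0)) (d (c (b (d z0 z0) (d z0 z0)) z8) (b (d z0 z0) (d z0 z0))))))) _ _ (by decide +kernel)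

theorem okB541 : CKB ⟨3072, 6144, 4096, 5120⟩ ⟨6144, 12288, 6144, 8192⟩ :=
  ckB_sound (d z8 (b (d z8 (a (b (d z0 z0) (d z0 z0)) (b (d z0 z0) (d z0 z0)))) (d z8 (a (b (d z0 z0) (d z0 z0)) (b (d z0 z0) (d z0 z0)))))) _ _ (by decide +kernel)

theorem okB542 : CKB ⟨3072, 6144, 5120, 6144⟩ ⟨6144, 12288, 6144, 8192⟩ :=
  ckB_sound (d (c z8 (b z8 (d (a (b (d (c z8 (a (b z8 (d (a (c z8 (b (d (a (c z8 z12) (c z8 z12)) z8) (d (a (c z8 z12) (c z8 z12)) z8))) z8) z8)) z8)) z8) (d (c z8 (a (b (d (a (c z8 (b (d (a (c z8 z12) (c z8 z12)) (a (c z8 z12) z8)) (d (a (c z8 z12) (c z8 z12)) (a (c z8 z12) z8)))) (c z8 (b (d (a (c z8 z12) (c z8 z12)) z8) (d (a (c z8 z12) (c z8 z12)) z8)))) z8) (d (a (c z8 (b (d (a (c z8 z12) (c z8 z12)) (a (c z8 z12) (c z8 z12))) (d (a (c z8 z12) (c z8 z12)) (a (c z8 (b (d z12 (a (c (b (d z12 z8) (d z12 z8)) z12)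 z12)) (d z12 (a (c (b (d z12 z8) (d z12 z8)) z12) (c (b z12 (d z12 z8)) z12))))) (c z8 z12))))) (c z8 (b (d (a (c z8 z12) (c z8 z12)) z8) (d (a (c z8 z12) (c z8 z12)) (a (c z8 z12) z8))))) (a (c z8 (b z8 (d (a (c z8 (b (d (a (c z8 z12) (c z8 z12)) z8) (d (a (c z8 z12) (c z8 z12)) z8))) z8) z8))) z8))) (b z8 (d (c z8 (a (b (d (c z8 z12) z8) (d (c z8 z12) z8)) (b (d (c z8 z12) z8) (d (c z8 z12) z8)))) z8)))) z8)) z8) z8))) (b (d z8 (a (b (d z0 z0) (d (a (c (b (d z0 z0) (d z0 z0)) z8) z0) (a (b (d z0 z0) (d z0 z0)) (b z0 (d z0 z0))))) (b (d z0 z0) (d z0 z0)))) (d (c (a (b (d (c (a (b (d z0 z0) (d z0 z0)) (b z0 (d z0 z0))) z8) (a (b (d z0 z0) (d z0 z0)) (b (d z0 z0) (d z0 z0)))) (d (c (a (b (d z0 z0) (d (c (a (b z0 (d z0 z0)) z0) z0) (a (c (b z0 (d z0 z0)) z0) z0))) (b (d z0 z0) (d z0 z0))) z8) (a (b (d z0 z0) (d (c (a (b z0 (d z0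 z0)) z0) z0) (a (c (b (d z0 z0) (d z0 z0)) z0) z0))) (b (d z0 z0) (d z0 z0))))) (b (d z0 (a (b z0 (d z0 z0)) z2)) (d (c (a (b (d z0 z0) (d z0 z0)) (b z2 (d z2 z2))) z8) (a (b (d z0 z0) (d z0 z0)) (b (d z2 z2) (d z2 z2)))))) z8) (a (b (d (a (c (b (d z0 z0) (d z0 z0)) z8) (c (b (d z0 z0) (d z0 z0)) z8)) (a (b (d z0 z0) (d z0 z0)) (b (d z0 z0) (d z0 z0)))) (d (a (c (b (d z0 z0) (d (a (c (b z0 (d z0 z0)) z0) z0) (a (b z0 (d z0 z0)) z0))) z8) (c (b (d z0 z0) (d z0 z0)) z8)) (a (b (d z0 z0) (d (a (c (b z0 (d z0 z0)) z8) z0) z0)) (b (d z0 z0) (d z0 z0))))) (b (d (c (a (b z0 (d z0 z0)) z2) z8) (a (b (d z0 z0) (d z0 z0)) z2)) (d (c (a (b (d z0 z0) (d z0 z0)) (b (d z2 z2) (d z2 z2))) z8) (a (b (d z0 z0) (d z0 z0)) (b (d z2 z2) (d z2 z2))))))))) _ _ (by decide +kernel)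

theorem okB543 : CKB ⟨0, 6144, 6144, 7168⟩ ⟨6144, 9216, 4096, 5120⟩ :=
  ckB_sound (b (d (a (c z0 (b (d (a (c z0 (b z4 z4)) (c z0 z4)) (a (c z0 (b (d (a (b (d (c (a (b z4 z4) z4) z4) (c z0 z4)) (d (c (b z4 z4) z4) (c z0 z4))) (b (d z4 (c z0 z4)) (d z4 (c z0 z4)))) (a (b (d (c z0 z12) z8) (d (c z0 z12) z8)) z8)) (d (b (d (c (a (b z4 z4) z4) z4) (c z0 z4)) (d (c (b z4 z4) z4) (c z0 z4))) (b (d (c z0 z12) z8) (d (c z0 z12) z8))))) (c z0 (b (d (a (b (d z4 (c z0 z4)) (d z4 (c z0 z4))) (b z4 (d z4 (c z0 z4)))) z8) (d (a (b (d z4 (c z0 z4)) (d z4 (c z0 z4))) (b (d z4 (c z0 z4)) (d z4 (c z0 z4)))) z8))))) (d (c (b z0 z0) (b z4 z4)) (c z0 (b (d (a (b (d (c (a (b z4 z4) z4) z4) (c z0 z4)) (d (c (b z4 z4) z4) (c z0 z4))) (b (d z4 (c z0 z4)) (d z4 (c z0 z4)))) (a (b (d (c z0 z12) z8) (d (c z0 z12) z8)) z8)) (d (b (d (c (a (b z4 z4) z4) z4)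 (c z0 z4)) (d (c (b z4 z0) z4) (c z0 z4))) (b (d (c z0 z12) z8) z8))))))) (c z0 (b (d (a (c z0 z4) (c z0 z4)) z0) (d (a (c z0 z4) (c z0 z4)) (a (c z0 (b (d (a (b (d z4 (c z0 z4)) (d z4 (c z0 z4))) z4) z8) (d (a (b (d z4 (c z0 z4)) (d z4 (c z0 z4))) (b (d z4 (c z0 z4)) (d z4 (c z0 z4)))) z8))) z0))))) (a (c z0 (b (d (a (c z8 (b z8 z8)) z8) z8) (d (c z8 (b z8 z8)) z8))) z8)) (d (c z0 (b (d (a (c (b z0 z0) (b z4 z4)) (c z0 z4)) (a (c z0 (b (d (a (b (d (c (a (b z4 z4) z4) z4) (c z0 z4)) (d z4 (c z0 z4))) (b (d z4 (c z0 z4)) (d z4 (c z0 z4)))) (a (b z8 z8) z8)) (d (b (d z4 (c z0 z4)) z0) z8))) (c z0 (b (d (a (b z4 (d z4 (c z0 z4))) z4) z8) (d (a (b (d z4 (c z0 z4)) (d z4 (c z0 z4))) (b z4 (d z4 (c z0 z4)))) z8))))) (d (c z0 (b z4 z0)) (c z0 (b (d (b (d z4 (c z0 z4)) (d z4 (c z0 z4))) z8) z0))))) (c z0 (b (d (a (c z8 (b z8 z8)) z8)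 z8) (d (c z8 (b z8 z0)) z8))))) _ _ (by decide +kernel)

theorem okB544 : CKB ⟨0, 6144, 6144, 6656⟩ ⟨9216, 12288, 4096, 5120⟩ :=
  ckB_sound (d z12 (a (b (d (c (a (b z12 z12) z12) z12) (c (a (b (d (c (a (b (d (c (a (b (d z12 (c z8 z12)) (d z12 (c z8 z12))) (b (d z12 (c z8 z12)) (d z12 (c z8 z12)))) z12) (c z8 z12)) (d (c (b (d z12 (c z8 z12)) (d z12 (c z8 z12))) z12) (c z8 z12))) (b (d z12 (c z8 z12)) (d (c (a (b (d z12 (c z8 z12)) (d z12 (c z8 z12))) z12) z12) (c z8 z12)))) z12) (c (a (b (d (c z8 z12) (c z8 (a (b z12 z12) z12))) (d (c z8 z12) (c z8 (b z12 z12)))) (b z8 (d (c z8 z12) z8))) z12)) (d (c (b (d (c (a (b (d z12 (c z8 z12)) (d z12 (c z8 z12))) (b z12 (d z12 (c z8 z12)))) z12) (c z8 z12)) (d (c (b (d z12 (c z8 z12)) (d z12 (c z8 z12))) z12) (c z8 z12))) z12) (c (b (d (c z8 z12) (c z8 (a (b z12 z12) z12))) (d (c z8 z12)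 z8)) z12))) (b (d (c (a (b (d z12 (c z8 z12)) (d z12 (c z8 z12))) (b (d z12 (c z8 z12)) (d z12 (c z8 z12)))) z12) (c z8 z12)) (d (c (a (b (d z12 (c z8 z12)) (d (c (a (b z12 (d z12 (c z8 z12))) z12) z12) (c z8 z12))) (b (d z12 (c z8 z12)) (d z12 (c z8 z12)))) z12) (c (a (b z8 (d (c z8 z12) z8)) z8) z12)))) z12)) (d (c (b z12 z12) z12) (c (b (d (c (a (b (d (c (a (b (d z12 (c z8 z12)) (d z12 (c z8 z12))) (b z12 (d z12 (c z8 z12)))) z12) (c z8 z12)) (d (c (b (d z12 (c z8 z12)) (d z12 (c z8 z12))) z12) (c z8 z12))) (b (d z12 (c z8 z12)) (d (c (a (b z12 (d z12 (c z8 z12))) z12) z12) (c z8 z12)))) z12) (c (a (b (d (c z8 z12) z8) (d (c z8 z12) z8)) z8) z12)) (d (c (b (d (c (a (b (d z12 (c z8 z12)) (d z12 (c z8 z12))) (b z12 (d z12 (c z8 z12)))) z12) (c z8 z12)) (d (c (b (d z12 (c z8 z12)) z0) z12) (c z8 z12))) z12) (c (b (d (c z8 z12)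 z8) z8) z12))) z12))) (b (d z12 (c (a (b (d z12 (c z8 z12)) (d (c (a (b (d z12 (c z8 z12)) (d z12 (c z8 z12))) z12) z12) (c z8 z12))) (b (d z12 (c z8 z12)) (d z12 (c z8 z12)))) z12)) (d z12 (c (a (b (d (c (a (b (d z12 (c z8 z12)) (d z12 (c z8 z12))) (b z12 (d z12 (c z8 z12)))) z12) (c z8 z12)) (d (c (a (b (d z12 (c z8 z12)) (d (c (a (b z12 (d z12 (c z8 z12))) z12) z12) (c z8 z12))) (b (d z12 (c z8 z12)) (d z12 (c z8 z12)))) z12) (c z8 z12))) (b (d z12 (c z8 z12)) (d (c (a (b z12 (d z12 (c z8 z12))) z12) z12) (c z8 z12)))) z12))))) _ _ (by decide +kernel)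

theorem okB545 : CKB ⟨0, 6144, 6656, 7168⟩ ⟨9216, 12288, 4096, 5120⟩ :=
  ckB_sound (d z12 (b (d (c (a (b z12 z12) z12) z12) (c (a (b (d (c (a (b (d (c (a (b z12 z12) z12) z12) (c z8 z12)) (d (c (b z12 z0) z12) (c z8 z12))) (b (d z12 (c z8 z12)) (d z12 (c z8 z12)))) z12) (c (a (b z8 z8) z8) z12)) (d (c (b (d (c (b z12 z12) z12) (c z8 z12)) z0) z12) (c (b z8 z0) z12))) (b (d (c (a (b (d z12 (c z8 z12)) (d z12 (c z8 z12))) z12) z12) (c z8 z12)) (d (c (a (b (d z12 (c z8 z12)) (d z12 (c z8 z12))) (b z12 (d z12 (c z8 z12)))) z12) (c z8 z12)))) z12)) (d (c (b z12 z0) z12) (c (b (d (c (b (d z12 (c z8 z12)) (d z12 (c z8 z12))) z12) (c z8 z12)) z0) z12)))) _ _ (by decide +kernel)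

theorem okB546 : CKB ⟨0, 6144, 6144, 7168⟩ ⟨6144, 9216, 5120, 6144⟩ :=
  ckB_sound (b (d (a (c z8 (b z8 z8)) z8) (a (c (b z8 z8) z8) z8)) (d (c (b z8 z8) (b z8 z8)) (c (b z8 z8) (b z8 z8)))) _ _ (by decide +kernel)

theorem okB547 : CKB ⟨0, 4608, 6144, 6400⟩ ⟨9216, 12288, 5120, 5632⟩ :=
  ckB_sound (d (c (a (b (d (c (a (b z8 z8) z8) z12) (c z8 (a (b (d z12 (c (a (b (d (c z8 z12) (c z8 z12)) (d (c z8 z12) (c z8 z12))) (b (d z12 (c z8 z12)) (d z12 (c z8 z12)))) z12)) (d z12 (c (b (d (c z8 z12) (c z8 z12)) (d (c z8 z12) (c z8 z12))) z12))) (b (d z12 (c (a (b (d z12 (c z8 z12)) (d z12 (c z8 z12))) z12) z12)) (d z12 (c (a (b (d z12 (c z8 z12)) (d z12 (c z8 z12))) (b (d z12 (c z8 z12)) (d z12 (c z8 z12)))) z12)))))) (d (c (b z8 z8) z12) (c z8 (b (d z12 (c (a (b (d (c z8 z12) (c z8 z12)) (d (c z8 z12) (c z8 z12))) (b (d z12 (c z8 z12))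 (d z12 (c z8 z12)))) z12)) (d z12 (c (b (d (c z8 z12) (c z8 z12)) (d z12 (c z8 z12))) z12)))))) (b (d (c z8 z12) (c z8 z12)) (d (c z8 z12) (c z8 (a (b (d z12 (c (a (b z12 (d z12 (c z8 z12))) z12) z12)) (d z12 (c (a (b (d z12 (c z8 z12)) (d z12 (c z8 z12))) (b z12 (d z12 (c z8 z12)))) z12))) z12))))) z12) (c (a (b (d (c z8 (a (b (d (c z8 z12) (c z8 z12)) (d (c z8 z12) (c z8 z12))) (b (d (c z8 z12) (c z8 z12)) (d (c z8 z12) (c z8 z12))))) (c z8 (a (b (d (c z8 (a (b (d z12 (a (c z8 z12) (c z8 z12))) (d z12 (c z8 z12))) (b (d z12 (c z8 z12)) (d z12 (c z8 z12))))) z8) (d (c z8 (b (d z12 (c z8 z12)) (d z12 (c z8 z12)))) z8)) z8))) (d (c z8 (b (d (c z8 z12) (c z8 z12)) (d (c z8 z12) (c z8 z12)))) (c z8 (b (d (c z8 (a (b (d z12 (c z8 z12)) (d z12 (c z8 z12))) (b (d z12 (c z8 z12)) (d z12 (c z8 z12))))) z8) (d (c z8 (b (d z12 (c z8 z12))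 (d z12 (c z8 z12)))) z8))))) (b (d (c z8 (a (b (d (c z8 z12) z8) (d (c z8 z12) z8)) (b (d (c z8 z12) z8) (d (c z8 z12) z8)))) z8) (d (c z8 (a (b (d (c z8 z12) z8) (d (c z8 z12) (c z8 z12))) (b (d (c z8 z12) z8) (d (c z8 z12) z8)))) z8))) (a (b z12 z12) z12))) _ _ (by decide +kernel)

theorem okB548 : CKB ⟨0, 4608, 6400, 6656⟩ ⟨9216, 12288, 5120, 5632⟩ :=
  ckB_sound (d (c (b (d (c (a (b z8 z8) z8) z12) (c z8 (a (b (d z12 (c (a (b (d z12 (c z8 z12)) (d z12 (c z8 z12))) (b (d z12 (c z8 z12)) (d z12 (c z8 z12)))) z12)) (d z12 (c (b (d z12 (c z8 z12)) (d z12 (c z8 z12))) z12))) (b z12 (d z12 (c (a (b (d z12 (c z8 z12)) (d z12 (c z8 z12))) z12) z12)))))) (d (c z8 z12) (c z8 (b (d z12 (c (a (b (d z12 (c z8 z12)) (d z12 (c z8 z12))) (b z12 (d z12 (c z8 z12)))) z12)) (d z12 (c (b (d z12 (c z8 z12)) z0) z12)))))) z12) (c (b (d (c z8 (a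 (b (d (c z8 z12) (c z8 z12)) (d (c z8 z12) (c z8 z12))) (b (d (c z8 z12) z8) (d (c z8 z12) (c z8 z12))))) (c z8 (a (b (d (c z8 (a (b (d z12 (c z8 z12)) (d z12 (c z8 z12))) (b z12 (d z12 (c z8 z12))))) z8) (d (c z8 (b (d z12 (c z8 z12)) (d z12 (c z8 z12)))) z8)) z8))) (d (c z8 (b (d (c z8 z12) (c z8 z12)) (d (c z8 z12) (c z8 z12)))) (c z8 (b z8 z8)))) (b z12 z12))) _ _ (by decide +kernel)

theorem okB549 : CKB ⟨4608, 6144, 6144, 6656⟩ ⟨9216, 12288, 5120, 5632⟩ :=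
  ckB_sound (b (d (c (a (b (d (c z8 z12) (c z8 z12)) (d (c z8 z12) (c z8 z12))) (b (d (c z8 z12) z8) (d (c z8 z12) z8))) z12) (c z8 z12)) (d (c (a (b (d (c z8 z12) (c z8 z12)) (d (c z8 z12) (c z8 (a (b z12 (d z12 (c (a (b (d z12 (c z8 z12)) (d z12 (c z8 z12))) z12) z12))) z12)))) (b (d (c z8 z12) z8) (d (c z8 z12) z8))) z12) (c (a (b z8 (d (c z8 (a (b (d (c z8 z12) z8) (d (c z8 z12) (c z8 z12))) (b (d (c z8 z12) z8) (d (c z8 z12) z8)))) z8)) z8) z12))) _ _ (by decide +kernel)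

theorem okB550 : CKB ⟨0, 4608, 6144, 6400⟩ ⟨9216, 12288, 5632, 5888⟩ :=
  ckB_sound (c (a (b (d (c z8 (a (b z8 z8) z8)) z8) (d (c z8 (b z8 z8)) z8)) z8) (a (b (d (a (c (b (d z12 (a (c (b (d (a (c (b z12 z12) z12) z12) (a (c z8 z12) (c z8 z12))) (d (c (b z12 z12) z12) (c z8 z12))) z12) (c (b (d z12 (a (c z8 z12) (c z8 z12))) (d z12 (a (c z8 z12) (c z8 z12)))) z12))) (d z12 (c (b (d (c (a (b z12 z12) z12) z12) (c z8 z12)) (d z12 (c z8 z12))) z12))) z12) (c (b (d z12 (c (a (b z12 (d z12 (c z8 z12))) z12) z12)) (d z12 (c (a (b (d z12 (c z8 z12)) (d z12 (c z8 z12))) z12) z12))) z12)) (a (c (b (d (a (c (b z8 z8) z12) (c z8 z12)) (a (c z8 z12) (c z8 z12))) (d (c (b z8 z8) z12) (c z8 z12))) z12) (c (b (d (c z8 z12) (c z8 z12)) (d (c z8 z12) (c z8 z12))) z12))) (d (c (b (d z12 (c (a (b (d z12 (c z8 z12)) (d z12 (c z8 z12))) (b (d z12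 (c z8 z12)) (d z12 (c z8 z12)))) z12)) (d z12 (c (b (d z12 (c z8 z12)) (d z12 (c z8 z12))) z12))) z12) (c (b (d (c (a (b z8 z8) z8) z12) (c z8 z12)) (d (c (b z8 z8) z12) (c z8 z12))) z12))) (b (d z12 (c (a (b (d (c z8 z12) (c z8 z12)) (d (c z8 z12) (c z8 z12))) (b (d (c z8 z12) (c z8 z12)) (d (c z8 z12) (c z8 z12)))) z12)) (d (c (a (b z12 (d z12 (c (a (b (d z12 (c z8 z12)) (d z12 (c z8 z12))) z12) z12))) z12) z12) (c (a (b (d (c z8 z12) (c z8 z12)) (d (c z8 z12) (c z8 z12))) (b (d (c z8 z12) (c z8 z12)) (d (c z8 z12) (c z8 z12)))) z12))))) _ _ (by decide +kernel)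

theorem okB551 : CKB ⟨0, 4608, 6144, 6400⟩ ⟨9216, 10752, 5888, 6144⟩ :=
  ckB_sound z8 _ _ (by decide +kernel)

theorem okB552 : CKB ⟨0, 3840, 6144, 6400⟩ ⟨10752, 12288, 5888, 6144⟩ :=
  ckB_sound (b (d (a (c (b (d (a (c z8 (b (d (a (c (b (d z12 z8) (d z12 z8)) z12) z12) (a (c z8 z12) (c z8 z12))) (d (c (b (d z12 z8) (d z12 z8)) z12) (c z8 z12)))) (c z8 (b (d z12 (a (c z8 z12) (c z8 z12))) (d z12 (a (c z8 z12) (c z8 z12)))))) (a (c z8 (b (d (a (c z8 z12) z8) z8) (d (c z8 z12) z8))) z8)) (d (c z8 (b (d (a (c (b (d z12 z8) (d z12 z8)) z12) z12) (a (c z8 z12) (c z8 z12))) (d (c (b (d z12 z8) (d z12 z8)) z12) (c z8 z12)))) (c z8 (b z8 z8)))) z12) (c (b z8 (d (c z8 (a (b (d z12 (a (c z8 z12) (c z8 z12))) (d z12 (a (c z8 z12) (c z8 z12)))) (b (d z12 (c z8 z12)) (d z12 (c z8 z12))))) z8)) z12)) (a (c (b z8 z8) (b (d (a (c (b (d z12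 (a (c (b z12 z12) z12) z12)) (d z12 (c (b z12 z12) z12))) z12) z12) (a (c (b (d (a (c z8 z12) (c z8 z12)) (a (c z8 z12) (c z8 z12))) (d (c z8 z12) (c z8 z12))) z12) (c (b (d (a (c z8 z12) (c z8 z12)) (a (c z8 z12) (c z8 z12))) (d (a (c z8 z12) (c z8 z12)) (a (c z8 z12) (c z8 z12)))) z12))) (d (c (b z12 z12) z12) (c (b (d (a (c z8 z12) (c z8 z12)) (a (c z8 z12) (c z8 z12))) (d (c z8 z12) (c z8 z12))) z12)))) (c z8 (b (d z12 (a (c (b (d z12 (a (c z8 z12) (c z8 z12))) (d z12 (a (c z8 z12) (c z8 z12)))) z12) (c (b (d z12 (a (c z8 z12) z12)) (d z12 (a (c z8 z12) (c z8 z12)))) z12))) (d z12 (a (c (b (d (a (c z8 z12) z12) (a (c z8 z12) (c z8 z12))) (d (a (c z8 z12) (c z8 z12)) (a (c z8 z12) (c z8 z12)))) z12) (c (b (d z12 (a (c z8 z12) (c z8 z12))) (d z12 (a (c z8 z12) (c z8 z12)))) z12))))))) (d (c (b (d (c z8 (a (b (d (c (a (b (d z12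 z8) (d z12 z8)) z12) z12) (c z8 z12)) (d (c (b z12 z12) z12) (c z8 z12))) (b (d z12 (c z8 z12)) (d z12 (c z8 z12))))) (c z8 (a (b z8 z8) z8))) (d (c z8 (b (d (c (a (b z12 z12) z12) z12) (c z8 z12)) (d (c (b z12 z12) z12) (c z8 z12)))) (c z8 (b z8 z8)))) z12) (c (b z8 z8) (b (d (a (c (b z12 z12) z12) z12) (a (c (b (d (a (c z8 z12) (c z8 z12)) (a (c z8 z12) (c z8 z12))) (d (c z8 z12) (c z8 z12))) z12) (c (b (d (c z8 z12) (c z8 z12)) (d (c z8 z12) (c z8 z12))) z12))) (d (c (b z12 z12) z12) (c (b (d (c z8 z12) (c z8 z12)) (d (c z8 z12) (c z8 z12))) z12)))))) _ _ (by decide +kernel)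

theorem okB553 : CKB ⟨3840, 4608, 6144, 6400⟩ ⟨10752, 12288, 5888, 6144⟩ :=
  ckB_sound (b (d (c z8 z12) (c z8 (a (b z12 (d z12 (c (a (b (d z12 (c z8 z12)) (d z12 (c z8 z12))) z12) z12))) z12))) (d (c (a (b z8 (d (c z8 (a (b (d z12 (c z8 z12)) (d z12 (c z8 z12))) (b z12 (d z12 (c z8 z12))))) z8)) z8) z12) (c z8 (a (b (d z12 (c (a (b (d z12 (c z8 z12)) (d z12 (c z8 z12))) (b (d z12 (c z8 z12)) (d z12 (c z8 z12)))) z12)) (d z12 (c (a (b (d z12 (c z8 z12)) (d (c z8 z12) (c z8 z12))) (b (d z12 (c z8 z12)) (d z12 (c z8 z12)))) z12))) (b z12 (d z12 (c (a (b z12 (d z12 (c z8 z12))) z12) z12))))))) _ _ (by decide +kernel)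

theorem okB554 : CKB ⟨0, 4608, 6400, 6656⟩ ⟨9216, 12288, 5632, 6144⟩ :=
  ckB_sound (d (c (b z8 z8) (b (d (c (a (b (d z12 (c (a (b (d z12 (c z8 z12)) (d z12 (c z8 z12))) (b z12 (d z12 (c z8 z12)))) z12)) (d z12 (c (b (d z12 (c z8 z12)) (d z12 (c z8 z12))) z12))) (b z12 (d z12 (c (a (b z12 (d z12 (c z8 z12))) z12) z12)))) z12) (c (a (b (d (c z8 z12) (c z8 z12)) (d (c z8 z12) (c z8 z12))) (b (d (c z8 z12) (c z8 z12)) (d (c z8 z12) (c z8 z12)))) z12)) (d (c (b (d z12 (c (a (b (d z12 (c z8 z12)) (d z12 (c z8 z12))) (b z12 (d z12 (c z8 z12)))) z12)) (d z12 (c (b (d z12 (c z8 z12)) z0) z12))) z12) (c (b (d (c z8 z12) (c z8 z12)) (d (c z8 z12) (c z8 z12))) z12)))) (c z8 (b (d (c (a (b (d (c z8 (a (b (d (c (a (b z12 z12) z12) z12) (c z8 z12)) (d z12 (c z8 z12))) (b (d z12 (c z8 z12)) (d z12 (c z8 z12))))) (c z8 (a (b z8 z8) z8))) (d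 (c z8 (b (d z12 (c z8 z12)) (d z12 (c z8 z12)))) z8)) z8) z12) (c (a (b z8 z8) z8) (a (b (d (c (a (b z12 z12) z12) z12) (c (a (b (d (c z8 z12) (c z8 z12)) (d (c z8 z12) (c z8 z12))) (b (d z12 (c z8 z12)) (d (c z8 z12) (c z8 z12)))) z12)) (d z12 (c (b (d (c z8 z12) (c z8 z12)) (d (c z8 z12) (c z8 z12))) z12))) (b (d z12 (c (a (b (d z12 (c z8 z12)) (d z12 (c z8 z12))) z12) z12)) (d z12 (c (a (b (d z12 (c z8 z12)) (d (c z8 z12) (c z8 z12))) (b (d z12 (c z8 z12)) (d z12 (c z8 z12)))) z12)))))) (d (c (b (d (c z8 (a (b (d z12 (c z8 z12)) (d z12 (c z8 z12))) (b z12 (d z12 (c z8 z12))))) z8) (d (c z8 (b (d z12 (c z8 z12)) z0)) z8)) z12) (c (b z8 z8) (b (d z12 (c (a (b (d (c z8 z12) (c z8 z12)) (d (c z8 z12) (c z8 z12))) (b (d z12 (c z8 z12)) (d z12 (c z8 z12)))) z12)) (d z12 (c (b (d z12 (c z8 z12)) z0) z12)))))))) _ _ (by decide +kernel)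

end Vale.Agent.Lib.P154Q5
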