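import Vale.Agent.Lib.P154Q5.CkBDefs

namespace Vale.Agent.Lib.P154Q5

set_option maxRecDepth 100000
set_option exponentiation.threshold 1000

open Tr

theorem okB555 : CKB ⟨4608, 6144, 6144, 6656⟩ ⟨9216, 12288, 5632, 6144⟩ :=
  ckB_sound (b (d (c z8 (a (b (d z12 (c (a (b (d z12 (c z8 z12)) (d z12 (c z8 z12))) (b (d z12 (c z8 z12)) (d z12 (c z8 z12)))) z12)) (d z12 (c (a (b (d z12 (c z8 z12)) (d (c z8 z12) (c z8 z12))) (b (d z12 (c z8 z12)) (d z12 (c z8 z12)))) z12))) (b z12 (d z12 (c (a (b (d z12 (c z8 z12)) (d z12 (c z8 z12))) z12) z12))))) (c z8 (a (b (d (c z8 z12) (c z8 z12)) (d (c z8 z12) (c z8 z12))) (b (d (c z8 z12) z8) (d (c z8 z12) z8))))) (d (c z8 (a (b (d z12 (c (a (b (d (c z8 z12) (c z8 z12)) (d (c z8 z12) (c z8 z12))) (b (d z12 (c z8 z12)) (d (c z8 z12) (c z8 z12)))) z12)) (d (c (a (b z12 (d z12 (c (a (b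 z12 z12) z12) z12))) z12) z12) (c (a (b (d (c z8 z12) (c z8 z12)) (d (c z8 z12) (c z8 z12))) (b (d (c z8 z12) (c z8 z12)) (d (c z8 z12) (c z8 z12)))) z12))) (b (d z12 (c (a (b (d z12 (c z8 z12)) (d z12 (c z8 z12))) (b z12 (d z12 (c z8 z12)))) z12)) (d z12 (c (a (b (d z12 (c z8 z12)) (d z12 (c z8 z12))) (b (d z12 (c z8 z12)) (d z12 (c z8 z12)))) z12))))) (c z8 (a (b (d (c z8 z12) (c z8 z12)) (d (c z8 z12) (c z8 (a (b (d z12 (c (a (b z12 (d z12 (c z8 z12))) z12) z12)) (d z12 (c (a (b (d z12 (c z8 z12)) (d z12 (c z8 z12))) z12) z12))) z12)))) (b (d (c z8 z12) z8) (d (c z8 z12) z8)))))) _ _ (by decide +kernel)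

theorem okB556 : CKB ⟨0, 6144, 6656, 7168⟩ ⟨9216, 12288, 5120, 6144⟩ :=
  ckB_sound (d (b (d (c (a (b (d (c z8 z12) (c z8 (a (b (d z12 (c (a (b (d z12 (c z8 z12)) (d z12 (c z8 z12))) z12) z12)) (d z12 (c (b z12 z0) z12))) z12))) (d (c z8 z12) (c z8 (b (d z12 (c (b z12 z12) z12)) z0)))) (b (d (c z8 z12) (c z8 z12)) (d (c z8 z12) (c z8 (a (b z12 (d z12 (c (b z12 z12) z12))) z12))))) z12) (c (a (b (d (c z8 (a (b (d (c z8 z12) (c z8 z12)) (d (c z8 z12) z8)) (b (d (c z8 z12) z8) (d (c z8 z12) z8)))) (c z8 (a (b z8 z8) z8))) (d (c z8 (b (d (c z8 z12) z8) z0)) z8)) (b z8 (d (c z8 (a (b (d (c z8 z12) z8) (d (c z8 z12) z8)) (b (d z12 z8) (d (c z8 z12) z8)))) z8))) z12)) (d (c (b (d (c z8 z12) (c z8 (b z12 z12))) z0) z12) (c (b (d (c z8 (b (d (c z8 z12) z8) (d (c z8 z12) z8))) z8) z0) z12))) (b (d (c (a (b z8 z8) z8) (a (b (d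 (c (a (b (d z12 (c (a (b z12 z12) z12) z12)) (d z12 (c (b z12 z0) z12))) z12) z12) (c (a (b (d (c z8 z12) (c z8 z12)) (d (c z8 z12) (c z8 z12))) (b (d (c z8 z12) (c z8 z12)) (d (c z8 z12) (c z8 z12)))) z12)) (d (c (b z12 z0) z12) (c (b (d (c z8 z12) (c z8 z12)) z0) z12))) (b (d z12 (c (a (b (d z12 (c z8 z12)) (d (c z8 z12) (c z8 z12))) (b (d z12 (c z8 z12)) (d z12 (c z8 z12)))) z12)) (d (c (a (b z12 z12) z12) z12) (c (a (b (d (c z8 z12) (c z8 z12)) (d (c z8 z12) (c z8 z12))) (b (d z12 (c z8 z12)) (d z12 (c z8 z12)))) z12))))) (c z8 (a (b (d (c (a (b z8 z8) z8) z12) (c z8 (a (b (d z12 (c (a (b (d z12 (c z8 z12)) (d z12 (c z8 z12))) (b z12 (d z12 (c z8 z12)))) z12)) (d z12 (c (b (d z12 (c z8 z12)) z0) z12))) (b z12 (d z12 (c (a (b z12 (d z12 (c z8 z12))) z12) z12)))))) (d (c (b z8 z0) z12) (c z8 (b (d z12 (c (b z12 z12)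 z12)) z0)))) (b (d (c z8 z12) (c z8 z12)) (d (c z8 z12) (c z8 (a (b z12 (d z12 (c (b z12 z12) z12))) z12))))))) (d (c (b z8 z0) (b (d (c (b z12 z12) z12) (c (b (d (c z8 z12) (c z8 z12)) (d (c z8 z12) (c z8 z12))) z12)) z0)) (c z8 (b (d (c z8 z12) (c z8 (b z12 z12))) z0))))) _ _ (by decide +kernel)

theorem okB557 : CKB ⟨0, 6144, 7168, 8192⟩ ⟨6144, 12288, 4096, 6144⟩ :=
  ckB_sound z0 _ _ (by decide +kernel)

theorem okB558 : CKB ⟨0, 6144, 6144, 6656⟩ ⟨6144, 9216, 6144, 7168⟩ :=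
  ckB_sound (d (a (c (b z8 (d z8 (c (b z8 z8) z8))) (b z8 z8)) z8) (a (c (b (d (a (c (b z0 z0) z8) z0) (a (c (b (d (a (c (b z0 z0) z0) z0) (a (b (d z0 z0) (d z0 z0)) (b z0 (d z0 z0)))) (d (c (b z0 z0) z0) (b (d z0 (a (b z0 z0) z0)) (d (c (b z0 z0) z0) (b z0 z0))))) (b z0 z0)) (c (b (d z0 z0) (d z0 (a (b (d z0 z0) (d z0 z0)) (b z0 (d z0 z0))))) z0))) (d (c (b z0 z0) (b z8 z8)) (c (b (d (a (c (b z0 (d z0 (c (b z0 z0) z0))) z0) z0) (a (b (d (c (a (b z0 z0) z0) z0) (a (b z0 z0) z0)) (d (c (b z0 (d z0 z0)) z0) (b (d z0 z0) (d z0 z0)))) (b (d z0 z0) (d z0 (a (b z0 (d z0 z0)) z0))))) (d (c (b (d z0 (c (a (b z0 z0) z0) z0)) (d z0 (c (b z0 z0) z0))) (b z0 z0)) (b (d (c (a (b (d z0 z0) (d z0 z0)) (b z0 (d z0 z0))) z0) (a (b (d z0 z0) (d z0 z0)) (b z0 (d z0 z0)))) (d (c (b (d z0 z0) z0) z0) (b (d z0 z0) z0))))) (b (d z0 (a (c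 (b z0 z0) z0) z0)) (d z0 (c (b z0 z0) (b z0 z0))))))) (b (d z8 (a (c (b z8 z8) z8) z8)) (d (c (b z8 z8) z8) (c (b z8 z8) (b z8 z8))))) (c (b (d z0 (a (c (b z0 (d z0 z0)) z0) z0)) (d z0 (a (c (b (d z0 (a (b (d z0 z0) (d z0 z0)) (b z0 (d z0 z0)))) (d (a (c (b z0 (d z0 (a (c (b z0 z0) z0) z0))) z0) z0) (a (b (d z0 z0) (d (c (a (b (d z0 z0) (d z0 z0)) z0) z0) (a (b (d z0 z0) (d z0 z0)) z0))) (b (d z0 z0) (d z0 z0))))) z0) (c (b (d z0 z0) (d z0 (a (b (d z0 z0) (d z0 z0)) z0))) z0)))) z8))) _ _ (by decide +kernel)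

theorem okB559 : CKB ⟨0, 6144, 6656, 7168⟩ ⟨6144, 9216, 6144, 6656⟩ :=
  ckB_sound (c (b (d z8 (a (c (b z8 z8) (b z8 z8)) z8)) (d (c (b z8 z0) z8) (c (b z8 z0) (b z8 z0)))) (b z8 (d z8 (c (b z8 z0) z8)))) _ _ (by decide +kernel)

theorem okB560 : CKB ⟨0, 6144, 6656, 6912⟩ ⟨6144, 7680, 6656, 7168⟩ :=
  ckB_sound (d (a (c (b (d z0 (a (c (b z0 z0) z0) z0)) (d z0 (c (b z0 z0) (b z0 z0)))) (b z8 z8)) z0) (a (c (b (d (a (c (b (d z0 (a (c (b (d z0 z0) (d z0 z0)) z0) z0)) (d z0 (c (b (d z0 z0) z0) z0))) (b z0 z0)) (c (b z0 (d z0 (c (a (b z0 (d z0 z0)) z0) z0))) z0)) (a (b (d (c (a (b (d z0 z0) (d z0 z0)) (b z0 (d z0 z0))) z0) (a (b (d z0 z0) (d z0 z0)) (b z0 (d z0 z0)))) (d (c (b (d z0 z0) z0) z0) (b (d z0 z0) z0))) (b (d z0 z0) (d (c (a (b (d z0 z0) (d z0 z0)) (b z0 (d z0 z0))) z0) (a (b (d z0 z0) (d (c (b z0 z0) z0) (b z0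 z0))) (b z0 (d z0 z0))))))) (d (c (b (d z0 (c (b (d z0 z0) (d z0 (b z0 z0))) z0)) z0) (b z0 z0)) (b (d (c (b (d z0 (a (b z0 z0) z0)) (d (c (b z0 z0) z0) (b z0 z0))) z0) (b (d (c (a (b z0 z0) z0) z0) (a (b z0 z0) z0)) (d (c (b z0 z0) z0) (b z0 z0)))) z0))) (b (d (a (c (b z0 z0) z0) z0) (a (c (b z0 z0) (b z0 z0)) z0)) (d (c (b z0 z0) (b z0 z0)) (c (b (d z0 (c (b z0 z0) z0)) z0) (b z0 z0))))) (c (b (d z0 (a (b (d z0 z0) (d z0 z0)) (b (d z0 z0) (d z0 z0)))) (d (c (a (b (d z0 (c (a (b z0 (d z0 z0)) z0) z0)) (d z0 (c (b (d z0 (a (b z0 z0) z0)) (d z0 (b z0 z0))) (b z0 z0)))) z0) (a (b z0 z0) z0)) (a (b (d (c (a (b (d z0 z0) (d z0 z0)) (b z0 (d z0 z0))) z0) (a (b (d z0 z0) (d z0 z0)) (b z0 (d z0 z0)))) (d (c (b (d (a (c (b z0 z0) z0) z0) (a (b z0 z0) z0)) (d (c (b z0 z0) z0) (b z0 z0))) (b z0 z0)) (b (d (a (c (b z0 z0) z0)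 z0) (a (b z0 z0) z0)) (d (c (b z0 z0) z0) (b z0 z0))))) (b (d z0 z0) (d (c (a (b (d z0 z0) (d z0 z0)) (b z0 (d z0 z0))) z0) (a (b (d z0 z0) (d z0 z0)) (b z0 (d z0 z0)))))))) (b z0 (d z0 (a (c (b z0 (d z0 (c (b z0 z0) z0))) z0) z0)))))) _ _ (by decide +kernel)

theorem okB561 : CKB ⟨0, 6144, 6912, 7168⟩ ⟨6144, 7680, 6656, 7168⟩ :=
  ckB_sound (d (c (b (d (c (b z0 z0) z0) (c (b z0 z0) (b z0 z0))) z0) (b z8 z0)) (c (b (d (c (b (d (c (a (b z0 z0) z0) z0) (c (a (b (d z0 (a (b z0 z0) z0)) (d z0 (b z0 z0))) (b z0 (d z0 (a (b z0 z0) z0)))) (a (b z0 z0) z0))) (d (c (b z0 z0) z0) (c (b (d z0 (b z0 z0)) z0) (b z0 z0)))) (b z0 (d z0 (c (b z0 z0) z0)))) (b (d (c (a (b (d (c (a (b z0 z0) z0) z0) (a (b z0 z0) z0)) (d (c (b z0 z0) z0) (b z0 z0))) (b (d z0 z0) (d (c (a (b z0 z0) z0) z0) (a (b z0 z0) z0)))) (a (b z0 z0) z0)) (a (b (d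 (c (a (b z0 z0) z0) z0) (a (b z0 z0) z0)) (d (c (b z0 z0) z0) (b z0 z0))) (b (d z0 z0) (d (c (a (b z0 z0) z0) z0) (a (b z0 (d z0 z0)) z0))))) (d (c (b (d (c (b z0 z0) z0) (b z0 z0)) z0) (b z0 z0)) (b (d (c (b (d z0 z0) (d z0 z0)) z0) (b (d z0 z0) (d z0 z0))) z0)))) z0) (b (d (c (b z0 z0) (b z0 z0)) (c (b (d z0 (c (a (b z0 z0) z0) z0)) (d z0 (c (b z0 z0) (b z0 z0)))) (b z0 z0))) z0))) _ _ (by decide +kernel)

theorem okB562 : CKB ⟨0, 6144, 6656, 7168⟩ ⟨7680, 9216, 6656, 7168⟩ :=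
  ckB_sound (b (d (a (c (b z8 z8) (b z8 z8)) z8) (a (c (b z8 (d z8 (c (b z0 z0) z8))) (b z8 z8)) z8)) (d (c (b z8 z0) (b z8 z0)) (c (b (d z8 (c (b z0 z0) (b z8 z8))) z0) (b z8 z0)))) _ _ (by decide +kernel)

theorem okB563 : CKB ⟨0, 4608, 6144, 6400⟩ ⟨9216, 10752, 6144, 6400⟩ :=
  ckB_sound z8 _ _ (by decide +kernel)

theorem okB564 : CKB ⟨0, 3840, 6144, 6400⟩ ⟨10752, 12288, 6144, 6400⟩ :=
  ckB_sound (b (d (a (c z8 (b (d (a (c (b (d (a (c z8 (b (d z12 (a (c z8 z12) z12)) (d z12 (c z8 z12)))) z8) z8) (d (c z8 (b (d z12 (a (c z8 z12) z12)) (d z12 (c z8 z12)))) z8)) z12) (c z8 z12)) (a (c z8 (b (d z12 (a (c (b (d (a (c z8 z12) z12) z8) (d (c z8 z12) z8)) z12) (c (b (d z12 z8) (d z12 z8)) z12))) (d z12 (c (b (d (a (c z8 z12) z12) z8) (d (c z8 z12) z8)) z12)))) (c z8 (b (d z12 (a (c (b z12 (d z12 z8)) z12) z12)) (d z12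 (a (c (b (d z12 z8) (d z12 z8)) z12) z12)))))) (d (c (b (d (a (c z8 (b (d z12 (a (c z8 z12) z12)) (d z12 (c z8 z12)))) z8) z8) z8) z12) (c z8 (b (d z12 (a (c (b (d (a (c z8 z12) z12) z8) (d z12 z8)) z12) (c (b (d z12 z8) (d z12 z8)) z12))) (d z12 (c (b (d z12 z8) (d z12 z8)) z12))))))) (c z8 (b (d (a (c z8 z12) (c z8 z12)) (a (c z8 z12) (c z8 z12))) (d (a (c z8 z12) (c z8 z12)) (a (c z8 (b z12 (d z12 (a (c (b (d z12 z8) (d z12 z8)) z12) z12)))) (c z8 z12)))))) (a (c z8 (b (d (a (c z8 (b (d (a (c z8 z12) (c z8 z12)) (a (c z8 (b (d z12 (a (c z8 z12) z12)) (d z12 (c z8 z12)))) z8)) (d (c z8 z12) (c z8 (b (d z12 (a (c z8 z12) z12)) (d z12 (c z8 z12))))))) (c z8 (b (d (a (c z8 z12) (c z8 z12)) z8) (d (a (c z8 z12) (c z8 z12)) z8)))) (a (c z8 (b (d (a (c z8 (b z8 z8)) z8) z8) z8)) z8)) (d (c z8 (b (d (a (c z8 z12) (c z8 z12))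 (a (c z8 (b z12 z12)) z8)) (d (c z8 z12) (c z8 (b z12 z12))))) (c z8 (b z8 z8))))) (c z8 (b z8 (d (a (c z8 (b z8 (d (a (c z8 z12) (c z8 z12)) z8))) z8) z8))))) (d (c z8 (b (d (a (c (b z8 z8) z12) (c z8 z12)) (a (c z8 (b (d z12 (a (c (b (d z12 z8) (d z12 z8)) z12) (c (b z12 (d z12 z8)) z12))) (d z12 (c (b (d z12 z8) (d z12 z8)) z12)))) (c z8 (b z12 (d z12 (a (c (b z12 (d z12 z8)) z12) z12)))))) (d (c (b z8 z8) z12) (c z8 (b (d z12 (c (a (b (d z12 z8) (d z12 z8)) z12) z12)) (d z12 (c (b (d z12 z8) (d z12 z8)) z12))))))) (c z8 (b (d (a (c z8 (b (d (a (c z8 z12) (c z8 z12)) (a (c z8 (b z12 z12)) z8)) (d (c z8 z12) (c z8 (b z12 z12))))) z8) (a (c z8 (b z8 z8)) z8)) (d (c z8 (b (d (c z8 z12) z8) (d (c z8 z12) z8))) (c z8 (b z8 z8))))))) _ _ (by decide +kernel)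

theorem okB565 : CKB ⟨3840, 4608, 6144, 6400⟩ ⟨10752, 12288, 6144, 6400⟩ :=
  ckB_sound (b (d (c z8 (a (b (d (c z8 z12) z8) (d (c z8 z12) z8)) (b (d (c z8 z12) z8) (d (c z8 z12) z8)))) z8) (d (c z8 (a (b (d (c z8 z12) (c z8 z12)) (d (c z8 z12) (c z8 (a (b z12 (d z12 (a (c (b z12 (d z12 z8)) z12) z12))) z12)))) (b (d (c z8 z12) z8) (d (c z8 z12) z8)))) z8)) _ _ (by decide +kernel)

theorem okB566 : CKB ⟨0, 4608, 6144, 6400⟩ ⟨9216, 12288, 6400, 6656⟩ :=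
  ckB_sound (c z8 (a (b (d (a (c z8 (b z8 z8)) z8) z8) (d (c z8 (b z8 z8)) z8)) z8)) _ _ (by decide +kernel)

theorem okB567 : CKB ⟨0, 4608, 6400, 6656⟩ ⟨9216, 12288, 6144, 6656⟩ :=
  ckB_sound (d (c z8 (b (d (c z8 (a (b (d (c (a (b z8 z8) z8) z12) (c z8 (a (b (d z12 (c (a (b (d z12 z8) (d z12 z8)) z12) z12)) (d z12 (c (b z12 z12) z12))) z12))) (d (c z8 z12) (c z8 (b (d z12 (c (a (b z12 z12) z12) z12)) (d z12 (c (b z12 z0) z12)))))) (b (d (c z8 z12) z8) (d (c z8 z12) (c z8 z12))))) (c z8 (a (b (d (c z8 (a (b (d (c z8 z12) z8) (d (c z8 z12) z8)) z8)) z8) (d (c z8 (b z8 z8)) z8)) z8))) (d (c z8 (b (d (c z8 z12) (c z8 (a (b z12 z12) z12))) (d (c z8 z12) (c z8 (b z12 z0))))) (c z8 (b (d (c z8 (a (b z8 z8) z8)) z8) z8))))) (c z8 (b (d (c z8 (a (b z8 z8) z8)) z8) (d (c z8 (b z8 z8)) z8)))) _ _ (by decide +kernel)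

theorem okB568 : CKB ⟨4608, 6144, 6144, 6656⟩ ⟨9216, 12288, 6144, 6656⟩ :=
  ckB_sound (b z8 (d (c z8 (a (b z8 (d (c z8 (a (b (d (c z8 z12) z8) (d (c z8 z12) (c z8 (a (b z12 z12) z12)))) (b (d (c z8 z12) z8) (d (c z8 z12) z8)))) z8)) z8)) z8)) _ _ (by decide +kernel)

theorem okB569 : CKB ⟨0, 6144, 6144, 6656⟩ ⟨9216, 12288, 6656, 7168⟩ :=
  ckB_sound (a (b (d (c z8 (a (b z8 z8) z8)) z8) (d (c z8 (b z8 z8)) z8)) z8) _ _ (by decide +kernel)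

end Vale.Agent.Lib.P154Q5
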