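import Vale.Agent.Lib.P154Q5.CkBDefs

namespace Vale.Agent.Lib.P154Q5

set_option maxRecDepth 100000
set_option exponentiation.threshold 1000

open Tr

theorem okB570 : CKB ⟨0, 6144, 6656, 7168⟩ ⟨9216, 12288, 6144, 7168⟩ :=
  ckB_sound (d (b (d (c z8 (a (b (d (c z8 (a (b (d (c z8 z12) (c z8 (a (b z12 z12) z12))) (d (c z8 z12) (c z8 z12))) (b (d (c z8 z12) z8) (d (c z8 z12) z8)))) (c z8 (a (b z8 z8) z8))) (d (c z8 (b (d (c z8 z12) z8) z0)) (c z8 (b z8 z0)))) (b z8 (d (c z8 (a (b (d (c z8 z12) z8) (d (c z8 z12) z8)) (b (d (c z8 z12) z8) (d (c z8 z12) z8)))) z8)))) (c z8 (a (b z8 z8) z8))) (d (c z8 (b (d (c z8 (b (d (c z8 z12) z8) (d (c z8 z12) z8))) z8) z0)) (c z8 (b z8 z0)))) (b (d (c z8 (a (b z8 z8) z8)) (c (a (b z8 z8) z8) z8)) (d (c (b z8 z0) (b z8 z0)) (c (b z8 z0) (b z8 z0))))) _ _ (by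 decide +kernel)

theorem okB571 : CKB ⟨0, 4608, 6144, 6400⟩ ⟨6144, 9600, 7168, 7680⟩ :=
  ckB_sound (d (c (a (b (d (c (a (b (d z0 z0) (d z0 z0)) (b (d z0 z0) (d z0 z0))) z0) (a (c (b (d z0 z0) (d (c (b z0 z0) z0) (b z0 z0))) (b z0 z0)) (c (b (d z0 z0) (d z0 z0)) z0))) (d (c (b (d (c (a (b z0 z0) z0) z0) (a (c (b z0 z0) z0) z0)) (d (c (b z0 z0) z0) (c (b z0 z0) z0))) z0) (c (b (d (a (c (b z0 z0) z0) z0) (a (b z0 z0) z0)) (d (c (b z0 z0) z0) (b z0 z0))) (b z0 (d z0 (c (b z0 z0) z0)))))) (b (d (c (a (b z0 (d z0 z0)) z0) z0) (a (c (b z0 (d z0 z0)) z0) z0)) (d (c (a (b (d z0 z0) (d z0 z0)) (b z0 (d z0 z0))) z0) (a (c (b (d z0 z0) (d z0 z0)) z0) (c (b (d z0 z0) (d z0 z0)) z0))))) (a (b z8 z8) z8)) (a (b (d (c (a (b (d z0 z0) (d (c (b z0 z0) z0) (c (b z0 z0) z0))) (b (d z0 z0) (d z0 z0))) z0) (a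 (c (b (d z0 z0) (d (c (b z0 z0) z0) z0)) (b z0 z0)) (c (b (d z0 z0) (d z0 z0)) z0))) (d (c (b (d (c (a (b z0 z0) z0) z0) (a (c (b z0 z0) z0) z0)) (d (c (b z0 z0) z0) (c (b z0 z0) z0))) z0) (c (b (d (a (c (b z0 z0) z0) z0) (a (b z0 z0) z0)) (d (c (b z0 z0) z0) (b z0 z0))) (b z0 z0)))) (b (d (c (a (b z0 (d z0 z0)) z0) z0) (a (c (b z0 (d z0 z0)) z0) z0)) (d (c (a (b (d z0 z0) (d z0 z0)) (b (d z0 z0) (d z0 z0))) z0) (a (c (b (d z0 z0) (d z0 z0)) z0) (c (b (d z0 z0) (d z0 z0)) z0)))))) _ _ (by decide +kernel)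

theorem okB572 : CKB ⟨0, 4608, 6400, 6656⟩ ⟨6144, 9600, 7168, 7680⟩ :=
  ckB_sound (d (c (b (d (c (a (b (d (c (a (b z0 (d z0 z0)) z0) z0) (a (c (b (d z0 z0) (d z0 z0)) z0) z0)) (d (c (b (d z0 z0) (d z0 z0)) z0) (c (b (d z0 z0) (d z0 z0)) z0))) (b (d z0 z0) (d (c (a (b z0 (d z0 z0)) z0) z0) (a (c (b z0 (d z0 z0)) z0) z0)))) (a (b z0 z0) z0)) (a (c (b (d (a (c (b (d z0 z0) (d z0 z0)) z0) z0) (a (b (d z0 z0) (d z0 z0)) z0)) (d (c (b (d z0 z0) (d z0 z0)) z0) (b (d z0 z0) (d z0 z0)))) (b (d z0 (a (c (b z0 z0) z0) z0)) (d z0 (c (b z0 z0) z0)))) (c (b (d z0 z0) (d (a (c (b z0 (d z0 z0)) z0) z0) (a (b z0 (d z0 z0)) z0))) z0))) (d (c (b (d (c (a (b (d z0 z0) (d z0 z0)) (b z0 (d z0 z0))) z0) (c (a (b (d z0 z0) (d z0 z0)) (b z0 (d z0 z0))) z0)) (d (c (b (d z0 z0) z0) z0) (c (b (d z0 z0) z0) (b z0 z0))))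 (b z0 z0)) (c (b (d (a (c (b (d z0 z0) (d z0 z0)) (b z0 z0)) (c (b z0 (d z0 z0)) z0)) (a (b (d z0 z0) (d z0 z0)) (b z0 (d z0 z0)))) (d (c (b (d z0 z0) z0) (b z0 z0)) (b (d z0 z0) z0))) (b (d z0 (a (c (b z0 (d z0 z0)) z0) z0)) (d z0 (c (b (d z0 z0) z0) z0)))))) (b (d z8 (c (a (b z0 z0) z0) z8)) (d z8 (c (b z0 z0) z8)))) (b (d (c (a (b (d (c (a (b (d z0 z0) (d z0 z0)) z0) z0) (a (c (b (d z0 z0) (d z0 z0)) z0) z0)) (d (c (b (d z0 z0) (d z0 z0)) z0) (c (b (d z0 z0) (d z0 z0)) z0))) (b (d z0 z0) (d (c (a (b z0 (d z0 z0)) z0) z0) (a (c (b z0 (d z0 z0)) z0) z0)))) z0) (a (c (b (d (a (c (b (d z0 z0) (d z0 z0)) z0) z0) (a (b z0 (d z0 z0)) z0)) (d (c (b (d z0 z0) (d z0 z0)) z0) (b (d z0 z0) (d z0 z0)))) (b (d z0 (a (c (b z0 z0) z0) z0)) (d z0 (c (b z0 z0) z0)))) (c (b (d z0 z0) (d (a (c (b z0 (d z0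 z0)) z0) z0) (a (b z0 (d z0 z0)) z0))) z0))) (d (c (b (d (c (a (b (d z0 z0) (d z0 z0)) (b z0 (d z0 z0))) z0) (c (a (b (d z0 z0) (d z0 z0)) (b z0 (d z0 z0))) z0)) (d (c (b (d z0 z0) z0) z0) (c (b (d z0 z0) z0) (b z0 z0)))) (b z0 z0)) (c (b (d (c (a (b (d z0 z0) (d z0 z0)) (b z0 (d z0 z0))) z0) (a (b (d z0 z0) (d z0 z0)) (b z0 (d z0 z0)))) (d (c (b (d z0 z0) z0) z0) (b (d z0 z0) z0))) (b (d z0 (a (c (b z0 z0) z0) z0)) (d z0 (c (b z0 z0) z0))))))) _ _ (by decide +kernel)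

theorem okB573 : CKB ⟨4608, 6144, 6144, 6656⟩ ⟨6144, 9600, 7168, 7680⟩ :=
  ckB_sound (b (d (c (a (b (d z0 z0) (d z0 (a (c (b z0 (d z0 z0)) z0) z0))) (b (d z0 z0) (d z0 z0))) z8) (a (b (d z0 z0) (d (c (a (b z0 (d z0 z0)) z0) z0) (a (c (b z0 (d z0 z0)) z0) z0))) (b (d z0 z0) (d z0 z0)))) (d (c (a (b (d (c (a (b (d z0 z0) (d z0 z0)) (b z0 (d z0 z0))) z0) (a (c (b (d z0 z0) (d z0 z0)) z0) (c (b (d z0 z0) (d z0 z0)) z0))) (d (c (a (b (d z0 z0) (d (c (a (b (d z0 z0) (d z0 z0)) z0) z0) (a (c (b (d z0 z0) (d z0 z0)) z0) z0))) (b (d z0 z0) (d z0 z0))) z0) (a (c (b (d z0 z0) (d (a (c (b (d z0 z0) (d z0 z0)) z0) (c (b z0 (d z0 z0)) z0)) (a (b (d z0 z0) (d z0 z0)) (b z0 (d z0 z0))))) (b z0 (d z0 (a (c (b z0 (d z0 z0)) z0) z0)))) (c (b (d z0 z0) (d z0 z0)) z0)))) (b (d z0 z0) (d (c (a (b (d z0 z0) (d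 z0 z0)) (b z0 (d z0 z0))) z0) (a (c (b (d z0 z0) (d z0 z0)) z0) (c (b z0 (d z0 z0)) z0))))) z8) (a (b (d (c (a (b (d z0 z0) (d z0 z0)) (b (d z0 z0) (d z0 z0))) z0) (a (c (b (d z0 z0) (d z0 z0)) z0) (c (b (d z0 z0) (d z0 z0)) z0))) (d (c (a (b (d z0 z0) (d (c (a (b (d z0 z0) (d z0 z0)) (b z0 (d z0 z0))) z0) (a (c (b (d z0 z0) (d z0 z0)) z0) (c (b z0 (d z0 z0)) z0)))) (b (d z0 z0) (d z0 z0))) z0) (a (c (b (d z0 z0) (d (a (c (b (d z0 z0) (d z0 z0)) z0) z0) (a (b (d z0 z0) (d z0 z0)) z0))) (b z0 (d z0 (a (c (b z0 z0) z0) z0)))) (c (b (d z0 z0) (d z0 z0)) z0)))) (b (d (c (a (b z0 (d z0 z0)) z0) z0) (a (c (b z0 (d z0 z0)) z0) z0)) (d (c (a (b (d z0 z0) (d z0 z0)) (b z0 (d z0 z0))) z0) (a (c (b (d z0 z0) (d z0 z0)) z0) (c (b z0 (d z0 z0)) z0))))))) _ _ (by decide +kernel)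

theorem okB574 : CKB ⟨0, 6144, 6144, 6656⟩ ⟨9600, 12288, 7168, 7680⟩ :=
  ckB_sound (a (b (d z8 (a (c (b z8 z8) z8) z8)) (d (c (b z8 z8) z8) (c (b z8 (d z8 (c (b z0 z0) z8))) (b z8 z8)))) z8) _ _ (by decide +kernel)

theorem okB575 : CKB ⟨0, 4608, 6144, 6656⟩ ⟨6144, 12288, 7680, 8192⟩ :=
  ckB_sound (b (d (a (c (b (d (a (c (b (d z0 z0) (d z0 z0)) z0) (c (b (d z0 z0) (d z0 z0)) z0)) (a (b (d z0 z0) (d z0 z0)) (b (d z0 z0) (d z0 z0)))) (d (c (b (d (c (a (b z0 z0) z0) z0) (a (b z0 z0) z0)) (d (c (b z0 z0) z0) (b z0 z0))) z0) (b (d z0 z0) (d (c (b z0 z0) z0) (b z0 z0))))) (b z8 z8)) (c (b (d (c (a (b z0 (d z0 z0)) z0) z0) (a (b z0 (d z0 z0)) z0)) (d (c (a (b (d z0 z0) (d z0 z0)) (b (d z0 z0) (d z0 z0))) z0) (a (b (d z0 z0) (d z0 z0)) (b (d z0 z0) (d z0 z0))))) z8)) (a (b (d (a (c (b (d z0 z0)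 (d z0 z0)) z8) (c (b (d z0 z0) (d z0 z0)) z8)) (a (b (d z0 z0) (d z0 z0)) (b z0 (d z0 z0)))) (d (c (b (d z0 z0) (d z0 z0)) z8) (b (d z0 z0) (d z0 z0)))) (b (d z0 z0) (d (c (a (b (d z0 z0) (d z0 z0)) (b z0 (d z0 z0))) z8) (a (b (d z0 z0) (d z0 z0)) (b z0 (d z0 z0))))))) (d (c (b (d (c (a (b (d (c (a (b z0 z0) z0) z0) (a (b z0 z0) z0)) (d (c (b (d z0 z0) (d z0 z0)) z0) (b z0 (d z0 z0)))) (b (d z0 z0) (d z0 z0))) z0) (a (b (d (c (a (b z0 z0) z0) z0) (a (b z0 z0) z0)) (d (c (b z0 z0) z0) (b z0 z0))) (b (d z0 z0) (d z0 z0)))) (d (c (b (d (c (a (b (d z0 z0) (d z0 z0)) (b z0 (d z0 z0))) z0) (a (b (d z0 z0) (d z0 z0)) (b z0 (d z0 z0)))) (d (c (b (d z0 z0) z0) z0) (b (d z0 z0) z0))) z0) (b (d (c (a (b (d z0 z0) (d z0 z0)) z0) z0) (a (b z0 z0) z0)) (d (c (b (d z0 z0) z0) z0) (b (d z0 z0) z0))))) (b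 z8 z8)) (b (d (c (a (b (d (c (a (b z0 z0) z0) z0) z0) (d (c (b z0 z0) z0) (b z0 z0))) (b (d z0 z0) (d z0 z0))) z8) (a (b (d z0 z0) (d z0 z0)) (b (d z0 z0) (d z0 z0)))) (d (c (b (d (c (a (b z0 z0) z0) z0) (a (b z0 z0) z0)) (d (c (b z0 z0) z0) (b z0 z0))) z8) (b (d z0 z0) (d (c (b z0 z0) z0) z0)))))) _ _ (by decide +kernel)

theorem okB576 : CKB ⟨4608, 6144, 6144, 6656⟩ ⟨6144, 12288, 7680, 8192⟩ :=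
  ckB_sound (b (d (c (a (b (d z0 z0) (d (c (a (b z0 (d z0 z0)) z0) z0) (a (b z0 (d z0 z0)) z0))) (b (d z0 z0) (d z0 z0))) z8) (a (b (d z0 z0) (d z0 z0)) (b (d z0 z0) (d z0 z0)))) (d (c (a (b (d (c (a (b (d z0 z0) (d z0 z0)) (b (d z0 z0) (d z0 z0))) z0) (a (b (d z0 z0) (d z0 z0)) (b z0 (d z0 z0)))) (d (c (a (b (d z0 z0) (d (c (a (b (d z0 z0) (d z0 z0)) z0) z0) (a (b (d z0 z0) (d z0 z0)) z0))) (b (d z0 z0) (d z0 z0))) z0) (a (b (d z0 z0) (d (c (a (b z0 (d z0 z0)) z0) z0) (a (b z0 (d z0 z0)) z0))) (b (d z0 z0) (d z0 z0))))) (b (d (c (a (b z0 (d z0 z0)) z0) z0) z0) (d (c (a (b (d z0 z0) (d z0 z0)) (b z0 (d z0 z0))) z0) (a (b (d z0 z0) (d z0 z0)) (b z0 (d z0 z0)))))) z8) (a (b (d (c (a (b (d z0 z0) (d z0 z0)) (b z0 (d z0 z0))) z8) (a (b z0 (d z0 z0)) z0)) (d (c (a (b (d z0 z0) (d (c (a (b z0 z0)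 z0) z0) (a (b z0 z0) z0))) (b (d z0 z0) (d z0 z0))) z8) (a (b (d z0 z0) (d z0 z0)) (b (d z0 z0) (d z0 z0))))) (b (d z0 z0) (d (c (a (b (d z0 z0) (d z0 z0)) z0) z8) (a (b z0 (d z0 z0)) z0)))))) _ _ (by decide +kernel)

theorem okB577 : CKB ⟨0, 5472, 6656, 6912⟩ ⟨6144, 8256, 7168, 7424⟩ :=
  ckB_sound (b (d (c (a (b (d (c (a (b (d z0 z0) (d z0 z0)) (b z0 (d z0 z0))) z0) (a (c (b (d z0 z0) (d z0 z0)) (b z0 z0)) (c (b z0 (d z0 z0)) z0))) (d (c (b (d z0 (c (b z0 z0) z0)) z0) z0) (c (b (d (c (b z0 z0) z0) (b z0 z0)) z0) (b z0 z0)))) (b (d z0 z0) (d (c (a (b (d z0 z0) (d (c (b z0 z0) z0) (c (b z0 z0) z0))) (b z0 (d z0 z0))) z0) (a (c (b (d z0 z0) (d (c (b z0 z0) z0) (b z0 z0))) (b z0 z0)) (c (b z0 (d z0 z0)) z0))))) (a (b z0 z0) z0)) (a (c (b (d (a (c (b (d z0 z0) (d z0 z0)) (b z0 z0)) (c (b (d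 z0 z0) (d z0 z0)) z0)) (a (b (d z0 z0) (d z0 z0)) (b (d z0 z0) (d z0 z0)))) (d (c (b (d (c (b z0 z0) z0) (b z0 z0)) z0) (b z0 z0)) (b (d (b z0 z0) z0) z0))) (b (d z0 (a (c (b (d z0 z0) (d z0 z0)) z0) (c (b z0 (d z0 z0)) z0))) (d z0 (c (b (d z0 (b z0 z0)) z0) (b z0 z0))))) (c (b (d (a (c (b z0 (d z0 z0)) z0) z0) (a (b z0 (d z0 z0)) z0)) (d (a (c (b (d z0 z0) (d (c (b z0 z0) z0) (b z0 z0))) (b z0 z0)) (c (b (d z0 z0) (d z0 z0)) z0)) (a (b (d z0 z0) (d (b z0 z0) z0)) (b (d z0 z0) (d z0 z0))))) (b z0 (d z0 (a (c (b z0 (d z0 (b z0 z0))) z0) z0)))))) (d (c (b (d (c (b (d (c (a (b z0 z0) z0) z0) (a (c (b z0 z0) z0) z0)) (d (c (b z0 z0) z0) (c (b z0 z0) z0))) z0) (c (b (d (a (c (b z0 z0) z0) z0) (a (b z0 z0) z0)) (d (c (b z0 z0) z0) (b z0 z0))) (b z0 z0))) z0) (b z0 z0)) (c (b (d (c (b (d (a (c (b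 z0 z0) z0) z0) (a (b z0 z0) z0)) (d (c (b z0 z0) z0) (b z0 z0))) (b z0 (d z0 (c (b z0 z0) z0)))) (b (d (a (b z0 z0) z0) z0) (d (b z0 z0) z0))) z0) (b (d z0 (c (b (d z0 (a (b z0 z0) z0)) (d z0 (b z0 z0))) (b z0 z0))) z0)))) _ _ (by decide +kernel)

theorem okB578 : CKB ⟨5472, 6144, 6656, 6912⟩ ⟨6144, 8256, 7168, 7424⟩ :=
  ckB_sound (b (d (c (a (b (d z0 z0) (d z0 z0)) (b (d z0 z0) (d z0 z0))) z0) (a (c (b (d z0 z0) (d (a (c (b z0 (d z0 z0)) z0) z0) (a (b z0 (d z0 z0)) z0))) z0) (c (b (d z0 z0) (d z0 z0)) z0))) (d (c (a (b (d (c (a (b (d z0 z0) (d z0 z0)) (b z0 (d z0 z0))) z0) (a (c (b (d z0 z0) (d z0 z0)) z0) (c (b z0 (d z0 z0)) z0))) (d (c (b (d (c (a (b z0 z0) z0) z0) (a (c (b z0 z0) z0) z0)) (d (c (b z0 z0) z0) (c (b z0 z0) z0))) (b z0 z0)) (c (b (d (a (c (b z0 z0) z0) z0) (a (b z0 z0)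 z0)) (d (c (b z0 z0) z0) (b z0 z0))) (b (d z0 (a (c (b z0 z0) z0) z0)) (d z0 (c (b z0 z0) z0)))))) (b (d z0 z0) (d (c (a (b (d z0 z0) (d z0 z0)) (b z0 (d z0 z0))) z0) (a (c (b (d z0 z0) (d z0 z0)) z0) (c (b z0 (d z0 z0)) z0))))) (a (b z0 (d z0 (c (b z0 z0) z0))) z0)) (a (c (b (d (a (c (b (d z0 z0) (d z0 z0)) z0) (c (b (d z0 z0) (d z0 z0)) z0)) (a (b (d z0 z0) (d z0 z0)) (b (d z0 z0) (d z0 z0)))) (d (c (b (d (a (c (b z0 z0) z0) z0) (a (b z0 z0) z0)) (d (c (b z0 z0) z0) (b z0 z0))) (b (d z0 (a (c (b z0 z0) z0) z0)) (d z0 (c (b z0 z0) z0)))) (b (d (a (b z0 z0) z0) z0) (d (b z0 z0) z0)))) (b (d z0 (a (c (b z0 (d z0 z0)) z0) z0)) (d (c (b z0 z0) z0) (c (b (d z0 (a (b z0 z0) z0)) (d z0 (b z0 z0))) (b z0 z0))))) (c (b (d z0 (a (b z0 (d z0 z0)) z0)) (d (a (c (b (d z0 z0) (d z0 z0)) z0) (c (b z0 (d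 z0 z0)) z0)) (a (b (d z0 z0) (d z0 z0)) (b (d z0 z0) (d z0 z0))))) (b z0 (d z0 (a (c (b z0 (d z0 z0)) z0) z0))))))) _ _ (by decide +kernel)

theorem okB579 : CKB ⟨0, 6144, 6656, 6912⟩ ⟨8256, 9600, 7168, 7424⟩ :=
  ckB_sound (a (b (d (c (a (b z8 z8) z8) z8) (c (a (b z0 z0) z0) z8)) (d (c (b z8 z0) z8) (c (b z0 z0) (b z8 z0)))) (b z8 (d z8 (c (a (b z0 z0) z0) z8)))) _ _ (by decide +kernel)

theorem okB580 : CKB ⟨0, 5472, 6656, 6912⟩ ⟨6144, 9600, 7424, 7680⟩ :=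
  ckB_sound (b (d (c (a (b (d (c (a (b (d z0 z0) (d z0 z0)) (b (d z0 z0) (d z0 z0))) z0) (a (c (b (d z0 z0) (d z0 z0)) (b z0 z0)) (c (b (d z0 z0) (d z0 z0)) z0))) (d (c (b (d (c (b z0 z0) z0) z0) z0) z0) (c (b (d z0 z0) z0) (b z0 z0)))) (b (d (c (a (b z0 (d z0 z0)) z0) z0) (a (c (b z0 (d z0 z0)) z0) z0)) (d (c (a (b (d z0 z0) (d (c (b z0 z0) z0) (c (b z0 z0) z0))) (b (d z0 z0) (d z0 z0))) z0) (a (c (b (d z0 z0) (d (c (b z0 z0) z0) (b z0 z0))) z0) (c (b (d z0 z0) (d z0 z0)) z0))))) (a (b z0 z0) z0)) (a (c (b (d (a (c (b (d z0 z0) (d z0 z0)) (b z0 z0)) (c (b z0 (d z0 z0)) z0)) (a (b (d z0 z0) (d z0 z0)) (b z0 (d z0 z0)))) (d (c (b (d z0 z0) z0) (b z0 z0)) (b (d z0 z0) z0))) (b (d z0 (a (c (b (d z0 z0) (d z0 z0)) z0) z0)) (d z0 (c (b (d z0 z0) z0) z0)))) (c (b (d z0 z0) (d (a (c (b (d z0 z0)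 (d z0 z0)) z0) (c (b z0 (d z0 z0)) z0)) (a (b (d z0 z0) (d z0 z0)) (b z0 (d z0 z0))))) (b z0 (d z0 (a (c (b z0 (d z0 z0)) z0) z0)))))) (d (c (b (d (c (b (d (c (a (b z0 z0) z0) z0) (a (c (b z0 z0) z0) z0)) (d (c (b z0 z0) z0) (c (b z0 z0) z0))) z0) (c (b (d (a (c (b z0 z0) z0) z0) (a (b z0 z0) z0)) (d (c (b z0 z0) z0) (b z0 z0))) (b z0 z0))) z0) (b z0 z0)) (c (b (d (c (b (d (a (c (b z0 z0) z0) z0) (a (b z0 z0) z0)) (d (c (b z0 z0) z0) (b z0 z0))) (b z0 z0)) (b (d z0 z0) (d (b z0 z0) z0))) z0) (b (d z0 (c (b (d z0 z0) (d z0 z0)) z0)) z0)))) _ _ (by decide +kernel)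

theorem okB581 : CKB ⟨5472, 6144, 6656, 6912⟩ ⟨6144, 9600, 7424, 7680⟩ :=
  ckB_sound (b (d (c (a (b (d z0 z0) (d (c (a (b z0 (d z0 z0)) z0) z0) (a (c (b z0 (d z0 z0)) z0) z0))) (b (d z0 z0) (d z0 z0))) z0) (a (c (b (d z0 z0) (d z0 z0)) z0) (c (b (d z0 z0) (d z0 z0)) z0))) (d (c (a (b (d (c (a (b (d z0 z0) (d z0 z0)) (b (d z0 z0) (d z0 z0))) z0) (a (c (b (d z0 z0) (d z0 z0)) z0) (c (b z0 (d z0 z0)) z0))) (d (c (b (d (c (a (b z0 z0) z0) z0) (a (c (b z0 z0) z0) z0)) (d (c (b z0 z0) z0) (c (b z0 z0) z0))) z0) (c (b (d (a (c (b z0 z0) z0) z0) (a (b z0 z0) z0)) (d (c (b z0 z0) z0) (b z0 z0))) (b z0 z0)))) (b (d (c (a (b z0 (d z0 z0)) z0) z0) z0) (d (c (a (b (d z0 z0) (d z0 z0)) (b (d z0 z0) (d z0 z0))) z0) (c (a (b (d z0 z0) (d z0 z0)) (b z0 (d z0 z0))) z0)))) (a (b z0 z0) z0)) (a (c (b (d (a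 (c (b (d z0 z0) (d z0 z0)) z0) (c (b z0 (d z0 z0)) z0)) (a (b (d z0 z0) (d z0 z0)) (b z0 (d z0 z0)))) (d (c (b (d (a (c (b z0 z0) z0) z0) (a (b z0 z0) z0)) (d (c (b z0 z0) z0) (b z0 z0))) (b z0 z0)) (b (d (a (b z0 z0) z0) z0) (d (b z0 z0) z0)))) (b (d z0 (a (c (b z0 (d z0 z0)) z0) z0)) (d z0 (c (b (d z0 (a (b z0 z0) z0)) (d z0 (b z0 z0))) z0)))) (c (b (d z0 z0) (d (a (c (b (d z0 z0) (d z0 z0)) z0) (c (b z0 (d z0 z0)) z0)) (a (b (d z0 z0) (d z0 z0)) (b z0 (d z0 z0))))) z0)))) _ _ (by decide +kernel)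

theorem okB582 : CKB ⟨0, 6144, 6912, 7168⟩ ⟨6144, 9600, 7168, 7424⟩ :=
  ckB_sound (c (b (d (c (b (d (c (a (b (d (c (a (b z0 z0) z0) z0) (c (a (b z0 (d z0 z0)) z0) z0)) (d (c (b (d z0 z0) z0) z0) (c (b (d z0 z0) z0) z0))) (b (d z0 z0) (d (c (a (b z0 (d z0 z0)) z0) z0) (c (a (b z0 (d z0 z0)) z0) z0)))) (a (b z0 z0) z0)) (a (c (b (d (a (c (b z0 (d z0 z0)) z0) z0) (a (b (d z0 z0) (d z0 z0)) z0)) (d (c (b (d z0 z0) z0) z0) (b (d z0 z0) z0))) (b (d z0 (a (c (b z0 z0) z0) z0)) (d z0 (c (b z0 z0) z0)))) (c (b (d z0 z0) (d (c (a (b z0 (d z0 z0)) z0) z0) (a (b z0 (d z0 z0)) z0))) (b z0 (d z0 (a (c (b z0 z0) z0) z0)))))) (d (c (b (d (c (b (d z0 z0) (d z0 z0)) z0) (c (b (d z0 z0) (d z0 z0)) z0)) z0) (b z0 z0)) (c (b (d (c (b (d z0 z0) (d z0 z0)) z0) (b (d z0 z0) (d z0 z0))) z0) (b (d z0 (c (b z0 z0)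 z0)) z0)))) (b (d z0 (c (a (b z0 z0) z0) z0)) (d z0 (c (b z0 z0) z0)))) (c (b (d (a (c (b (d (a (c (b (d z0 z0) (d z0 z0)) z0) z0) (a (b (d z0 z0) (d z0 z0)) z0)) (d (c (b (d z0 z0) z0) z0) (b (d z0 z0) z0))) (b (d z0 (a (c (b z0 z0) z0) z0)) (d z0 (c (b z0 z0) z0)))) (c (b (d z0 z0) (d (a (c (b z0 (d z0 z0)) z0) z0) (a (b z0 (d z0 z0)) z0))) (b z0 (d z0 (a (c (b z0 z0) z0) z0))))) (a (b (d (a (b (d z0 z0) (d z0 z0)) z0) z0) (d (b (d z0 z0) z0) z0)) (b (d z0 z0) (d (a (b z0 (d z0 z0)) z0) z0)))) (d (c (b (d (c (b (d z0 z0) (d z0 z0)) z0) (b (d z0 z0) (d z0 z0))) z0) (b (d z0 (c (b z0 z0) z0)) z0)) (b (d (b (d z0 z0) (d z0 z0)) z0) z0))) (b (d (a (c (b z0 z0) z0) z0) (a (c (b (d z0 (a (b (d z0 z0) (d z0 z0)) z0)) (d (c (b z0 z0) z0) (b (d z0 z0) z0))) (b z0 z0)) (c (b (d z0 z0) (d z0 (a (b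 z0 (d z0 z0)) z0))) z0))) (d (c (b z0 z0) z0) (c (b (d (c (b z0 z0) z0) (b (d z0 z0) (d z0 z0))) z0) (b z0 z0)))))) z0) (b (d (c (b z8 z8) z8) (c (b (d z0 (c (a (b z0 z0) z0) z0)) (d z0 (c (b z0 z0) z0))) (b z8 z8))) z0)) _ _ (by decide +kernel)

theorem okB583 : CKB ⟨0, 6144, 6912, 7168⟩ ⟨6144, 9600, 7424, 7680⟩ :=
  ckB_sound (b (d (c (b (d (c (a (b (d (c (a (b z0 (d z0 z0)) z0) z0) (c (a (b z0 (d z0 z0)) z0) z0)) (d (c (b (d z0 z0) z0) z0) (c (b (d z0 z0) z0) z0))) (b (d z0 z0) (d (c (a (b z0 (d z0 z0)) z0) z0) (c (a (b z0 (d z0 z0)) z0) z0)))) (a (b z0 z0) z0)) (c (a (b (d (c (a (b z0 z0) z0) z0) (a (b z0 z0) z0)) (d (c (b (d z0 z0) z0) z0) (b z0 z0))) (b (d z0 z0) (d (c (a (b z0 (d z0 z0)) z0) z0) (a (b z0 (d z0 z0)) z0)))) (a (b z0 (d z0 (c (b z0 z0) z0))) z0))) (d (c (b (d (c (b (d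 z0 z0) (d z0 z0)) z0) (c (b (d z0 z0) (d z0 z0)) z0)) z0) (b z0 z0)) (c (b (d (c (b (d z0 z0) (d z0 z0)) z0) (b (d z0 z0) (d z0 z0))) z0) (b (d z0 (c (b z0 z0) z0)) z0)))) (b z0 (d z0 (c (b z0 z0) z0)))) (c (b (d (a (c (b (d (a (c (b z0 z0) z0) z0) (a (b z0 z0) z0)) (d (c (b z0 z0) z0) (b z0 z0))) (b z0 z0)) (c (b (d z0 z0) (d (a (c (b z0 z0) z0) z0) (a (b z0 z0) z0))) z0)) (a (b (d (a (b z0 z0) z0) z0) (d (b z0 z0) z0)) (b (d z0 z0) (d (a (b z0 z0) z0) z0)))) (d (c (b (d (c (b z0 (d z0 z0)) z0) (b z0 z0)) z0) (b (d z0 (c (b z0 z0) z0)) z0)) (b (d (b z0 z0) z0) z0))) (b (d z0 (a (c (b (d z0 (a (b z0 z0) z0)) (d z0 (b z0 z0))) (b z0 z0)) (c (b z0 (d z0 (a (b z0 z0) z0))) z0))) (d z0 (c (b (d z0 (b z0 z0)) z0) (b z0 z0)))))) z0) _ _ (by decide +kernel)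

theorem okB584 : CKB ⟨0, 6144, 6656, 7168⟩ ⟨9600, 12288, 7168, 7680⟩ :=
  ckB_sound (b (d (c (a (b z8 z8) z8) (a (b z8 z8) z8)) (c (a (b (d z8 (c (a (b z0 z0) z0) z8)) (d (c (b z8 z0) z8) (c (b z0 z0) z8))) z8) (a (b z8 z8) z8))) (d (c (b z8 z0) (b z8 z0)) (c (b (d (c (b z8 z8) z8) (c (b z0 z0) (b z8 z8))) z0) (b z8 z0)))) _ _ (by decide +kernel)

end Vale.Agent.Lib.P154Q5
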