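import Vale.Agent.Lib.P154Q5.CkBDefs

namespace Vale.Agent.Lib.P154Q5

set_option maxRecDepth 100000
set_option exponentiation.threshold 1000

open Tr

theorem okB585 : CKB ⟨0, 6144, 6656, 6912⟩ ⟨6144, 12288, 7680, 8192⟩ :=
  ckB_sound (d (c (a (b (d (c (a (b (d (c (a (b (d z0 z0) (d z0 z0)) (b z0 (d z0 z0))) z0) (a (b (d z0 z0) (d z0 z0)) (b z0 (d z0 z0)))) (d (c (b (d z0 z0) z0) z0) (b (d z0 z0) z0))) (b (d z0 z0) (d (c (a (b (d z0 z0) (d z0 z0)) (b z0 (d z0 z0))) z0) (a (b (d z0 z0) (d z0 z0)) z0)))) (a (b z0 z0) z0)) (a (b (d (c (a (b (d z0 z0) (d z0 z0)) (b z0 (d z0 z0))) z0) (a (b (d z0 z0) (d z0 z0)) z0)) (d (c (b (d z0 z0) z0) z0) (b (d z0 z0) z0))) (b (d z0 z0) (d (c (a (b z0 (d z0 z0)) z0) z0) (a (b z0 (d z0 z0)) z0))))) (d (c (b (d (c (b (d z0 z0) (d z0 z0)) z0) (b (d z0 z0)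 (d z0 z0))) z0) (b z0 z0)) (b (d (c (b (d z0 z0) (d z0 z0)) z0) (b (d z0 z0) (d z0 z0))) z0))) (b (d (c (a (b (d z0 z0) (d z0 z0)) (b (d z0 z0) (d z0 z0))) z0) (a (b (d z0 z0) (d z0 z0)) (b (d z0 z0) (d z0 z0)))) (d (c (a (b (d (c (a (b (d z0 z0) (d z0 z0)) (b z0 (d z0 z0))) z0) (a (b z0 (d z0 z0)) z0)) (d (c (b (d z0 z0) (d (c (b z0 z0) z0) z0)) z0) (b (d z0 z0) (d z0 z0)))) (b (d z0 z0) (d (c (a (b (d z0 z0) (d z0 z0)) (b z0 (d z0 z0))) z0) (a (b z0 (d z0 z0)) z0)))) z0) (a (b (d (c (a (b z0 (d z0 z0)) z0) z0) (a (b z0 (d z0 z0)) z0)) (d (c (b (d z0 z0) (d z0 z0)) z0) (b (d z0 z0) (d z0 z0)))) (b (d z0 z0) (d (c (a (b z0 (d z0 z0)) z0) z0) z0)))))) (a (b z8 (d z8 (c (b z8 z0) z8))) z8)) (a (b (d (c (a (b (d (c (a (b (d z0 z0) (d z0 z0)) z0) z0) (a (b z0 z0) z0)) (d (c (b (d z0 z0) z0)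 z0) (b z0 z0))) (b (d z0 z0) (d (c (a (b z0 (d z0 z0)) z0) z0) (a (b z0 (d z0 z0)) z0)))) z8) (a (b (d (c (a (b z0 z0) z0) z0) (a (b z0 z0) z0)) (d (c (b z0 z0) z0) (b z0 z0))) (b (d z0 z0) (d z0 z0)))) (d (c (b (d (c (b (d z0 z0) (d z0 z0)) z0) (b (d z0 z0) (d z0 z0))) z0) z8) (b (d (c (b z0 z0) z0) (b z0 z0)) z0))) (b (d (c (a (b (d z0 z0) (d z0 z0)) (b (d z0 z0) (d z0 z0))) z8) (a (b (d z0 z0) (d z0 z0)) (b (d z0 z0) (d z0 z0)))) (d (c (a (b (d (c (a (b z0 (d z0 z0)) z0) z0) z0) (d (c (b (d z0 z0) (d z0 z0)) z0) (b (d z0 z0) (d z0 z0)))) (b (d z0 z0) (d z0 z0))) z8) (a (b (d z0 z0) (d (c (b z0 (d z0 z0)) z0) (b z0 z0))) (b (d z0 z0) (d z0 z0))))))) _ _ (by decide +kernel)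

theorem okB586 : CKB ⟨0, 6144, 6912, 7168⟩ ⟨6144, 12288, 7680, 8192⟩ :=
  ckB_sound (d (c (b (d (c (b (d (c (a (b (d (c (a (b z0 z0) z0) z0) (a (b z0 z0) z0)) (d (c (b z0 z0) z0) (b z0 z0))) (b (d z0 z0) (d z0 z0))) z0) (a (b (d z0 z0) (d (c (b z0 z0) z0) z0)) (b (d z0 z0) (d z0 z0)))) (d (c (b (d (c (b z0 z0) z0) (b z0 z0)) z0) z0) (b (d (c (b z0 z0) z0) (b z0 z0)) z0))) (b z0 z0)) (b (d (c (a (b (d z0 z0) (d z0 z0)) (b (d z0 z0) (d z0 z0))) z0) (a (b (d z0 z0) (d z0 z0)) (b z0 (d z0 z0)))) (d (c (b (d z0 z0) z0) z0) (b (d z0 z0) z0)))) z0) (b (d z8 (c (b z8 z8) z8)) z0)) (b (d (c (b (d (c (a (b (d z0 z0) (d z0 z0)) (b z0 (d z0 z0))) z0) (a (b (d z0 z0) (d z0 z0)) (b z0 (d z0 z0)))) (d (c (b (d z0 z0) z0) z0) (b (d z0 z0) z0))) (b z8 z8)) (b (d (c (a (b (d z0 z0) (d z0 z0)) z0) z0)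 (a (b z0 z0) z0)) (d (c (b (d z0 z0) z0) z0) (b z0 z0)))) z0)) _ _ (by decide +kernel)

theorem okB587 : CKB ⟨0, 6144, 7168, 8192⟩ ⟨6144, 12288, 6144, 8192⟩ :=
  ckB_sound z0 _ _ (by decide +kernel)

theorem okB588 : CKB ⟨6144, 12288, 4096, 5120⟩ ⟨0, 3072, 4096, 5120⟩ :=
  ckB_sound (c (a (b (d (c (a z0 (b (d (c (a z0 z1) (a z0 z1)) (c (a z0 z1) (a z0 z1))) z0)) z0) (c (a z0 (b (d (c (a z0 z1) (a z0 z1)) (a z0 z1)) (d z0 (a z0 (b z1 z2))))) (a z0 (b (d (c (a z0 z1) (a z0 z1)) (c (a z0 z1) (a z0 z1))) z0)))) z2) (b z3 (d (c (b z3 (d (a (c (b z3 (d z3 (a z2 z3))) z3) z3) (a (c (b z3 (d (a z2 z3) (a z2 z3))) (b z3 (d (a z2 z3) (a z2 z3)))) z3))) (b z3 (d z3 (a (c (b z3 (d z3 (a z2 z3))) z3) z3)))) (c (b z3 (d (a (c (b z3 (d (a z2 z3) (a z2 z3))) (b z3 (d (a z2 z3) (a z2 z3)))) z3) (a (b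 (d z3 (a (b z3 (d z3 (a z2 z3))) z3)) (d (a z2 z3) (a z2 z3))) z3))) (b z3 (d (a (c (b z3 (d (a z2 z3) (a z2 z3))) (b z3 (d (a z2 z3) (a z2 z3)))) z3) (a (c (b z3 (d (a z2 z3) (a z2 z3))) (b z3 (d (a z2 z3) (a z2 z3)))) z3))))))) (a (b (d z0 (a z0 (c (b (d (c (a z0 z1) (a z0 z1)) (c (a z0 z1) (a z0 z1))) z0) (b (d (a z0 z1) (a z0 z1)) z0)))) z2) (b z3 (d z3 (c (b z3 (d (a (c (b z3 (d (a z2 z3) (a z2 z3))) (b z3 (d z3 (a z2 z3)))) z3) (a (c (b z3 (d (a z2 z3) (a z2 z3))) (b z3 (d (a z2 z3) (a z2 z3)))) z3))) (b z3 (d z3 (a (b z3 (d (c (a z2 z3) z3) (c (a z2 z3) (a z2 z3)))) z3)))))))) _ _ (by decide +kernel)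

theorem okB589 : CKB ⟨6144, 9216, 4096, 5120⟩ ⟨0, 3072, 5120, 6144⟩ :=
  ckB_sound (b (d (c (a z0 (b (d (c (a z0 z1) (a z0 z1)) (c (a z0 z1) (a z0 z1))) (d (c (a z0 (b (d z1 (c (b z1 (d z1 (a z0 z1))) (b z1 (d z1 (a z0 z1))))) z2)) (a z0 (b z1 z2))) (c (a z0 (b (d (c (b z1 (d (a z0 z1) (a z0 z1))) (b z1 (d (a z0 z1) (a z0 z1)))) (b z1 (d (a z0 z1) z0))) (d z2 (b (d (a z0 z3) z0) z2)))) (a z0 (b (d (c (b z1 (d z1 (a z0 z1))) z1) (c (b z1 (d (a z0 z1) (a z0 z1))) (b z1 (d (a z0 z1) (a z0 z1))))) z2)))))) (a z0 (b (d (c (a z0 z1) (a z0 z1)) (c (a z0 z1) (a z0 z1))) (d z0 (c (a z0 (b (d z1 (c (b z1 (d z1 (a z0 z1))) z1)) z2)) z0))))) (a z0 (b (d (c (a z0 z1) (a z0 z1)) (a z0 z1)) (d (c (a z0 (b (d (c (b z1 (d (a z0 z1) (a z0 z1))) (b z1 (d (a z0 z1) (a z0 z1)))) (b (d z1 z1) (d (a z0 z1)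 (a z0 z1)))) (d (c (b (d (a z0 z3) (a z0 z3)) z2) z2) (b (d (a z0 z3) (a z0 z3)) (d z2 z2))))) (a z0 (b (d (c (b z1 (d z1 (a z0 z1))) z1) (c (b z1 (d (a z0 z1) (a z0 z1))) (b z1 (d (a z0 z1) (a z0 z1))))) z2))) (a z0 (b (d (c (b (d z1 (a (b z1 (d z1 z1)) z1)) (d (a z0 z1) (a z0 z1))) (b z1 (d (a z0 z1) (a z0 z1)))) (b (d (a (c (b z1 (d z1 z1)) z1) z1) (a (b z1 (d z1 z1)) z1)) (d (a z0 z1) (a z0 z1)))) (d (c (b (d (a z0 z3) (a z0 z3)) (d z2 z2)) z2) (b (d (a z0 z3) (a z0 z3)) (d z2 z2))))))))) (d (c (a z0 (b (d z2 z2) z2)) z2) (a z0 (b (d (c (a z2 (b (d z2 z2) z2)) z2) (a z2 (b (d z2 z2) z2))) (d z2 z2))))) _ _ (by decide +kernel)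

theorem okB590 : CKB ⟨9216, 12288, 4096, 4608⟩ ⟨0, 3072, 5120, 6144⟩ :=
  ckB_sound z3 _ _ (by decide +kernel)

theorem okB591 : CKB ⟨9216, 12288, 4608, 5120⟩ ⟨0, 3072, 5120, 5632⟩ :=
  ckB_sound (c (b (d z3 z3) (d (c (a (b (d (c (a (b z3 (d (c (a z2 z3) (a z2 z3)) (a z2 z3))) z3) (a (b z3 (d z3 (a z2 z3))) z3)) (a (c (b z3 (d (a z2 z3) (a z2 z3))) (b z3 (d (a z2 z3) (a z2 z3)))) z3)) (d (c (a z2 z3) (a z2 z3)) (a z2 z3))) z3) (a (b (d z3 (a (c (b z3 (d (a z2 z3) (a z2 z3))) (b z3 (d z3 (a z2 z3)))) z3)) (d (a z2 z3) (a z2 z3))) z3)) (a (c (b (d (a (c (b (d z3 z3) (d (a z2 z3) (a z2 z3))) (b z3 (d (a z2 z3) (a z2 z3)))) z3) (a (b (d z3 z0) (d (a z2 z3) z0)) z3)) (d (a (c (b (d (a z2 z3) (a z2 z3)) z2) z2) z3) (a (b (d (a z2 z3) z0) (d z2 z0)) z3))) (b (d (a (c (b z3 (d (a z2 z3) (a z2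 z3))) (b z3 (d (a z2 z3) (a z2 z3)))) z3) (a (c (b (d z3 (a (b z3 (d z3 z3)) z3)) (d (a z2 z3) (a z2 z3))) (b z3 (d (a z2 z3) (a z2 z3)))) z3)) (d (a z2 z3) (a (c (b (d (a z2 z3) (a z2 z3)) z2) z2) z3)))) z3))) (b z3 (d (a (c (b z3 (d (a z2 z3) (a z2 z3))) (b z3 (d (a z2 z3) (a z2 z3)))) z3) (a (c (b (d (a (c (b z3 (d (a z2 z3) (a z2 z3))) z3) z3) (a (c (b z3 (d (a z2 z3) (a z2 z3))) (b z3 (d (a z2 z3) (a z2 z3)))) z3)) (d (a z2 z3) (a z2 z3))) (b (d z3 (a (c (b z3 (d z3 (a z2 z3))) z3) z3)) (d (a z2 z3) (a z2 z3)))) z3)))) _ _ (by decide +kernel)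

theorem okB592 : CKB ⟨9216, 12288, 4608, 5120⟩ ⟨0, 3072, 5632, 6144⟩ :=
  ckB_sound (b (d (c (a (b z3 (d z3 z3)) z3) z3) (a (b z3 (d z3 z3)) z3)) (d (c (a (b (d (c (a (b (d (c (a (b z3 (d (c (a z2 z3) z3) (a z2 z3))) z3) z3) (a (c (b z3 (d (a z2 z3) (a z2 z3))) (b z3 (d z3 (a z2 z3)))) z3)) (d (c (a z2 z3) (a z2 z3)) (a z2 z3))) z3) (a (b z3 (d (a z2 z3) (a z2 z3))) z3)) (a (b (d (c (a (b z3 (d (c (a z2 z3) z3) (a z2 z3))) z3) z3) (a (c (b z3 (d (a z2 z3) (a z2 z3))) (b z3 (d (a z2 z3) (a z2 z3)))) z3)) (d (c (a z2 z3) (a z2 z3)) (a z2 z3))) z3)) (d (c (a (b (d (c (a z2 z3) (a z2 z3)) (a z2 z3)) (d z2 z2)) z3) (a (b (d (a z2 z3) (a z2 z3)) z2) z3)) (a (b (d (c (a z2 z3) (a z2 z3)) (a z2 z3)) (d (c (a z2 z3) z2) (a z2 z3))) z3))) z3) (a (b (d (a (c (b z3 (d (a z2 z3) (a z2 z3))) (b z3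 (d (a z2 z3) (a z2 z3)))) z3) (a (c (b (d z3 (a (c (b z3 (d z3 (a z2 z3))) z3) z3)) (d (a z2 z3) (a z2 z3))) (b z3 (d (a z2 z3) (a z2 z3)))) z3)) (d (a z2 z3) (a (c (b (d (a z2 z3) (a z2 z3)) z2) z2) z3))) z3)) (a (b (d (a (c (b (d (a (c (b z3 (d (a z2 z3) (a z2 z3))) (b z3 (d z3 (a z2 z3)))) z3) (a (b z3 (d (a z2 z3) (a z2 z3))) z3)) (d (a z2 z3) (a z2 z3))) (b (d z3 (a (c (b z3 (d (a z2 z3) (a z2 z3))) z3) z3)) (d (a z2 z3) (a z2 z3)))) z3) (a (b (d (a (c (b (d z3 z3) (d (a z2 z3) (a z2 z3))) (b z3 (d (a z2 z3) (a z2 z3)))) z3) (a (b (d z3 z3) (d (a z2 z3) (a z2 z3))) z3)) (d (a z2 z3) (a z2 z3))) z3)) (d (a (c (b (d (a z2 z3) (a z2 z3)) (d (a z2 z3) (a z2 (b z3 (d z3 z3))))) (b (d (a z2 z3) (a z2 z3)) z2)) z3) (a (b (d (a z2 z3) (a z2 z3)) (d (a z2 (c (b z3 (d z3 z3)) z3)) (a z2 (b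 z3 (d z3 z3))))) z3))) z3))) _ _ (by decide +kernel)

theorem okB593 : CKB ⟨6144, 9216, 5120, 6144⟩ ⟨0, 1536, 4096, 5120⟩ :=
  ckB_sound z2 _ _ (by decide +kernel)

theorem okB594 : CKB ⟨9216, 12288, 5120, 5632⟩ ⟨0, 1536, 4096, 5120⟩ :=
  ckB_sound (d (c (b (d (a z2 z3) (a (c (b (d (a z2 z3) (a z2 z3)) z2) (b (d (a z2 z3) (a z2 z3)) z2)) z3)) (d (a z2 z3) (a z2 z3))) (b (d (a z2 z3) (a (c (b (d (a z2 z3) (a z2 z3)) z2) z2) z3)) (d (a z2 z3) (a z2 z3)))) (c (b (d (a (c (b (d (a z2 z3) (a z2 z3)) (d (a z2 z3) (a z2 z3))) (b (d (a z2 z3) (a z2 z3)) (d z2 (a z2 z3)))) z3) (a (b (d (a z2 z3) (a z2 z3)) (d (a z2 z3) (a z2 z3))) z3)) (d (a z2 z3) (a (b (d z2 (a z2 (b (d (c (a z2 z3) (a z2 z3)) (a z2 z3)) z2))) z2) z3))) (b (d (a (c (b (d (a z2 z3) (a z2 z3)) z2) (b (d (a z2 z3) (a z2 z3)) z2))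 z3) (a (c (b (d (a z2 z3) (a z2 z3)) (d (a z2 z3) (a z2 z3))) (b (d (a z2 z3) (a z2 z3)) (d (a z2 z3) (a z2 z3)))) z3)) (d (a z2 z3) (a z2 z3))))) _ _ (by decide +kernel)

theorem okB595 : CKB ⟨9216, 12288, 5632, 6144⟩ ⟨0, 1536, 4096, 4608⟩ :=
  ckB_sound (c (b (d (a z2 z3) (a z2 (c (b z3 (d (a (c (b z3 (d z3 (a z2 z3))) z3) z3) (a (c (b z3 (d (a z2 z3) (a z2 z3))) (b z3 (d (a z2 z3) (a z2 z3)))) z3))) (b z3 (d z3 (a (c (b z3 (d z3 (a z2 z3))) z3) z3)))))) (d (a z2 (c (b (d (a z2 z3) (a z2 z3)) (d z2 z2)) (b (d (a z2 z3) (a z2 z3)) z2))) (a z2 (c (b (d (a z2 z3) (a z2 z3)) (d (a z2 z3) (a z2 z3))) (b (d (a z2 z3) (a z2 z3)) (d z2 (a z2 z3))))))) (b (d (a z2 z3) (a z2 z3)) (d (a z2 (c (b (d (a z2 z3) (a z2 z3)) z2) (b (d (a z2 z3) (a z2 z3)) z2))) (a z2 (c (b (d (a z2 z3) (a z2 z3)) z2)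 (b (d (a z2 z3) (a z2 z3)) z2)))))) _ _ (by decide +kernel)

theorem okB596 : CKB ⟨9216, 12288, 5632, 6144⟩ ⟨0, 1536, 4608, 5120⟩ :=
  ckB_sound (c (b (d (a z2 (c (b z3 (d (a (c (b z3 (d (a z2 z3) (a z2 z3))) (b z3 (d (a z2 z3) (a z2 z3)))) z3) (a (b (d z3 (a z2 z3)) (d (c (a z2 z3) (a z2 z3)) (a z2 z3))) z3))) (b z3 (d (a (c (b z3 (d (a z2 z3) (a z2 z3))) (b z3 (d (a z2 z3) (a z2 z3)))) z3) (a (c (b z3 (d (a z2 z3) (a z2 z3))) (b z3 (d (a z2 z3) (a z2 z3)))) z3))))) (a z2 (b (d z3 z3) (d (a (c (b (d (a z2 z3) (a z2 z3)) (d (a z2 z3) (a z2 z3))) (b (d z3 (a z2 z3)) (d (a z2 z3) (a z2 z3)))) z3) (a (b (d (c (a z2 z3) (a z2 z3)) (a z2 z3)) (d (c (a z2 z3) (a z2 z3)) (a z2 z3))) z3))))) (d (a z2 (c (b (d (a z2 z3) (a z2 z3)) (d (a z2 z3) (a z2 z3))) (b (d (a z2 z3) (a z2 z3)) (d (a z2 z3)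 (a z2 z3))))) (a z2 (b (d (a z2 z3) (a z2 z3)) (d (a z2 (c (b z3 (d z3 (a (b z3 (d z3 z3)) z3))) z3)) (a z2 (b z3 (d (c (a (b z3 (d (c (a z2 z3) z3) (a z2 z3))) z3) z3) (a (c (b z3 (d (a z2 z3) (a z2 z3))) (b z3 (d z3 (a z2 z3)))) z3))))))))) (b (d (a z2 (c (b z3 (d (a (c (b z3 (d z3 (a z2 z3))) z3) z3) (a (c (b z3 (d (a z2 z3) (a z2 z3))) (b z3 (d (a z2 z3) (a z2 z3)))) z3))) (b z3 (d z3 (a (c (b z3 (d z3 (a z2 z3))) z3) z3))))) (a z2 (c (b z3 (d (a (c (b z3 (d (a z2 z3) (a z2 z3))) (b z3 (d (a z2 z3) (a z2 z3)))) z3) (a (c (b (d (a z2 z3) (a z2 z3)) (d (a z2 z3) (a z2 z3))) (b (d z3 (a z2 z3)) (d (a z2 z3) (a z2 z3)))) z3))) (b z3 (d (a (c (b z3 (d (a z2 z3) (a z2 z3))) (b z3 (d (a z2 z3) (a z2 z3)))) z3) (a (c (b z3 (d (a z2 z3) (a z2 z3))) (b z3 (d (a z2 z3) (a z2 z3)))) z3))))))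 (d (a z2 (c (b (d (a z2 z3) (a z2 z3)) (d (a z2 z3) (a z2 z3))) (b (d (a z2 z3) (a z2 z3)) (d z2 (a z2 z3))))) (a z2 (c (b (d (a z2 z3) (a z2 z3)) (d (a z2 z3) (a z2 z3))) (b (d (a z2 z3) (a z2 z3)) (d (a z2 z3) (a z2 z3)))))))) _ _ (by decide +kernel)

theorem okB597 : CKB ⟨6144, 12288, 5120, 6144⟩ ⟨1536, 3072, 4096, 5120⟩ :=
  ckB_sound (a z2 (b (d (c (b (d (a z2 z3) (a z2 z3)) (d (a z2 z3) (a z2 z3))) (b (d (a z2 z3) (a z2 z3)) (d (a z2 z3) (a z2 z3)))) (c (b (d (a (c (b (d (a z2 z3) (a z2 z3)) z2) z2) z3) (a (c (b (d (a z2 z3) (a z2 z3)) (d z2 (a z2 z3))) (b (d (a z2 z3) (a z2 z3)) z2)) z3)) (d (a z2 z3) (a z2 z3))) (b (d (a z2 z3) (a (b (d (c (a z2 z3) (a z2 z3)) (c (a z2 z3) (a z2 z3))) z2) z3)) (d (a z2 z3) (a z2 z3))))) (d (c (b (d (a z2 z3) (a z2 z3)) (d z2 (a z2 (c (b (d (a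 z2 z3) (a z2 z3)) z2) (b (d (a z2 z3) (a z2 z3)) z2))))) (b (d (a z2 z3) (a z2 z3)) z2)) (c (b (d (a z2 z3) (a z2 (c (b z3 (d (a (c (b z3 (d (a z2 z3) (a z2 z3))) (b z3 (d z3 (a z2 z3)))) z3) (a (c (b z3 (d (a z2 z3) (a z2 z3))) (b z3 (d (a z2 z3) (a z2 z3)))) z3))) (b z3 (d z3 (a (c (b z3 (d (a z2 z3) (a z2 z3))) (b z3 (d z3 (a z2 z3)))) z3)))))) (d (a z2 (c (b (d (a z2 z3) (a z2 z3)) z2) (b (d (a z2 z3) (a z2 z3)) z2))) (a z2 (c (b (d (a z2 z3) (a z2 z3)) (d (a z2 z3) (a z2 z3))) (b (d (a z2 z3) (a z2 z3)) (d z2 (a z2 z3))))))) (b (d (a z2 z3) (a z2 z3)) (d (a z2 (b (d (c (a z2 z3) (a z2 z3)) (c (a z2 z3) (a z2 z3))) z2)) (a z2 (b (d (c (a z2 z3) (a z2 z3)) (c (a z2 z3) (a z2 z3))) z2)))))))) _ _ (by decide +kernel)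

theorem okB598 : CKB ⟨6144, 9216, 5120, 6144⟩ ⟨0, 3072, 5120, 6144⟩ :=
  ckB_sound (b (d z2 z2) (d z2 z2)) _ _ (by decide +kernel)

theorem okB599 : CKB ⟨9216, 12288, 5120, 5632⟩ ⟨0, 3072, 5120, 5632⟩ :=
  ckB_sound (c (b (d (c (a (b (d (c (a z2 z3) (a z2 z3)) (a z2 z3)) (d (c (a z2 z3) (a z2 z3)) (a z2 (c (b z3 (d z3 (a (b z3 (d z3 z3)) z3))) z3)))) z3) (a (b (d (a z2 z3) (a z2 z3)) (d (a z2 z3) (a z2 z3))) z3)) (a (c (b (d (a z2 z3) (a z2 z3)) (d (a z2 (c (b z3 (d (a (c (b z3 (d z3 (a z2 z3))) z3) z3) (a (b z3 (d (a z2 z3) z0)) z3))) (b z3 (d z3 (a (c (b z3 (d z3 (a z2 z3))) (b z3 (d z3 (a z2 z3)))) z3))))) (a z2 (b z3 (d (a (b z3 (d (a z2 z3) (a z2 z3))) z3) z0))))) (b (d (a z2 z3) (a z2 z3)) (d (a z2 z3) (a z2 (c (b z3 (d (a (c (b z3 (d (a z2 z3) (a z2 z3))) (b z3 (d z3 (a z2 z3))))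 z3) (a (b z3 (d (a z2 z3) (a z2 z3))) z3))) (b z3 (d z3 (a (b z3 (d (c (a z2 z3) z3) (c (a z2 z3) (a z2 z3)))) z3)))))))) z3)) (d (c (a (b (d (c (a z2 (b (d (c (a z2 z3) (a z2 z3)) (a z2 z3)) (d z2 z2))) (a z2 (b (d (c (a z2 z3) (a z2 z3)) (c (a z2 z3) (a z2 z3))) z2))) (a z2 (c (b (d (a z2 z3) (a z2 z3)) (d (a z2 z3) (a z2 z3))) (b (d (a z2 z3) (a z2 z3)) (d z2 (a z2 z3)))))) (d z2 z2)) z3) (a (b (d z2 (a z2 (c (b (d (a z2 z3) (a z2 z3)) z2) (b (d (a z2 z3) (a z2 z3)) z2)))) z2) z3)) (a (c (b (d (a z2 (c (b (d (a z2 z3) (a z2 z3)) (d (a z2 z3) (a z2 z3))) (b (d (a z2 z3) (a z2 z3)) (d (a z2 z3) (a z2 z3))))) (a z2 (b (d (a z2 z3) z0) (d (a z2 z3) z0)))) (d (a z2 (c (b (d z2 z2) z2) z2)) (a z2 (b (d (a z2 (b z3 (d (a z2 z3) (a z2 z3)))) z0) z2)))) (b (d (a z2 (c (b (d (a z2 z3) (a z2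 z3)) (d z2 (a z2 z3))) (b (d (a z2 z3) (a z2 z3)) z2))) (a z2 (c (b (d (a z2 z3) (a z2 z3)) (d (a z2 z3) (a z2 z3))) (b (d (a z2 z3) (a z2 z3)) (d (a z2 z3) (a z2 z3)))))) (d z2 (a z2 (c (b (d z2 (a z2 (b z3 (d (c (a z2 z3) (a z2 z3)) (a z2 z3))))) z2) z2))))) z3))) (b (d (a (c (b (d (a z2 z3) (a z2 z3)) (d (a z2 z3) (a z2 z3))) (b (d (a z2 z3) (a z2 z3)) z2)) z3) (a (c (b (d (a z2 z3) (a z2 z3)) (d (a z2 z3) (a z2 z3))) (b (d (a z2 z3) (a z2 z3)) (d (a z2 z3) (a z2 z3)))) z3)) (d (a z2 z3) (a (c (b (d (a z2 (c (b (d (a z2 z3) (a z2 z3)) z2) (b (d (a z2 z3) (a z2 z3)) z2))) (a z2 (c (b (d (a z2 z3) (a z2 z3)) (d z2 (a z2 z3))) (b (d (a z2 z3) (a z2 z3)) z2)))) z2) z2) z3)))) _ _ (by decide +kernel)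

end Vale.Agent.Lib.P154Q5
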