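import Vale.Agent.Lib.P154Q5.CkBDefs

namespace Vale.Agent.Lib.P154Q5

set_option maxRecDepth 100000
set_option exponentiation.threshold 1000

open Tr

theorem okB60 : CKB ⟨4097, 6145, 1024, 1536⟩ ⟨0, 6144, 6656, 7168⟩ :=
  ckB_sound (b z0 (d (a (c (b (d (c (b z0 z0) (b z0 z0)) (b z0 z0)) z0) (b (d (c (b z0 z0) z0) (c (b z0 z0) (b z0 z0))) z0)) (c (b (d (c (a (b z0 (d (c (a z1 z0) (a z1 z0)) (a z1 z0))) z0) (a (b z0 (d z1 (c (a z1 z0) (a z1 z0)))) z0)) (a (b z0 (d (a z1 z0) z0)) z0)) (d (c (a (b (d (c (a (b z1 (d z1 z1)) z0) z1) (a (b z1 (d z1 z0)) z0)) (d (c (a z0 z1) (a z0 z1)) (a z0 z1))) z0) (a (b (d z1 (c (a (b z1 (d z1 (a z0 z1))) z0) z1)) (d (c (a z0 z1) (a z0 z1)) (c (a z0 z1) (a z0 z1)))) z0)) (a (b (d (a (b z1 (d (c (a z0 z1) z1) (a z0 z1))) z0) z0) (d (a z0 z1) z0)) z0)))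 (b (d (c (a (b z0 z1) z0) (a (b z0 z1) z0)) (c (a (b z0 (d (c (a z1 z0) (a z1 z0)) (a z1 z0))) z0) (a (b z0 (d z1 (a z1 z0))) z0))) (d (c (a (b z1 (d (c (a z0 z1) (a z0 z1)) (c (a z0 z1) (a z0 z1)))) z0) (a (b z1 (d (a z0 z1) (a z0 z1))) z0)) (c (a (b (d (c (a (b z1 (d z1 (c (a z0 z1) z1))) z0) z1) (a (b z1 (d (c (a z0 z1) z1) (a z0 z1))) z0)) (d (c (a z0 z1) (a z0 z1)) (a z0 z1))) z0) (a (b z1 (d (a z0 z1) (a z0 z1))) z0)))))) (a (b (d (b z0 (d z0 z0)) z0) (d z0 z0)) (b (d (a (b z0 (d (a (c (b (d z1 z1) z1) z1) z0) (a (b (d z1 z0) z1) z0))) z0) z0) (d (a (b (d (a (c (b (d z1 z1) (d (a z0 z1) (a z0 z1))) (b z1 (d (a z0 z1) (a z0 z1)))) z0) (a (b (d z1 z0) (d (a z0 z1) z0)) z0)) (d (a z0 z1) (a z0 z1))) z0) z0))))) _ _ (by decide +kernel)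

theorem okB61 : CKB ⟨4097, 6145, 1536, 2048⟩ ⟨0, 6144, 6144, 6656⟩ :=
  ckB_sound (c (a z0 (b (d (c (b (d (a z0 z1) (a z0 z1)) (d (a z0 (c (b (d z1 z1) (d (c (a z0 z1) (a z0 z1)) (a z0 z1))) (b z1 (d (a z0 z1) (a z0 z1))))) (a z0 (b (d z1 (a (b z1 (d z1 z1)) z1)) (d (a z0 z1) (a z0 z1)))))) (b (d (a z0 z1) (a z0 z1)) (d (a z0 (c (b z1 (d (a z0 z1) (a z0 z1))) (b z1 (d (a z0 z1) (a z0 z1))))) (a z0 (c (b z1 (d (a z0 z1) (a z0 z1))) (b z1 (d (a z0 z1) (a z0 z1)))))))) (b (d (a z0 z1) (a z0 z1)) (d (a z0 (c (b (d (a (c (b z1 (d z1 (a z0 z1))) z1) z1) (a (b z1 (d (a z0 z1) (a z0 z1))) z1)) (d (a z0 z1) (a z0 z1))) (b (d z1 (a (c (b z1 (d z1 (a z0 z1))) z1) z1)) (d (a z0 z1) (a z0 z1))))) (a z0 (b (d (a (c (b z1 (d (a z0 z1) (a z0 z1))) (b z1 (d z1 (a z0 z1)))) z1) (a (b z1 (d (a z0 z1)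 z0)) z1)) (d (a z0 z1) (a z0 z1))))))) (d (c (b (d (a z0 (c (b (d (c (a z0 z1) (a z0 z1)) (a z0 z1)) (d (c (a z0 z1) (a z0 z1)) (a z0 z1))) (b (d (a z0 z1) (a z0 z1)) (d (a z0 z1) (a z0 z1))))) (a z0 (b (d (a z0 z1) (a z0 z1)) (d (a z0 z1) (a z0 z1))))) z0) z0) (b (d (a z0 (c (b (d (a z0 z1) (a z0 z1)) (d (a z0 z1) (a z0 z1))) (b (d (a z0 z1) (a z0 z1)) (d (a z0 z1) (a z0 z1))))) (a z0 (b (d (a z0 z1) (a z0 z1)) (d (a z0 z1) (a z0 z1))))) (d z0 z0))))) (a z0 (b (d (c (b (d (a z0 z1) (a z0 z1)) (d (a z0 (c (b z1 (d z1 (a z0 z1))) z1)) (a z0 (c (b z1 (d (a z0 z1) (a z0 z1))) (b z1 (d (a z0 z1) (a z0 z1))))))) (b (d (a z0 z1) (a z0 z1)) z0)) (c (b (d (a z0 z1) (a z0 z1)) (d (a z0 (c (b z1 (d (a z0 z1) (a z0 z1))) (b z1 (d (a z0 z1) (a z0 z1))))) (a z0 (c (b (d (a (c (b z1 (d z1 (a z0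 z1))) z1) z1) (a (c (b z1 (d (a z0 z1) (a z0 z1))) (b z1 (d (a z0 z1) (a z0 z1)))) z1)) (d (a z0 z1) (a z0 z1))) (b (d z1 (a (c (b z1 (d z1 (a z0 z1))) z1) z1)) (d (a z0 z1) (a z0 z1))))))) (b (d (a z0 z1) (a z0 z1)) (d (a z0 (c (b z1 (d (a z0 z1) (a z0 z1))) (b z1 (d (a z0 z1) (a z0 z1))))) (a z0 (c (b z1 (d (a z0 z1) (a z0 z1))) (b z1 (d (a z0 z1) (a z0 z1))))))))) (d z0 (c (b (d z0 (a z0 (c (b (d (a z0 z1) (a z0 z1)) (d (a z0 z1) (a z0 z1))) (b (d (a z0 z1) (a z0 z1)) (d (a z0 z1) (a z0 z1)))))) z0) z0))))) _ _ (by decide +kernel)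

theorem okB62 : CKB ⟨4097, 6145, 1536, 2048⟩ ⟨0, 6144, 6656, 7168⟩ :=
  ckB_sound (a z0 (b (d (c (b (d (a z0 z1) (a z0 (b z1 (d z1 z0)))) (d (a z0 (c (b (d (a (c (b (d z1 z1) (d (a z0 z1) (a z0 z1))) (b z1 (d (a z0 z1) (a z0 z1)))) z1) (a (b (d z1 z0) (d (a z0 z1) z0)) z1)) (d (a z0 z1) (a z0 z1))) (b (d (a (c (b z1 (d (a z0 z1) (a z0 z1))) (b z1 (d z1 (a z0 z1)))) z1) (a (c (b (d z1 z1) (d (a z0 z1) (a z0 z1))) (b z1 (d (a z0 z1) (a z0 z1)))) z1)) (d (a z0 z1) (a z0 z1))))) (a z0 (b (d (a (b (d (a z0 z1) (a z0 z1)) (d (a z0 z1) (a z0 z1))) z1) z0) (d (a z0 z1) z0))))) (b (d (a z0 z1) (a z0 z1)) (d (a z0 (c (b (d z1 (a (c (b z1 (d (a z0 z1) (a z0 z1))) (b z1 (d z1 (a z0 z1)))) z1)) (d (a z0 z1) (a z0 z1))) (b z1 (d (a z0 z1) (a z0 z1))))) (a z0 (c (b (d (a (c (b z1 (d (a z0 z1) (a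 z0 z1))) (b z1 (d (a z0 z1) (a z0 z1)))) z1) (a (b (d (c (a z0 z1) z1) (a z0 z1)) (d (c (a z0 z1) (a z0 z1)) (a z0 z1))) z1)) (d (a z0 z1) (a z0 z1))) (b (d (a (c (b z1 (d (a z0 z1) (a z0 z1))) (b z1 (d (a z0 z1) (a z0 z1)))) z1) (a (c (b z1 (d (a z0 z1) (a z0 z1))) (b z1 (d (a z0 z1) (a z0 z1)))) z1)) (d (a z0 z1) (a z0 z1)))))))) (b (d (a z0 (b z1 (d z1 z1))) z0) (d (a z0 (b (d (a (c (b (d (a z0 z1) (a z0 z1)) (d (a z0 z1) (a z0 z1))) (b (d z1 (a z0 z1)) (d (a z0 z1) (a z0 z1)))) z1) (a (b (d (a z0 z1) z0) (d (a z0 z1) z0)) z1)) (d (a z0 z1) (a z0 z1)))) z0))) (d (c (b (d (a z0 (c (b (d (a z0 z1) (a z0 z1)) (d (a z0 z1) (a z0 z1))) (b (d (a z0 z1) (a z0 z1)) (d (a z0 z1) (a z0 z1))))) (a z0 (b (d (a z0 z1) z0) (d (a z0 z1) z0)))) (d z0 (a z0 (b (d z0 z0) z0)))) (b (d z0 (a z0 (c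 (b (d (a z0 z1) (a z0 z1)) (d (a z0 z1) (a z0 z1))) (b (d (a z0 z1) (a z0 z1)) (d (a z0 z1) (a z0 z1)))))) z0)) (b (d (a z0 (b (d (a z0 z1) (a z0 z1)) (d (a z0 z1) (a z0 z1)))) z0) (d (a z0 (b (d z0 z0) z0)) z0))))) _ _ (by decide +kernel)

theorem okB63 : CKB ⟨6145, 8193, 1024, 2048⟩ ⟨0, 6144, 6144, 7168⟩ :=
  ckB_sound (b z0 (d (c (b z0 (d (c (a z1 z0) (a z1 z0)) (a z1 z0))) (b z0 (d (a z1 z0) (a z1 z0)))) (b z0 (d (a z1 z0) z1)))) _ _ (by decide +kernel)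

theorem okB64 : CKB ⟨4097, 8193, 1024, 2048⟩ ⟨0, 6144, 7168, 8192⟩ :=
  ckB_sound z0 _ _ (by decide +kernel)

theorem okB65 : CKB ⟨4097, 8193, 2048, 3072⟩ ⟨0, 3072, 4096, 5120⟩ :=
  ckB_sound (c (a z0 (b (d z1 (c (b z1 (d z1 (a (b z1 (d (a z0 z1) (a z0 z1))) z1))) (b z1 (d z1 (a (c (b z1 (d z1 (a z0 z1))) (b z1 (d z1 (a z0 z1)))) z1))))) (d (c (b (d (a (c (b (d z1 (a z0 z1)) z0) (b (d z1 (a z0 z1)) z0)) z1) (a (c (b (d (a z0 z1) (a z0 z1)) z0) (b (d (a z0 z1) (a z0 z1)) z0)) z1)) (d (a z0 z1) (a z0 z1))) (b (d (a (c (b z1 z0) (b z1 z0)) z1) (a (c (b (d (a z0 z1) (a z0 z1)) z0) (b (d (a z0 z1) (a z0 z1)) z0)) z1)) (d (a z0 z1) (a z0 z1)))) (c (b (d (a (c (b (d (a z0 z1) (a z0 z1)) z0) (b (d (a z0 z1) (a z0 z1)) z0)) z1) (a (b (d (a z0 z1) (a z0 z1)) z0) z1)) (d (a z0 z1) (a z0 z1)))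 (b (d (a (c (b (d (a z0 z1) (a z0 z1)) z0) (b (d (a z0 z1) (a z0 z1)) z0)) z1) (a (c (b (d (a z0 z1) (a z0 z1)) z0) (b (d (a z0 z1) (a z0 z1)) z0)) z1)) (d (a z0 z1) (a z0 z1))))))) (a z0 (b (d z1 (c (b z1 (d z1 (a (c (b z1 (d z1 (a z0 z1))) z1) z1))) z1)) (d (c (b (d (a (c (b z1 z0) (b z1 z0)) z1) (a (c (b (d (a z0 z1) (a z0 z1)) z0) (b (d z1 (a z0 z1)) z0)) z1)) (d (a z0 z1) (a z0 z1))) (b (d (a (b z1 z0) z1) (a (b (d z1 (c (a z0 z1) (a z0 z1))) z0) z1)) (d (a z0 z1) (a z0 z1)))) (c (b (d (a (c (b (d (a z0 z1) (a z0 z1)) z0) (b (d (a z0 z1) (a z0 z1)) z0)) z1) (a (c (b (d (a z0 z1) (a z0 z1)) z0) (b (d (a z0 z1) (a z0 z1)) z0)) z1)) (d (a z0 z1) (a z0 z1))) (b (d (a (b (d (c (a z0 z1) (a z0 z1)) (c (a z0 z1) (a z0 z1))) z0) z1) (a (b (d (c (a z0 z1) (a z0 z1)) (c (a z0 z1) (a z0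 z1))) z0) z1)) (d (a z0 z1) (a z0 z1)))))))) _ _ (by decide +kernel)

theorem okB66 : CKB ⟨4097, 8193, 2048, 3072⟩ ⟨0, 3072, 5120, 6144⟩ :=
  ckB_sound (a z0 (b (d (c (b z1 (d (c (a (b z1 (d (c (a z0 z1) (a z0 z1)) (a z0 z1))) z1) (a (b z1 (d (c (a z0 z1) (a z0 z1)) (c (a z0 z1) (a z0 z1)))) z1)) (a (c (b (d z1 z1) (d (a z0 z1) (a z0 z1))) (b z1 (d (a z0 z1) (a z0 z1)))) z1))) (b z1 (d (a (c (b z1 (d (a z0 z1) (a z0 z1))) (b z1 (d (a z0 z1) (a z0 z1)))) z1) (a (c (b z1 (d (a z0 z1) (a z0 z1))) (b z1 (d (a z0 z1) (a z0 z1)))) z1)))) (b z1 (d (c (a (b (d (c (a (b z1 (d z1 z1)) z1) z1) (a (b z1 (d (c (a z0 z1) z1) (a z0 z1))) z1)) (d (c (a z0 z1) (a z0 z1)) (a z0 z1))) z1) (a (b z1 (d (c (a z0 z1) (a z0 z1)) (c (a z0 z1) (a z0 z1)))) z1)) (a (b (d (c (a (b z1 (d (c (a z0 z1) (a z0 z1))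 (a z0 z1))) z1) (a (b z1 (d (c (a z0 z1) z1) (c (a z0 z1) (a z0 z1)))) z1)) (a (b z1 (d (c (a z0 z1) (a z0 z1)) (a z0 z1))) z1)) (d (c (a z0 z1) (a z0 z1)) (a z0 z1))) z1)))) (d (c (b (d (c (a (b (d (c (a z0 z1) (a z0 z1)) (a z0 z1)) z0) z1) (a (b (d (c (a z0 z1) (a z0 z1)) (c (a z0 z1) (a z0 z1))) z0) z1)) (a (c (b (d (a z0 z1) (a z0 z1)) (d z0 (a z0 z1))) (b (d (a z0 z1) (a z0 z1)) z0)) z1)) (d (c (a z0 z1) (a z0 z1)) (a z0 z1))) (b (d (a (c (b (d (a z0 z1) (a z0 z1)) z0) (b (d (a z0 z1) (a z0 z1)) z0)) z1) (a (c (b (d (a z0 z1) (a z0 z1)) z0) (b (d (a z0 z1) (a z0 z1)) z0)) z1)) (d (a z0 z1) (a z0 z1)))) (b (d (c (a (b (d (c (a z0 z1) (a z0 z1)) (a z0 z1)) (d (c (a z0 z1) (a z0 z1)) (a z0 z1))) z1) (a (b (d (c (a z0 z1) (a z0 z1)) (c (a z0 z1) (a z0 z1))) (d z0 (c (a z0 z1) z0)))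 z1)) (a (b (d (c (a z0 z1) (a z0 z1)) (a z0 z1)) (d (c (a z0 z1) (a z0 z1)) (a z0 z1))) z1)) (d (c (a z0 z1) (a z0 z1)) (a (b (d z0 z0) z0) z1)))))) _ _ (by decide +kernel)

theorem okB67 : CKB ⟨4097, 8193, 3072, 4096⟩ ⟨0, 3072, 4096, 6144⟩ :=
  ckB_sound (d (c (a z0 (b (d (c (b (d (a z0 z1) (a z0 z1)) z0) (b (d (a z0 z1) (a z0 z1)) z0)) (c (b (d (a z0 z1) (a z0 z1)) (d (a z0 (c (b z1 (d z1 (a z0 z1))) z1)) (a z0 (b z1 (d (c (a z0 z1) (a z0 z1)) (a z0 z1)))))) (b (d (a z0 z1) (a z0 z1)) (d (a z0 z1) (a z0 (c (b z1 (d (a z0 z1) (a z0 z1))) (b z1 (d z1 (a z0 z1))))))))) z0)) (a z0 (b (d (c (b (d (a z0 z1) (a z0 z1)) z0) (b (d (a z0 z1) (a z0 z1)) z0)) (c (b (d (a z0 z1) (a z0 z1)) (d z0 (a z0 (c (b z1 (d z1 (a z0 z1))) z1)))) (b (d (a z0 z1) (a z0 z1)) (d z0 (a z0 z1))))) z0))) (a z0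 (b (d (c (b (d (c (a z0 z1) (a z0 z1)) (a z0 z1)) (d (c (a z0 (b z1 (d (c (a z0 z1) (a z0 z1)) (a z0 z1)))) (a z0 (b z1 (d (c (a z0 z1) (a z0 z1)) (c (a z0 z1) (a z0 z1)))))) (a z0 (c (b (d z1 z1) (d (a z0 z1) (a z0 z1))) (b z1 (d (a z0 z1) (a z0 z1))))))) (b (d (a z0 z1) (a z0 z1)) (d (a z0 (c (b z1 (d (c (a z0 z1) (a z0 z1)) (c (a z0 z1) (a z0 z1)))) (b z1 (d z1 (a z0 z1))))) (a z0 (c (b z1 (d (c (a z0 z1) (a z0 z1)) (c (a z0 z1) (a z0 z1)))) (b z1 (d (a z0 z1) (a z0 z1)))))))) (b (d (c (a z0 z1) (a z0 z1)) (a z0 z1)) (d (c (a z0 (b (d (c (a (b z1 (d z1 (a z0 z1))) z1) z1) (a (b z1 (d (c (a z0 z1) z1) (a z0 z1))) z1)) (d (c (a z0 z1) (a z0 z1)) (a z0 z1)))) (a z0 (b z1 (d (c (a z0 z1) (a z0 z1)) (c (a z0 z1) (a z0 z1)))))) (a z0 (b (d (c (a (b z1 (d (c (a z0 z1) (a z0 z1)) (a z0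 z1))) z1) (a (b z1 (d z1 (c (a z0 z1) (a z0 z1)))) z1)) (a (b z1 (d (c (a z0 z1) (a z0 z1)) (a z0 z1))) z1)) (d (c (a z0 z1) (a z0 z1)) (a z0 z1))))))) (d (c (b (d (c (a z0 (b (d (c (a z0 z1) (a z0 z1)) (a z0 z1)) z0)) z0) (a z0 (c (b (d (a z0 z1) (a z0 z1)) z0) (b (d (a z0 z1) (a z0 z1)) z0)))) z0) (b (d z0 (a z0 (c (b (d (c (a z0 z1) (a z0 z1)) (c (a z0 z1) (a z0 z1))) z0) z0))) z0)) (b (d (c (a z0 (b (d (c (a z0 z1) (a z0 z1)) (a z0 z1)) (d z0 z0))) (a z0 (b (d (c (a z0 z1) (a z0 z1)) (c (a z0 z1) (a z0 z1))) z0))) (a z0 (b (d (c (a z0 z1) (a z0 z1)) (a z0 z1)) (d (c (a z0 (b z1 (d z1 z1))) z0) (a z0 (b z1 (d z1 z1))))))) (d z0 z0)))))) _ _ (by decide +kernel)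

theorem okB68 : CKB ⟨4097, 8193, 2048, 3072⟩ ⟨3072, 6144, 4096, 5120⟩ :=
  ckB_sound (a z0 (b z1 (d (c (b (d (c (a (b z1 z0) z1) (a (b z1 z0) z1)) (c (a (b (d z1 (c (a z0 z1) z1)) z0) z1) (a (b z1 z0) z1))) (d (c (a z0 z1) (a z0 z1)) (c (a z0 z1) (a z0 z1)))) (b (d (a (c (b z1 z0) (b z1 z0)) z1) (a (c (b z1 z0) (b z1 z0)) z1)) (d (a z0 z1) (a z0 z1)))) (c (b (d (c (a (b (d (c (a z0 z1) (a z0 z1)) (c (a z0 z1) (a z0 z1))) z0) z1) (a (b (d (a z0 z1) (a z0 z1)) z0) z1)) (c (a (b (d (c (a z0 z1) (a z0 z1)) (c (a z0 z1) (a z0 z1))) z0) z1) (a (b (d (a z0 z1) (a z0 z1)) z0) z1))) (d (c (a z0 z1) (a z0 z1)) (c (a z0 z1) (a z0 z1)))) (b (d (a (c (b (d (a z0 z1) (a z0 z1)) z0) (b (d (a z0 z1) (a z0 z1)) z0)) z1) (a (c (b (d (a z0 z1) (a z0 z1)) z0) (b (d (a z0 z1) (a z0 z1)) z0)) z1)) (d (a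 z0 z1) (a z0 z1))))))) _ _ (by decide +kernel)

theorem okB69 : CKB ⟨4097, 8193, 2048, 3072⟩ ⟨3072, 6144, 5120, 6144⟩ :=
  ckB_sound (a z0 (b (d (c (b z1 (d (c (a (b z1 (d z1 (c (a z0 z1) (a z0 z1)))) z1) z1) (c (a (b z1 (d (c (a z0 z1) (a z0 z1)) (c (a z0 z1) (a z0 z1)))) z1) (a (b z1 (d (a z0 z1) (a z0 z1))) z1)))) (b z1 (d z1 (a (c (b z1 (d z1 (a z0 z1))) z9) z1)))) (c (b z1 (d (c (a (b z1 (d (c (a z0 z1) (a z0 z1)) (c (a z0 z1) (a z0 z1)))) z1) (a (b z1 (d (a z0 z1) (a z0 z1))) z1)) (c (a (b (d (c (a (b z1 (d z1 (c (a z0 z1) z1))) z1) z1) (c (a (b z1 (d (c (a z0 z1) (a z0 z1)) (c (a z0 z1) (a z0 z1)))) z1) (a (b z1 (d (c (a z0 z1) z1) (c (a z0 z1) (a z0 z1)))) z1))) (d (c (a z0 z1) (a z0 z1)) (c (a z0 z1) (a z0 z1)))) z1) (a (b (d z1 (a (c (b z1 (d z1 (a z0 z1))) z1) z1)) (d (a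 z0 z1) (a z0 z1))) z1)))) (b z1 (d (a (c (b z1 (d (a z0 z1) (a z0 z1))) (b z9 (d (a z8 z9) (a z8 z9)))) z1) (a (c (b z1 (d (a z0 z1) (a z0 z1))) (b z9 (d (a z8 z9) (a z8 z9)))) z1))))) (d (c (b (d (c (a (b (d (c (a z0 z1) (a z0 z1)) (c (a z0 z1) (a z0 z1))) z0) z1) (a (b (d (a z0 z1) (a z0 z1)) z0) z1)) (c (a (b (d (c (a z0 z1) (a z0 z1)) (c (a z0 z1) (a z0 z1))) z0) z1) (a (b (d (a z0 z1) (a z0 z1)) z0) z1))) (d (c (a z0 z1) (a z0 z1)) (c (a z0 z1) (a z0 z1)))) (b (d (a (c (b (d (a z0 z1) (a z0 z1)) z0) (b (d (a z0 z1) (a z0 z1)) z0)) z1) (a (c (b (d (a z0 z1) (a z0 z1)) z0) (b (d (a z8 z9) (a z8 z9)) z8)) z1)) (d (a z0 z1) (a z0 z1)))) (c (b (d (c (a (b (d (c (a z0 z1) (a z0 z1)) (c (a z0 z1) (a z0 z1))) z0) z1) (a (b (d (a z0 z1) (a z0 z1)) z0) z1)) (c (a (b (d (c (a z0 z1) (a z0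 z1)) (c (a z0 z1) (a z0 z1))) (d (c (a z0 z1) z0) (c (a z0 z1) (a z0 z1)))) z1) (a (b (d (a z0 z1) (a z0 z1)) z0) z1))) (d (c (a z0 z1) (a z0 z1)) (c (a z0 z1) (a z0 z1)))) (b (d (a (c (b (d (a z0 z1) (a z0 z1)) z0) (b (d (a z8 z9) (a z8 z9)) z8)) z1) (a (c (b (d (a z0 z1) (a z0 z1)) z0) (b (d (a z8 z9) (a z8 z9)) z8)) z1)) (d (a z0 z1) (a z0 z1))))))) _ _ (by decide +kernel)

theorem okB70 : CKB ⟨4097, 8193, 3072, 4096⟩ ⟨3072, 6144, 4096, 6144⟩ :=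
  ckB_sound (d (a z0 (b (d (c (b (d z0 (c (a z0 z1) z0)) z0) (b (d (a z0 z1) (a z0 z1)) z0)) (c (b (d (c (a z0 z1) (a z0 z1)) (c (a z0 z1) (a z0 z1))) z0) (b (d (a z0 z1) (a z0 z1)) z0))) z0)) (a z0 (b (d (c (b (d (c (a z0 z1) (a z0 z1)) (c (a z0 z1) (a z0 z1))) (d (c (a z0 z1) z0) (c (a z0 (b z1 (d (c (a z0 z1) (a z0 z1)) (c (a z0 z1) (a z0 z1))))) (a z0 (b z1 (d z1 (c (a z0 z1) (a z0 z1)))))))) (b (d (a z0 z1) (a z0 z1)) z0)) (c (b (d (c (a z0 z1) (a z0 z1)) (c (a z0 z1) (a z0 z1))) (d (c (a z0 (b z1 (d (c (a z0 z1) (a z0 z1)) (c (a z0 z1) (a z0 z1))))) (a z0 (b z1 (d (c (a z0 z1) (a z0 z1)) (c (a z0 z1) (a z0 z1)))))) (c (a z0 (b (d z1 (c (a (b z1 (d (c (a z0 z1) z1) (c (a z0 z1) (a z0 z1)))) z1) z1)) (d (c (a z0 z1) (a z0 z1)) (c (a z0 z1) (a z0 z1))))) (a z0 (b z1 (d (c (a z0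 z1) (a z0 z1)) (c (a z0 z1) (a z0 z1)))))))) (b (d (a z0 z1) (a z0 z1)) (d (a z0 (c (b z1 (d (a z0 z1) (a z0 z1))) (b z9 (d z9 (a z8 z9))))) (a z0 (c (b z1 (d (a z0 z1) (a z0 z1))) (b z9 (d (a z8 z9) (a z8 z9))))))))) (d z0 (c (b (d z0 (c (a z0 (b (d (c (a z0 z1) (a z0 z1)) (c (a z0 z1) (a z0 z1))) z0)) z0)) z0) z0))))) _ _ (by decide +kernel)

theorem okB71 : CKB ⟨4097, 6145, 2048, 3072⟩ ⟨0, 6144, 6144, 7168⟩ :=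
  ckB_sound (b (d z0 (a z0 (b (d z0 (b (d z0 z0) z0)) (d z0 z0)))) (d z0 z0)) _ _ (by decide +kernel)

theorem okB72 : CKB ⟨6145, 8193, 2048, 2560⟩ ⟨0, 6144, 6144, 6656⟩ :=
  ckB_sound (c (b (d z1 (a (b z1 (d z1 z1)) z0)) (d (c (a (b (d (c (a (b (d z1 z1) (d (c (a z0 z1) (a z0 z1)) (a z0 z1))) z1) (a (b z1 (d (c (a z0 z1) (a z0 z1)) (c (a z0 z1) (a z0 z1)))) z1)) (a (b (d z1 (a (b z1 (d z1 z1)) z1)) (d (a z0 z1) (a z0 z1))) z1)) (d (c (a z0 z1) (a z0 z1)) (a z0 z1))) z1) (a (b (d (a (c (b z1 (d (a z0 z1) (a z0 z1))) (b z1 (d z1 (a z0 z1)))) z1) (a (c (b z1 (d (a z0 z1) (a z0 z1))) (b z1 (d (a z0 z1) (a z0 z1)))) z1)) (d (a z0 z1) (a z0 z1))) z1)) (a (b (d (a (c (b (d (a (c (b z1 (d z1 z1)) z1) z1) (a (b z1 (d z1 (a z0 z1))) z1)) (d (a z0 z1) (a z0 z1))) (b z1 (d (a z0 z1) (a z0 z1))))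 z1) (a (b (d (a (c (b z1 (d (a z0 z1) (a z0 z1))) (b z1 (d z1 (a z0 z1)))) z1) (a (b z1 (d (a z0 z1) z0)) z1)) (d (a z0 z1) (a z0 z1))) z1)) (d (a z0 z1) (a z0 z1))) z1))) (b z1 (d (a (c (b (d z1 (a (c (b z1 (d (a z0 z1) (a z0 z1))) (b z1 (d z1 (a z0 z1)))) z1)) (d (a z0 z1) (a z0 z1))) (b z1 (d (a z0 z1) (a z0 z1)))) z1) (a (c (b (d (a (c (b z1 (d (a z0 z1) (a z0 z1))) (b z1 (d (a z0 z1) (a z0 z1)))) z1) (a (c (b (d z1 (a (c (b z1 (d (a z0 z1) (a z0 z1))) z1) z1)) (d (a z0 z1) (a z0 z1))) (b z1 (d (a z0 z1) (a z0 z1)))) z1)) (d (a z0 z1) (a z0 z1))) (b (d (a (c (b z1 (d (a z0 z1) (a z0 z1))) z1) z1) (a (c (b z1 (d (a z0 z1) (a z0 z1))) (b z1 (d (a z0 z1) (a z0 z1)))) z1)) (d (a z0 z1) (a z0 z1)))) z1)))) _ _ (by decide +kernel)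

theorem okB73 : CKB ⟨6145, 8193, 2048, 2560⟩ ⟨0, 6144, 6656, 7168⟩ :=
  ckB_sound (b (d (a (c (b z1 (d z1 z1)) z1) z0) (a (b z1 (d (a (b z1 (d z1 z1)) z1) z0)) z0)) (d (a (c (b (d (a (c (b (d (a (c (b z1 (d (a z0 z1) (a z0 z1))) (b z1 (d z1 (a z0 z1)))) z1) (a (b z1 (d (a z0 z1) z0)) z1)) (d (a z0 z1) (a z0 z1))) (b (d z1 (a (c (b z1 (d z1 (a z0 z1))) z1) z1)) (d (a z0 z1) (a z0 z1)))) z1) (a (b (d (a (b z1 (d (a z0 z1) (a z0 z1))) z1) z0) (d (a z0 z1) z0)) z1)) (d (a z0 z1) (a z0 z1))) (b (d (a (c (b z1 (d (a z0 z1) (a z0 z1))) (b z1 (d (a z0 z1) (a z0 z1)))) z1) (a (c (b (d (a (c (b z1 (d z1 (a z0 z1))) z1) z1) (a (b z1 (d (c (a z0 z1) z1) (a z0 z1))) z1)) (d (a z0 z1) (a z0 z1))) (b z1 (d (a z0 z1) (a z0 z1)))) z1)) (d (a z0 z1) (a z0 z1)))) z1) (a (b (d (a (b (d (a (c (b (d z1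 z1) (d (a z0 z1) (a z0 z1))) (b z1 (d z1 (a z0 z1)))) z1) (a (b (d z1 z0) (d (a z0 z1) z0)) z1)) (d (a z0 z1) (a z0 z1))) z1) z0) (d (a z0 z1) z0)) z1))) _ _ (by decide +kernel)

theorem okB74 : CKB ⟨6145, 8193, 2560, 3072⟩ ⟨0, 6144, 6144, 7168⟩ :=
  ckB_sound (d (c (b (d (c (a (b (d (c (a z0 z1) (a z0 z1)) (a z0 z1)) (d (c (a z0 z1) (a z0 z1)) (a z0 z1))) z1) (a (b (d (a z0 z1) (a z0 z1)) (d (a z0 z1) (a z0 z1))) z1)) (a (b (d (a z0 z1) (a z0 z1)) (d (a z0 z1) (a z0 z1))) z1)) (d (c (a (b (d (c (a z0 (b z1 (d (c (a z0 z1) z1) (a z0 z1)))) z0) (a z0 (b z1 (d (c (a z0 z1) (a z0 z1)) (a z0 z1))))) z0) z1) (a z0 z1)) (a (b (d (a z0 (c (b z1 (d (a z0 z1) (a z0 z1))) (b z1 (d z1 (a z0 z1))))) (a z0 (b z1 (d (a z0 z1) (a z0 z1))))) (d z0 z0)) z1))) (b (d (a (c (b (d (a z0 z1) (a z0 z1))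 (d z0 (a z0 z1))) (b (d (a z0 z1) (a z0 z1)) z0)) z1) (a (c (b (d (a z0 z1) (a z0 z1)) (d (a z0 z1) (a z0 z1))) (b (d (a z0 z1) (a z0 z1)) z0)) z1)) (d (a z0 z1) (a z0 z1)))) (b (d (a (c (b (d (a z0 z1) (a z0 z1)) (d (a z0 z1) (a z0 z1))) (b (d (a z0 z1) (a z0 z1)) (d (a z0 z1) (a z0 z1)))) z1) (a (b (d (a z0 z1) z0) (d (a z0 z1) z0)) z1)) (d (a (c (b (d (a z0 (c (b z1 (d (a z0 z1) (a z0 z1))) (b z1 (d z1 (a z0 z1))))) (a z0 (b (d z1 z0) (d (a z0 z1) z0)))) (d z0 z0)) z0) z1) (a (b (d (a z0 (b (d z1 z1) (d (a z0 z1) (a z0 z1)))) z0) (d z0 z0)) z1)))) _ _ (by decide +kernel)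

end Vale.Agent.Lib.P154Q5
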