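import Vale.Agent.Lib.P154Q5.CkBDefs

namespace Vale.Agent.Lib.P154Q5

set_option maxRecDepth 100000
set_option exponentiation.threshold 1000

open Tr

theorem okB600 : CKB ⟨9216, 12288, 5120, 5376⟩ ⟨0, 3072, 5632, 6144⟩ :=
  ckB_sound (d (c (a (b (d (c (a z2 z3) (a z2 z3)) (a z2 z3)) (d (c (a z2 (b z3 (d (c (a (b (d z3 z3) (d (c (a z2 z3) (a z2 z3)) (a z2 z3))) z3) (a (b z3 (d (c (a z2 z3) (a z2 z3)) (c (a z2 z3) (a z2 z3)))) z3)) (a (c (b (d z3 z3) (d (a z2 z3) (a z2 z3))) (b z3 (d (a z2 z3) (a z2 z3)))) z3)))) (a z2 (b z3 (d (c (a (b z3 (d z3 (c (a z2 z3) z3))) z3) z3) (c (a (b z3 (d (c (a z2 z3) (a z2 z3)) (c (a z2 z3) (a z2 z3)))) z3) (a (b z3 (d z3 (a z2 z3))) z3)))))) (a z2 (b (d z3 z3) (d (c (a (b (d z3 z3) (d (c (a z2 z3) (a z2 z3)) (a z2 z3))) z3) (a (b z3 (d (c (a z2 z3) (a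 z2 z3)) (c (a z2 z3) (a z2 z3)))) z3)) (a (c (b (d (a z2 z3) (a z2 z3)) (d (a z2 z3) (a z2 z3))) (b z3 (d (a z2 z3) (a z2 z3)))) z3)))))) z3) (a (b (d (a z2 z3) (a z2 z3)) (d (a z2 z3) (a z2 (c (b z3 (d (a (c (b z3 (d z3 (a z2 z3))) z3) z3) (a (c (b z3 (d (a z2 z3) (a z2 z3))) (b z3 (d (a z2 z3) (a z2 z3)))) z3))) z3)))) z3)) (a (b (d (a (c (b (d z2 z2) z2) z2) z3) (a (b (d z2 z2) z2) z3)) (d (a z2 (c (b (d z3 z3) (d (c (a (b (d (c (a z2 z3) z3) (a z2 z3)) (d (c (a z2 z3) (a z2 z3)) (a z2 z3))) z3) (a (b z3 (d (a z2 z3) (a z2 z3))) z3)) (a (b (d (c (a z2 z3) z3) (a z2 z3)) (d (c (a z2 z3) (a z2 z3)) (a z2 z3))) z3))) (b z3 (d (a (c (b z3 (d (a z2 z3) (a z2 z3))) z3) z3) (a (c (b z3 (d (a z2 z3) (a z2 z3))) (b z3 (d (a z2 z3) (a z2 z3)))) z3))))) (a z2 (b (d z3 z3) (d (c (a (b (d (c (a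 z2 z3) z3) (a z2 z3)) (d (c (a z2 z3) (a z2 z3)) (a z2 z3))) z3) (a (b z3 (d (a z2 z3) (a z2 z3))) z3)) (a (b (d (a z2 z3) (a z2 z3)) (d (a z2 z3) (a z2 z3))) z3)))))) z3)) _ _ (by decide +kernel)

theorem okB601 : CKB ⟨9216, 12288, 5376, 5632⟩ ⟨0, 3072, 5632, 6144⟩ :=
  ckB_sound (d (c (a (b (d (c (a z2 (b (d (c (a z2 z3) (a z2 z3)) (a z2 z3)) (d (c (a z2 z3) (a z2 z3)) (a z2 z3)))) (a z2 (b (d (c (a z2 z3) (a z2 z3)) (c (a z2 z3) (a z2 z3))) (d (c (a z2 z3) z2) (c (a z2 z3) (a z2 z3)))))) (a z2 (b (d (c (a z2 z3) (a z2 z3)) (a z2 z3)) (d (c (a z2 z3) (a z2 z3)) (a z2 z3))))) (d (c (a z2 (b (d (c (a z2 (b z3 (d (c (a z2 z3) (a z2 z3)) (a z2 z3)))) z2) (a z2 (c (b (d z3 z3) (d (a z2 z3) (a z2 z3))) (b z3 (d (a z2 z3) (a z2 z3)))))) (d z2 z2))) z2) (a z2 (b (d (c (a z2 (b (d z3 z3) (d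 (c (a z2 z3) (a z2 z3)) (a z2 z3)))) z2) (a z2 (c (b (d z3 z3) (d (a z2 z3) (a z2 z3))) (b z3 (d (a z2 z3) (a z2 z3)))))) (d z2 z2))))) z3) (a (b (d (a z2 (c (b (d (a z2 z3) (a z2 z3)) z2) (b (d (a z2 z3) (a z2 z3)) z2))) (a z2 (c (b (d (a z2 z3) (a z2 z3)) (d (a z2 z3) (a z2 z3))) (b (d (a z2 z3) (a z2 z3)) z2)))) z2) z3)) (a (b (d (a z2 (c (b (d (c (a z2 z3) (a z2 z3)) (a z2 z3)) (d (c (a z2 z3) (a z2 z3)) (a z2 z3))) (b (d (a z2 z3) (a z2 z3)) (d (a z2 z3) (a z2 z3))))) (a z2 (b (d (c (a z2 z3) (a z2 z3)) (a z2 z3)) (d (c (a z2 z3) (a z2 z3)) (a z2 z3))))) (d (a z2 (c (b (d (c (a z2 (b (d z3 z3) (d (c (a z2 z3) (a z2 z3)) (a z2 z3)))) (a z2 (b z3 (d (c (a z2 z3) (a z2 z3)) (c (a z2 z3) (a z2 z3)))))) (a z2 (b (d z3 (a (b z3 z2) z3)) (d (c (a z2 z3) (a z2 z3)) (a z2 z3))))) (d z2 z2))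 z2)) (a z2 (b (d (c (a z2 (b (d (c (a (b z3 z2) z3) z3) (a (b z3 z2) z3)) (d (c (a z2 z3) (a z2 z3)) (a z2 z3)))) z2) (a z2 (b (d (c (a (b z3 z2) z3) z3) (a (b z3 z2) z3)) (d (c (a z2 z3) (a z2 z3)) (a z2 z3))))) (d (c (a z2 (b (d z2 z2) z2)) z2) z2))))) z3)) _ _ (by decide +kernel)

theorem okB602 : CKB ⟨9216, 12288, 5632, 5888⟩ ⟨0, 1920, 5120, 5632⟩ :=
  ckB_sound (d (c (a z2 (b (d (c (a (b z3 (d z3 z3)) z3) z3) (a (c (b z3 (d (a (c (b z3 (d z3 z3)) z3) z3) (a (b z3 (d z3 (a z2 z3))) z3))) z3) z3)) (d (c (a (b (d (c (a z2 z3) (a z2 z3)) (a z2 z3)) (d (c (a z2 z3) (a z2 z3)) (a z2 z3))) z3) (a (b (d (c (a z2 z3) (a z2 z3)) (c (a z2 z3) (a z2 z3))) (d (c (a z2 z3) (a z2 z3)) (c (a z2 z3) (a z2 z3)))) z3)) (a (c (b (d (a z2 z3) (a z2 z3)) (d (a z2 z3) (a z2 z3))) (b (d (a z2 z3) (a z2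 z3)) (d (a z2 z3) (a z2 z3)))) z3)))) (a z2 (b z3 (d (c (a (b (d (c (a z2 z3) z3) (c (a z2 z3) (a z2 z3))) (d (c (a z2 z3) (a z2 z3)) (c (a z2 z3) (a z2 z3)))) z3) (a (b z3 (d (a z2 z3) (a z2 z3))) z3)) (c (a (b (d (c (a z2 z3) (a z2 z3)) (c (a z2 z3) (a z2 z3))) (d (c (a z2 z3) (a z2 z3)) (c (a z2 z3) (a z2 z3)))) z3) (a (b (d (a z2 z3) (a z2 z3)) (d (a z2 z3) (a z2 z3))) z3)))))) (a (c (b (d z2 z2) z2) z2) (c (b (d (a (c (b z3 (d (a (c (b z3 (d (a z2 z3) (a z2 z3))) (b z3 (d z3 (a z2 z3)))) z3) (a (b z3 (d (a z2 z3) z0)) z3))) (b z3 (d z3 (a (c (b z3 (d (a z2 z3) (a z2 z3))) (b z3 (d z3 (a z2 z3)))) z3)))) z3) (a (b z3 (d (a (b z3 (d (a z2 z3) (a z2 z3))) z3) z0)) z3)) (d (a (c (b (d (a z2 z3) (a z2 z3)) (d (a z2 z3) (a z2 z3))) (b (d (a z2 z3) (a z2 z3)) (d (a z2 z3) (a z2 z3))))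 z3) (a (b (d (a z2 z3) z0) (d (a z2 z3) z0)) z3))) (b (d z3 (a (c (b z3 (d (a (c (b z3 (d (a z2 z3) (a z2 z3))) (b z3 (d z3 (a z2 z3)))) z3) (a (b z3 (d (c (a z2 z3) (a z2 z3)) (a z2 z3))) z3))) (b z3 (d z3 (a (b z3 (d (c (a z2 z3) z3) (c (a z2 z3) (a z2 z3)))) z3)))) z3)) (d (a (c (b (d (a z2 z3) (a z2 z3)) (d (a z2 z3) (a z2 z3))) (b (d (a z2 z3) (a z2 z3)) (d (a z2 z3) (a z2 z3)))) z3) (a (c (b (d (a z2 z3) (a z2 z3)) (d (a z2 z3) (a z2 z3))) (b (d (a z2 z3) (a z2 z3)) (d (a z2 z3) (a z2 z3)))) z3)))))) _ _ (by decide +kernel)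

theorem okB603 : CKB ⟨9216, 12288, 5888, 6144⟩ ⟨0, 1920, 5120, 5376⟩ :=
  ckB_sound (c (a z2 (b (d (c (a (b (d z2 (a z2 (c (b z3 (d z3 (a z2 z3))) z3))) z2) z3) (a z2 z3)) (a (c (b (d (a z2 (c (b z3 (d (a z2 z3) (a z2 z3))) (b z3 (d z3 (a z2 z3))))) (a z2 (b z3 (d (a z2 z3) (a z2 z3))))) (d z2 z2)) (b (d z2 (a z2 (c (b z3 (d (a z2 z3) (a z2 z3))) (b z3 (d z3 (a z2 z3)))))) z2)) z3)) (d (c (a z2 (b z3 (d (c (a (b z3 (d (c (a z2 z3) (a z2 z3)) (a z2 z3))) z3) (a (b z3 (d (c (a z2 z3) z3) (c (a z2 z3) (a z2 z3)))) z3)) (a (c (b (d z3 z3) (d (a z2 z3) (a z2 z3))) (b z3 (d (a z2 z3) (a z2 z3)))) z3)))) (a z2 (b z3 (d z3 (c (a (b z3 (d (c (a z2 z3) (a z2 z3)) (c (a z2 z3) (a z2 z3)))) z3) (a (b z3 (d z3 (c (a z2 z3) z3))) z3)))))) (a z2 (c (b z3 (d (a (c (b (d z3 (a z2 z3)) (d (a z2 z3) (a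 z2 z3))) (b z3 (d (a z2 z3) (a z2 z3)))) z3) (a (b (d (a z2 z3) (a z2 z3)) (d (a z2 z3) (a z2 z3))) z3))) (b z3 (d (a (c (b z3 (d (a z2 z3) (a z2 z3))) (b z3 (d (a z2 z3) (a z2 z3)))) z3) (a (c (b (d z3 (a z2 z3)) (d (a z2 z3) (a z2 z3))) (b z3 (d (a z2 z3) (a z2 z3)))) z3)))))))) (a z2 (b (d (c (a z2 z3) (a z2 z3)) (c (a z2 z3) (a z2 z3))) (d (c (a z2 z3) (a z2 z3)) (c (a z2 (b z3 (d (c (a (b z3 (d z3 (c (a z2 z3) z3))) z3) z3) (c (a (b z3 (d (c (a z2 z3) (a z2 z3)) (c (a z2 z3) (a z2 z3)))) z3) (a (b z3 (d (c (a z2 z3) z3) (c (a z2 z3) (a z2 z3)))) z3))))) (a z2 z3)))))) _ _ (by decide +kernel)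

theorem okB604 : CKB ⟨9216, 10752, 5888, 6144⟩ ⟨0, 1920, 5376, 5632⟩ :=
  ckB_sound z2 _ _ (by decide +kernel)

theorem okB605 : CKB ⟨10752, 12288, 5888, 6144⟩ ⟨0, 1560, 5376, 5632⟩ :=
  ckB_sound (b (d (a (c (b (d (a z2 (c (b z3 (d (a z2 z3) (a z2 z3))) (b z3 (d (a z2 z3) (a z2 z3))))) (a z2 (b (d z3 z0) (d (a z2 z3) z0)))) (d z2 z2)) (b (d (a z2 (c (b z3 (d (a z2 z3) (a z2 z3))) (b z3 (d z3 (a z2 z3))))) (a z2 (c (b z3 (d (a z2 z3) (a z2 z3))) (b z3 (d (a z2 z3) (a z2 z3)))))) z2)) z3) (a (b (d (a z2 (b (d z3 (a (b z3 z2) z3)) (d (a z2 z3) (a z2 z3)))) z0) (d (a z2 (b (d z2 z2) z2)) z0)) z3)) (d (a z2 (c (b (d z3 z3) (d (a (c (b (d (a z2 z3) (a z2 z3)) (d (a z2 z3) (a z2 z3))) (b (d z3 (a z2 z3)) (d (a z2 z3) (a z2 z3)))) z3) (a (b (d (a z2 z3) z0) (d (a z2 z3) z0)) z3))) (b z3 (d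 (a (c (b z3 (d (a z2 z3) (a z2 z3))) (b z3 (d (a z2 z3) (a z2 z3)))) z3) (a (c (b (d (a z2 z3) (a z2 z3)) (d (a z2 z3) (a z2 z3))) (b (d z3 (a z2 z3)) (d (a z2 z3) (a z2 z3)))) z3))))) (a (b (d z2 z0) z2) (b (d (a (b z3 (d z3 z3)) z3) z0) (d (a (b (d (a z2 z3) (a z2 z3)) (d (a z2 z3) (a z2 z3))) z3) z0))))) _ _ (by decide +kernel)

theorem okB606 : CKB ⟨10752, 12288, 5888, 6144⟩ ⟨1560, 1920, 5376, 5632⟩ :=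
  ckB_sound (b (d (a (c (b (d z2 (a z2 (c (b z3 (d (a z2 z3) (a z2 z3))) (b z3 (d z3 (a z2 z3)))))) z2) z2) z3) (a (c (b (d (a z2 (c (b z3 (d (a z2 z3) (a z2 z3))) (b z3 (d (a z2 z3) (a z2 z3))))) (a z2 (b (d (c (a (b z3 z2) z3) z3) (a (b z3 z2) z3)) (d (c (a z2 z3) (a z2 z3)) (a z2 z3))))) (d z2 (a z2 (b (d z2 z2) z2)))) (b (d (a z2 (b z3 (d (c (a z2 z3) z3) (c (a z2 z3) (a z2 z3))))) (a z2 (b z3 (d (c (a z2 z3) (a z2 z3)) (c (a z2 z3) (a z2 z3)))))) z2)) z3)) (d (a z2 (c (b z3 (d (a (c (b z3 (d (a z2 z3) (a z2 z3))) (b z3 (d (a z2 z3) (a z2 z3)))) z3) (a (c (b z3 (d (a z2 z3) (a z2 z3))) (b z3 (d (a z2 z3) (a z2 z3)))) z3))) (b z3 (d (a (b z3 (d z3 (c (a z2 z3) z3))) z3) (a (b z3 (d (c (a z2 z3) (a z2 z3)) (c (a z2 z3) (a z2 z3)))) z3))))) (a z2 (c (b (d z3 (a (b z3 (d z3 z3)) z3))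 (d (a (c (b (d (a z2 z3) (a z2 z3)) (d (a z2 z3) (a z2 z3))) (b (d z3 (a z2 z3)) (d (a z2 z3) (a z2 z3)))) z3) (a (b (d (c (a z2 z3) (a z2 z3)) (a z2 z3)) (d (c (a z2 z3) (a z2 z3)) (a z2 z3))) z3))) (b z3 (d (a (b (d z3 (c (a z2 z3) z3)) (d (c (a z2 z3) (a z2 z3)) (c (a z2 z3) (a z2 z3)))) z3) (a (b (d (c (a z2 z3) (a z2 z3)) (c (a z2 z3) (a z2 z3))) (d (c (a z2 z3) (a z2 z3)) (c (a z2 z3) (a z2 z3)))) z3))))))) _ _ (by decide +kernel)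

theorem okB607 : CKB ⟨9216, 12288, 5632, 6144⟩ ⟨1920, 3072, 5120, 5632⟩ :=
  ckB_sound (b (d (a z2 (c (b z3 (d (a (c (b z3 (d (a z2 z3) (a z2 z3))) (b z3 (d (a z2 z3) (a z2 z3)))) z3) (a (c (b (d z3 (a z2 z3)) (d (a z2 z3) (a z2 z3))) (b z3 (d (a z2 z3) (a z2 z3)))) z3))) (b z3 (d (a (c (b z3 (d z3 (a z2 z3))) z3) z3) (a (c (b z3 (d (a z2 z3) (a z2 z3))) (b z3 (d (a z2 z3) (a z2 z3)))) z3))))) (a z2 (c (b z3 (d (a (c (b (d (a z2 z3) (a z2 z3)) (d (a z2 z3) (a z2 z3))) (b (d z3 (a z2 z3)) (d (a z2 z3) (a z2 z3)))) z3) (a (c (b (d (a z2 z3) (a z2 z3)) (d (a z2 z3) (a z2 z3))) (b (d (a z2 z3) (a z2 z3)) (d (a z2 z3) (a z2 z3)))) z3))) (b z3 (d (a (c (b z3 (d (a z2 z3) (a z2 z3))) (b z3 (d (a z2 z3) (a z2 z3)))) z3) (a (c (b (d (a z2 z3) (a z2 z3)) (d (a z2 z3) (a z2 z3))) (b z3 (d (a z2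 z3) (a z2 z3)))) z3)))))) (d (a z2 (c (b (d (a z2 z3) (a z2 z3)) (d (a z2 z3) (a z2 z3))) (b (d (a z2 z3) (a z2 z3)) (d (a z2 z3) (a z2 z3))))) (a z2 (c (b (d (a z2 z3) (a (c (b (d z2 (a z2 (c (b z3 (d (a z2 z3) (a z2 z3))) (b z3 (d z3 (a z2 z3)))))) z2) z2) z3)) (d (a z2 (c (b z3 (d z3 (a (c (b z3 (d z3 (a z2 z3))) z3) z3))) z3)) (a z2 (c (b z3 (d (a (c (b z3 (d (a z2 z3) (a z2 z3))) (b z3 (d z3 (a z2 z3)))) z3) (a (c (b (d z3 (a z2 z3)) (d (a z2 z3) (a z2 z3))) (b z3 (d (a z2 z3) (a z2 z3)))) z3))) (b z3 (d z3 (a (c (b z3 (d (a z2 z3) (a z2 z3))) z3) z3))))))) (b (d (a z2 z3) (a z2 z3)) (d (a z2 z3) (a z2 z3))))))) _ _ (by decide +kernel)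

theorem okB608 : CKB ⟨9216, 12288, 5632, 5888⟩ ⟨0, 3072, 5632, 5888⟩ :=
  ckB_sound (c (a (b (d z2 z2) z2) (b (d (c (a (b z3 (d (c (a (b (d z3 z3) (d (c (a z2 z3) (a z2 z3)) (a z2 z3))) z3) (a (b z3 (d (c (a z2 z3) (a z2 z3)) (c (a z2 z3) (a z2 z3)))) z3)) (a (c (b (d z3 z3) (d (a z2 z3) (a z2 z3))) (b z3 (d (a z2 z3) (a z2 z3)))) z3))) z3) (a (b z3 (d (c (a (b z3 (d z3 (c (a z2 z3) z3))) z3) z3) (c (a (b z3 (d (c (a z2 z3) (a z2 z3)) (c (a z2 z3) (a z2 z3)))) z3) (a (b z3 (d z3 (c (a z2 z3) z3))) z3)))) z3)) (a (b (d z3 z3) (d (c (a (b (d z3 (a (c (b z3 (d z3 z3)) z3) z3)) (d (c (a z2 z3) (a z2 z3)) (a z2 z3))) z3) (a (b z3 (d (c (a z2 z3) (a z2 z3)) (c (a z2 z3) (a z2 z3)))) z3)) (a (c (b (d (a (c (b z3 (d z3 z3)) z3) z3) (a (b z3 (d z3 z0)) z3)) (d (a z2 z3) (a z2 z3))) (b z3 (d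 (a z2 z3) (a z2 z3)))) z3))) z3)) (d (c (a (b (d (c (a (b (d z2 z2) z2) z3) (a z2 z3)) (a (c (b (d z2 z2) z2) z2) z3)) (d (c (a z2 z3) (a z2 z3)) (a z2 z3))) z3) (a (b (d (c (a z2 z3) (a z2 z3)) (c (a z2 z3) (a z2 z3))) (d (c (a z2 z3) (a z2 z3)) (c (a z2 z3) (a z2 z3)))) z3)) (a (b (d (c (a (b (d z2 z2) z2) z3) (a z2 z3)) (a (c (b (d z2 z2) z2) z2) z3)) (d (c (a z2 z3) (a z2 z3)) (a z2 z3))) z3)))) (a z2 (b (d z3 (c (a (b z3 (d (c (a (b z3 (d z3 (c (a z2 z3) z3))) z3) z3) (c (a (b z3 (d (c (a z2 z3) (a z2 z3)) (c (a z2 z3) (a z2 z3)))) z3) (a (b z3 (d z3 (a z2 z3))) z3)))) z3) z3)) (d (c (a (b (d (c (a z2 z3) (a z2 z3)) (c (a z2 z3) (a z2 z3))) (d (c (a z2 z3) (a z2 z3)) (c (a z2 z3) (a z2 z3)))) z3) (a (b (d (a z2 z3) (a z2 z3)) (d (a z2 z3) (a z2 z3))) z3)) (c (a (b (d (c (a z2 z3)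 (a z2 z3)) (c (a z2 z3) (a z2 z3))) (d (c (a z2 z3) (a z2 z3)) (c (a z2 z3) (a z2 z3)))) z3) (a (b (d (a z2 z3) (a z2 z3)) (d (a z2 z3) (a z2 z3))) z3)))))) _ _ (by decide +kernel)

theorem okB609 : CKB ⟨9216, 12288, 5632, 5888⟩ ⟨0, 3072, 5888, 6144⟩ :=
  ckB_sound (a (b (d (a z2 (c (b (d z2 z2) z2) z2)) (a z2 (b (d z2 z2) z2))) (d z2 z2)) (b (d (c (a (b (d z3 z3) (d (c (a (b (d (c (a (b z3 (d z3 z3)) z3) z3) (a (b z3 (d z3 z3)) z3)) (d (c (a z2 z3) (a z2 z3)) (a z2 z3))) z3) (a (b z3 (d (c (a z2 z3) (a z2 z3)) (c (a z2 z3) (a z2 z3)))) z3)) (a (b (d (c (a (b z3 (d z3 z3)) z3) z3) (a (b z3 (d z3 z3)) z3)) (d (c (a z2 z3) (a z2 z3)) (a z2 z3))) z3))) z3) (a (b z3 (d (c (a (b z3 (d (c (a z2 z3) z3) (c (a z2 z3) (a z2 z3)))) z3) z3) (c (a (b z3 (d (c (a z2 z3) (a z2 z3)) (c (a z2 z3) (a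 z2 z3)))) z3) (a (b z3 (d (a z2 z3) (a z2 z3))) z3)))) z3)) (a (b (d z3 z3) (d (c (a (b (d (c (a (b z3 (d z3 z3)) z3) z3) (a (b z3 (d z3 z3)) z3)) (d (c (a z2 z3) (a z2 z3)) (a z2 z3))) z3) (a (b z3 (d (c (a z2 z3) (a z2 z3)) (c (a z2 z3) (a z2 z3)))) z3)) (a (b (d (c (a (b z3 (d z3 z3)) z3) z3) (a (b z3 (d z3 z3)) z3)) (d (c (a z2 z3) (a z2 z3)) (a z2 z3))) z3))) z3)) (d (c (a (b (d (c (a (b (d z2 z2) z2) z3) (a z2 z3)) (a (b (d z2 (a z2 z3)) (d z2 z2)) z3)) (d (c (a z2 z3) (a z2 z3)) (a z2 z3))) z3) (a (b (d (c (a z2 z3) (a z2 z3)) (c (a z2 z3) (a z2 z3))) (d (c (a z2 z3) (a z2 z3)) (c (a z2 z3) (a z2 z3)))) z3)) (a (b (d (c (a (b (d z2 z2) (d z2 z2)) z3) (a z2 z3)) (a (b (d z2 z2) (d z2 z2)) z3)) (d (c (a z2 z3) (a z2 z3)) (a z2 z3))) z3)))) _ _ (by decide +kernel)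

theorem okB610 : CKB ⟨9216, 10752, 5888, 6144⟩ ⟨0, 2400, 5632, 5888⟩ :=
  ckB_sound z2 _ _ (by decide +kernel)

theorem okB611 : CKB ⟨10752, 12288, 5888, 6016⟩ ⟨0, 2400, 5632, 5888⟩ :=
  ckB_sound (d (c (a (b (d (c (a z2 (b (d (c (a (b z3 z2) z3) z3) (a (c (b z3 z2) (b z3 z2)) z3)) (d (c (a z2 z3) (a z2 z3)) (a z2 z3)))) (a z2 (b z3 (d (c (a z2 z3) (a z2 z3)) (c (a z2 z3) (a z2 z3)))))) (a z2 (c (b (d (a (c (b z3 z2) (b z3 z2)) z3) (a (b z3 z2) z3)) (d (a z2 z3) (a z2 z3))) (b (d z3 (a (c (b z3 z2) (b z3 z2)) z3)) (d (a z2 z3) (a z2 z3)))))) (d (c (a z2 (b (d z2 (a z2 z3)) z2)) z2) (a z2 (c (b (d (a z2 z3) (a z2 z3)) (d z2 z2)) (b (d z2 (a z2 z3)) z2))))) z3) (a (b (d (c (a z2 (b z3 (d (c (a z2 z3) (a z2 z3)) (c (a z2 z3) (a z2 z3))))) z2) (c (a z2 (b z3 (d (c (a z2 z3) (a z2 z3)) (c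 (a z2 z3) (a z2 z3))))) (a z2 (b z3 (d (c (a z2 z3) (a z2 z3)) (c (a z2 z3) (a z2 z3))))))) z2) z3)) (a (b (d (c (a z2 (b (d (c (a (b z3 z2) z3) z3) (a (c (b z3 z2) (b z3 z2)) z3)) (d (c (a z2 z3) (a z2 z3)) (a z2 z3)))) (a z2 (b z3 (d (c (a z2 z3) (a z2 z3)) (c (a z2 z3) (a z2 z3)))))) (a z2 (c (b (d (a (c (b z3 z2) (b z3 z2)) z3) (a (b z3 z2) z3)) (d (a z2 z3) (a z2 z3))) (b (d z3 (a (c (b z3 z2) (b z3 z2)) z3)) (d (a z2 z3) (a z2 z3)))))) (d (c (a z2 (b (d (c (a z2 z3) z2) (a z2 z3)) (d z2 z2))) z2) (a z2 (c (b (d (a z2 z3) (a z2 z3)) (d z2 z2)) (b (d z2 (a z2 z3)) z2))))) z3)) _ _ (by decide +kernel)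

theorem okB612 : CKB ⟨10752, 12288, 6016, 6144⟩ ⟨0, 2400, 5632, 5888⟩ :=
  ckB_sound (d (c (a (b (d z2 z2) z2) (b (d (c (a (b z3 (d z3 z3)) z3) z3) (a (c (b z3 (d z3 (a (b z3 (d z3 z0)) z3))) z3) z3)) (d (c (a (b (d (c (a z2 z3) (a z2 z3)) (a z2 z3)) (d (c (a z2 z3) (a z2 z3)) (a z2 z3))) z3) (a (b (d (c (a z2 z3) (a z2 z3)) (c (a z2 z3) (a z2 z3))) (d (c (a z2 z3) (a z2 z3)) (c (a z2 z3) (a z2 z3)))) z3)) (a (c (b (d (a z2 z3) (a z2 z3)) (d (a z2 z3) (a z2 z3))) (b (d (a z2 z3) (a z2 z3)) (d (a z2 z3) (a z2 z3)))) z3)))) (a z2 (b z3 (d (c (a (b (d z3 (c (a z2 z3) z3)) (d (c (a z2 z3) (a z2 z3)) (c (a z2 z3) (a z2 z3)))) z3) (a (b z3 (d (c (a z2 z3) (a z2 z3)) (c (a z2 z3) (a z2 z3)))) z3)) (c (a (b (d (c (a z2 z3) (a z2 z3)) (c (a z2 z3) (a z2 z3))) (d (c (a z2 z3) (a z2 z3)) (c (a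 z2 z3) (a z2 z3)))) z3) (a (b (d z3 (c (a z2 z3) z3)) (d (c (a z2 z3) (a z2 z3)) (c (a z2 z3) (a z2 z3)))) z3)))))) (a (b (d z2 z2) z2) (b (d (c (a (b z3 (d (c (a (b z3 (d z3 z3)) z3) z3) (a (c (b z3 (d z3 z3)) z3) z3))) z3) z3) (a (c (b z3 (d (a (c (b z3 (d z3 z3)) z3) z3) (a (b z3 (d z3 z0)) z3))) (b z3 (d z3 (a (c (b z3 (d z3 z3)) z3) z3)))) z3)) (d (c (a (b (d (c (a z2 z3) (a z2 z3)) (a z2 z3)) (d (c (a z2 z3) (a z2 z3)) (a z2 z3))) z3) (a (b (d (c (a z2 z3) (a z2 z3)) (c (a z2 z3) (a z2 z3))) (d (c (a z2 z3) (a z2 z3)) (c (a z2 z3) (a z2 z3)))) z3)) (a (c (b (d (a z2 z3) (a z2 z3)) (d (a z2 z3) (a z2 z3))) (b (d (a z2 z3) (a z2 z3)) (d (a z2 z3) (a z2 z3)))) z3))))) _ _ (by decide +kernel)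

theorem okB613 : CKB ⟨9216, 12288, 5888, 6144⟩ ⟨2400, 3072, 5632, 5888⟩ :=
  ckB_sound (a z2 (b (d (c (a z2 z3) (a z2 z3)) (c (a (b (d (c (a z2 (b z3 (d (c (a z2 z3) (a z2 z3)) (c (a z2 z3) (a z2 z3))))) z2) (c (a z2 (b z3 (d (c (a z2 z3) (a z2 z3)) (c (a z2 z3) (a z2 z3))))) (a z2 (b z3 (d (c (a z2 z3) (a z2 z3)) (c (a z2 z3) (a z2 z3))))))) z2) z3) (a z2 z3))) (d (c (a z2 (b z3 (d (c (a (b z3 (d (c (a z2 z3) z3) (c (a z2 z3) (a z2 z3)))) z3) z3) (c (a (b z3 (d (c (a z2 z3) (a z2 z3)) (c (a z2 z3) (a z2 z3)))) z3) (a (b z3 (d (c (a z2 z3) z3) (c (a z2 z3) (a z2 z3)))) z3))))) (a z2 z3)) (c (a z2 (b z3 (d (c (a (b (d z3 (c (a z2 z3) z3)) (d (c (a z2 z3) (a z2 z3)) (c (a z2 z3) (a z2 z3)))) z3) (a (b z3 (d (c (a z2 z3) (a z2 z3)) (c (a z2 z3) (a z2 z3)))) z3)) (c (a (b (d (c (a z2 z3)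 (a z2 z3)) (c (a z2 z3) (a z2 z3))) (d (c (a z2 z3) (a z2 z3)) (c (a z2 z3) (a z2 z3)))) z3) (a (b (d z3 (c (a z2 z3) z3)) (d (c (a z2 z3) (a z2 z3)) (c (a z2 z3) (a z2 z3)))) z3))))) (a z2 (b z3 (d (c (a (b z3 (d (c (a z2 z3) z3) (c (a z2 z3) (a z2 z3)))) z3) z3) (c (a (b z3 (d (c (a z2 z3) (a z2 z3)) (c (a z2 z3) (a z2 z3)))) z3) (a (b z3 (d (a z2 z3) (a z2 z3))) z3))))))))) _ _ (by decide +kernel)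

theorem okB614 : CKB ⟨9216, 10752, 5888, 6144⟩ ⟨0, 3072, 5888, 6144⟩ :=
  ckB_sound z2 _ _ (by decide +kernel)

end Vale.Agent.Lib.P154Q5
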