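import Vale.Agent.Lib.P154Q5.CkBDefs

namespace Vale.Agent.Lib.P154Q5

set_option maxRecDepth 100000
set_option exponentiation.threshold 1000

open Tr

theorem okB615 : CKB ⟨10752, 12288, 5888, 6016⟩ ⟨0, 3072, 5888, 6144⟩ :=
  ckB_sound (d (c (a (b (d (c (a z2 (b (d (c (a (b (d z3 z3) z2) z3) (a (b z3 z2) z3)) (a (b (d z3 z3) z2) z3)) (d (c (a z2 z3) (a z2 z3)) (a z2 z3)))) (a z2 (b (d z3 (c (a (b z3 z2) z3) z3)) (d (c (a z2 z3) (a z2 z3)) (c (a z2 z3) (a z2 z3)))))) (a z2 (b (d (c (a (b (d z3 z3) z2) z3) (a (b z3 z2) z3)) (a (b (d z3 z3) z2) z3)) (d (c (a z2 z3) (a z2 z3)) (a z2 z3))))) (d (c (a z2 (b (d (c (a z2 z3) z2) (a z2 z3)) (d z2 z2))) z2) (a z2 (b (d (c (a z2 z3) z2) (a z2 z3)) (d z2 z2))))) z3) (a (b (d (c (a z2 (b z3 (d (c (a z2 z3) (a z2 z3)) (c (a z2 z3) (a z2 z3))))) z2) (c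 (a z2 (b (d z3 (c (a (b z3 z2) z3) z3)) (d (c (a z2 z3) (a z2 z3)) (c (a z2 z3) (a z2 z3))))) (a z2 (b z3 (d (c (a z2 z3) (a z2 z3)) (c (a z2 z3) (a z2 z3))))))) z2) z3)) (a (b (d (c (a z2 (b (d (c (a (b (d z3 z3) z2) z3) (a (b z3 z2) z3)) (a (b (d z3 z3) z2) z3)) (d (c (a z2 z3) (a z2 z3)) (a z2 z3)))) (a z2 (b (d z3 (c (a (b z3 z2) z3) z3)) (d (c (a z2 z3) (a z2 z3)) (c (a z2 z3) (a z2 z3)))))) (a z2 (b (d (c (a (b (d z3 z3) z2) z3) (a (b z3 z2) z3)) (a (b z3 z2) z3)) (d (c (a z2 z3) (a z2 z3)) (a z2 z3))))) (d (c (a z2 (b (d (c (a z2 z3) z2) (a z2 z3)) (d z2 z2))) z2) (a z2 (b (d (c (a z2 z3) z2) (a z2 z3)) (d z2 z2))))) z3)) _ _ (by decide +kernel)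

theorem okB616 : CKB ⟨10752, 12288, 6016, 6144⟩ ⟨0, 3072, 5888, 6144⟩ :=
  ckB_sound (d (c (a (b (d z2 z2) z2) (b (d (c (a (b z3 (d (c (a (b z3 (d z3 z3)) z3) z3) (a (b z3 (d z3 z3)) z3))) z3) z3) (a (b z3 (d (c (a (b z3 (d z3 z3)) z3) z3) (a (b z3 (d z3 z3)) z3))) z3)) (d (c (a (b (d (c (a z2 z3) (a z2 z3)) (a z2 z3)) (d (c (a z2 z3) (a z2 z3)) (a z2 z3))) z3) (a (b (d (c (a z2 z3) (a z2 z3)) (c (a z2 z3) (a z2 z3))) (d (c (a z2 z3) (a z2 z3)) (c (a z2 z3) (a z2 z3)))) z3)) (a (b (d (c (a z2 z3) (a z2 z3)) (a z2 z3)) (d (c (a z2 z3) (a z2 z3)) (a z2 z3))) z3)))) (a z2 (b z3 (d (c (a (b (d z3 (c (a z2 z3) z3)) (d (c (a z2 z3) (a z2 z3)) (c (a z2 z3) (a z2 z3)))) z3) (a (b z3 (d (c (a z2 z3) (a z2 z3)) (c (a z2 z3) (a z2 z3)))) z3)) (c (a (b (d (c (a z2 z3) (a z2 z3)) (c (a z2 z3) (a z2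 z3))) (d (c (a z2 z3) (a z2 z3)) (c (a z2 z3) (a z2 z3)))) z3) (a (b (d z3 (c (a z2 z3) z3)) (d (c (a z2 z3) (a z2 z3)) (c (a z2 z3) (a z2 z3)))) z3)))))) (a (b (d z2 z2) (d z2 z2)) (b (d (c (a (b z3 (d (c (a (b z3 (d z3 z3)) z3) z3) (a (b z3 (d z3 z3)) z3))) z3) z3) (a (b z3 (d (c (a (b z3 (d z3 z3)) z3) z3) (a (b z3 (d z3 z3)) z3))) z3)) (d (c (a (b (d (c (a z2 z3) (a z2 z3)) (a z2 z3)) (d (c (a z2 z3) (a z2 z3)) (a z2 z3))) z3) (a (b (d (c (a z2 z3) (a z2 z3)) (c (a z2 z3) (a z2 z3))) (d (c (a z2 z3) (a z2 z3)) (c (a z2 z3) (a z2 z3)))) z3)) (a (b (d (c (a z2 z3) (a z2 z3)) (a z2 z3)) (d (c (a z2 z3) (a z2 z3)) (a z2 z3))) z3))))) _ _ (by decide +kernel)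

theorem okB617 : CKB ⟨6144, 12288, 4096, 5120⟩ ⟨3072, 6144, 4096, 6144⟩ :=
  ckB_sound (d (a z0 (b z3 (d z3 (c (b z3 (d z3 (a (c (b z3 (d z3 (a z2 z3))) z3) z3))) z3)))) (a (b (d (c (a z0 (b (d (c (a z0 z1) (a z0 z1)) (c (a z0 z1) (a z0 z1))) z0)) z0) (c (a z0 (b (d (c (a z0 z1) (a z0 z1)) (c (a z0 z1) (a z0 z1))) (d (c (a z0 (b (d z1 (c (b z1 (d z1 (a z0 z1))) z1)) z2)) z0) (c (a z0 (b (d (c (b z1 (d (a z0 z1) (a z0 z1))) (b z1 (d z1 (a z0 z1)))) (c (b z1 (d (a z0 z1) (a z0 z1))) (b z1 (d (a z0 z1) (a z0 z1))))) z2)) (a z0 (b (d z1 (c (b z1 (d z1 (a z0 z1))) z1)) z2)))))) (a z0 (b (d (c (a z0 z1) (a z8 z9)) (c (a z0 z1) (a z8 z9))) z0)))) z2) (b z3 (d (c (b z3 (d (a (c (b z3 (d (a z2 z3) (a z2 z3))) (b z3 (d z3 (a z2 z3)))) z3) (a (c (b z3 (d (a z2 z3) (a z2 z3))) (b z3 (d (a z2 z3) (a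 z2 z3)))) z3))) (b z3 (d z3 (a (c (b z3 (d (a z2 z3) (a z2 z3))) z11) z3)))) (c (b z3 (d (a (c (b (d z3 (a (c (b z3 (d (a z2 z3) (a z2 z3))) z3) z3)) (d (a z2 z3) (a z2 z3))) (b z3 (d (a z2 z3) (a z2 z3)))) z3) (a (c (b (d (a (c (b z3 (d (a z2 z3) (a z2 z3))) (b z3 (d (a z2 z3) (a z2 z3)))) z3) (a (c (b (d z3 (a (c (b z3 (d (a z2 z3) (a z2 z3))) z3) z3)) (d (a z2 z3) (a z2 z3))) (b z3 (d (a z2 z3) (a z2 z3)))) z3)) (d (a z2 z3) (a (c (b (d (a z2 z3) (a z2 z3)) z2) z2) z3))) (b (d z3 (a (c (b z3 (d (a z2 z3) (a z2 z3))) z3) z3)) (d (a z2 z3) (a z2 z3)))) z3))) (b z3 (d (a (c (b z3 (d (a z2 z3) (a z2 z3))) (b z11 (d (a z10 z11) (a z10 z11)))) z3) (a (c (b z3 (d (a z2 z3) (a z2 z3))) (b z11 (d (a z10 z11) (a z10 z11)))) z3)))))))) _ _ (by decide +kernel)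

theorem okB618 : CKB ⟨6144, 12288, 5120, 6144⟩ ⟨3072, 6144, 4096, 5120⟩ :=
  ckB_sound (a z2 (b (d (c (b (d (a z2 z3) (a z2 z3)) (d (a z2 z3) (a z2 z3))) (b (d (a z2 z3) (a z2 z3)) (d (a z2 z3) (a z2 z3)))) (c (b (d (a z2 z3) (a z2 z3)) (d (a z2 z3) (a z2 z3))) (b (d (a z2 z3) (a z2 z3)) (d (a z2 z3) (a z2 z3))))) (d (c (b (d (a z2 z3) (a z2 z3)) z2) z2) (c (b (d (a z2 z3) (a z2 z3)) (d z2 (a z2 (c (b (d (c (a z2 z3) (a z2 z3)) (c (a z2 z3) (a z2 z3))) z2) (b (d (a z2 z3) (a z2 z3)) z2))))) (b (d (a z2 z3) (a z2 z3)) z2))))) _ _ (by decide +kernel)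

theorem okB619 : CKB ⟨6144, 9216, 5120, 6144⟩ ⟨3072, 6144, 5120, 6144⟩ :=
  ckB_sound z2 _ _ (by decide +kernel)

theorem okB620 : CKB ⟨9216, 12288, 5120, 5632⟩ ⟨3072, 6144, 5120, 6144⟩ :=
  ckB_sound (d (c (b (d (a (c (b (d (a z2 z3) (a z2 z3)) z2) z2) z3) (a (c (b (d (a z2 z3) (a z2 z3)) (d z2 (a z2 z3))) (b (d (a z2 z3) (a z2 z3)) z2)) z3)) (d (a z2 z3) (a z2 z3))) (b (d (a z2 z3) (a z2 z3)) (d (a z2 z3) (a z2 z3)))) (c (b (d (a (c (b (d (a z2 z3) (a z2 z3)) (d (a z2 z3) (a z2 z3))) (b (d (a z2 z3) (a z2 z3)) (d z2 (a z2 z3)))) z3) (a (c (b (d (a z2 z3) (a z2 z3)) (d (a z2 z3) (a z2 (c (b z3 (d (a (c (b z3 (d (a z2 z3) (a z2 z3))) z3) z3) (a (c (b z3 (d (a z2 z3) (a z2 z3))) (b z3 (d (a z2 z3) (a z2 z3)))) z3))) z3)))) (b (d (a z2 z3) (a z2 z3)) (d (a z2 z3) (a z2 z3)))) z3)) (d (a (c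 (b (d z2 (a z2 (c (b (d (a z2 z3) (a z2 z3)) z2) (b (d z3 (a z2 z3)) z2)))) z2) z2) z3) (a (c (b (d (a z2 (c (b (d (a z2 z3) (a z2 z3)) z2) (b (d (a z2 z3) (a z2 z3)) z2))) (a z2 (c (b (d (a z2 z3) (a z2 z3)) (d (a z2 z3) (a z2 z3))) (b (d (a z2 z3) (a z2 z3)) z2)))) z2) z2) z3))) (b (d (a (c (b (d (a z2 z3) (a z2 z3)) z2) z10) z3) (a (c (b (d (a z2 z3) (a z2 z3)) z2) z10) z3)) (d (a z2 z3) (a z2 z3))))) _ _ (by decide +kernel)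

theorem okB621 : CKB ⟨9216, 12288, 5632, 6144⟩ ⟨3072, 6144, 5120, 5632⟩ :=
  ckB_sound (c (b (d (a z2 z3) (a z2 (c (b z3 (d (c (a (b z3 (d (c (a z2 z3) z3) (c (a z2 z3) (a z2 z3)))) z3) z3) (c (a (b z3 (d (c (a z2 z3) (a z2 z3)) (c (a z2 z3) (a z2 z3)))) z3) (a (b z3 (d (a z2 z3) (a z2 z3))) z3)))) z3))) (d (a z2 (c (b (d (c (a z2 z3) (a z2 z3)) (c (a z2 z3) (a z2 z3))) z2) (b (d (a z2 z3) (a z2 z3)) z2))) (a z2 (c (b (d (c (a z2 z3) (a z2 z3)) (c (a z2 z3) (a z2 z3))) (d (c (a z2 z3) z2) (c (a z2 z3) (a z2 z3)))) (b (d (a z2 z3) (a z2 z3)) z2))))) (b (d (a z2 z3) (a z2 z3)) z2)) _ _ (by decide +kernel)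

theorem okB622 : CKB ⟨9216, 12288, 5632, 5888⟩ ⟨3072, 4608, 5632, 6144⟩ :=
  ckB_sound (d (a z2 (c (b z3 (d (c (a (b (d z3 (c (a z2 z3) z3)) (d (c (a z2 z3) (a z2 z3)) (c (a z2 z3) (a z2 z3)))) z3) (a (b z3 (d (a z2 z3) (a z2 z3))) z3)) (c (a (b (d (c (a z2 z3) (a z2 z3)) (c (a z2 z3) (a z2 z3))) (d (c (a z2 z3) (a z2 z3)) (c (a z2 z3) (a z2 z3)))) z3) (a (b (d z3 (a z2 z3)) (d (a z2 z3) (a z2 z3))) z3)))) (b z3 (d (a (c (b z3 (d (a z2 z3) (a z2 z3))) z3) z3) (a (c (b z3 (d (a z2 z3) (a z2 z3))) (b z3 (d (a z2 z3) (a z2 z3)))) z3))))) (a z2 (c (b (d z3 (c (a (b z3 (d (c (a (b z3 (d (c (a z2 z3) z3) (c (a z2 z3) z3))) z3) z3) (c (a (b z3 (d (c (a z2 z3) (a z2 z3)) (c (a z2 z3) (a z2 z3)))) z3) (a (b z3 (d z3 (c (a z2 z3) z3))) z3)))) z3) z3)) (d (c (a (b (d (c (a z2 z3) (a z2 z3)) (c (a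 z2 z3) (a z2 z3))) (d (c (a z2 z3) (a z2 z3)) (c (a z2 z3) (a z2 z3)))) z3) (a (b (d (a z2 z3) (a z2 z3)) (d (a z2 z3) (a z2 z3))) z3)) (c (a (b (d (c (a z2 z3) (a z2 z3)) (c (a z2 z3) (a z2 z3))) (d (c (a z2 z3) (a z2 z3)) (c (a z2 z3) (a z2 z3)))) z3) (a (b (d (a z2 z3) (a z2 z3)) (d (a z2 z3) (a z2 z3))) z3)))) (b z3 (d (a (c (b z3 (d (a z2 z3) (a z2 z3))) (b z3 (d (a z2 z3) (a z2 z3)))) z3) (a (c (b (d (a z2 z3) (a z2 z3)) (d (a z2 z3) (a z2 z3))) (b z3 (d (a z2 z3) (a z2 z3)))) z3)))))) _ _ (by decide +kernel)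

theorem okB623 : CKB ⟨9216, 12288, 5888, 6144⟩ ⟨3072, 4608, 5632, 6144⟩ :=
  ckB_sound (d (a z2 (c (b (d (c (a z2 z3) (a z2 z3)) (c (a z2 z3) (a z2 z3))) (d (c (a z2 z3) (a z2 z3)) (c (a z2 z3) (a z2 z3)))) (b (d (a z2 z3) (a z2 z3)) (d z2 (a z2 z3))))) (a z2 (c (b (d (c (a z2 z3) (a z2 z3)) (c (a (b (d (c (a z2 (b z3 (d (c (a z2 z3) (a z2 z3)) (c (a z2 z3) (a z2 z3))))) z2) (c (a z2 (b z3 (d (c (a z2 z3) (a z2 z3)) (c (a z2 z3) (a z2 z3))))) z2)) z2) z3) (a z2 z3))) (d (c (a z2 (b z3 (d (c (a (b z3 (d (c (a z2 z3) z3) (c (a z2 z3) (a z2 z3)))) z3) z3) (c (a (b z3 (d (c (a z2 z3) (a z2 z3)) (c (a z2 z3) (a z2 z3)))) z3) (a (b z3 (d (c (a z2 z3) z3) (c (a z2 z3) z3))) z3))))) (a z2 z3)) (c (a z2 (b z3 (d (c (a (b (d z3 (c (a z2 z3) z3)) (d (c (a z2 z3) (a z2 z3)) (c (a z2 z3) (a z2 z3))))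 z3) (a (b z3 (d (c (a z2 z3) (a z2 z3)) (c (a z2 z3) (a z2 z3)))) z3)) (c (a (b (d (c (a z2 z3) (a z2 z3)) (c (a z2 z3) (a z2 z3))) (d (c (a z2 z3) (a z2 z3)) (c (a z2 z3) (a z2 z3)))) z3) (a (b (d z3 (c (a z2 z3) z3)) (d (c (a z2 z3) (a z2 z3)) (c (a z2 z3) (a z2 z3)))) z3))))) (a z2 (b z3 (d (c (a (b z3 (d z3 (c (a z2 z3) z3))) z3) z3) (c (a (b z3 (d (c (a z2 z3) (a z2 z3)) (c (a z2 z3) (a z2 z3)))) z3) (a (b z3 (d z3 (c (a z2 z3) z3))) z3)))))))) (b (d (a z2 z3) (a z2 z3)) (d (a z2 z3) (a z2 z3)))))) _ _ (by decide +kernel)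

theorem okB624 : CKB ⟨9216, 12288, 5632, 6144⟩ ⟨4608, 6144, 5632, 6144⟩ :=
  ckB_sound (b (d (a z2 z3) (a z2 (c (b z3 (d (a (c (b z3 (d z3 (a z2 z3))) z3) z3) (a (c (b z3 (d (a z2 z3) (a z2 z3))) (b z3 (d z3 (a z2 z3)))) z3))) z11))) (d (a z2 (c (b (d (a z2 z3) (a z2 z3)) z2) (b (d (a z10 z11) (a z10 z11)) z10))) (a z2 (c (b (d (a z2 z3) (a z2 z3)) z2) (b (d (a z10 z11) (a z10 z11)) z10))))) _ _ (by decide +kernel)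

theorem okB625 : CKB ⟨6144, 9216, 4096, 5120⟩ ⟨0, 6144, 6144, 7168⟩ :=
  ckB_sound (b (d (c (a z0 (b (d (c (a z0 (b z1 (d z1 z1))) (a z0 z1)) (a (b (d z0 z0) z0) (b z1 (d z1 z1)))) (d (c (a z0 (b (d (c (b (d (a (c (b z1 (d z1 z1)) z1) z1) (a (b z1 (d z1 z1)) z1)) (d (a z0 z1) (a z0 z1))) (b z1 (d (a z0 z1) (a z0 z1)))) (b (d (a (c (b z1 (d z1 z1)) z1) z1) (a (b z1 (d z1 z1)) z1)) (d (a z0 z1) (a z0 z1)))) (d (c (b (d (a z0 z3) (a z0 z3)) (d z2 z2)) z2) (b (d (a z0 z3) (a z0 z3)) (d z2 z2))))) (a z0 (b (d (c (b z1 (d (a z0 z1) (a z0 z1))) (b z1 (d z1 (a z0 z1)))) (c (b z1 (d (a z0 z1) (a z0 z1))) (b z1 (d (a z0 z1) (a z0 z1))))) z2))) (a z0 (b (d (c (b (d (a (c (b z1 (d z1 z1)) z1) z1) (a (b z1 (d z1 z1)) z1)) (d (a z0 z1) (a z0 z1))) (b z1 (d (a z0 z1) (a z0 z1)))) (b (d (a (c (b z1 (d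 z1 z1)) z1) z1) (a (b z1 (d z1 z0)) z1)) (d (a z0 z1) (a z0 z1)))) (d (c (b (d (a z0 z3) (a z0 z3)) (d z2 z2)) z2) (b (d (a z0 z3) (a z0 z3)) (d z2 z2)))))))) (a z0 (b (d (c (a z0 z1) (a z0 z1)) (c (a z0 z1) (a z0 z1))) (d z0 (c (a z0 (b (d (c (b z1 (d (a z0 z1) (a z0 z1))) z1) (c (b z1 (d (a z0 z1) (a z0 z1))) (b z1 (d (a z0 z1) (a z0 z1))))) z2)) z0))))) (a z0 (b (d (c (a (b (d z0 z0) z0) (b z1 (d z1 z1))) (a z0 z1)) (a z0 (b z1 (d z1 z0)))) (d (c (a z0 (b (d (c (b (d (a (c (b z1 (d z1 z1)) z1) z1) z1) (d (a z0 z1) (a z0 z1))) (b z1 (d (a z0 z1) (a z0 z1)))) (b (d z1 z0) (d (a z0 z1) z0))) (d (c (b (d (a z0 z3) (a z0 z3)) z2) z2) z2))) (a z0 (b (d (c (b z1 (d z1 (a z0 z1))) z1) (c (b z1 (d (a z0 z1) (a z0 z1))) (b z1 (d z1 (a z0 z1))))) z2))) (a z0 (b (d (b (d z1 z1) (d (a z0 z1) (a z0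 z1))) z0) (d z2 z0))))))) (d (c (a z0 (b (d (c (a z2 (b (d z2 z2) z2)) z2) (a z2 (b (d z2 z2) (d z2 z2)))) (d z2 z2))) z2) (a z0 (b (d (c (a z2 (b (d z2 z2) z2)) z2) (a z2 (b (d z2 z0) z2))) (d z2 z2))))) _ _ (by decide +kernel)

theorem okB626 : CKB ⟨9216, 12288, 4096, 4608⟩ ⟨0, 6144, 6144, 7168⟩ :=
  ckB_sound z3 _ _ (by decide +kernel)

theorem okB627 : CKB ⟨9216, 12288, 4608, 5120⟩ ⟨0, 6144, 6144, 6656⟩ :=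
  ckB_sound (c (b (d (a (c (b z3 (d z3 z3)) z3) z3) (a (b z3 (d z3 z3)) z3)) (d (a (c (b (d (a (c (b (d (a (c (b (d z3 z3) (d (a z2 z3) (a z2 z3))) (b z3 (d (a z2 z3) (a z2 z3)))) z3) (a (b (d z3 z3) (d (a z2 z3) (a z2 z3))) z3)) (d (a z2 z3) (a z2 z3))) (b (d z3 (a (c (b z3 (d (a z2 z3) (a z2 z3))) z3) z3)) (d (a z2 z3) (a z2 z3)))) z3) (a (b (d (a (c (b (d z3 z3) (d (a z2 z3) (a z2 z3))) (b z3 (d z3 (a z2 z3)))) z3) (a (b (d z3 z3) (d (a z2 z3) (a z2 z3))) z3)) (d (a z2 z3) (a z2 z3))) z3)) (d (a (c (b (d (a z2 z3) (a z2 z3)) (d (a z2 (c (b z3 (d z3 z3)) z3)) (a z2 (b z3 (d z3 z3))))) (b (d (a z2 z3) (a z2 z3)) z2)) z3) (a (b (d (a z2 z3) (a z2 z3)) (d (a z2 (c (b z3 (d z3 z3)) z3)) z2)) z3))) (b (d (a (c (b z3 (d (a z2 z3) (a z2 z3))) (b z3 (d (a z2 z3) (a z2 z3)))) z3) (a (c (b (d z3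 (a (c (b z3 (d z3 (a z2 z3))) z3) z3)) (d (a z2 z3) (a z2 z3))) (b z3 (d (a z2 z3) (a z2 z3)))) z3)) (d (a z2 z3) (a (c (b (d (a z2 z3) (a z2 z3)) z2) z2) z3)))) z3) (a (b (d (a (c (b (d (a (c (b z3 (d (a z2 z3) (a z2 z3))) (b z3 (d z3 (a z2 z3)))) z3) (a (b z3 (d (a z2 z3) (a z2 z3))) z3)) (d (a z2 z3) (a z2 z3))) (b (d z3 (a (c (b z3 (d z3 (a z2 z3))) z3) z3)) (d (a z2 z3) (a z2 z3)))) z3) (a (b (d (a (c (b z3 (d (a z2 z3) (a z2 z3))) (b z3 (d z3 (a z2 z3)))) z3) (a (b z3 (d (a z2 z3) z0)) z3)) (d (a z2 z3) (a z2 z3))) z3)) (d (a (c (b (d (a z2 z3) (a z2 z3)) (d z2 z2)) z2) z3) (a (b (d (a z2 z3) (a z2 z3)) (d z2 z2)) z3))) z3))) (b z3 (d (a (c (b (d z3 (a (c (b z3 (d (a z2 z3) (a z2 z3))) z3) z3)) (d (a z2 z3) (a z2 z3))) (b z3 (d (a z2 z3) (a z2 z3)))) z3) (a (c (b (d (a (c (b z3 (d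 (a z2 z3) (a z2 z3))) (b z3 (d z3 (a z2 z3)))) z3) (a (c (b (d z3 (a (c (b z3 (d z3 (a z2 z3))) z3) z3)) (d (a z2 z3) (a z2 z3))) (b z3 (d (a z2 z3) (a z2 z3)))) z3)) (d (a z2 z3) (a z2 z3))) (b (d z3 (a (c (b z3 (d z3 (a z2 z3))) z3) z3)) (d (a z2 z3) (a z2 z3)))) z3)))) _ _ (by decide +kernel)

theorem okB628 : CKB ⟨9216, 12288, 4608, 5120⟩ ⟨0, 6144, 6656, 7168⟩ :=
  ckB_sound (b (d (a (c (b z3 (d z3 z3)) z3) z3) (a (b z3 (d z3 z0)) z3)) (d (a (c (b (d (a (c (b (d (a (c (b z3 (d z3 z3)) z3) z3) (a (b z3 (d z3 z0)) z3)) (d (a z2 z3) (a z2 z3))) (b z3 (d (a z2 z3) (a z2 z3)))) z3) (a (b (d (a (b z3 (d z3 z3)) z3) z0) (d (a z2 z3) z0)) z3)) (d (a (c (b (d (a z2 z3) (a z2 z3)) (d z2 z2)) z2) z3) (a (b (d (a z2 z3) z0) z2) z3))) (b (d (a (c (b z3 (d (a z2 z3) (a z2 z3))) z3) z3) (a (c (b (d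 z3 z3) (d (a z2 z3) (a z2 z3))) (b z3 (d z3 (a z2 z3)))) z3)) (d (a z2 z3) (a z2 z3)))) z3) (a (b (d (a (b (d z3 z3) (d (a z2 z3) (a z2 z3))) z3) z0) (d (a z2 z3) z0)) z3))) _ _ (by decide +kernel)

theorem okB629 : CKB ⟨6144, 12288, 4096, 5120⟩ ⟨0, 6144, 7168, 8192⟩ :=
  ckB_sound z0 _ _ (by decide +kernel)

end Vale.Agent.Lib.P154Q5
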