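import Vale.Agent.Lib.P154Q5.CkBDefs

namespace Vale.Agent.Lib.P154Q5

set_option maxRecDepth 100000
set_option exponentiation.threshold 1000

open Tr

theorem okB630 : CKB ⟨6144, 9216, 5120, 6144⟩ ⟨0, 6144, 6144, 7168⟩ :=
  ckB_sound (b (d (c (a z2 (b (d z2 z2) z2)) z2) (a (b z2 (d z2 z2)) (b (d z2 z2) (d z2 z2)))) (d (c (a (b z2 (d z2 z2)) z2) z2) (a (b (d z2 z2) (d z2 z2)) (b (d z2 z2) (d z2 z2))))) _ _ (by decide +kernel)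

theorem okB631 : CKB ⟨9216, 12288, 5120, 5376⟩ ⟨0, 4608, 6144, 6656⟩ :=
  ckB_sound (d (a (c (b (d (a (c (b (d z2 z2) z2) z2) z3) (a (b (d z2 z2) z2) z3)) (d (a z2 (c (b (d z3 z3) (d (a (c (b (d (a z2 z3) (a z2 z3)) (d (a z2 z3) (a z2 z3))) (b z3 (d (a z2 z3) (a z2 z3)))) z3) (a (b (d (a z2 z3) (a z2 z3)) (d (a z2 z3) (a z2 z3))) z3))) (b z3 (d (a (c (b z3 (d (a z2 z3) (a z2 z3))) z3) z3) (a (c (b z3 (d (a z2 z3) (a z2 z3))) (b z3 (d (a z2 z3) (a z2 z3)))) z3))))) (a z2 (b (d z3 z3) (d (a (c (b (d (a z2 z3) (a z2 z3)) (d (a z2 z3) (a z2 z3))) (b z3 (d (a z2 z3) (a z2 z3)))) z3) (a (b (d (a z2 z3) z3) (d (a z2 z3) (a z2 z3))) z3)))))) (b (d (a z2 z3) (a z2 z3)) (d (a z2 z3) (a z2 (c (b z3 (d (a (c (b z3 (d z3 (a z2 z3))) z3) z3) (a (c (b z3 (d (a z2 z3) (a z2 z3))) (b z3 (d z3 (a z2 z3))))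 z3))) z3))))) z3) (a (b (d (a (c (b (d z2 z2) z2) z2) z3) (a z2 z3)) (d (a z2 (c (b (d z3 z3) (d (a (c (b (d z3 z3) (d (a z2 z3) (a z2 z3))) (b z3 (d (a z2 z3) (a z2 z3)))) z3) (a (b (d z3 z3) (d (a z2 z3) (a z2 z3))) z3))) (b z3 (d z3 (a (c (b z3 (d (a z2 z3) (a z2 z3))) z3) z3))))) (a z2 (b (d z3 z3) (d (a (c (b (d z3 z3) (d (a z2 z3) (a z2 z3))) (b z3 (d z3 (a z2 z3)))) z3) (a (b z3 (d (a z2 z3) z0)) z3)))))) z3)) _ _ (by decide +kernel)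

theorem okB632 : CKB ⟨9216, 12288, 5376, 5632⟩ ⟨0, 4608, 6144, 6656⟩ :=
  ckB_sound (d (a (c (b (d (a z2 (c (b (d (a z2 z3) (a z2 z3)) (d (a z2 z3) (a z2 z3))) (b (d (a z2 z3) (a z2 z3)) (d (a z2 z3) (a z2 z3))))) (a z2 (b (d (a z2 z3) (a z2 z3)) (d (a z2 z3) (a z2 z3))))) (d (a z2 (c (b (d (a z2 (c (b (d z3 z3) (d (c (a z2 z3) (a z2 z3)) (a z2 z3))) (b z3 (d (a z2 z3) (a z2 z3))))) (a z2 (b (d z3 z3) (d (a z2 z3) (a z2 z3))))) (d z2 z2)) z2)) (a z2 (b (d (a z2 (c (b (d z3 z3) (d (a z2 z3) (a z2 z3))) (b z3 (d (a z2 z3) (a z2 z3))))) (a z2 (b (d z3 z3) (d (a z2 z3) (a z2 z3))))) (d z2 z2))))) (b (d (a z2 (c (b (d (a z2 z3) (a z2 z3)) z2) (b (d (a z2 z3) (a z2 z3)) z2))) (a z2 (c (b (d (a z2 z3) (a z2 z3)) (d z2 (a z2 z3))) (b (d (a z2 z3) (a z2 z3)) z2)))) z2)) (c (b z3 (d z3 z3)) z3))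 (a (b (d (a z2 (c (b (d (a z2 z3) (a z2 z3)) (d (a z2 z3) (a z2 z3))) (b (d (a z2 z3) (a z2 z3)) (d z2 (a z2 z3))))) (a z2 (b (d (a z2 z3) (a z2 z3)) (d (a z2 z3) (a z2 z3))))) (d (a z2 (c (b (d (a z2 (c (b (d z3 z3) (d (a z2 z3) (a z2 z3))) (b z3 (d z3 (a z2 z3))))) (a z2 (b (d z3 z3) (d (a z2 z3) (a z2 z3))))) (d z2 z2)) z2)) (a z2 (b (d z2 z2) (d z2 z2))))) (b z3 (d z3 z3)))) _ _ (by decide +kernel)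

theorem okB633 : CKB ⟨9216, 12288, 5120, 5632⟩ ⟨4608, 6144, 6144, 6656⟩ :=
  ckB_sound (b (d (a (c (b (d (a z2 z3) (a z2 z3)) (d (a z2 z3) (a z2 z3))) (b (d (a z2 z3) (a z2 z3)) z2)) z3) (a (c (b (d (a z2 z3) (a z2 z3)) (d (a z2 z3) (a z2 (c (b z3 (d z3 (a (c (b z3 (d (a z2 z3) (a z2 z3))) z3) z3))) z3)))) (b (d (a z2 z3) (a z2 z3)) z2)) z3)) (d (a z2 z3) (a (c (b (d z2 (a z2 (c (b (d (a z2 z3) (a z2 z3)) (d z2 (a z2 z3))) (b (d (a z2 z3) (a z2 z3)) z2)))) z2) z2) z3))) _ _ (by decide +kernel)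

theorem okB634 : CKB ⟨9216, 12288, 5120, 5632⟩ ⟨0, 6144, 6656, 7168⟩ :=
  ckB_sound (b (d (a (c (b (d (a z2 z3) (a z2 z3)) (d (a z2 (c (b z3 (d (a (c (b z3 (d (a z2 z3) (a z2 z3))) z3) z3) (a (b z3 (d z3 z0)) z3))) z3)) (a z2 (b z3 (d (a (b z3 (d z3 z3)) z3) z0))))) (b (d (a z2 z3) (a z2 z3)) (d (a z2 z3) (a z2 (c (b z3 (d z3 (a (b z3 (d z3 z3)) z3))) z3))))) z3) (a (b (d (a z2 z3) z0) (d (a z2 (b z3 (d z3 z3))) z0)) z3)) (d (a (c (b (d (a z2 (c (b (d (a z2 z3) (a z2 z3)) (d (a z2 z3) z2)) (b (d (a z2 z3) (a z2 z3)) z2))) (a z2 (b (d (a z2 z3) z0) (d z2 z0)))) (d (a z2 (c (b (d z2 z2) z2) z2)) z2)) (b (d z2 (a z2 (c (b (d (a z2 z3) (a z2 z3)) z2) (b (d z3 (a z2 z3)) z2)))) z2)) z3) (a (b (d (a z2 (b (d (a z2 z3) (a z2 z3)) z2)) z0) (d z2 z0)) z3))) _ _ (by decide +kernel)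

theorem okB635 : CKB ⟨9216, 12288, 5632, 5888⟩ ⟨0, 4608, 6144, 6656⟩ :=
  ckB_sound (d (a (c (b (d (a z2 (c (b (d z2 z2) z2) z2)) (a z2 (b (d z2 z2) z2))) (d z2 z2)) z2) (c (b (d (c (a (b (d z3 z3) (d (c (a (b (d (c (a (b z3 (d z3 z3)) z3) z3) (a (b z3 (d z3 z3)) z3)) (d (c (a z2 z3) (a z2 z3)) (a z2 z3))) z3) (a (b z3 (d (c (a z2 z3) (a z2 z3)) (c (a z2 z3) (a z2 z3)))) z3)) (a (b (d (a (c (b z3 (d z3 z3)) z3) z3) z3) (d (a z2 z3) (a z2 z3))) z3))) z3) (a (b z3 (d (a (c (b z3 (d z3 (a z2 z3))) z3) z3) (a (c (b z3 (d (a z2 z3) (a z2 z3))) z3) z3))) z3)) (a (b (d z3 z3) (d (a (c (b (d z3 z3) (d (a z2 z3) (a z2 z3))) (b z3 (d (a z2 z3) (a z2 z3)))) z3) (a (b (d z3 z3) (d (a z2 z3) (a z2 z3))) z3))) z3)) (d (c (a (b (d (c (a (b (d z2 z2) z2) z3) (a z2 z3)) (a (b (d z2 z2) z2) z3)) (d (c (a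 z2 z3) (a z2 z3)) (a z2 z3))) z3) (a (b (d (a z2 z3) (a z2 z3)) (d (a z2 z3) (a z2 z3))) z3)) (a (b (d (a (c (b (d z2 z2) z2) z2) z3) (a (b (d z2 z2) z2) z3)) (d (a z2 z3) (a z2 z3))) z3))) (b (d z3 (a (c (b z3 (d z3 (a (c (b z3 (d (a z2 z3) (a z2 z3))) z3) z3))) z3) z3)) (d (a (c (b (d (a z2 z3) (a z2 z3)) (d (a z2 z3) (a z2 z3))) (b (d (a z2 z3) (a z2 z3)) (d (a z2 z3) (a z2 z3)))) z3) (a (c (b (d (a z2 z3) (a z2 z3)) (d (a z2 z3) (a z2 z3))) (b (d (a z2 z3) (a z2 z3)) (d (a z2 z3) (a z2 z3)))) z3))))) (a (b (d z2 z2) (d z2 z2)) (b (d (a (c (b (d z3 z3) (d (a (c (b (d z3 z3) (d (a z2 z3) (a z2 z3))) (b z3 (d z3 (a z2 z3)))) z3) (a (b (d z3 z3) (d (a z2 z3) (a z2 z3))) z3))) (b z3 (d z3 (a (c (b z3 (d z3 (a z2 z3))) z3) z3)))) z3) (a (b (d z3 z3) (d (a (c (b z3 (d (a z2 z3) (a z2 z3)))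 (b z3 (d z3 (a z2 z3)))) z3) (a (b z3 (d (a z2 z3) z0)) z3))) z3)) (d (a (c (b (d (a z2 z3) (a z2 z3)) (d (a z2 z3) (a z2 z3))) (b (d (a z2 z3) (a z2 z3)) (d (a z2 z3) (a z2 z3)))) z3) (a (b (d (a z2 z3) (a z2 z3)) (d (a z2 z3) (a z2 z3))) z3))))) _ _ (by decide +kernel)

theorem okB636 : CKB ⟨9216, 10752, 5888, 6144⟩ ⟨0, 4608, 6144, 6400⟩ :=
  ckB_sound z2 _ _ (by decide +kernel)

theorem okB637 : CKB ⟨10752, 12288, 5888, 6144⟩ ⟨0, 3840, 6144, 6400⟩ :=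
  ckB_sound (b (d (c (a (b (d (c (a z2 (b (d (c (a (b z3 z2) z3) z3) (a (b z3 z2) z3)) (d (c (a z2 z3) (a z2 z3)) (a z2 z3)))) (a z2 (b z3 (d (c (a z2 z3) (a z2 z3)) (c (a z2 z3) (a z2 z3)))))) (a z2 (b (d (c (a (b z3 z2) z3) z3) (a (b z3 z2) z3)) (d (c (a z2 z3) (a z2 z3)) (a z2 z3))))) (d (c (a z2 (b (d (c (a z2 z3) z2) (a z2 z3)) (d z2 z2))) z2) (a z2 (b (d z2 z2) (d z2 z2))))) z3) (a (b (d z2 (a z2 (c (b z3 (d (c (a z2 z3) (a z2 z3)) (c (a z2 z3) (a z2 z3)))) (b z3 (d (a z2 z3) (a z2 z3)))))) z2) z3)) (a (b (d (a z2 (c (b (d (a (c (b z3 z2) z3) z3) (a (b z3 z2) z3)) (d (a z2 z3) (a z2 z3))) (b z3 (d (a z2 z3) (a z2 z3))))) (a z2 (b (d (a (c (b z3 z2) z3) z3) (a (b z3 z2) z3)) (d (a z2 z3) (a z2 z3))))) (d (a z2 (c (b (d z2 z2) z2) z2)) (a z2 (b (d z2 z2) z2)))) z3)) (d (c (a (b (d z2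 z2) (d z2 z2)) (b (d (c (a (b z3 (d (c (a (b z3 (d z3 z3)) z3) z3) (a (b z3 (d z3 z3)) z3))) z3) z3) (a (b z3 (d z3 z3)) z3)) (d (c (a (b (d (c (a z2 z3) (a z2 z3)) (a z2 z3)) (d (c (a z2 z3) (a z2 z3)) (a z2 z3))) z3) (a (b (d (c (a z2 z3) (a z2 z3)) (c (a z2 z3) (a z2 z3))) (d (c (a z2 z3) (a z2 z3)) (c (a z2 z3) (a z2 z3)))) z3)) (a (b (d (c (a z2 z3) (a z2 z3)) (a z2 z3)) (d (c (a z2 z3) (a z2 z3)) (a z2 z3))) z3)))) (a z2 (b z3 (d (c (a (b z3 (d (c (a z2 z3) (a z2 z3)) (c (a z2 z3) (a z2 z3)))) z3) (a (b z3 (d (c (a z2 z3) z3) (c (a z2 z3) (a z2 z3)))) z3)) (c (a (b (d (c (a z2 z3) z3) (c (a z2 z3) (a z2 z3))) (d (c (a z2 z3) (a z2 z3)) (c (a z2 z3) (a z2 z3)))) z3) (a (b z3 (d (c (a z2 z3) (a z2 z3)) (c (a z2 z3) (a z2 z3)))) z3)))))) (a (b (d z2 z2) z2) (b (d (c (a (b z3 (d z3 z3))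 z3) z3) (a (b z3 (d z3 z3)) z3)) (d (c (a (b (d (c (a z2 z3) (a z2 z3)) (a z2 z3)) (d (c (a z2 z3) (a z2 z3)) (a z2 z3))) z3) (a (b (d (a z2 z3) (a z2 z3)) (d (a z2 z3) (a z2 z3))) z3)) (a (b (d (a z2 z3) (a z2 z3)) (d (a z2 z3) (a z2 z3))) z3)))))) _ _ (by decide +kernel)

theorem okB638 : CKB ⟨10752, 12288, 5888, 6144⟩ ⟨3840, 4608, 6144, 6400⟩ :=
  ckB_sound (b (d (a z2 z3) (a (c (b (d z2 (a z2 (c (b z3 (d (a z2 z3) (a z2 z3))) (b z3 (d z3 (a z2 z3)))))) z2) z2) z3)) (d (a z2 (c (b z3 (d z3 (a (c (b z3 (d (a z2 z3) (a z2 z3))) z3) z3))) z3)) (a z2 (c (b z3 (d (a (c (b z3 (d (a z2 z3) (a z2 z3))) (b z3 (d (a z2 z3) (a z2 z3)))) z3) (a (c (b (d z3 (a z2 z3)) (d (a z2 z3) (a z2 z3))) (b z3 (d (a z2 z3) (a z2 z3)))) z3))) (b z3 (d z3 (a (c (b z3 (d z3 (a z2 z3))) z3) z3))))))) _ _ (by decide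 +kernel)

theorem okB639 : CKB ⟨9216, 12288, 5888, 6144⟩ ⟨0, 4608, 6400, 6656⟩ :=
  ckB_sound (a z2 (b (d (a (c (b (d (a z2 (c (b (d (a (c (b z3 z2) z3) z3) z3) (d (a z2 z3) (a z2 z3))) (b z3 (d (a z2 z3) (a z2 z3))))) (a z2 (b (d z3 z3) (d (a z2 z3) (a z2 z3))))) (d (a z2 (c (b (d z2 z2) z2) z2)) z2)) z2) z3) (a (b (d (a z2 (c (b (d z3 z3) (d (a z2 z3) (a z2 z3))) (b z3 (d z3 (a z2 z3))))) (a z2 (b (d z3 z0) (d (a z2 z3) z0)))) (d z2 z2)) z3)) (d (a (c (b (d z2 z2) z2) z2) (c (b (d (a (c (b z3 (d z3 z3)) z3) z3) z3) (d (a (c (b (d (a z2 z3) (a z2 z3)) (d (a z2 z3) (a z2 z3))) (b (d z3 (a z2 z3)) (d (a z2 z3) (a z2 z3)))) z3) (a (b (d (a z2 z3) (a z2 z3)) (d (a z2 z3) (a z2 z3))) z3))) (b z3 (d (a (c (b z3 (d (a z2 z3) (a z2 z3))) z3) z3) (a (c (b (d z3 (a z2 z3)) (d (a z2 z3) (a z2 z3)))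 (b z3 (d (a z2 z3) (a z2 z3)))) z3))))) (a (b (d z2 z2) z2) (b (d z3 z3) (d (a (c (b (d (a z2 z3) (a z2 z3)) (d (a z2 z3) (a z2 z3))) (b z3 (d (a z2 z3) (a z2 z3)))) z3) (a (b (d z3 z0) (d (a z2 z3) z0)) z3))))))) _ _ (by decide +kernel)

theorem okB640 : CKB ⟨9216, 12288, 5632, 6144⟩ ⟨4608, 6144, 6144, 6656⟩ :=
  ckB_sound (b (d (a z2 (c (b z3 (d (a (c (b z3 (d (a z2 z3) (a z2 z3))) (b z3 (d (a z2 z3) (a z2 z3)))) z3) (a (c (b (d z3 (a z2 z3)) (d (a z2 z3) (a z2 z3))) (b z3 (d (a z2 z3) (a z2 z3)))) z3))) (b z3 (d z3 (a (c (b z3 (d (a z2 z3) (a z2 z3))) z3) z3))))) (a z2 (c (b (d z3 (a (c (b z3 (d z3 (a (c (b z3 (d z3 z3)) z3) z3))) z3) z3)) (d (a (c (b (d (a z2 z3) (a z2 z3)) (d (a z2 z3) (a z2 z3))) (b (d z3 (a z2 z3)) (d (a z2 z3) (a z2 z3)))) z3) (a (c (b (d (a z2 z3) (a z2 z3)) (d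 (a z2 z3) (a z2 z3))) (b (d (a z2 z3) (a z2 z3)) (d (a z2 z3) (a z2 z3)))) z3))) (b z3 (d (a (c (b z3 (d (a z2 z3) (a z2 z3))) (b z3 (d z3 (a z2 z3)))) z3) (a (c (b z3 (d (a z2 z3) (a z2 z3))) (b z3 (d (a z2 z3) (a z2 z3)))) z3)))))) (d (a z2 (c (b (d (a z2 z3) (a z2 z3)) (d (a z2 z3) (a z2 z3))) (b (d (a z2 z3) (a z2 z3)) z2))) (a z2 (c (b (d (a z2 z3) (a z2 z3)) (d (a z2 z3) (a z2 (c (b z3 (d (a (c (b z3 (d z3 (a z2 z3))) z3) z3) (a (c (b (d z3 z3) (d (a z2 z3) (a z2 z3))) z3) z3))) z3)))) (b (d (a z2 z3) (a z2 z3)) z2))))) _ _ (by decide +kernel)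

theorem okB641 : CKB ⟨9216, 12288, 5632, 6144⟩ ⟨0, 6144, 6656, 7168⟩ :=
  ckB_sound (b (d (a (c (b (d z2 z2) (d z2 z2)) z2) (c (b (d (a (c (b z3 (d (a (c (b z3 (d z3 z3)) z3) z3) (a (b z3 (d z3 z0)) z3))) z3) z3) (a (b z3 (d z3 z0)) z3)) (d (a (c (b (d (a z2 z3) (a z2 z3)) (d (a z2 z3) (a z2 z3))) (b (d (a z2 z3) (a z2 z3)) (d (a z2 z3) (a z2 z3)))) z3) (a (b (d (a z2 z3) z0) (d (a z2 z3) z0)) z3))) (b (d z3 (a (c (b z3 (d z3 z3)) z3) z3)) (d (a (c (b (d z3 (a z2 z3)) (d (a z2 z3) (a z2 z3))) (b z3 (d (a z2 z3) (a z2 z3)))) z3) (a (c (b (d (a z2 z3) (a z2 z3)) (d (a z2 z3) (a z2 z3))) (b z3 (d (a z2 z3) (a z2 z3)))) z3))))) (a (b (d z2 z0) (d z2 z0)) (b (d (a (b z3 (d z3 z3)) z3) z0) (d (a (b (d (a z2 z3) (a z2 z3)) (d (a z2 z3) (a z2 z3))) z3) z0)))) (d (a z2 (c (b (d (a (c (b (d z2 z2)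 (d z2 z2)) z2) z3) (a (b (d z2 z0) z2) z3)) (d (a z2 (c (b (d z3 z3) (d (a (c (b (d z3 z3) (d (a z2 z3) (a z2 z3))) (b z3 (d z3 (a z2 z3)))) z3) (a (b (d z3 z0) (d (a z2 z3) z0)) z3))) (b z3 (d z3 (a (c (b z3 (d z3 (a z2 z3))) z3) z3))))) (a z2 (b (d z3 z0) (d (a (b z3 (d z3 z3)) z3) z0))))) (b (d (a z2 z3) (a z2 z3)) (d (a z2 z3) (a z2 (c (b z3 (d z3 (a (b z3 (d z3 z3)) z3))) z3)))))) (a z2 (b (d (a z2 z3) z0) (d (a z2 (b z3 (d z3 z3))) z0))))) _ _ (by decide +kernel)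

theorem okB642 : CKB ⟨6144, 12288, 5120, 6144⟩ ⟨0, 6144, 7168, 8192⟩ :=
  ckB_sound z0 _ _ (by decide +kernel)

theorem okB643 : CKB ⟨6144, 12288, 6144, 7168⟩ ⟨0, 3072, 4096, 5120⟩ :=
  ckB_sound (c (a z2 (b (d z2 (c (b (d (a z2 (c (b (d (a z2 (c (b (d (a z2 z3) (a z2 z3)) z2) (b (d (a z2 z3) (a z2 z3)) z2))) (a z2 (b (d (c (a z2 z3) (a z2 z3)) (a z2 z3)) z2))) z2) (b (d z2 (a z2 (c (b (d (a z2 z3) (a z2 z3)) z2) (b (d (a z2 z3) (a z2 z3)) z2)))) z2))) (a z2 (b (d (a z2 (c (b (d (a z2 z3) (a z2 z3)) (d z2 (a z2 z3))) (b (d (a z2 z3) (a z2 z3)) z2))) (a z2 (b (d (c (a z2 z3) (a z2 z3)) (a z2 z3)) (d (c (a z2 z3) (a z2 z3)) (a z2 z3))))) (d z2 (a z2 (b (d z2 z2) z2)))))) (d z2 z2)) (b (d z2 (a z2 (c (b (d (a z2 (c (b (d (a z2 z3) (a z2 z3)) z2) (b (d (a z2 z3) (a z2 z3)) z2))) (a z2 (c (b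 (d (a z2 z3) (a z2 z3)) (d z2 (a z2 z3))) (b (d (a z2 z3) (a z2 z3)) z2)))) z2) (b (d z2 (a z2 (c (b (d (a z2 z3) (a z2 z3)) z2) (b (d (a z2 z3) (a z2 z3)) z2)))) z2)))) z2))) z2)) z2) _ _ (by decide +kernel)

theorem okB644 : CKB ⟨6144, 9216, 6144, 7168⟩ ⟨0, 3072, 5120, 6144⟩ :=
  ckB_sound (b (d z2 (a (b z2 (d z2 z2)) z2)) (d (c (a (b z0 (d z0 (a (c (b z0 (d z0 z0)) z0) z0))) z2) z2) (a (b (d z0 z0) (d (c (a (b z0 (d z0 (b z0 z0))) z0) z0) (a (b (d z0 z0) (d (c (b z0 z0) z0) (b (d z0 z0) (d z0 z0)))) (b z0 (d z0 z0))))) (b (d z2 z2) (d z2 z2))))) _ _ (by decide +kernel)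

end Vale.Agent.Lib.P154Q5
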