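import Vale.Agent.Lib.P154Q5.CkBDefs

namespace Vale.Agent.Lib.P154Q5

set_option maxRecDepth 100000
set_option exponentiation.threshold 1000

open Tr

theorem okB645 : CKB ⟨9216, 12288, 6144, 6400⟩ ⟨0, 1920, 5120, 5376⟩ :=
  ckB_sound (c (a z2 (b (d (c (a z2 (b (d (c (a z2 z3) (a z2 z3)) (a z2 z3)) (d (c (a z2 z3) (a z2 z3)) (a z2 (c (b z3 (d z3 z3)) z3))))) (a z2 (b (d (c (a z2 z3) (a z2 z3)) (c (a z2 z3) (a z2 z3))) (d (c (a z2 z3) z2) (c (a z2 z3) (a z2 z3)))))) (a z2 (c (b (d (a z2 z3) (a z2 z3)) (d (a z2 (c (b z3 (d z3 z3)) z3)) (a z2 (b z3 (d (a (b z3 z2) z3) (a (b z3 z2) z3)))))) (b (d (a z2 z3) (a z2 z3)) (d (a z2 z3) (a z2 (c (b z3 (d z3 (a (c (b z3 z2) z3) z3))) z3))))))) (d (c (a z2 (b (d (c (a z2 (b (d (c (a z2 z3) (a z2 z3)) (a z2 z3)) z2)) z2) (a z2 (c (b (d (a z2 z3) (a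 z2 z3)) z2) z2))) z2)) z2) (a z2 (c (b (d (a z2 (c (b (d (a z2 z3) (a z2 z3)) z2) (b (d (a z2 z3) (a z2 z3)) z2))) (a z2 (b (d (a z2 z3) (a z2 z3)) (d z2 z2)))) (d z2 z2)) (b (d z2 (a z2 (c (b (d (a z2 z3) (a z2 z3)) z2) z2))) z2)))))) (a z2 (b (d (c (a z2 (b (d (c (a z2 z3) (a z2 z3)) (c (a z2 z3) (a z2 z3))) z2)) (a z2 (b (d (c (a z2 z3) (a z2 z3)) (c (a z2 z3) (a z2 z3))) z2))) (c (a z2 (b (d (c (a z2 z3) (a z2 z3)) (c (a z2 z3) (a z2 z3))) (d (c (a z2 z3) z2) (c (a z2 z3) (a z2 z3))))) (a z2 (b (d (c (a z2 z3) (a z2 z3)) (c (a z2 z3) (a z2 z3))) z2)))) z2))) _ _ (by decide +kernel)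

theorem okB646 : CKB ⟨9216, 12288, 6144, 6400⟩ ⟨0, 1920, 5376, 5632⟩ :=
  ckB_sound (a z2 (c (b (d (a z2 (c (b (d (a z2 z3) (a (b (d z2 z0) z2) z3)) (d (a z2 (c (b z3 (d (a (c (b z3 z2) (b z3 z2)) z3) (a (b z3 z2) z3))) (b z3 (d z3 (a (c (b z3 z2) z3) z3))))) (a z2 (b z3 (d (a (b z3 z2) z3) z0))))) (b (d (a z2 z3) (a z2 z3)) (d (a z2 z3) (a z2 (c (b z3 (d (a (c (b z3 z2) z3) z3) (a (b z3 z2) z3))) (b z3 (d z3 (a (c (b z3 z2) z3) z3))))))))) (a z2 (b (d (a (b (d z2 z2) z2) z3) z0) (d (a z2 (b z3 (d (a (c (b (d z3 z3) z2) (b z3 z2)) z3) (a (b (d z3 z3) z2) z3)))) z0)))) (d (a z2 (c (b (d (a z2 (c (b (d (a z2 z3) (a z2 z3)) (d (a z2 z3) (a z2 z3))) (b (d (a z2 z3) (a z2 z3)) z2))) (a z2 (b (d (a z2 z3) z0) (d (a z2 z3) z0)))) (d z2 (a z2 (b (d z2 z0) z2)))) (b (d (a z2 (c (b (d (a z2 z3)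 (a z2 z3)) z2) z2)) (a z2 (c (b (d (a z2 z3) (a z2 z3)) (d z2 (a z2 (b z3 (d z3 z3))))) (b (d (a z2 z3) (a z2 z3)) z2)))) z2))) (a z2 (b (d (a z2 (b (d (a z2 z3) (a z2 z3)) (d (a z2 (c (b z3 (d z3 z3)) z3)) (a z2 (b z3 (d z3 z3)))))) z0) (d (a z2 (b (d z2 z2) z2)) z0))))) (b (d (a z2 (c (b (d (a z2 z3) (a z2 z3)) (d (a z2 z3) (a z2 z3))) (b (d (a z2 z3) (a z2 z3)) (d (a z2 z3) (a z2 z3))))) (a z2 (c (b (d (a z2 z3) (a (b (d z2 (a z2 (b z3 (d (c (a z2 z3) z3) (a z2 z3))))) z2) z3)) (d (a z2 (c (b z3 (d (a (c (b z3 z2) z3) z3) (a (c (b z3 z2) (b z3 z2)) z3))) (b z3 (d z3 (a (c (b z3 z2) z3) z3))))) (a z2 (b (d z3 z3) (d (c (a (b (d z3 (a z2 z3)) z2) z3) (a (b z3 z2) z3)) (a (b (d (c (a z2 z3) z3) (a z2 z3)) z2) z3)))))) (b (d (a z2 z3) (a z2 z3)) (d (a z2 z3) (a z2 (b z3 (d (c (a (b z3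 z2) z3) z3) (c (a (b z3 z2) z3) (a (b z3 z2) z3)))))))))) (d (a z2 (c (b (d z2 (a z2 (c (b (d (a z2 z3) (a z2 z3)) z2) z2))) z2) z2)) (a z2 (c (b (d (a z2 (c (b (d (a z2 z3) (a z2 z3)) (d z2 (a z2 z3))) (b (d (a z2 z3) (a z2 z3)) z2))) (a z2 (b (d (c (a z2 z3) (a z2 z3)) (a z2 z3)) (d (c (a z2 (b z3 (d z3 (a z2 z3)))) (a z2 z3)) (a z2 (b z3 (d (c (a z2 z3) z3) (a z2 z3)))))))) (d z2 (a z2 (b (d z2 z2) z2)))) (b (d (a z2 (b (d (c (a z2 z3) (a z2 z3)) (c (a z2 z3) (a z2 z3))) z2)) (a z2 (b (d (c (a z2 z3) (a z2 z3)) (c (a z2 z3) (a z2 z3))) (d z2 (c (a z2 z3) z2))))) z2))))))) _ _ (by decide +kernel)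

theorem okB647 : CKB ⟨9216, 12288, 6400, 6656⟩ ⟨0, 1920, 5120, 5632⟩ :=
  ckB_sound (d (c (a z2 (b (d z2 z2) z2)) z2) (a z2 (c (b (d z2 (a z2 (b (d z2 z0) z2))) z2) z2))) _ _ (by decide +kernel)

theorem okB648 : CKB ⟨9216, 12288, 6144, 6656⟩ ⟨1920, 3072, 5120, 5632⟩ :=
  ckB_sound (b (d (a z2 (c (b (d z2 (a z2 (c (b (d (a z2 z3) (a z2 z3)) z2) (b (d (a z2 z3) (a z2 z3)) z2)))) z2) z2)) (a z2 (c (b (d (a z2 (c (b (d (a z2 z3) (a z2 z3)) (d z2 (a z2 z3))) (b (d (a z2 z3) (a z2 z3)) z2))) (a z2 (c (b (d (a z2 z3) (a z2 z3)) (d (a z2 z3) (a z2 z3))) (b (d (a z2 z3) (a z2 z3)) (d z2 (a z2 z3)))))) (d z2 (a z2 (c (b (d z2 (a z2 (c (b (d (c (a z2 z3) (a z2 z3)) (c (a z2 z3) (a z2 z3))) z2) z2))) z2) z2)))) (b (d z2 (a z2 (c (b (d (a z2 z3) (a z2 z3)) z2) (b (d (a z2 z3) (a z2 z3)) z2)))) z2))))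 z2) _ _ (by decide +kernel)

theorem okB649 : CKB ⟨9216, 10752, 6144, 6400⟩ ⟨0, 2400, 5632, 5888⟩ :=
  ckB_sound z2 _ _ (by decide +kernel)

theorem okB650 : CKB ⟨10752, 12288, 6144, 6272⟩ ⟨0, 2400, 5632, 5888⟩ :=
  ckB_sound (d (c (a z2 (b (d (c (a (b (d (c (a z2 (b z3 (d (c (a z2 z3) z3) (a z2 z3)))) z2) (a z2 (c (b z3 (d (a z2 z3) (a z2 z3))) (b z3 (d z3 (a z2 z3)))))) (d z2 z2)) z3) (a z2 z3)) (a (c (b (d (a z2 (c (b z3 (d (a z2 z3) (a z2 z3))) (b z3 (d z3 (a z2 z3))))) (a z2 (b z3 (d (a z2 z3) z0)))) (d z2 z2)) (b (d z2 (a z2 (c (b z3 (d (a z2 z3) (a z2 z3))) (b z3 (d z3 (a z2 z3)))))) z2)) z3)) (d (c (a z2 (b (d z3 z3) (d (c (a (b (d (c (a z2 z3) z3) (a z2 z3)) z2) z3) (a (b z3 z2) z3)) (a (c (b (d (a z2 z3) (a z2 z3)) z2) (b (d z3 (a z2 z3)) z2)) z3)))) (a z2 (b z3 (d (c (a (b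 z3 z2) z3) z3) (c (a (b z3 z2) z3) (a (b z3 z2) z3)))))) (a z2 (c (b (d z3 z3) (d (a (c (b (d (a z2 z3) (a z2 z3)) z2) (b (d z3 (a z2 z3)) z2)) z3) (a (b (d (a z2 z3) z0) z2) z3))) (b z3 (d (a (c (b z3 z2) (b z3 z2)) z3) (a (c (b (d (a z2 z3) (a z2 z3)) z2) (b (d z3 (a z2 z3)) z2)) z3)))))))) (a z2 (b (d (c (a z2 z3) (a z2 z3)) (c (a z2 z3) (a z2 z3))) (d (c (a z2 z3) (a z2 z3)) (c (a z2 (b z3 (d (c (a (b z3 z2) z3) z3) (c (a (b z3 z2) z3) (a (b z3 z2) z3))))) (a z2 z3)))))) (a z2 (b (d (c (a (b (d (c (a z2 (b z3 (d (c (a z2 z3) (a z2 z3)) (a z2 z3)))) z2) (a z2 (c (b (d z3 z3) (d (a z2 z3) (a z2 z3))) (b z3 (d (a z2 z3) (a z2 z3)))))) (d z2 z2)) z3) (a z2 z3)) (a (c (b (d (a z2 (c (b (d z3 z3) (d (a z2 z3) (a z2 z3))) (b z3 (d (a z2 z3) (a z2 z3))))) (a z2 (b (d z3 z0) (d (a z2 z3) z0))))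 (d z2 z2)) (b (d z2 (a z2 (c (b z3 (d (a z2 z3) (a z2 z3))) (b z3 (d (a z2 z3) (a z2 z3)))))) z2)) z3)) (d (c (a z2 (b (d z3 z3) (d (c (a (b (d (c (a z2 z3) z3) (a z2 z3)) z2) z3) (a (b z3 z2) z3)) (a (c (b (d (a z2 z3) (a z2 z3)) (d z2 z2)) (b (d z3 (a z2 z3)) z2)) z3)))) (a z2 (b z3 (d (c (a (b z3 z2) z3) z3) (c (a (b z3 z2) z3) (a (b z3 z2) z3)))))) (a z2 (c (b (d z3 (a (b z3 (d z3 z0)) z3)) (d (a (c (b (d (a z2 z3) (a z2 z3)) (d z2 z2)) (b (d (a z2 z3) (a z2 z3)) z2)) z3) (a (b (d (a z2 z3) z0) (d z2 z0)) z3))) (b z3 (d (a (c (b z3 z2) (b z3 z2)) z3) (a (c (b (d (a z2 z3) (a z2 z3)) z2) (b (d z3 (a z2 z3)) z2)) z3))))))))) _ _ (by decide +kernel)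

theorem okB651 : CKB ⟨10752, 12288, 6272, 6400⟩ ⟨0, 2400, 5632, 5888⟩ :=
  ckB_sound (d (c (a z2 (b (d (c (a z2 (b (d (c (a z2 z3) (a z2 z3)) (a z2 z3)) (d (c (a z2 (b z3 (d (c (a z2 z3) z3) (a z2 z3)))) (a z2 z3)) (a z2 (c (b z3 (d (a z2 z3) (a z2 z3))) (b z3 (d z3 (a z2 z3)))))))) (a z2 (b (d (c (a z2 z3) (a z2 z3)) (c (a z2 z3) (a z2 z3))) (d z2 (c (a z2 z3) z2))))) (a z2 (c (b (d (a z2 z3) (a z2 z3)) (d (a z2 (c (b z3 (d (a z2 z3) (a z2 z3))) (b z3 (d z3 (a z2 z3))))) (a z2 (b z3 (d (a z2 z3) z0))))) (b (d (a z2 z3) (a z2 z3)) (d (a z2 z3) (a z2 (c (b z3 (d (a z2 z3) (a z2 z3))) (b z3 (d z3 (a z2 z3)))))))))) (d (c (a z2 (b (d (c (a z2 (b (d z2 z2) z2)) z2) (a z2 (c (b (d z2 z2) z2) z2))) z2)) z2) (a z2 (c (b (d (a z2 (c (b (d z2 z2) z2) z2)) (a z2 (b (d z2 z0) z2))) (d z2 z2)) (b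 (d z2 (a z2 (c (b (d z2 z2) z2) z2))) z2)))))) (a z2 (b (d (c (a z2 (b (d (c (a z2 z3) (a z2 z3)) (c (a z2 z3) (a z2 z3))) z2)) z2) (c (a z2 (b (d (c (a z2 z3) (a z2 z3)) (c (a z2 z3) (a z2 z3))) (d z2 (c (a z2 z3) z2)))) (a z2 (b (d (c (a z2 z3) (a z2 z3)) (c (a z2 z3) (a z2 z3))) z2)))) z2))) (a z2 (b (d (c (a z2 (b (d (c (a z2 z3) (a z2 z3)) (a z2 z3)) (d (c (a z2 (b z3 (d (c (a z2 z3) z3) (a z2 z3)))) (a z2 z3)) (a z2 (c (b z3 (d (a z2 z3) (a z2 z3))) (b z3 (d z3 (a z2 z3)))))))) (a z2 (b (d (c (a z2 z3) (a z2 z3)) (c (a z2 z3) (a z2 z3))) (d z2 (c (a z2 z3) z2))))) (a z2 (c (b (d (a z2 z3) (a z2 z3)) (d (a z2 (c (b z3 (d (a z2 z3) (a z2 z3))) (b z3 (d (a z2 z3) (a z2 z3))))) (a z2 (b (d z3 z0) (d (a z2 z3) z0))))) (b (d (a z2 z3) (a z2 z3)) (d (a z2 z3) (a z2 (c (b z3 (d (a z2 z3)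 (a z2 z3))) (b z3 (d z3 (a z2 z3)))))))))) (d (c (a z2 (b (d (c (a z2 (b (d z2 z2) z2)) z2) (a z2 (c (b (d z2 z2) z2) z2))) (d z2 z2))) z2) (a z2 (c (b (d (a z2 (c (b (d z2 z2) z2) z2)) (a z2 (b (d z2 z0) z2))) (d z2 z2)) (b (d z2 (a z2 (c (b (d z2 z2) z2) z2))) z2))))))) _ _ (by decide +kernel)

theorem okB652 : CKB ⟨9216, 12288, 6144, 6400⟩ ⟨2400, 3072, 5632, 5888⟩ :=
  ckB_sound (a z2 (b (d (c (a z2 (b (d (c (a z2 z3) (a z2 z3)) (c (a z2 z3) (a z2 z3))) (d (c (a z2 z3) z2) (c (a z2 z3) (a z2 z3))))) (a z2 (b (d (c (a z2 z3) (a z2 z3)) (c (a z2 z3) (a z2 z3))) z2))) (c (a z2 (b (d (c (a z2 z3) (a z2 z3)) (c (a z2 z3) (a z2 z3))) (d (c (a z2 z3) (a z2 z3)) (c (a z2 (b z3 (d (c (a (b z3 z2) z3) z3) (c (a (b z3 z2) z3) (a (b z3 z2) z3))))) (a z2 z3))))) (a z2 (b (d (c (a z2 z3) (a z2 z3))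 (c (a z2 z3) (a z2 z3))) (d (c (a z2 z3) z2) (c (a z2 z3) (a z2 z3))))))) (d z2 (c (a z2 (b (d (c (a z2 (b (d (c (a z2 z3) (a z2 z3)) (c (a z2 z3) (a z2 z3))) z2)) z2) (c (a z2 (b (d (c (a z2 z3) (a z2 z3)) (c (a z2 z3) (a z2 z3))) (d z2 (c (a z2 z3) z2)))) (a z2 (b (d (c (a z2 z3) (a z2 z3)) (c (a z2 z3) (a z2 z3))) z2)))) z2)) z2)))) _ _ (by decide +kernel)

theorem okB653 : CKB ⟨9216, 10752, 6144, 6400⟩ ⟨0, 3072, 5888, 6144⟩ :=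
  ckB_sound z2 _ _ (by decide +kernel)

theorem okB654 : CKB ⟨10752, 12288, 6144, 6272⟩ ⟨0, 3072, 5888, 6144⟩ :=
  ckB_sound (d (c (a z2 (b (d (c (a (b (d (c (a z2 (b (d z3 z3) (d (c (a z2 z3) (a z2 z3)) (a z2 z3)))) z2) (a z2 (b (d z3 z3) (d (c (a z2 z3) (a z2 z3)) (a z2 z3))))) (d z2 z2)) z3) (a z2 z3)) (a (b (d (c (a z2 (b (d z3 z3) (d (c (a z2 z3) (a z2 z3)) (a z2 z3)))) z2) (a z2 (b (d z3 z3) (d (c (a z2 z3) (a z2 z3)) (a z2 z3))))) (d z2 z2)) z3)) (d (c (a z2 (b (d (c (a (b z3 (d z3 z3)) z3) z3) (a (b z3 (d z3 z3)) z3)) (d (c (a (b (d (c (a z2 z3) (a z2 z3)) (a z2 z3)) (d z2 z2)) z3) (a (b (d z3 (c (a z2 z3) z3)) z2) z3)) (a (b (d (c (a z2 z3) (a z2 z3)) (a z2 z3)) (d z2 z2)) z3)))) (a z2 (b z3 (d (c (a (b z3 z2) z3) (a (b z3 z2) z3)) (c (a (b (d z3 (c (a z2 z3) z3)) z2) z3) (a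 (b z3 z2) z3)))))) (a z2 (b (d (c (a (b z3 (d z3 z3)) z3) z3) (a (b z3 (d z3 z3)) z3)) (d (c (a (b (d (c (a z2 z3) (a z2 z3)) (a z2 z3)) (d z2 z2)) z3) (a (b (d z3 (c (a z2 z3) z3)) z2) z3)) (a (b (d (c (a z2 z3) z3) (a z2 z3)) (d z2 z2)) z3))))))) (a z2 (b (d (c (a z2 z3) (a z2 z3)) (c (a z2 z3) (a z2 z3))) (d (c (a z2 (b z3 (d z3 (c (a (b z3 z2) z3) z3)))) (a z2 z3)) (c (a z2 (b z3 (d (c (a (b z3 z2) z3) (a (b z3 z2) z3)) (c (a (b z3 z2) z3) (a (b z3 z2) z3))))) (a z2 z3)))))) (a z2 (b (d (c (a (b (d (c (a z2 (b (d z3 z3) (d (c (a z2 z3) (a z2 z3)) (a z2 z3)))) z2) (a z2 (b (d z3 z3) (d (c (a z2 z3) (a z2 z3)) (a z2 z3))))) (d z2 z2)) z3) (a z2 z3)) (a (b (d (c (a z2 (b (d z3 z3) (d (c (a z2 z3) z3) (a z2 z3)))) z2) (a z2 (b z3 (d (c (a z2 z3) z3) (a z2 z3))))) (d z2 z2)) z3)) (d (c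 (a z2 (b (d z3 z3) (d (c (a (b (d (c (a z2 z3) z3) (a z2 z3)) (d z2 z2)) z3) (a (b z3 z2) z3)) (a (b (d (c (a z2 z3) z3) (a z2 z3)) z2) z3)))) (a z2 (b z3 (d (c (a (b z3 z2) z3) z3) (c (a (b z3 z2) z3) (a (b z3 z2) z3)))))) (a z2 (b (d z3 z3) (d (c (a (b (d (c (a z2 z3) z3) (a z2 z3)) z2) z3) (a (b z3 z2) z3)) (a (b (d (c (a z2 z3) z3) (a z2 z3)) z2) z3)))))))) _ _ (by decide +kernel)

theorem okB655 : CKB ⟨10752, 12288, 6272, 6400⟩ ⟨0, 3072, 5888, 6144⟩ :=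
  ckB_sound (d (c (a z2 (b (d (c (a z2 (b (d (c (a z2 z3) (a z2 z3)) (a z2 z3)) (d (c (a z2 (b (d z3 z3) (d (c (a z2 z3) (a z2 z3)) (a z2 z3)))) (a z2 (b z3 (d z3 (c (a z2 z3) z3))))) (a z2 (b (d z3 z3) (d (c (a z2 z3) (a z2 z3)) (a z2 z3))))))) (a z2 (b (d (c (a z2 z3) (a z2 z3)) (c (a z2 z3) (a z2 z3))) (d z2 (c (a z2 (b z3 (d z3 (c (a z2 z3) z3)))) z2))))) (a z2 (b (d (c (a z2 z3) (a z2 z3)) (a z2 z3)) (d (c (a z2 (b (d z3 z3) (d (c (a z2 z3) (a z2 z3)) (a z2 z3)))) (a z2 z3)) (a z2 (b (d z3 z3) (d (c (a z2 z3) z3) (a z2 z3)))))))) (d (c (a z2 (b (d (c (a z2 (b (d z2 z2) z2)) z2) (a z2 (b (d z2 z2) z2))) (d z2 z2))) z2) (a z2 (b (d (c (a z2 (b (d z2 z2) z2)) z2) (a z2 (b (d z2 z2) z2))) (d z2 z2)))))) (a z2 (b (d (c (a z2 (b (d (c (a z2 z3) (a z2 z3)) (c (a z2 z3) (a z2 z3))) z2))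 z2) (c (a z2 (b (d (c (a z2 z3) (a z2 z3)) (c (a z2 z3) (a z2 z3))) (d z2 (c (a z2 z3) z2)))) (a z2 (b (d (c (a z2 z3) (a z2 z3)) (c (a z2 z3) (a z2 z3))) z2)))) z2))) (a z2 (b (d (c (a z2 (b (d (c (a z2 z3) (a z2 z3)) (a z2 z3)) (d (c (a z2 (b z3 (d (c (a z2 z3) z3) (a z2 z3)))) (a z2 z3)) (a z2 (b z3 (d (c (a z2 z3) z3) (a z2 z3))))))) (a z2 (b (d (c (a z2 z3) (a z2 z3)) (c (a z2 z3) (a z2 z3))) (d z2 (c (a z2 z3) z2))))) (a z2 (b (d (c (a z2 z3) (a z2 z3)) (a z2 z3)) (d (c (a z2 (b z3 (d (c (a z2 z3) z3) (a z2 z3)))) z2) (a z2 (b z3 (d (c (a z2 z3) z3) (a z2 z3)))))))) (d (c (a z2 (b (d (c (a z2 (b (d z2 z2) z2)) z2) (a z2 (b (d z2 z2) z2))) (d z2 z2))) z2) (a z2 (b (d (c (a z2 (b (d z2 z2) z2)) z2) (a z2 (b (d z2 z2) z2))) (d z2 z2))))))) _ _ (by decide +kernel)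

theorem okB656 : CKB ⟨9216, 12288, 6400, 6656⟩ ⟨0, 3072, 5632, 6144⟩ :=
  ckB_sound (d (c (a z2 (b (d (c (a z2 (b (d z2 z2) z2)) z2) (a z2 (b (d z2 z2) z2))) (d z2 z2))) z2) (a z2 (b (d (c (a z2 (b (d z2 z2) z2)) z2) (a z2 (b (d z2 z2) (d z2 z2)))) (d z2 z2)))) _ _ (by decide +kernel)

theorem okB657 : CKB ⟨9216, 12288, 6656, 7168⟩ ⟨0, 3072, 5120, 6144⟩ :=
  ckB_sound (d (c (b (d z2 z2) z2) z2) (b (d z2 (a z2 (b (d z2 z2) z2))) (d z2 z2))) _ _ (by decide +kernel)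

theorem okB658 : CKB ⟨6144, 12288, 7168, 8192⟩ ⟨0, 3072, 4096, 6144⟩ :=
  ckB_sound (d (c (b z2 (d (c (b z0 (d z0 (c (b z0 z0) z0))) (b z0 z0)) (c (b (d (a (c (b z0 z0) z0) z2) (a (b z0 z0) z2)) (d (c (b z0 z0) (b z0 z0)) (b z0 z0))) (b (d z0 (a (c (b z0 z0) (b z0 z0)) z2)) (d z0 (c (b z0 z0) (b z0 z0))))))) (b z2 (d (c (b z0 z0) (b z0 z0)) (c (b z0 (d z0 (c (b z0 z0) z0))) (b z0 z0))))) (b (d (a (c (b (d (a (c (b z0 z0) (b z0 z0)) z2) (a (c (b (d z0 z0) (d z0 z0)) (b z0 z0)) z2)) (d (c (b z0 z0) (b z0 z0)) (c (b (d z0 z0) (d z0 (a (b z0 z0) z0))) (b z0 z0)))) (b (d z0 (a (c (b z0 z0) (b z0 z0)) z2)) (d (c (b z0 z0) z0) (c (b z0 z0) (b z0 z0))))) z2) (a (b (d (a (c (b (d (a (c (b z0 z0) z0) z0) (a (b z0 z0) z0)) (d (c (a (b z0 z0) z0) z0) (a (b z0 z0) z0))) (b z0 z0)) z2) (a (b (d (a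 (c (b z0 z0) z0) z0) (a (b (d z0 z0) (d z0 z0)) z0)) (d (c (a (b z0 z0) z0) z0) (a (b (d z0 z0) (d z0 z0)) (b z0 (d z0 z0))))) (b z2 (d z2 z2)))) (d (c (b (d (a (c (b z0 z0) z0) z0) (a (b z0 z0) z0)) (d (c (a (b z0 z0) z0) z0) (a (b z0 z0) z0))) (b z0 z0)) (b (d (a (c (b z0 z0) z0) z0) (a (b (d z0 z0) (d z0 z0)) z0)) (d (c (a (b z0 z0) z0) (a (b z0 z0) z0)) (a (b (d z0 z0) (d z0 z0)) z0))))) (b (d z2 z2) (d z2 z2)))) (d (c (b (d (c (a (b z0 z0) z2) (a (b z0 z0) z2)) (a (c (b (d z0 (a (b z0 z0) z0)) (d z0 (b z0 z0))) (b z0 z0)) z2)) (d (c (b z0 z0) (b z0 z0)) (c (b (d z0 (a (b z0 z0) z2)) (d z0 z0)) (b z0 z0)))) (b (d (a (c (b z0 z0) (b z0 z0)) z2) (a (c (b z0 z0) (b z0 z0)) z2)) (d (c (b z0 z0) (b z0 z0)) (c (b z0 z0) (b z0 z0))))) (b (d (c (a (b (d (c (a (b z0 z0) z0) z0) (a (b z0 z0)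 z0)) (d (c (b z0 z0) z0) (b z0 z0))) z2) (a (b z0 z0) z2)) (a (b (d (c (a (b z0 z0) z0) (a (b z0 z0) z0)) (a (b (d z0 z0) (d z0 z0)) z0)) (d (c (b z0 z0) z0) (b (d z0 z0) (d z0 z0)))) z2)) (d (c (b (d (c (a (b z0 z0) z2) z0) (a (b z0 z0) z2)) (d (c (b z0 z0) z0) (b z0 z0))) (b z0 z0)) (b (d (c (a (b z0 z0) z2) z0) (a (b z0 z0) z2)) (d (c (b z0 z0) z0) (b z0 z0)))))))) _ _ (by decide +kernel)

theorem okB659 : CKB ⟨6144, 12288, 6144, 8192⟩ ⟨3072, 6144, 4096, 6144⟩ :=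
  ckB_sound (b (d z2 (a z2 (b (d z2 (c (b (d (a z2 (c (b (d z2 (c (a z2 (b (d (c (a z2 z3) (a z2 z3)) (c (a z2 z3) (a z2 z3))) z2)) z2)) z2) z2)) (a z2 (c (b (d (c (a z2 (b (d (c (a z2 z3) (a z2 z3)) (c (a z2 z3) (a z2 z3))) (d (c (a z2 z3) z2) (c (a z2 z3) z2)))) (a z2 (b (d (c (a z2 z3) (a z2 z3)) (c (a z2 z3) (a z2 z3))) z2))) (c (a z2 (b (d (c (a z2 z3) (a z2 z3)) (c (a z2 z3) (a z2 z3))) (d (c (a z2 z3) (a z2 z3)) (c (a z2 (b z3 (d (c (a (b z3 z2) z3) z3) (c (a (b z3 z2) z3) (a (b z3 z2) z3))))) (a z2 z3))))) (a z2 (b (d (c (a z2 z3) (a z2 z3)) (c (a z2 z3) (a z2 z3))) (d z2 (c (a z2 z3) z2)))))) (d z2 (c (a z2 (b (d z2 (c (a z2 (b (d (c (a z2 z3) (a z2 z3)) (c (a z2 z3) (a z2 z3))) z2)) z2)) z2)) z2))) (b (d z2 (a z2 (c (b (d (a z2 z3) (a z2 z3)) z2) (b (d (a z2 z3) (a z2 z3)) z2))))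 z2)))) z2) z2)) z2))) (d (b z2 (d (c (b z0 z0) (b z0 z0)) (c (b z0 z0) (b z0 z0)))) (b (d z2 (a (c (b (d (a (c (b z0 z0) (b z0 z0)) z2) (a (c (b (d z0 (a (c (b z0 z0) z0) z0)) (d z0 (c (a (b z0 z0) z0) z0))) (b z0 z0)) z2)) (d (c (b z0 z0) (b z0 z0)) (c (b (d z0 (a (c (b z0 z0) z0) z0)) (d z0 (c (a (b z0 z0) z0) z0))) (b z0 z0)))) (b (d z0 (a (c (b z0 z0) (b z8 z8)) z2)) (d (c (b z0 z0) z8) (c (b z0 z0) (b z8 z8))))) z2)) (d (c (b (d z0 (c (a (b z0 z0) z2) z0)) (d z0 (c (b z0 z0) (b z0 z0)))) (b z0 z0)) (c (b (d (c (a (b z0 z0) z2) (a (b z0 z0) z2)) (c (a (b (d z0 (c (a (b z0 z0) z0) z0)) (d z0 (c (b z0 z0) z0))) z2) (a (b z0 z0) z2))) (d (c (b z0 z0) (b z0 z0)) (c (b (d z0 (c (a (b z0 z0) z2) z0)) z0) (b z0 z0)))) (b (d (a (c (b z0 z0) z8) z2) (a (c (b z0 z0) (b z8 z8)) z2)) (d (c (b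 z0 z0) z8) (c (b z0 z0) (b z8 z8))))))))) _ _ (by decide +kernel)

end Vale.Agent.Lib.P154Q5
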