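import Vale.Agent.Lib.P154Q5.CkBDefs

namespace Vale.Agent.Lib.P154Q5

set_option maxRecDepth 100000
set_option exponentiation.threshold 1000

open Tr

theorem okB660 : CKB ⟨6144, 9216, 6144, 6656⟩ ⟨0, 6144, 6144, 7168⟩ :=
  ckB_sound (d (c (a (b (d z2 z2) (d z2 (a (b z2 (d z2 z2)) z2))) (b (d z2 z2) (d z2 z2))) z2) (a (b (d z2 (a (b z2 (d z2 z0)) z2)) (d (c (a (b (d z2 z2) (d z2 z2)) (b z2 (d z2 z2))) z2) (a (b (d z2 z0) (d z2 z0)) (b (d z2 z0) (d z2 z0))))) (b (d z2 z2) (d z2 (a (b z2 (d z2 z0)) z2))))) _ _ (by decide +kernel)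

theorem okB661 : CKB ⟨6144, 9216, 6656, 7168⟩ ⟨0, 6144, 6144, 6656⟩ :=
  ckB_sound (c (a (b (d (c (a (b z0 (d z0 z0)) z2) z0) (a (b (d z0 z0) (d z0 z0)) (b (d z2 z2) (d z2 z2)))) (d (c (a (b (d (c (a (b z0 (d z0 z0)) z0) z0) (a (b z0 (d z0 z0)) z0)) (d (c (b (d z0 z0) (d z0 z0)) (b z0 z0)) (b (d z0 (a (b z0 z0) z0)) (d (c (b z0 z0) z0) (b z0 z0))))) (b (d z0 z0) (d z0 z0))) (a (b z0 (d z0 (c (b z0 z0) (b z0 z0)))) z0)) (a (b (d (c (a (b z0 (d z0 (a (b z0 z0) z0))) z0) z0) (a (b (d z0 z0) (d (a (c (b z0 (d z0 z0)) z0) z0) (a (b z0 (d z0 z0)) z0))) (b z0 (d z0 z0)))) (d (c (b (d (a (c (b z0 z0) z0) z0) (a (b z0 z0) z0)) (d (c (b z0 z0) z0) (b z0 z0))) (b z0 (d z0 (c (b z0 z0) z0)))) (b (d (a (c (b (d z0 z0) (d z0 z0)) (b z0 z0)) z0) (a (b (d z0 z0) (d z0 z0)) z0)) (d (c (b (d z0 z0) (d z0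 z0)) (b z0 z0)) (b (d z0 z0) (d z0 z0)))))) (b (d z0 z0) (d (c (a (b z0 (d z0 z0)) z0) z0) (a (b (d z0 z0) (d z0 z0)) (b z0 (d z0 z0)))))))) (b (d z2 (a (b z2 (d z2 z2)) z2)) (d (c (a (b z2 (d z2 z2)) z2) z2) (a (b (d z2 z2) (d z2 z2)) (b (d z2 z2) (d z2 z2)))))) (a (b z0 (d (c (a (b z0 z0) z0) z0) (c (a (b (d z0 (c (a (b z0 (d z0 (c (a (b z0 z0) z0) z0))) z0) z0)) (d (c (b z0 z0) (b z0 z0)) (c (b (d z0 (a (c (b (d z0 z0) (d z0 z0)) z0) z0)) (d z0 (c (b (d z0 z0) (d z0 z0)) z0))) (b z0 z0)))) z0) (a (b z0 (d z0 (c (b z0 z0) z0))) z0)))) z2)) _ _ (by decide +kernel)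

theorem okB662 : CKB ⟨6144, 7680, 6656, 6912⟩ ⟨0, 6144, 6656, 7168⟩ :=
  ckB_sound (d (c (a (b (d z0 z0) (d (c (a (b z0 (d z0 z0)) z0) z0) (a (b (d z0 z0) (d z0 z0)) (b z0 (d z0 z0))))) (b (d z2 z2) (d z2 z2))) z0) (a (b (d (a (b z0 (d z0 z0)) z0) z0) (d (a (b (d z0 z0) (d z0 z0)) (b (d z0 z0) (d z0 z0))) z0)) (b (d z2 z0) (d z2 z0)))) _ _ (by decide +kernel)

theorem okB663 : CKB ⟨6144, 7680, 6912, 7168⟩ ⟨0, 6144, 6656, 6912⟩ :=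
  ckB_sound (c (a (b (d (c (a (b (d z0 z0) (d (c (a (b z0 (d z0 z0)) z0) z0) (a (b (d z0 z0) (d z0 z0)) z0))) (b (d z0 z0) (d z0 z0))) (a (b z0 (d z0 (a (c (b z0 (d z0 z0)) z0) z0))) z0)) (a (b (d z0 z0) (d (a (b (d z0 z0) (d z0 (b z0 z0))) z0) z0)) (b (d z0 z0) (d z0 z0)))) (d (c (b (d (a (c (b (d z0 z0) (d z0 z0)) (b z0 z0)) z0) (a (b (d z0 z0) (d z0 z0)) z0)) (d (c (b (d z0 z0) (d z0 z0)) (b z0 z0)) (b (d z0 z0) (d z0 z0)))) (b (d z0 (a (c (b (d z0 z0) (d z0 z0)) (b z0 z0)) z0)) (d z0 (c (b (d z0 (a (b z0 z0) z0)) (d z0 (b z0 z0))) (b z0 z0))))) (b (d (a (b (d z0 (a (b z0 z0) z0)) (d (c (b z0 z0) z0) (b z0 z0))) z0) z0) (d (b (d (a (c (b z0 z0) z0) z0) (a (b z0 z0) z0)) (d (c (b z0 z0) z0) (b z0 z0))) z0)))) (b (d (c (a (b z0 (d z0 z0)) z0) z0) (a (b (d z0 z0) (d z0 z0)) (b z2 (d z0 z0))))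 (d (c (a (b (d z0 z0) (d z0 z0)) (b (d z0 z0) (d z0 z0))) z0) (a (b (d z0 z0) (d (a (b z0 (d z0 z0)) z0) z0)) (b (d z0 z0) (d z0 z0)))))) (a (b (d z0 (a (c (b (d z0 z0) (d (a (c (b z0 z0) z0) z0) (a (b (d z0 z0) (d (c (b z0 z0) z0) (b z0 z0))) (b z0 (d z0 z0))))) z0) (c (b z0 (d z0 z0)) z0))) (d (c (b z0 z0) (b z0 z0)) (c (b (d (a (c (b z0 z0) (b z0 z0)) z0) (a (b (d (c (a (b z0 z0) z0) z0) (a (b z0 z0) z0)) (d (c (b z0 z0) z0) (b z0 z0))) (b z0 (d z0 z0)))) (d (c (b z0 z0) (b z0 z0)) (b (d (c (a (b z0 z0) z0) z0) (a (b z0 z0) z0)) (d (c (b z0 z0) z0) (b z0 z0))))) (b (d z0 (a (c (b z0 z0) (b z0 z0)) z0)) (d z0 (c (b z0 z0) (b z0 z0))))))) (b z0 (d z0 (c (a (b (d z0 z0) (d z0 (a (b z0 (d z0 z0)) z0))) z0) z0))))) _ _ (by decide +kernel)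

theorem okB664 : CKB ⟨6144, 7680, 6912, 7168⟩ ⟨0, 6144, 6912, 7168⟩ :=
  ckB_sound (a (b (d (a (b (d (a (c (b z0 (d z0 z0)) z0) z0) (a (b z0 (d z0 z0)) z0)) (d (a (c (b (d z0 z0) (d (c (b z0 z0) z0) (b z0 z0))) (b z0 (d z0 (c (b z0 z0) z0)))) (c (b z0 (d z0 z0)) z0)) (a (b (d z0 z0) (d (b z0 z0) z0)) (b (d z0 z0) (d z0 z0))))) (b (d z0 z0) (d z0 (a (b z0 (d z0 z0)) z0)))) z0) (d (b (d (a (c (b (d (a (c (b z0 z0) z0) z0) (a (b z0 z0) z0)) (d (c (b z0 z0) z0) (b z0 z0))) (b (d z0 (a (c (b z0 z0) z0) z0)) (d z0 (c (b z0 z0) z0)))) (c (b (d z0 z0) (d z0 z0)) z0)) (a (b (d (a (b z0 z0) z0) z0) (d (b z0 z0) z0)) (b (d z0 z0) (d z0 z0)))) (d (c (b (d (a (c (b z0 z0) z0) z0) (a (b z0 z0) z0)) (d (c (b z0 z0) z0) (b z0 z0))) (b (d z0 (a (c (b z0 z0) z0) z0)) (d z0 (c (b z0 z0) z0)))) (b (d (a (b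 z0 (d z0 z0)) z0) z0) (d (b (d z0 z0) (d z0 z0)) z0)))) z0)) (b (d (a (b (d z0 z0) (d z0 z0)) (b z2 (d z0 z0))) z0) (d (a (b (d z0 z0) (d (a (c (b (d z0 z0) (d z0 z0)) z0) z0) (a (b (d z0 z0) (d z0 z0)) (b z0 (d z0 z0))))) (b (d z0 z0) (d z0 z0))) z0))) _ _ (by decide +kernel)

theorem okB665 : CKB ⟨7680, 9216, 6656, 7168⟩ ⟨0, 6144, 6656, 7168⟩ :=
  ckB_sound (b (d (c (a (b (d z2 z2) (d z2 z2)) (b z2 (d z2 z2))) z2) (a (b (d z2 z0) (d z2 z0)) (b (d z2 z0) (d z2 z0)))) (d (c (a (b (d z2 z2) (d z2 (a (b z2 (d z0 z0)) z2))) (b (d z2 z2) (d z2 z2))) z2) (a (b (d z2 z0) (d (a (b (d z2 z2) (d z0 z0)) (b z2 (d z2 z2))) z0)) (b (d z2 z0) (d z2 z0))))) _ _ (by decide +kernel)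

theorem okB666 : CKB ⟨9216, 12288, 6144, 6400⟩ ⟨0, 4608, 6144, 6400⟩ :=
  ckB_sound (a z2 (c (b (d (c (a z2 (b (d (c (a (b (d (c (a z2 (b z3 (d (c (a z2 z3) z3) (a z2 z3)))) z2) (a z2 (b z3 (d (c (a z2 z3) z3) (a z2 z3))))) (d z2 z2)) z3) (a z2 z3)) (a (b (d (c (a z2 (b z3 (d (c (a z2 z3) z3) (a z2 z3)))) z2) z2) (d z2 z2)) z3)) (d (c (a z2 (b (d z3 z3) (d (c (a (b (d (c (a z2 z3) z3) (a z2 z3)) z2) z3) (a (b z3 z2) z3)) (a (b (d (c (a z2 z3) z3) (a z2 z3)) z2) z3)))) (a z2 (b z3 (d (c (a (b z3 z2) z3) z3) (c (a (b z3 z2) z3) z3))))) (a z2 (b (d z3 z3) (d (c (a (b (d (c (a z2 z3) z3) z3) z2) z3) (a (b z3 z2) z3)) (a (b (d z3 z3) z2) z3))))))) (a z2 (b (d (c (a z2 z3) (a z2 z3)) (c (a z2 z3) (a z2 z3))) (d (c (a z2 z3) (a z2 z3)) (c (a z2 (b z3 (d z3 (c (a (b z3 z2) z3) z3)))) (a z2 z3))))))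 (a z2 (b (d (c (a (b (d z2 z2) (d z2 z2)) z3) (a z2 z3)) (a (b (d z2 z2) z2) z3)) (d (c (a z2 (b (d z3 z3) (d (c (a (b (d z3 z3) z2) z3) (a (b z3 z2) z3)) (a (b (d z3 z3) z2) z3)))) (a z2 (b z3 (d z3 (c (a (b z3 z2) z3) z3))))) (a z2 (b (d z3 z3) (d (a (c (b (d z3 z3) z2) z3) z3) (a (b z3 z2) z3)))))))) (d (c (a z2 (b (d (c (a z2 (b (d (c (a z2 z3) (a z2 z3)) (a z2 z3)) (d (c (a z2 (b z3 (d (c (a z2 z3) z3) (a z2 z3)))) z2) (a z2 (b z3 (d (c (a z2 z3) z3) (a z2 z3))))))) (a z2 (b (d (c (a z2 z3) (a z2 z3)) (c (a z2 z3) (a z2 z3))) z2))) (a z2 (b (d (c (a z2 z3) (a z2 z3)) (a z2 z3)) (d (c (a z2 (b z3 (d z3 z3))) z2) (a z2 (b z3 (d z3 z3))))))) (d (c (a z2 (b (d (c (a z2 (b (d z2 z2) z2)) z2) z2) (d z2 z2))) z2) (a z2 (b (d z2 z2) (d z2 z2)))))) (a z2 (b (d z2 (c (a z2 (b (d (c (a z2 z3)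 (a z2 z3)) (c (a z2 z3) (a z2 z3))) z2)) z2)) z2))) (a z2 (b (d (c (a z2 (b (d (c (a z2 z3) (a z2 z3)) (a z2 z3)) (d (c (a z2 (b z3 (d z3 z3))) z2) (a z2 (b z3 (d z3 z3)))))) z2) (a z2 (b (d (a z2 z3) (a z2 z3)) (d z2 z2)))) (d (c (a z2 (b (d z2 z2) z2)) z2) (a z2 (b (d z2 z2) z2))))))) (b (d (a z2 (c (b (d (a z2 z3) (a z2 z3)) z2) (b (d (a z2 z3) (a z2 z3)) z2))) (a z2 (c (b (d (a z2 z3) (a z2 z3)) (d (a z2 z3) (a z2 (c (b z3 (d z3 (c (a (b z3 z2) z3) z3))) z3)))) (b (d (a z2 z3) (a z2 z3)) z2)))) z2))) _ _ (by decide +kernel)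

theorem okB667 : CKB ⟨9216, 12288, 6144, 6400⟩ ⟨0, 4608, 6400, 6656⟩ :=
  ckB_sound (a z2 (b (d (a z2 (c (b (d (a (c (b (d z2 z2) z2) z2) z3) (a z2 z3)) (d (a z2 (c (b z3 (d (a (c (b z3 z2) z3) z3) (a (b z3 z2) z3))) z3)) (a z2 (b z3 (d (a (c (b z3 z2) z3) z3) (a (b z3 z2) z3)))))) (b (d (a z2 z3) (a z2 z3)) (d z2 (a z2 z3))))) (a z2 (b (d (a z2 z3) (a z2 z3)) (d (a z2 (c (b z3 (d z3 z3)) z3)) (a z2 (b z3 (d z3 z0))))))) (d (a z2 (c (b (d (a z2 (c (b (d (a z2 z3) (a z2 z3)) (d z2 z2)) z2)) (a z2 (b (d (a z2 z3) (a z2 z3)) (d z2 z2)))) (d z2 z2)) z2)) (a z2 (b (d (a z2 (c (b (d (a z2 z3) (a z2 z3)) z2) z2)) z2) (d z2 z2)))))) _ _ (by decide +kernel)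

theorem okB668 : CKB ⟨9216, 12288, 6400, 6656⟩ ⟨0, 4608, 6144, 6656⟩ :=
  ckB_sound (d (a z2 (c (b (d (c (a z2 (b (d z2 z2) (d z2 z2))) z2) (a z2 (b (d z2 z2) z2))) (d z2 z2)) z2)) (a z2 (b (d (a z2 (c (b (d z2 z2) z2) z2)) (a z2 (b (d z2 z2) z2))) (d z2 z2)))) _ _ (by decide +kernel)

theorem okB669 : CKB ⟨9216, 12288, 6144, 6656⟩ ⟨4608, 6144, 6144, 6656⟩ :=
  ckB_sound (b (d z2 (a z2 (c (b (d z2 (a z2 (c (b (d (a z2 z3) (a z2 z3)) (d z2 (a z2 (c (b z3 (d z3 z3)) z3)))) (b (d (a z2 z3) (a z2 z3)) z2)))) z2) z2))) z2) _ _ (by decide +kernel)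

theorem okB670 : CKB ⟨9216, 12288, 6144, 6656⟩ ⟨0, 6144, 6656, 7168⟩ :=
  ckB_sound (b (d (a z2 (c (b (d (a z2 (c (b (d (a z2 z3) (a z2 z3)) (d (a z2 (c (b z3 (d z3 z3)) z3)) (a z2 z3))) (b (d (a z2 z3) (a z2 z3)) z2))) (a z2 (b (d (a z2 z3) z0) (d z2 z0)))) (d (a z2 (c (b (d z2 z2) (d z2 z2)) z2)) (a z2 (b (d z2 z0) z2)))) (b (d z2 (a z2 (c (b (d (a z2 z3) (a z2 z3)) z2) (b (d (a z2 z3) (a z2 z3)) z2)))) z2))) (a z2 (b (d (a z2 (b (d (a z2 z3) (a z2 z3)) (d z2 z2))) z0) (d z2 z0)))) (d (a z2 (c (b (d z2 z2) (d z2 z2)) z2)) (a z2 (b (d z2 z0) (d z2 z0))))) _ _ (by decide +kernel)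

theorem okB671 : CKB ⟨9216, 12288, 6656, 7168⟩ ⟨0, 6144, 6144, 7168⟩ :=
  ckB_sound (d (c (b (d (a z2 (c (b (d z2 z2) z2) z2)) (a z2 (b (d z2 z2) (d z2 z2)))) (d z2 z2)) z2) (b (d (a z2 (c (b (d z2 z2) (d z2 z2)) z2)) (a (b z2 (d z2 z0)) (b (d z2 z0) (d z2 z0)))) (d (a (c (b (d z2 z2) (d z2 z2)) z2) z2) (a (b (d z2 z0) (d z2 z0)) (b z2 (d z2 z0)))))) _ _ (by decide +kernel)

theorem okB672 : CKB ⟨6144, 12288, 6144, 7168⟩ ⟨0, 6144, 7168, 8192⟩ :=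
  ckB_sound z0 _ _ (by decide +kernel)

theorem okB673 : CKB ⟨6144, 9600, 7168, 7424⟩ ⟨0, 4608, 6144, 6656⟩ :=
  ckB_sound (d (a (c (b (d (a (c (b (d z0 z0) (d z0 z0)) (b z0 z0)) z0) (a (b (d (a (c (b z0 z0) z0) z0) (a (b z0 z0) z0)) (d (c (a (b z0 z0) z0) z0) (a (b z0 z0) z0))) z0)) (d (c (a (b (d z0 (a (b z0 z0) z0)) (d z0 (b z0 z0))) (b z0 (d z0 z0))) (a (b z0 z0) z0)) (a (b (d (c (a (b z0 z0) z0) z0) (a (b z0 z0) z0)) (d (c (b z0 z0) z0) (b z0 z0))) (b z0 (d z0 (a (b z0 z0) z0)))))) (b (d (a (c (b z0 z0) z0) z0) (a (c (b z0 z0) (b z0 z0)) z0)) (d (c (a (b z0 z0) z0) z0) (c (a (b z0 z0) z0) (a (b z0 z0) z0))))) (c (b (d z2 z2) (d z2 z2)) z2)) (a (b (d (a (c (b (d (a (c (b z0 z0) z0) z0) (a (b z0 (d z0 z0)) z0)) (d (c (a (b z0 z0) z0) z0) (a (b (d z0 z0) (d z0 z0)) z0))) (b (d z0 (a (c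 (b z0 z0) z0) z0)) (d z0 (c (a (b z0 z0) z0) z0)))) (c (b z0 (d z0 z0)) z0)) (a (b (d (a (c (b (d z0 z0) (d z0 z0)) (b z0 z0)) z0) (a (b (d z0 z0) (d z0 z0)) z0)) (d (a (c (b (d z0 z0) (d z0 z0)) (b z0 z0)) z0) (a (b (d z0 z0) (d z0 z0)) (b z0 (d z0 z0))))) (b (d z0 z0) (d z0 z0)))) (d (c (a (b (d (c (a (b z0 z0) z0) z0) (a (b (d z0 z0) (d z0 z0)) z0)) (d (c (b z0 z0) z0) (b (d z0 z0) z0))) (b (d z0 z0) (d (c (a (b z0 z0) z0) z0) (a (b z0 (d z0 z0)) z0)))) (a (b (d z0 (c (a (b z0 z0) z0) z0)) (d z0 (c (b z0 z0) z0))) z0)) (a (b (d (c (a (b (d z0 z0) (d z0 z0)) (b z0 (d z0 z0))) (a (b z0 z0) z0)) (a (b (d z0 z0) (d z0 z0)) (b z0 (d z0 z0)))) (d (c (b (d z0 z0) z0) (b z0 z0)) (b (d z0 z0) z0))) (b (d z0 z0) (d (c (a (b z0 (d z0 z0)) z0) z0) (a (b z0 (d z0 z0)) z0)))))) (b (d z2 z2) (d (a (c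 (b z0 (d z0 z0)) z0) z2) (a (b (d z0 z0) (d z0 z0)) z2))))) _ _ (by decide +kernel)

theorem okB674 : CKB ⟨6144, 9600, 7424, 7680⟩ ⟨0, 4608, 6144, 6656⟩ :=
  ckB_sound (d (c (b (d (a (c (b (d z0 (a (b z0 z0) z0)) (d z0 (a (b z0 z0) z0))) (b z0 z0)) z0) (a (b (d (a (c (b z0 z0) z0) z0) (a (b z0 z0) z0)) (d (c (a (b z0 z0) z0) z0) (a (b z0 z0) z0))) z0)) (d (c (a (b (d z0 (a (b z0 z0) z0)) (d z0 z0)) (b z0 (d z0 z0))) (a (b z0 z0) z0)) (a (b (d (c (a (b z0 z0) z0) z0) (a (b z0 z0) z0)) (d (c (b z0 z0) z0) (b z0 z0))) (b z0 (d z0 z0))))) (b (d (a (c (b z0 z0) z0) z0) (a (c (b z0 z0) (b z0 z0)) z0)) (d (c (a (b z0 z0) z0) z0) (c (a (b z0 z0) z0) (a (b z0 z0) z0))))) (b (d (a (c (b (d (a (c (b z0 z0) z0) z0) (a (b (d z0 z0) (d z0 z0)) z0)) (d (c (a (b z0 z0) z0) z0) (a (b z0 z0) z0))) (b (d z0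 (a (c (b z0 z0) z0) z0)) (d z0 (c (a (b z0 z0) z0) z0)))) z0) (a (b (d (a (c (b (d z0 z0) (d z0 z0)) (b z0 z0)) z0) (a (b (d z0 z0) (d z0 z0)) z0)) (d (a (c (b (d z0 z0) (d z0 z0)) (b z0 z0)) z0) (a (b (d z0 z0) (d z0 z0)) (b z0 (d z0 z0))))) (b z0 (d z0 z0)))) (d (c (a (b (d (c (a (b z0 z0) z0) z0) (a (b z0 z0) z0)) (d (c (b z0 z0) z0) (b z0 z0))) (b z0 (d (c (a (b z0 z0) z0) z0) (a (b z0 z0) z0)))) (a (b (d z0 (c (a (b z0 z0) z0) z0)) (d z0 (c (b z0 z0) z0))) z0)) (a (b (d (a (c (b (d z0 z0) (d z0 z0)) (b z0 z0)) z0) (a (b (d z0 z0) (d z0 z0)) z0)) (d (c (b (d z0 z0) z0) (b z0 z0)) (b (d z0 z0) z0))) (b (d z0 z0) (d (c (a (b z0 (d z0 z0)) z0) z0) (a (b z0 (d z0 z0)) z0))))))) _ _ (by decide +kernel)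

end Vale.Agent.Lib.P154Q5
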