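import Vale.Agent.Lib.P154Q5.CkBDefs

namespace Vale.Agent.Lib.P154Q5

set_option maxRecDepth 100000
set_option exponentiation.threshold 1000

open Tr

theorem okB675 : CKB ⟨6144, 9600, 7168, 7680⟩ ⟨4608, 6144, 6144, 6656⟩ :=
  ckB_sound (b (d (a (c (b z0 (d z0 (c (a (b z0 z0) z0) z0))) (b z0 z0)) z2) (a (c (b (d (a (c (b z0 z0) (b z0 z0)) z0) (a (c (b (d z0 (a (c (b (d z0 z0) (d z0 z0)) z0) z0)) (d z0 (c (a (b (d z0 z0) (d z0 z0)) z0) z0))) (b z0 z0)) z0)) (d (c (a (b z0 z0) z0) (a (b z0 z0) z0)) (c (a (b (d z0 (c (a (b (d z0 z0) (d z0 z0)) z0) (a (b z0 z0) z0))) (d z0 (c (b (d z0 z0) z0) (b z0 z0)))) (b z0 (d z0 (c (a (b z0 (d z0 z0)) z0) z0)))) (a (b z0 z0) z0)))) (b (d z0 (a (c (b z0 z0) (b z0 z0)) z0)) (d z0 (c (a (b z0 z0) z0) (a (b z0 z0) z0))))) z2)) (d (c (b (d z0 (a (c (b z0 z0) z0)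 z0)) (d z0 (c (a (b z0 z0) z0) z0))) (b z0 z0)) (c (b (d (a (c (b z0 z0) (b z0 z0)) z0) (a (c (b (d z0 (a (c (b (d z0 z0) (d z0 z0)) (b z0 z0)) z0)) (d z0 (c (a (b (d z0 z0) (d z0 z0)) z0) (a (b z0 z0) z0)))) (b z0 z0)) z0)) (d (c (a (b z0 z0) z0) (a (b z0 z0) z0)) (c (a (b (d z0 (c (a (b (d z0 z0) (d z0 z0)) z0) z0)) (d z0 (c (b z0 z0) z0))) (b z0 (d z0 (c (a (b z0 z0) z0) z0)))) (a (b z0 z0) z0)))) (b (d (a (c (b z0 z0) z0) z0) (a (c (b z0 z0) (b z0 z0)) z0)) (d (c (a (b z0 z0) z0) z0) (c (a (b z0 z0) z0) (a (b z0 z0) z0))))))) _ _ (by decide +kernel)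

theorem okB676 : CKB ⟨9600, 12288, 7168, 7680⟩ ⟨0, 6144, 6144, 6656⟩ :=
  ckB_sound (c (b (d z2 (a (b (d z2 z2) (d z2 z2)) z2)) (d (c (a (b (d z2 z2) (d z2 z2)) z2) z2) (a (b (d z2 z2) (d z2 (a (b z2 (d z0 z0)) z2))) (b z2 (d z2 z2))))) z2) _ _ (by decide +kernel)

theorem okB677 : CKB ⟨6144, 8256, 7168, 7424⟩ ⟨0, 5472, 6656, 6912⟩ :=
  ckB_sound (b (d (a (c (b (d (a (c (b (d z0 z0) (d z0 z0)) (b z0 z0)) z0) (a (b (d z0 z0) (d (a (b z0 z0) z0) z0)) z0)) (d (c (a (b (d z0 z0) (d z0 z0)) (b z0 (d z0 z0))) (a (b z0 z0) z0)) (a (b (d (a (b z0 z0) z0) z0) (d (b z0 z0) z0)) (b z0 (d z0 z0))))) (b (d z0 (a (c (b (d z0 (a (b z0 z0) z0)) (d z0 (a (b z0 z0) z0))) (b z0 z0)) z0)) (d z0 (c (a (b (d z0 (a (b z0 z0) z0)) (d z0 (b z0 z0))) (b z0 (d z0 z0))) (a (b z0 z0) z0))))) (c (b (d z0 z0) (d z0 z0))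 z0)) (a (b (d (a (b (d (a (c (b z0 z0) z0) z0) (a (b z0 z0) z0)) (d (c (a (b z0 z0) z0) z0) (a (b z0 z0) z0))) z0) z0) (d (a (b (d (c (a (b z0 z0) z0) z0) (a (b z0 z0) z0)) (d (c (b z0 z0) z0) (b z0 z0))) (b z0 (d z0 z0))) z0)) (b (d z0 z0) (d z0 z0)))) (d (c (a (b (d (c (a (b (d z0 z0) (d z0 z0)) (b z0 (d z0 z0))) (a (b z0 z0) z0)) (a (b (d (a (b z0 z0) z0) z0) (d (b z0 z0) z0)) (b z0 (d z0 z0)))) (d (c (b (d z0 z0) z0) (b z0 z0)) (b (d (b z0 z0) z0) z0))) (b (d z0 z0) (d (c (a (b (d z0 z0) (d z0 z0)) z0) (a (b z0 z0) z0)) (a (b (d z0 z0) (d (b z0 z0) z0)) (b z0 (d z0 z0)))))) (a (b (d (c (a (b z0 z0) z0) z0) (c (a (b (d z0 (a (b z0 z0) z0)) (d z0 (b z0 z0))) (b z0 (d z0 z0))) (a (b z0 z0) z0))) (d (c (b z0 z0) z0) (c (b (d z0 (b z0 z0)) z0) (b z0 z0)))) (b z0 (d z0 (c (a (b z0 (d z0 (b z0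 z0))) z0) z0))))) (a (b (d (a (b (d (c (a (b z0 z0) z0) z0) (a (b z0 z0) z0)) (d (c (b z0 z0) z0) (b z0 z0))) (b z0 (d z0 (a (b z0 z0) z0)))) z0) (d (b (d (c (b z0 z0) z0) (b z0 z0)) z0) z0)) (b (d z0 z0) (d (a (b (d z0 z0) (d (c (b z0 z0) z0) (b z0 z0))) (b z0 (d z0 z0))) z0))))) _ _ (by decide +kernel)

theorem okB678 : CKB ⟨6144, 8256, 7168, 7424⟩ ⟨5472, 6144, 6656, 6912⟩ :=
  ckB_sound (b (d (a (c (b z0 z0) (b z0 z0)) z0) (a (c (b (d (a (c (b z0 z0) (b z0 z0)) z0) (a (b (d (a (c (b z0 z0) z0) z0) (a (b z0 z0) z0)) (d (c (a (b z0 z0) z0) z0) (a (b z0 z0) z0))) (b z0 (d z0 z0)))) (d (c (a (b z0 z0) z0) (a (b z0 z0) z0)) (a (b (d (c (a (b z0 z0) z0) z0) (a (b z0 z0) z0)) (d (c (b z0 z0) z0) (b z0 z0))) (b (d z0 z0) (d (c (a (b z0 z0) z0) z0) (a (b z0 z0) z0)))))) (b (d z0 (a (c (b z0 z0)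 (b z0 z0)) z0)) (d z0 (c (a (b z0 z0) z0) (a (b z0 z0) z0))))) (c (b z0 (d z0 (a (b z0 (d z0 z0)) z0))) z0))) (d (c (a (b (d z0 (c (a (b z0 z0) z0) z0)) (d z0 (c (b z0 z0) z0))) z0) (a (b z0 z0) z0)) (c (a (b (d (c (a (b z0 z0) z0) (a (b z0 z0) z0)) (a (b (d (c (a (b z0 z0) z0) z0) (a (b z0 z0) z0)) (d (c (b z0 z0) z0) (b z0 z0))) (b (d z0 z0) (d (c (a (b z0 z0) z0) z0) (a (b z0 z0) z0))))) (d (c (b z0 z0) (b z0 z0)) (b (d (c (b z0 z0) z0) (b z0 z0)) z0))) (b (d z0 (a (b z0 (d z0 z0)) z0)) (d (c (a (b z0 z0) z0) z0) (a (b (d z0 z0) (d (c (b z0 z0) z0) (b z0 z0))) (b z0 (d z0 z0)))))) (a (b (d z0 (c (a (b z0 z0) z0) (a (b z0 z0) z0))) (d (c (b z0 z0) z0) (c (b z0 z0) (b z0 z0)))) (b z0 (d z0 (c (a (b z0 z0) z0) z0))))))) _ _ (by decide +kernel)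

theorem okB679 : CKB ⟨8256, 9600, 7168, 7424⟩ ⟨0, 6144, 6656, 6912⟩ :=
  ckB_sound (c (b (d (a (c (b z2 (d z2 z2)) z2) z2) (a (b z2 (d z2 z0)) z2)) (d (a (c (b (d z0 z0) (d z0 z0)) z0) z2) (a (b (d z0 z0) (d z0 z0)) (b z2 (d z2 z0))))) (b z2 (d z2 (a (c (b z0 (d z0 z0)) z0) z2)))) _ _ (by decide +kernel)

theorem okB680 : CKB ⟨6144, 9600, 7168, 7424⟩ ⟨0, 6144, 6912, 7168⟩ :=
  ckB_sound (a (b (d (a (b (d (a (c (b (d (a (c (b z0 z0) z0) z0) (a (b z0 z0) z0)) (d (a (c (b z0 z0) z0) z0) (a (b (d z0 z0) (d z0 z0)) z0))) (b (d z0 (a (c (b z0 z0) z0) z0)) (d z0 (a (c (b z0 z0) z0) z0)))) (c (b z0 (d z0 z0)) z0)) (a (b (d (a (b (d z0 z0) (d z0 z0)) z0) z0) (d (a (b (d z0 z0) (d z0 z0)) z0) z0)) (b (d z0 z0) (d z0 z0)))) (d (c (a (b (d (c (a (b z0 z0) z0) z0) (a (b (d z0 z0) (d z0 z0)) z0)) (d (c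 (b z0 z0) z0) (b (d z0 z0) z0))) (b (d z0 z0) (d (c (a (b z0 z0) z0) z0) (a (b z0 (d z0 z0)) z0)))) (a (b (d z0 (a (c (b z0 z0) z0) z0)) (d z0 (c (b z0 z0) z0))) (b z0 (d z0 (c (a (b z0 z0) z0) z0))))) (a (b (d (a (b (d z0 z0) (d z0 z0)) z0) z0) (d (b (d z0 z0) z0) z0)) (b (d z0 z0) (d (a (b z0 (d z0 z0)) z0) z0))))) (b (d z0 z0) (d (a (c (b z0 (d z0 z0)) z0) z0) (a (b (d z0 z0) (d z0 z0)) z0)))) z0) (d (a (b (d (c (a (b (d (c (a (b z0 z0) z0) z0) (a (b (d z0 z0) (d z0 z0)) z0)) (d (c (b z0 z0) z0) (b (d z0 z0) z0))) (b (d z0 z0) (d (c (a (b z0 z0) z0) z0) (a (b z0 (d z0 z0)) z0)))) (a (b (d z0 (c (a (b z0 z0) z0) z0)) (d z0 (c (b z0 z0) z0))) (b z0 (d z0 (c (a (b z0 z0) z0) z0))))) (a (b (d (a (b (d z0 z0) (d z0 z0)) z0) z0) (d (b (d z0 z0) z0) z0)) (b (d z0 z0) (d (a (b z0 (d z0 z0)) z0)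 z0)))) (d (c (b (d (c (b z0 z0) z0) (b (d z0 z0) z0)) z0) (b (d z0 (c (b z0 z0) z0)) z0)) (b (d (b (d z0 z0) z0) z0) z0))) (b (d (c (a (b z0 (d z0 z0)) z0) z0) (a (b (d z0 z0) (d z0 z0)) z0)) (d (c (a (b (d z0 (a (b z0 (d z0 z0)) z0)) (d (c (b z0 z0) z0) (b (d z0 z0) z0))) (b (d z0 z0) (d z0 z0))) (a (b z0 (d z0 (c (b z0 z0) z0))) z0)) (a (b (d (a (b z0 (d z0 z0)) z0) z0) (d (b (d z0 z0) (d z0 z0)) z0)) (b (d z0 z0) (d z0 z0)))))) z0)) (b (d (a (b (d z2 z2) (d z2 z2)) z2) z0) (d (a (b (d z0 z0) (d (a (c (b z0 (d z0 z0)) z0) z0) (a (b z0 (d z0 z0)) z0))) (b (d z2 z2) (d z2 z2))) z0))) _ _ (by decide +kernel)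

theorem okB681 : CKB ⟨6144, 9600, 7424, 7680⟩ ⟨0, 5472, 6656, 6912⟩ :=
  ckB_sound (b (d (a (c (b (d (a (c (b (d z0 z0) (d z0 z0)) (b z0 z0)) z0) (a (b (d (a (b z0 z0) z0) z0) (d z0 z0)) z0)) (d (c (a (b (d z0 z0) (d z0 z0)) (b z0 (d z0 z0))) (a (b z0 z0) z0)) (a (b (d z0 z0) (d z0 z0)) (b z0 (d z0 z0))))) (b (d (a (c (b z0 z0) z0) z0) (a (c (b (d z0 (a (b z0 z0) z0)) (d z0 (a (b z0 z0) z0))) (b z0 z0)) z0)) (d (c (a (b z0 z0) z0) z0) (c (a (b (d z0 (a (b z0 z0) z0)) (d z0 (b z0 z0))) z0) (a (b z0 z0) z0))))) (c (b (d z0 z0) (d z0 z0)) z0)) (a (b (d (a (b (d (a (c (b z0 z0) z0) z0) (a (b z0 z0) z0)) (d (c (a (b z0 z0) z0) z0) (a (b z0 z0) z0))) z0) z0) (d (a (b (d (c (a (b z0 z0) z0) z0) (a (b z0 z0) z0)) (d (c (b z0 z0) z0) (b z0 z0))) (b z0 (d z0 z0))) z0)) (b (d z0 z0) (d z0 z0)))) (d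 (c (a (b (d (c (a (b (d z0 z0) (d z0 z0)) (b z0 (d z0 z0))) (a (b z0 z0) z0)) (a (b (d z0 z0) (d z0 z0)) (b z0 (d z0 z0)))) (d (c (b (d z0 z0) z0) (b z0 z0)) (b (d z0 z0) z0))) (b (d z0 z0) (d (c (a (b z0 (d z0 z0)) z0) z0) (a (b z0 (d z0 z0)) z0)))) (a (b (d z0 (c (a (b (d z0 z0) (d z0 z0)) z0) (a (b z0 z0) z0))) (d z0 (c (b (d z0 z0) z0) (b z0 z0)))) (b z0 (d z0 (c (a (b z0 (d z0 z0)) z0) z0))))) (a (b (d (a (b (d (c (a (b z0 z0) z0) z0) (a (b z0 z0) z0)) (d (c (b z0 z0) z0) (b z0 z0))) (b z0 (d z0 z0))) z0) (d (b (d z0 (b z0 z0)) z0) z0)) (b (d z0 z0) (d (a (b (d z0 z0) (d z0 z0)) z0) z0))))) _ _ (by decide +kernel)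

theorem okB682 : CKB ⟨6144, 9600, 7424, 7680⟩ ⟨5472, 6144, 6656, 6912⟩ :=
  ckB_sound (b (d (a (c (b (d z0 (a (c (b z0 z0) z0) z0)) (d z0 (c (a (b z0 z0) z0) z0))) (b z0 z0)) z0) (a (c (b (d (a (c (b z0 z0) (b z0 z0)) z0) (a (b (d (a (c (b z0 z0) z0) z0) (a (b z0 z0) z0)) (d (c (a (b z0 z0) z0) z0) (a (b z0 z0) z0))) z0)) (d (c (a (b z0 z0) z0) (a (b z0 z0) z0)) (a (b (d (c (a (b z0 z0) z0) z0) (a (b z0 z0) z0)) (d (c (b z0 z0) z0) (b z0 z0))) (b z0 (d z0 z0))))) (b (d (a (c (b z0 z0) z0) z0) (a (c (b z0 z0) (b z0 z0)) z0)) (d z0 (a (c (b z0 z0) (b z0 z0)) z0)))) (c (b z0 (d z0 z0)) z0))) (d (c (a (b z0 z0) z0) (a (b z0 z0) z0)) (c (a (b (d (c (a (b z0 z0) z0) (a (b z0 z0) z0)) (a (b (d (c (a (b z0 z0) z0) z0) (a (b z0 z0) z0)) (d (c (b z0 z0) z0) (b z0 z0))) (b z0 (d z0 z0)))) (d (c (b z0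 z0) (b z0 z0)) (b (d (c (b z0 z0) z0) (b z0 z0)) z0))) (b (d z0 z0) (d (c (a (b z0 z0) z0) z0) (a (b (d z0 z0) (d (c (b z0 z0) z0) (b z0 z0))) z0)))) (a (b (d z0 (c (a (b z0 z0) z0) (a (b z0 z0) z0))) (d z0 (c (b z0 z0) (b z0 z0)))) z0)))) _ _ (by decide +kernel)

theorem okB683 : CKB ⟨6144, 9600, 7424, 7680⟩ ⟨0, 6144, 6912, 7168⟩ :=
  ckB_sound (b (d (a (b (d (a (c (b (d (a (c (b z0 z0) z0) z0) (a (b z0 z0) z0)) (d (a (c (b z0 z0) z0) z0) (a (b z0 z0) z0))) (b (d z0 (a (c (b z0 z0) z0) z0)) (d z0 (a (c (b z0 z0) z0) z0)))) (c (b z0 (d z0 z0)) z0)) (a (b (d (a (b (d z0 z0) (d z0 z0)) z0) z0) (d (a (b (d z0 z0) z0) z0) z0)) (b z0 (d z0 z0)))) (d (a (c (b (d (a (c (b z0 z0) z0) z0) (a (b z0 z0) z0)) (d (c (b z0 z0) z0) (b z0 z0))) (b (d z0 (a (c (b z0 z0) z0) z0)) (d z0 (c (b z0 z0) z0)))) (c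 (b (d z0 z0) (d z0 (a (b z0 z0) z0))) z0)) (a (b (d (a (b z0 z0) z0) z0) (d (b z0 z0) z0)) (b (d z0 z0) (d (a (b z0 z0) z0) z0))))) (b (d z0 z0) (d z0 (a (b z0 (d z0 z0)) z0)))) z0) (d (a (b (d (c (a (b (d (c (a (b z0 z0) z0) z0) (a (b z0 z0) z0)) (d (c (b z0 z0) z0) (b z0 z0))) (b z0 (d z0 z0))) (a (b (d z0 (c (a (b z0 z0) z0) z0)) (d z0 (c (b z0 z0) z0))) z0)) (a (b (d (a (b z0 z0) z0) z0) (d (b z0 z0) z0)) (b (d z0 z0) (d (a (b z0 z0) z0) z0)))) (d (c (b (d (c (b z0 z0) z0) (b z0 z0)) z0) (b (d z0 (c (b z0 z0) z0)) z0)) (b (d (b z0 z0) z0) z0))) (b (d z0 z0) (d (c (a (b (d z0 z0) (d (c (b z0 z0) z0) (b z0 z0))) (b z0 (d z0 z0))) (a (b z0 (d z0 (c (b z0 z0) z0))) z0)) (a (b (d z0 z0) (d (b z0 z0) z0)) (b z0 (d z0 z0)))))) z0)) _ _ (by decide +kernel)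

theorem okB684 : CKB ⟨9600, 12288, 7168, 7680⟩ ⟨0, 6144, 6656, 7168⟩ :=
  ckB_sound (b (d (a (c (b (d z2 z2) (d z2 z2)) z2) (c (b z2 (d z2 z2)) z2)) (a (b (d z2 z0) (d z2 z0)) (b (d z2 z0) (d z2 z0)))) (d (a (c (b (d z2 (a (b z2 (d z2 z0)) z2)) (d (a (c (b (d z2 z2) (d z0 z0)) z0) z2) (a (b (d z2 z0) (d z0 z0)) z2))) z2) (c (b (d z2 z2) (d z2 z2)) z2)) (a (b (d (a (b z2 (d z2 z2)) z2) z0) (d (a (b (d z2 z2) (d z0 z0)) (b z2 (d z2 z2))) z0)) (b (d z2 z0) (d z2 z0))))) _ _ (by decide +kernel)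

theorem okB685 : CKB ⟨6144, 12288, 7680, 8192⟩ ⟨0, 6144, 6144, 6656⟩ :=
  ckB_sound (c (b (d (c (a (b (d (c (a (b (d z0 z0) (d z0 z0)) z0) (a (b z0 z0) z0)) (a (b (d (a (c (b z0 z0) z0) z0) (a (b z0 z0) z0)) (d (c (b z0 z0) z0) (b z0 z0))) z0)) (d (c (b (d z0 z0) (d z0 z0)) (b z0 z0)) (b (d z0 (a (b z0 z0) z0)) (d z0 (b z0 z0))))) (b (d z2 z2) (d z2 z2))) (a (b (d (a (c (b z0 z0) z0) z0) (a (c (b z0 z0) (b z0 z0)) z0)) (d (c (b z0 z0) z0) (c (b z0 z0) (b z0 z0)))) z2)) (a (b (d (a (c (b (d (a (c (b z0 z0) z0) z0) (a (b z0 z0) z0)) (d (c (b z0 z0) z0) (b z0 z0))) (b z0 z0)) z0) (a (b (d (a (c (b z0 z0) (b z0 z0)) z0) (a (b (d z0 z0) (d z0 z0)) z0)) (d (c (b z0 z0) (b z0 z0)) (b (d z0 z0) z0))) z0)) (d (c (b (d (a (c (b z0 z0) z0) z0) (a (b z0 z0) z0)) (d (c (b z0 z0) z0) (b z0 z0))) (b z0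 z0)) (b (d (a (c (b z0 z0) z0) z0) (a (b z0 z0) z0)) (d (c (b z0 z0) z0) (b z0 z0))))) (b (d z2 z2) (d z2 z2)))) (d (c (b (d (c (a (b (d z0 z0) (d z0 z0)) z2) (a (b z0 z0) z2)) (a (b (d z0 z0) (d z0 z0)) z2)) (d (c (b (d z0 z0) z0) (b z0 z0)) (b (d z0 z0) (d z0 z0)))) (b (d z0 (a (c (b z0 z0) (b z0 z0)) z2)) (d z0 (c (b z0 z0) (b z0 z0))))) (b (d (a (c (b (d (a (c (b z0 z0) z0) z0) (a (b z0 z0) z0)) (d z0 (b z0 z0))) (b z0 z0)) z2) (a (b (d (a (c (b z0 z0) z0) z0) (a (b z0 z0) z0)) (d (c (b z0 z0) z0) (b z0 z0))) z2)) (d (c (b (d z0 z0) (d z0 z0)) (b z0 z0)) (b (d z0 (a (b z0 z0) z0)) (d z0 z0)))))) (b (d (a (c (b (d z0 (a (c (b z0 z0) z0) z0)) (d z0 (c (b z0 z0) z0))) (b z0 z0)) z2) (a (c (b (d (a (c (b z0 z0) (b z0 z0)) z0) (a (c (b (d z0 (a (c (b z0 z0) z0) z0)) (d z0 (c (b z0 z0) z0)))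 (b z0 z0)) z0)) (d (c (b z0 z0) (b z0 z0)) (c (b (d z0 (a (c (b z0 z0) z0) z0)) (d z0 (c (b z0 z0) z0))) (b z0 z0)))) (b (d (a (c (b z0 z0) z0) z0) (a (c (b z0 z0) (b z0 z0)) z0)) (d z0 (c (b z0 z0) (b z0 z0))))) z2)) (d (c (b z0 z0) (b z0 z0)) (c (b (d (a (c (b z0 z0) (b z0 z0)) z2) (a (c (b (d z0 (a (c (b z0 z0) z0) z0)) (d z0 (c (b z0 z0) z0))) (b z0 z0)) z2)) (d (c (b z0 z0) z0) (c (b z0 z0) (b z0 z0)))) (b (d z0 (a (c (b z0 z0) z0) z2)) (d z0 (c (b z0 z0) z0))))))) _ _ (by decide +kernel)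

theorem okB686 : CKB ⟨6144, 12288, 7680, 7936⟩ ⟨0, 6144, 6656, 7168⟩ :=
  ckB_sound (d (a (c (b (d (a (c (b (d (a (c (b (d z0 z0) (d z0 z0)) (b z0 z0)) z0) (a (b (d z0 z0) (d z0 z0)) z0)) (d (c (b (d z0 z0) (d z0 z0)) (b z0 z0)) (b (d z0 z0) (d z0 z0)))) (b (d z0 (a (c (b z0 z0) (b z0 z0)) z0)) (d z0 (c (b z0 z0) z0)))) (c (b (d z2 z2) (d z0 z0)) z0)) (a (b (d (a (b (d z0 z0) (d z0 z0)) z0) z0) (d (b (d z0 z0) (d z0 z0)) z0)) (b (d z2 z0) (d z0 z0)))) (d (c (b (d (a (c (b (d z0 z0) z0) (b z0 z0)) z0) (a (b (d z0 z0) (d z0 z0)) z0)) (d (c (b z0 z0) z0) (b (d z0 z0) z0))) (b (d z0 (a (c (b z0 z0) z0) z0)) (d z0 (c (b z0 z0) z0)))) (b (d (a (b (d z0 z0) (d z0 z0)) z0) z0) (d (b (d z0 z0) (d z0 z0)) z0)))) (b (d (a (c (b z0 z0) (b z0 z0)) z0) (a (c (b (d (a (c (b z0 z0) (b z0 z0)) z0) (a (b (d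 z0 (a (b z0 z0) z0)) (d z0 z0)) z0)) (d (c (b z0 z0) z0) (b (d z0 z0) (d z0 z0)))) (b (d z0 (a (c (b z0 z0) (b z0 z0)) z0)) (d z0 (c (b z0 z0) z0)))) z0)) (d (c (b z0 z0) (b z0 z0)) (c (b (d (a (c (b z0 z0) z0) z0) (a (b (d z0 z0) (d z0 z0)) z0)) (d (c (b z0 z0) z0) (b (d z0 z0) (d z0 z0)))) (b (d z0 (a (c (b z0 z0) z0) z0)) z0))))) (c (b (d z2 z2) (d z2 (a (b (d z2 z0) (d z0 z0)) z2))) z2)) (a (b (d (a (b (d (a (c (b (d (a (c (b z0 z0) z0) z0) (a (b z0 z0) z0)) (d (c (b z0 z0) z0) (b z0 z0))) (b z0 z0)) z0) (a (b (d (a (b z0 z0) z0) z0) (d (b z0 z0) z0)) z0)) (d (c (b (d z0 (a (b z0 z0) z0)) (d z0 z0)) (b z0 z0)) (b (d (a (b z0 z0) z0) z0) (d (b z0 z0) z0)))) (b (d z2 z2) (d z0 z0))) z0) (d (b (d (a (c (b (d z0 z0) (d z0 z0)) (b z0 z0)) z0) (a (b (d z0 z0) (d z0 z0)) z0)) (d (c (b (d z0 z0)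 (d z0 z0)) (b z0 z0)) (b (d z0 z0) (d z0 z0)))) z0)) (b (d z2 z0) (d (a (b (d z2 z2) (d z0 z0)) z2) z0)))) _ _ (by decide +kernel)

theorem okB687 : CKB ⟨6144, 12288, 7936, 8192⟩ ⟨0, 6144, 6656, 7168⟩ :=
  ckB_sound (d (c (b (d (a (c (b (d (a (c (b z0 z0) z0) z0) (a (b z0 z0) z0)) (d (c (b z0 z0) z0) (b z0 z0))) (b (d z0 (a (c (b z0 z0) z0) z0)) (d z0 (c (b z0 z0) z0)))) z2) (a (b (d (a (b z0 z0) z0) z0) (d (b z0 z0) z0)) z2)) (d (c (b (d (a (c (b z0 z0) z0) z0) (a (b z0 z0) z0)) (d (c (b z0 z0) z0) (b z0 z0))) (b z0 z0)) (b (d (a (b z0 z0) z0) z0) (d (b z0 z0) z0)))) (b (d (a (c (b z0 z0) (b z0 z0)) z2) (a (c (b (d (a (c (b z0 z0) z0) z0) (a (b (d z0 z0) (d z0 z0)) z0)) (d z0 (b z0 z0))) (b z0 z0)) z2)) (d (c (b z0 z0) (b z0 z0)) (c (b (d z0 (a (b z0 z0) z0)) (d z0 (b z0 z0))) (b z0 z0)))))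 (b (d (a (b (d (a (c (b (d z0 z0) (d z0 z0)) (b z0 z0)) z0) (a (b (d z0 z0) (d z0 z0)) z0)) (d (c (b (d z0 z0) z0) (b z0 z0)) (b (d z0 z0) (d z0 z0)))) (b z2 (d z0 z0))) z0) (d (b (d (a (c (b z0 z0) z0) z0) (a (b z0 z0) z0)) (d (c (b z0 z0) z0) (b z0 z0))) z0))) _ _ (by decide +kernel)

theorem okB688 : CKB ⟨6144, 12288, 7168, 8192⟩ ⟨0, 6144, 7168, 8192⟩ :=
  ckB_sound z0 _ _ (by decide +kernel)

theorem okB689 : CKB ⟨6144, 7680, 4096, 4608⟩ ⟨6144, 9216, 4096, 4608⟩ :=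
  ckB_sound (c z0 (b (d (a (c z0 z4) (c z0 z4)) z0) (d (a (c z0 z4) (c z0 z4)) z0))) _ _ (by decide +kernel)

end Vale.Agent.Lib.P154Q5
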