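import Vale.Agent.Lib.P154Q5.CkBDefs

namespace Vale.Agent.Lib.P154Q5

set_option maxRecDepth 100000
set_option exponentiation.threshold 1000

open Tr

theorem okB690 : CKB ⟨7680, 9216, 4096, 4608⟩ ⟨6144, 7680, 4096, 4608⟩ :=
  ckB_sound (b (d (c (a z0 z1) (a z0 z1)) (c (a z0 z1) (a z0 z1))) z0) _ _ (by decide +kernel)

theorem okB691 : CKB ⟨7680, 9216, 4096, 4352⟩ ⟨7680, 9216, 4096, 4352⟩ :=
  ckB_sound (a (c (b (d (a z0 (c z0 (b (d (a (c z0 z4) (c z1 z5)) (a z0 z1)) (d (a (c z0 z4) (c (b z1 (d (c z1 (a z0 z1)) (c z1 (a z0 z1)))) (b z5 (d z5 (a z4 z5))))) (a z0 (c z1 (b (d (a (b z5 z4) z5) (a (b (c z1 z5) (c z0 z4)) z5)) (d (a z4 z5) (a (b (c z0 z4) (c z0 z4)) (b z5 (c z1 z5))))))))))) (a z0 (c z0 (b (d (a z0 z1) (a z0 z1)) z0)))) (d (a z0 (c z0 (b (d (a (c z0 z4) (c z0 z4)) z0) z0))) z0)) (b (d z4 (a z4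 (b (d (c (a z4 z5) z5) (c (a (b (d z4 (c (a z4 (b (d (c z1 z5) (c z1 z5)) z4)) z4)) z4) (b z5 (d z5 (c (a (b z5 (d z5 (c z1 z5))) z5) z5)))) z5)) (d z4 (c (a z4 (b (d (c (a (b z5 z4) z5) z5) (c (a (b (d (c z1 z5) (c z1 z5)) (d z4 (c z0 z4))) z5) z5)) (d (c (a z4 z5) z5) (c (a z4 (b z5 (d z5 (c z1 z5)))) z5)))) z4))))) (d z4 (a z4 (b (d z4 (c (a z4 (b (d z4 (c (a z4 (b (d (c z1 z5) (c z1 z5)) (d (c z1 z5) (c z1 z5)))) z4)) (d z4 (c (a z4 (b (d z4 (c z0 z4)) z4)) z4)))) z4)) z4))))) (c (b z1 (d (c z1 (b z1 (d (a (c (b z1 (d (a (c z1 (b z1 (d (a z4 z5) z1))) z1) z1)) (b z5 (d z5 (a (b z5 (c (d z5 (a z4 z5)) z5)) z5)))) z5) (a (c z1 (b (d (a (b z5 (c (d z5 z1) z5)) z5) (a (b (c z1 z5) (c z1 z5)) z5)) (d (a (b (c (d (a z4 z5) z1) z5) (c (d (a z4 z5) (a z0 z1)) z5)) z5) (a (b (c z1 z5) (c z1 (d z5 (a z4 z5))))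 z5)))) z1)))) (c z1 (b z1 (d (a (c z1 (b z1 (d (a (b z1 (c z1 (d (a z4 z5) (a z4 z5)))) z1) (a (b z1 (c z1 (d (a z0 z1) z1))) z1)))) z1) z1))))) (b z5 (d z5 (b z5 (d z5 (a (c (b (d (a (c (b z5 (d z5 (a (c (b z5 (d z5 (a z4 z5))) z5) z5))) z5) z5) (a (c (b (d (a (c z1 z5) z5) (a (c z1 z5) z5)) (d (a (c z1 z5) z5) (a (c z1 z5) z5))) z5) z5)) (d (a (c (b (d (a z4 z5) (a z4 z5)) (d (a z4 z5) (a z4 z5))) z5) z5) (a (c (b (d (a z4 z5) (a (c z0 z4) z5)) (d (a z4 z5) (a (c z0 z4) z5))) z5) z5))) z5) z5))))))) _ _ (by decide +kernel)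

theorem okB692 : CKB ⟨7680, 8448, 4096, 4352⟩ ⟨7680, 9216, 4352, 4608⟩ :=
  ckB_sound (c z0 (b (d (a (b (d (c (a z4 (b (d z4 (c z0 z4)) (d z4 (c z0 z4)))) z4) (c z0 z4)) (d (c (a z4 (b (d z4 (c z0 z4)) z4)) z4) (c z0 z4))) (b (d (c (a (b (d (c z0 z4) (c z0 z4)) (d (c z0 z4) (c z0 z4))) (b (d (c z1 z5) (c z1 z5)) (d (c z1 z5) (c z1 z5)))) z5) (c (a z0 z1) z5)) (d (c (a (b (d (c z0 z4) (c z0 z4)) (d (c z0 z4) (c z0 z4))) (b (d (c z1 z5) (c z1 z5)) (d (c (a z0 z1) z5) (c (a z0 z1) (a z4 z5))))) z4) (c (a z0 (b (d (c z1 (a (b z5 z4) z5)) (c z1 (a (b (d (c z1 z5) (c z1 z5)) (d z4 (c z0 z4))) z5))) (d (c (a z0 z1) (a z4 z5)) (c z1 (a z4 z5))))) z4)))) (a (b (d (c z0 z12) z8) z8) (b (d (c (a z0 z1) (a z12 z13)) (c (a z8 z9) (a z12 (b z13 (d z13 (c (a (b z13 (d z13 (c z9 z13))) z13) z13)))))) (d (c z0 z12) (c z8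 (a z12 (b (d (c (a (b z13 z12) z13) z13) (c (a (b (d (c z9 z13) (c z9 z13)) z12) z13) z13)) (d (c (a z12 z13) z13) (c (a z12 z13) z13))))))))) (d (a (b (d z4 (c z0 z4)) (d z4 (c z0 z4))) (b (d (c (a (b (d z4 (c z0 z4)) (d z4 (c z0 z4))) (b (d (c z0 z4) (c z0 z4)) (d (c z0 z4) (c z0 z4)))) z4) (c z0 z4)) (d (c (a (b (d z4 (c z0 z4)) (d z4 (c z0 z4))) (b (d (c z0 z4) (c z0 z4)) (d (c z0 z4) (c z0 z4)))) z4) (c z0 z4)))) (a z8 (b (d (c z0 z12) (c z8 (a z12 (b (d z12 (c (a z12 (b (d z13 (c z9 z13)) (d (c z9 z13) (c z9 z13)))) z12)) z12)))) (d (c z0 z12) (c z8 z12))))))) _ _ (by decide +kernel)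

theorem okB693 : CKB ⟨8448, 9216, 4096, 4352⟩ ⟨7680, 9216, 4352, 4608⟩ :=
  ckB_sound (c z1 (b (d (b z5 (d z5 (a (c z1 z5) z5))) z9) (d (b (d (a (c (b (d z5 (a (c z1 z5) z5)) (d (a (c z1 z5) z5) (a (c z1 z5) z5))) z5) z5) (a (c z1 z5) z5)) (d (a (c (b (d (a (c z1 z5) z5) (a (c z1 z5) z5)) (d (a (c (b (d (a z0 z1) z1) (d (a z0 z1) (a z0 z1))) z5) z5) (a (c (b z1 (d (a z0 z1) (a z0 z1))) z5) z5))) z5) z5) (a (c (b (d (a (c z1 z5) z1) (a (c z1 (b (d z5 (a (c z1 z5) z5)) (d (a (c z1 z5) z5) (a (c z1 z5) z5)))) z1)) (d (a (c z1 (b (d z5 (a z4 z5)) (d (a z4 z5) (a z4 z5)))) z1) (a (c z1 (b (d (a z4 z5) (a (c z0 z4) z5)) (d (a z4 z5) (a z4 z5)))) z1))) z5) z5))) (b (d (a (c z1 z13) z5) (a (c z9 z13) z9)) (d (a (c (b z1 (d (a (c z1 (b (d (a z0 z1) (a z0 z1)) (d (a z0 z1) (a z0 z1)))) z1) (a (c z1 (b z9 (d (a z0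 z1) (a z8 z9)))) z1))) z13) z5) (a (c (b z9 (d (a (c z9 (b z9 (d (a z8 z9) z9))) z9) z9)) (b (d z13 (a (c (b (d z13 (a (c z9 z13) z13)) (d (a (c z9 z13) z13) (a (c z9 z13) z13))) z13) z13)) (d (a (c (b (d z13 (a z12 z13)) (d (a z12 z13) (a z12 z13))) z13) z13) (a (c (b (d (a z12 z13) (a (c z8 z12) z13)) (d (a z12 z13) (a z12 z13))) z13) z13)))) z9)))))) _ _ (by decide +kernel)

theorem okB694 : CKB ⟨7680, 8448, 4352, 4608⟩ ⟨7680, 9216, 4096, 4352⟩ :=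
  ckB_sound (c z0 z4) _ _ (by decide +kernel)

theorem okB695 : CKB ⟨8448, 9216, 4352, 4608⟩ ⟨7680, 8448, 4096, 4352⟩ :=
  ckB_sound (b (d (c (b (d (a (c z1 (b z1 (d (a z0 z1) (a z0 z1)))) z1) (a (c z1 (b z1 (d (a z0 z1) z1))) z1)) (d (a z0 z1) (a z0 z1))) (b (d (a (c (b (d (a z0 z1) (a z0 z1)) (d (a z0 z1) (a z0 z1))) (b (d (a z4 z5) (a z4 z5)) (d (a z4 z5) (a z4 z5)))) z5) (a (c (b (d (a z0 z1) (a z0 z1)) (d (a z0 z1) (a z0 z1))) (b (d (a z4 z5) (a (b (c z0 z4) (c z0 z4)) z5)) (d (a z4 z5) (a (b (c z0 z4) (c z0 z4)) (b z5 (c z1 z5)))))) z1)) (d (a (c z0 z4) z5) (a (c z0 (b (d (a z4 (b z5 (c (d z5 z1) z5))) (a (b (c z0 z4) (c z0 z4)) (b (c z1 z5) (c z1 z5)))) (d (a z4 (b (c (d (a z4 z5) z1) z5) (c (d (a z4 z5) (a z0 z1)) z5))) (a z4 (b (c z1 z5) (c z1 z5)))))) z1)))) (c (b z1 (d (a z0 z1) (a z0 z1))) (b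 (d (a (c (b z1 (d (a z0 z1) (a z0 z1))) (b (d (a z0 z1) (a z0 z1)) (d (a z0 z1) (a z0 z1)))) z1) (a (c (b z1 (d (a z0 z1) (a z0 z1))) (b (d (a z0 z1) (a z0 z1)) (d (a z0 z1) (a z0 z1)))) z1)) (d (a z0 z1) (a z0 z1))))) (d (c (b (d (a z0 z3) (a z0 z3)) z2) (b (d (a (c z0 z4) (c z3 z7)) (a z0 z3)) (d (a (c z2 z6) (c z3 (b z7 (d z7 (a (b z7 (c (d z7 (a z6 z7)) z7)) z7))))) (a z2 (c z3 (b (d (a (b z7 (c (d z7 z3) z7)) z7) (a (b (c z3 z7) (c z3 z7)) z7)) (d (a (b (c (d (a z6 z7) z3) z7) (c (d (a z6 z7) z3) z7)) z7) (a (b (c z3 z7) (c z3 z7)) z7)))))))) (c z2 (b (d (a z0 z3) (a z0 z3)) (d (a z2 (c z3 (b z3 (d (a (b z3 (c z3 (d (a z6 z7) (a z6 z7)))) z3) z3)))) (a z2 z3)))))) _ _ (by decide +kernel)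

theorem okB696 : CKB ⟨8448, 9216, 4352, 4608⟩ ⟨8448, 9216, 4096, 4352⟩ :=
  ckB_sound (b (d (b z5 (d z5 (a z4 z5))) (b (d (a (c (b (d z5 (a z4 z5)) (d (a z4 z5) (a z4 z5))) z5) z5) (a (c (b (d (a z4 z5) (a (c (b (d (a z4 z5) (a z4 (c z1 z5))) (d z4 (a z4 (c z1 z5)))) z4) z5)) (d (a z4 z5) (a (c (b (d z4 (a z4 (c z0 z4))) (d z4 (a z4 (c z0 z4)))) z4) z5))) z5) z5)) (d (a z4 z5) (a (c (b (d (a z4 z5) (a z4 (c (b (d z5 (c z1 z5)) (d (c z1 z5) (c z1 z5))) z5))) (d (a z4 (c (b (d z5 (c (a z4 z5) z5)) (d (c (a z4 z5) z5) (c (a z4 z5) z5))) z5)) (a z4 (c (b (d (c z1 z5) (c z1 z5)) (d (c (a z0 z1) z5) (c z1 z5))) z5)))) z4) z5)))) (d z6 (b (d (a z4 z7) (a (c (b (d z4 (a z4 (c (b (d (c z0 z4) (c z0 z4)) (d (c z0 z4) (c z0 z4))) z4))) (d z4 (a z4 (c (b (d z4 (c z0 z4)) (d z6 (c z2 z6))) z6)))) z4) z7)) (d (a z6 z7)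 (a (c (b (d z6 (a z6 (c (b (d z6 (c z2 z6)) z6) z6))) z6) z6) (c (b (d z7 (c (a (b (d z7 (c z3 z7)) (d (c z3 z7) (c z3 z7))) z7) z7)) (d (c (a (b (d z7 (c (a z6 z7) z7)) (d (c (a z6 z7) z7) (c (a z6 z7) z7))) z7) z7) (c (a (b (d (c z3 z7) (c z3 z7)) (d (c (a z2 z3) z7) (c z3 z7))) z7) z7))) z7)))))) _ _ (by decide +kernel)

theorem okB697 : CKB ⟨7680, 8448, 4352, 4608⟩ ⟨7680, 9216, 4352, 4608⟩ :=
  ckB_sound (c z0 (b (d (a (b (d z4 (c z0 z4)) (d z4 (c z0 z4))) (b (d (c (a z4 (b (d (c z0 z4) (c z0 z4)) (d z4 (c z0 z4)))) z4) (c z0 z4)) (d (c (a z4 (b (d z4 (c z0 z4)) (d z4 (c z0 z4)))) z4) (c z0 z4)))) (a z8 (b (d (c z0 z12) (c z8 z12)) (d (c z0 z12) z8)))) (d (a z4 (b (d (c (a z4 (b (d z4 (c z0 z4)) z4)) z4) (c z0 z4)) (d z4 (c z0 z4)))) z8))) _ _ (by decide +kernel)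

theorem okB698 : CKB ⟨8448, 9216, 4352, 4608⟩ ⟨7680, 8448, 4352, 4608⟩ :=
  ckB_sound (b (d (c (b z1 (d (a z0 z1) (a z0 z1))) (b (d (a (c z1 (b (d (a z0 z1) z1) (d (a z0 z1) (a z0 z1)))) z1) (a (c z1 (b z1 (d (a z0 z1) (a z0 z1)))) z1)) (d (a z0 z1) (a z0 z1)))) (c z1 (b (d (a (c z1 (b z1 (d (a z0 z1) z1))) z1) z1) (d (a z0 z1) (a z0 z1))))) (d (c z2 (b (d (a z0 z3) (a z0 z3)) (d (a z2 z3) z2))) z2)) _ _ (by decide +kernel)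

theorem okB699 : CKB ⟨8448, 9216, 4352, 4480⟩ ⟨8448, 9216, 4352, 4608⟩ :=
  ckB_sound (d (b (d (a (c (b (d (a (c z0 z4) z5) (a (c z0 z4) (c z1 z5))) (d (a (c z0 z4) (c z1 z5)) (a (c z0 z4) (c z1 z5)))) z5) z5) (a (c (b (d (a (c z0 z4) z1) (a z0 z1)) (d (a z0 z1) (a z0 z1))) z5) z5)) (d (a (c (b (d (a (c z0 z4) (c z1 z5)) (a (c z0 z4) (c z1 z5))) (d (a (c z0 z4) (c (b (d (c z1 z5) z1) (d (c z1 (a z4 z5)) (c z1 (a z4 z5)))) z5)) (a (c z0 z4) (c (b z1 (d (c z1 (a z0 z1)) (c z1 (a z0 z1)))) z5)))) z4) z5) (a (c (b (d (a z0 (c z1 z5)) (a z0 z1)) (d (a z0 (c z1 (b (d z5 (a z4 z5)) (d (a z4 z5) (a z4 z5))))) (a z0 (c z1 (b (d (a z4 z5) (a (c z0 z4) z5)) (d (a z4 z5) (a (c z0 z4) z5))))))) z4) (c z1 z5)))) (b (d (a (c (b (d (a z0 z1) (a z0 z1)) (d (a z0 z1) (a z0 z1))) (b (d z13 (a z12 z13)) (d (a z12 z13) (a z12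 z13)))) (c z1 z13)) (a (c (b (d (a z8 z9) (a z8 z9)) (d (a z8 z9) (a z8 z9))) (b (d (a z12 z13) (a (c (b (d (a z12 z13) (a z12 (c z9 z13))) (d z12 (a z12 (c z9 z13)))) z12) z13)) (d (a z12 z13) (a (c (b (d z12 (a z12 (c z8 z12))) (d z12 (a z12 (c z8 z12)))) z12) z13)))) z9)) (d (a (c (b (d (a z0 z1) z0) z0) z12) (c z1 z13)) (a (c z8 (b (d (a z12 z13) (a z12 (c (b (d z13 (a (c z9 z13) z13)) (d (a (c z9 z13) z13) (a (c z9 z13) z13))) z13))) (d z12 (a z12 (c (b (d (a z12 z13) (a (c z8 z12) z13)) (d (a z12 z13) (a (c z8 z12) z13))) z13))))) z9)))) _ _ (by decide +kernel)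

theorem okB700 : CKB ⟨8448, 9216, 4480, 4608⟩ ⟨8448, 9216, 4352, 4608⟩ :=
  ckB_sound (d (b (d (a (c (b (d (a (c z0 z4) (c z0 z4)) (a (c z0 z4) (c z0 z4))) (d (a (c z0 z4) (c z2 z6)) (a (c z0 z4) (c z2 z6)))) z4) (c (b (d z7 (c z3 z7)) (d (c z3 z7) (c z3 z7))) z7)) (a (c (b (d (a z0 (c z0 z4)) z0) z0) z4) (c z3 z7))) (d (a (c (b (d (a z6 (c z2 z6)) (a (c z2 z6) (c z2 z6))) (d (a z6 (c z2 z6)) (a (c z2 z6) (c z2 z6)))) z6) (c (b (d (c z3 z7) (c z3 z7)) (d (c (a (b (d (c z3 z7) z3) (d (c z3 (a z6 z7)) (c z3 (a z6 z7)))) z3) z7) (c (a (b z3 (d (c z3 (a z2 z3)) (c z3 (a z2 z3)))) z3) z7))) z7)) (a (c z2 z6) (c (b (d (c z3 z7) z3) (d (c z3 (a (b (d z7 (c (a z6 z7) z7)) (d (c (a z6 z7) z7) (c (a z6 z7) z7))) z7)) (c z3 (a (b (d (c z3 z7) (c z3 z7)) (d (c (a z2 z3) z7) (c (a z2 z3) z7))) z7)))) z7)))) (b (d (a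 (c z0 z12) (c z3 z15)) (a (c z8 (b (d z12 (a z12 (c (b (d (a z12 z13) (a z12 (c z9 z13))) (d (a z12 (c z9 z13)) (a z12 (c z9 z13)))) z12))) (d z12 (a z12 (c (b (d z12 (a z12 (c z10 z14))) (d z14 (a z14 (c z10 z14)))) z14))))) (c z11 z15))) (d (a (c z2 z14) (c (b z3 (d (c z3 (a (b (d (c z3 z7) (c z3 (a z6 z7))) (d (c z3 (a z6 z7)) (c z3 (a z6 z7)))) z3)) (c z3 (a (b z11 (d (c z3 (a z10 z11)) (c z11 (a z10 z11)))) z11)))) z15)) (a (c z10 (b (d z14 (a z14 (c (b (d z14 (a z14 (c z10 z14))) z14) z14))) z14)) (c (b z11 (d (c z11 (a (b z11 (d (c z11 (a z10 z11)) z11)) z11)) z11)) (b (d z15 (a (c (b (d z15 (a (c z11 z15) z15)) (d (a (c z11 z15) z15) (a (c z11 z15) z15))) z15) z15)) (d (a (c (b (d z15 (a z14 z15)) (d (a z14 z15) (a z14 z15))) z15) z15) (a (c (b (d (a z14 z15) (a (c z10 z14) z15)) (d (a z14 z15) (a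 (c z10 z14) z15))) z15) z15)))))))) _ _ (by decide +kernel)

theorem okB701 : CKB ⟨6144, 7680, 4096, 4608⟩ ⟨6144, 9216, 4608, 5120⟩ :=
  ckB_sound z8 _ _ (by decide +kernel)

theorem okB702 : CKB ⟨7680, 9216, 4096, 4608⟩ ⟨6144, 7680, 4608, 5120⟩ :=
  ckB_sound (b (d (c (a z0 z1) (a z0 z1)) (c (a z8 z9) (a z8 z9))) z0) _ _ (by decide +kernel)

theorem okB703 : CKB ⟨7680, 9216, 4096, 4352⟩ ⟨7680, 9216, 4608, 5120⟩ :=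
  ckB_sound (d (a (c z8 (b (d (a z8 (b (d (c (a z8 z9) (a (b (d (c z8 z12) (c z8 z12)) (d (c z8 z12) (c z8 z12))) (b (d (c z9 z13) (c z9 z13)) (d (c z9 z13) (c z9 z13))))) (c (a z8 z9) (a z8 z9))) (d (c z8 (a (b (d (c z8 z12) (c z8 z12)) (d (c z8 z12) (c z8 z12))) (b (d (c z9 z13) (c z9 z13)) (d (c (a z8 z9) z13) (c (a z8 z9) z13))))) (c z8 (a z8 (b (d (c z9 (a (b z13 z12) z13)) (c z9 (a (b (d (c z9 z13) (c z9 z13)) (d z12 (c z8 z12))) z13))) (d (c (a z8 z9) (a z12 z13)) (c z9 (a z12 (b z13 (d z13 (c z9 z13)))))))))))) (a z8 (b (d (c (a z8 z9) (a z8 z9)) (c (a z8 z9) (a z8 z9))) z8))) (d (a z8 (b (d (c z8 (a (b (d z12 (c z8 z12)) (d z12 (c z8 z12))) (b (d (c z8 z12) (c z8 z12)) (d (c z8 z12) (c z8 z12))))) z8) (d (c z8 (a (b (d z12 (c z8 z12)) (d z12 (c z8 z12))) (b (d (c z8 z12) (c z8 z12)) (d (c z8 z12)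 (c z8 z12))))) z8))) z8))) (c z9 (b z9 (d (b (d (a (c z9 (b (d z13 (a (c z9 z13) z13)) (d (a (c z9 z13) z13) (a (c z9 z13) z13)))) z9) z9) (d (a (c z9 (b (d (a (c z9 z13) z13) (a (c z9 z13) z13)) (d (a (c (b (d (a z8 z9) (a z8 z9)) (d (a z8 z9) (a z8 z9))) z13) z13) (a (c (b z9 (d (a z8 z9) (a z8 z9))) z13) z13)))) z9) (a (c z9 (b (d (a (c z9 z13) z9) (a (c z9 (b (d z13 (a (c z9 z13) z13)) (d (a (c z9 z13) z13) (a (c z9 z13) z13)))) z9)) (d (a (c (b z9 (d (a z8 z9) z9)) (b (d z13 (a z12 z13)) (d (a z12 z13) (a z12 z13)))) z9) (a (c z9 (b (d (a z12 z13) (a (c z8 z12) z13)) (d (a z12 z13) (a (c z8 z12) z13)))) z9)))) z9))) (b z9 (d (a (c z9 (b z9 (d (a (c z9 (b (d (a z8 z9) (a z8 z9)) (d (a z8 z9) (a z8 z9)))) z9) (a (c z9 (b z9 (d (a z8 z9) (a z8 z9)))) z9)))) z9) (a (c z9 (b z9 (d (a (c z9 (b z9 (d (a z8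 z9) z9))) z9) z9))) z9))))))) (a z8 z9)) _ _ (by decide +kernel)

theorem okB704 : CKB ⟨7680, 8448, 4352, 4608⟩ ⟨7680, 9216, 4608, 4864⟩ :=
  ckB_sound z8 _ _ (by decide +kernel)

end Vale.Agent.Lib.P154Q5
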