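import Vale.Agent.Lib.P154Q5.CkBDefs

namespace Vale.Agent.Lib.P154Q5

set_option maxRecDepth 100000
set_option exponentiation.threshold 1000

open Tr

theorem okB705 : CKB ⟨8448, 9216, 4352, 4608⟩ ⟨7680, 8448, 4608, 4864⟩ :=
  ckB_sound (b (d (c z9 (b z9 (d (a z8 z9) (a z8 z9)))) (c z9 (b z9 (d (a z8 z9) z9)))) z10) _ _ (by decide +kernel)

theorem okB706 : CKB ⟨8448, 9216, 4352, 4608⟩ ⟨8448, 9216, 4608, 4864⟩ :=
  ckB_sound (b (d (b (d (a (c (b (d (a z8 z9) (a z8 z9)) (d (a z8 z9) (a z8 z9))) (b (d (a (c z8 z12) z13) (a (c z8 z12) (c z9 z13))) (d (a (c z8 z12) (c z9 z13)) (a (c z8 z12) (c z9 z13))))) z9) (a (c (b z9 (d (a z8 z9) (a z8 z9))) (b (d (a (c z8 z12) z9) (a z8 z9)) (d (a z8 z9) (a z8 z9)))) z9)) (d (a (c z8 (b (d (a (c z8 z12) (c z9 z13)) (a (c z8 z12) (c z9 z13))) (d (a (c z8 z12) (c (b (d (a z8 z9) (a z8 z9)) (d (a z8 z9)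 (a z8 z9))) z13)) (a (c z8 z12) (c (b z9 (d (a z8 z9) (a z8 z9))) z13))))) z9) (a (c z8 (b (d (a z8 (c z9 z13)) (a z8 (c z9 (b (d z13 (a (c z9 z13) z13)) (d (a (c z9 z13) z13) (a (c z9 z13) z13)))))) (d (a z8 (c (b z9 (d (a z8 z9) z9)) (b (d z13 (a z12 z13)) (d (a z12 z13) (a z12 z13))))) (a z8 (c z9 (b (d (a z12 z13) (a (c z8 z12) z13)) (d (a z12 z13) (a (c z8 z12) z13)))))))) z9))) (b (d (a (c (b z9 (d (a z8 z9) (a z8 z9))) (b (d (a z8 z9) (a z8 z9)) (d (a z8 z9) (a z8 z9)))) z9) (a (c z9 (b (d (a z8 z9) (a z8 z9)) (d (a z8 z9) (a z8 z9)))) z9)) (d (a (c z8 (b (d (a z8 z9) z8) z8)) z9) (a z8 z9)))) (d (b (d (a (c z8 (b (d (a (c z8 z12) (c z8 z12)) (a (c z8 z12) (c z8 z12))) (d (a (c z8 z12) (c z10 z14)) (a (c z8 z12) (c z10 z14))))) (c z11 (b (d z15 (a (c z9 z13) z15)) (d (a (c z11 z15) z15) (a (c z11 z15) z15))))) (a (c z8 (b (d (a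 z8 (c z8 z12)) z8) (d (a z8 (c z10 z14)) z8))) z11)) (d (a (c z10 (b (d (a z14 (c z10 z14)) (a (c z10 z14) (c z10 z14))) (d (a z14 (c z10 z14)) (a (c z10 z14) (c z10 z14))))) (c z11 (b (d (a (c z11 z15) z15) (a (c z11 z15) z15)) (d (a (c (b (d (a z10 z11) (a z10 z11)) (d (a z10 z11) (a z10 z11))) z15) z15) (a (c (b z11 (d (a z10 z11) (a z10 z11))) z15) z15))))) (a z10 (c z11 (b (d (a (c z11 z15) z11) (a (c z11 (b (d z15 (a (c z11 z15) z15)) (d (a (c z11 z15) z15) (a (c z11 z15) z15)))) z11)) (d (a (c (b z11 (d (a z10 z11) z11)) (b (d z15 (a z14 z15)) (d (a z14 z15) (a z14 z15)))) z11) (a (c z11 (b (d (a (c z10 z14) z15) (a (c z10 z14) z15)) (d (a z14 z15) (a (c z10 z14) z15)))) z11))))))) (b (d (a z8 z11) (a z8 z11)) (d (a z10 (c z11 (b z11 (d (a (c z11 (b (d (a z10 z11) (a z10 z11)) (d (a z10 z11) (a z10 z11)))) z11) (a (c z11 (b z11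 (d (a z10 z11) (a z10 z11)))) z11))))) (a z10 (c z11 (b z11 (d (a (c z11 (b z11 (d (a z10 z11) z11))) z11) z11)))))))) _ _ (by decide +kernel)

theorem okB707 : CKB ⟨7680, 9216, 4352, 4608⟩ ⟨7680, 9216, 4864, 5120⟩ :=
  ckB_sound (a z8 (c (b z9 z10) (b (d (b (d (a (c z9 (b (d (a z8 z9) (a z8 z9)) (d (a z8 z9) (a z8 z9)))) z9) (a (c z9 (b z9 (d (a z8 z9) (a z8 z9)))) z9)) (d (a z8 z9) (a z8 z9))) (b (d (a (c z9 (b z9 (d (a z8 z9) z9))) z9) z9) (d (a z8 z9) (a z8 z9)))) (d (b (d (a z8 z11) (a z8 z11)) (d (a z10 z11) z10)) (b (d (a z8 z11) (a z8 z11)) z10))))) _ _ (by decide +kernel)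

theorem okB708 : CKB ⟨6144, 7680, 4608, 5120⟩ ⟨6144, 9216, 4096, 4608⟩ :=
  ckB_sound (c z0 (b (d (a (c z0 z4) (c z0 z4)) z0) z2)) _ _ (by decide +kernel)

theorem okB709 : CKB ⟨7680, 9216, 4608, 5120⟩ ⟨6144, 7680, 4096, 4608⟩ :=
  ckB_sound z2 _ _ (by decide +kernel)

theorem okB710 : CKB ⟨7680, 9216, 4608, 4864⟩ ⟨7680, 9216, 4096, 4352⟩ :=
  ckB_sound (a (c z2 z6) (c (b (d (c z2 (b (d (a (c z2 z6) (c (b (d (a z2 z3) (a z2 z3)) (d (a z2 z3) (a z2 z3))) (b (d (a z6 z7) (a z6 z7)) (d (a z6 z7) (a z6 z7))))) (a z2 (c (b (d (a z2 z3) (a z2 z3)) (d (a z2 z3) (a z2 z3))) (b (d (a z6 z7) (a (b (c z2 z6) (c z2 z6)) z7)) (d (a z6 z7) (a (b (c z2 z6) (c z2 z6)) z7)))))) (d (a (c z2 z6) (c z2 z6)) (a z2 (c z2 (b (d (a z6 (b z7 (c (d z7 z3) z7))) (a (b (c z2 z6) (c z2 z6)) (b (c z3 z7) (c z3 z7)))) (d (a z6 (b (c (d (a z6 z7) z3) z7) (c (d (a z6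 z7) (a z2 z3)) z7))) (a z6 (b (c z3 z7) (c z3 (d z7 (a z6 z7)))))))))))) (c z2 (b (d (a z2 (c (b z3 (d (a z2 z3) (a z2 z3))) (b (d (a z2 z3) (a z2 z3)) (d (a z2 z3) (a z2 z3))))) (a z2 (c (b z3 (d (a z2 z3) (a z2 z3))) (b (d (a z2 z3) (a z2 z3)) (d (a z2 z3) (a z2 z3)))))) z2))) (d (c z2 (b (d (a (c z2 z6) (c z2 z6)) z2) z2)) z2)) (b (d z6 (b (d (a z6 (c (b (d z7 (c (a z6 z7) z7)) (d (c (a z6 z7) z7) (c (a z6 z7) z7))) z7)) (a z6 (c (b (d (c (a z6 z7) z7) (c (a (b (d (c z2 z6) (c z2 z6)) (d (c z2 z6) (c z2 z6))) z7) z7)) (d (c (a z6 z7) z7) (c (a (b (d z6 (c z2 z6)) (d z6 (c z2 z6))) z7) z7))) z7))) (d z6 (a z6 (c (b (d (c (a z6 z7) z6) (c (a (b (d z6 (c z2 z6)) z6) (b (d z7 (c z3 z7)) (d (c z3 z7) (c z3 z7)))) z6)) (d (c (a z6 (b (d z7 (c (a z6 z7) z7)) (d (c (a z6 z7) z7) (c (a z6 z7) z7)))) z6) (c (a z6 (b (d (c z3 z7) (c z3 z7)) (d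 (c (a z2 z3) z7) (c (a z2 z3) z7)))) z6))) z6))))) (d z6 (b (d z6 (a z6 (c (b (d z6 (c (a z6 (b (d (c z2 z6) (c z2 z6)) (d (c z2 z6) (c z2 z6)))) z6)) (d z6 (c (a z6 (b (d z6 (c z2 z6)) (d z6 (c z2 z6)))) z6))) z6))) (d z6 (a z6 (c (b (d z6 (c (a z6 (b (d z6 (c z2 z6)) z6)) z6)) z6) z6)))))))) _ _ (by decide +kernel)

theorem okB711 : CKB ⟨7680, 8448, 4608, 4864⟩ ⟨7680, 9216, 4352, 4608⟩ :=
  ckB_sound (c z2 (b (d (a z6 (b (d z6 (c z2 z6)) (d z6 (c z2 z6)))) z10) (d (a z6 (b (d z6 (c z2 z6)) z6)) z10))) _ _ (by decide +kernel)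

theorem okB712 : CKB ⟨8448, 9216, 4608, 4864⟩ ⟨7680, 8448, 4352, 4608⟩ :=
  ckB_sound z2 _ _ (by decide +kernel)

theorem okB713 : CKB ⟨8448, 9216, 4608, 4736⟩ ⟨8448, 9216, 4352, 4608⟩ :=
  ckB_sound (d (b (d (a (c (b (d (a z6 (c z2 z6)) (a (c z2 z6) (c z2 z6))) (d (a z6 (c z2 z6)) (a (c z2 z6) (c z2 z6)))) z6) (c (b (d (c (a z2 z3) z7) (c (a z2 z3) (a z6 z7))) (d (c (a z2 z3) (a z6 z7)) (c (a z2 z3) (a z6 z7)))) z7)) (a (c z2 z6) (c (b (d (c (a z2 z3) (a z6 z7)) (c (a z2 z3) (a (b (d (c z2 z6) (c z2 z6)) (d (c z2 z6) (c z2 z6))) z7))) (d (c (a z2 z3) (a z6 z7)) (c (a z2 z3) (a (b (d z6 (c z2 z6)) (d z6 (c z2 z6))) z7)))) z7))) (d (a (c (b (d z6 (a z6 (c z2 z6))) (d z6 (a z6 (c z2 z6)))) z6) (c (b (d (c (a z2 z3) z6) (c z2 z6)) (d (c z2 z6) (c z2 z6))) z6)) (a (c z2 z6) (c (b (d (c z2 (a z6 z7)) (c z2 (a (b (d z6 (c z2 z6)) z6) (b (d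 z7 (c z3 z7)) (d (c z3 z7) (c z3 z7)))))) (d (c z2 (a z6 (b (d z7 (c (a z6 z7) z7)) (d (c (a z6 z7) z7) (c (a z6 z7) z7))))) (c z2 (a z6 (b (d (c z3 z7) (c z3 z7)) (d (c (a z2 z3) z7) (c (a z2 z3) z7))))))) z6)))) (b (d (a (c z2 z14) (c (b (d (c (a z2 z3) (a z2 z3)) (c (a z2 z3) (a z10 z11))) (d (c (a z2 z3) (a z2 z3)) (c (a z2 z3) (a z10 z11)))) (b (d z15 (a z14 z15)) (d (a z14 z15) (a z14 z15))))) (a (c z10 z14) (c (b (d (c z11 (a z10 z11)) (c z11 (a z10 z11))) (d (c (a z10 z11) (a z10 z11)) (c (a z10 z11) (a z10 z11)))) (b (d (a z14 z15) (a (c (b (d (a z14 z15) (a (c z10 z14) (c z11 z15))) (d (a z14 (c z11 z15)) (a z14 (c z11 z15)))) z14) z15)) (d (a z14 z15) (a (c (b (d z14 (a z14 (c z10 z14))) (d z14 (a z14 (c z10 z14)))) z14) z15)))))) (d (a (c z2 z14) (c (b (d (c z2 (a z2 z3)) (c z2 (a z10 z11))) z2) z14)) (a z10 (c z10 (b (d (a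 z14 z15) (a (c (b (d z14 (a z14 (c z10 z14))) z14) z14) (c (b (d z15 (c z11 z15)) (d (c z11 z15) (c z11 z15))) z15))) (d (a z14 (c (b (d z15 (c (a z14 z15) z15)) (d (c (a z14 z15) z15) (c (a z14 z15) z15))) z15)) (a z14 (c (b (d (c (a z10 z11) z15) (c z11 z15)) (d (c (a z10 z11) z15) (c (a z10 z11) z15))) z15))))))))) _ _ (by decide +kernel)

theorem okB714 : CKB ⟨8448, 9216, 4736, 4864⟩ ⟨8448, 9216, 4352, 4608⟩ :=
  ckB_sound (d (b (d (a (c (b (d z6 (a z6 (c z2 z6))) (d z6 (a z6 (c z2 z6)))) z6) (c (b (d (c z2 z6) (c z2 z6)) (d (c z2 z6) (c z2 z6))) z6)) (a (c z2 z6) (c (b (d (c z2 z6) z2) z2) z6))) (d (a z6 (c (b (d (c z2 z6) (c z2 z6)) (d (c z2 z6) (c z2 z6))) z6)) (a (c z2 z6) (c z2 z6)))) (b (d (a (c z2 z14) (c z2 z14)) (a z10 (c z10 (b (d z14 (a z14 (c (b (d (c z10 z14) (c z10 z14)) (d (c z10 z14) (c z10 z14))) z14))) (d z14 (a z14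 (c (b (d z14 (c z10 z14)) (d z14 (c z10 z14))) z14))))))) (d (a (c z2 z14) (c z2 z14)) (a z10 (c z10 (b (d z14 (a z14 (c (b (d z14 (c z10 z14)) z14) z14))) z14)))))) _ _ (by decide +kernel)

theorem okB715 : CKB ⟨7680, 9216, 4864, 5120⟩ ⟨7680, 9216, 4096, 4608⟩ :=
  ckB_sound (d (a (c z2 z6) (c z2 z6)) (a z2 (c z2 (b (d (b (d (a z6 (c (b (d (c z2 z6) (c z2 z6)) (d (c z2 z6) (c z2 z6))) z6)) (a (c z2 z6) (c z2 z6))) (d (a z6 (c (b (d z6 (c z2 z6)) (d z6 (c z2 z6))) z6)) (a (c z2 z6) (c z2 z6)))) (b (d (a (c z2 z14) (c z2 z14)) (a z10 (c z10 z14))) (d (a (c z2 z14) (c z2 z14)) z10))) (d (b (d (a z6 (c (b (d z6 (c z2 z6)) z6) z6)) (a (c z2 z6) (c z2 z6))) (d z6 (a z6 (c z2 z6)))) (b (d (a (c z2 z14) (c z2 z14)) z10) z10)))))) _ _ (by decide +kernel)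

theorem okB716 : CKB ⟨6144, 9216, 4608, 5120⟩ ⟨6144, 9216, 4608, 5120⟩ :=
  ckB_sound (a z8 (c z2 (b (d (a z10 (c z10 (b (d (b (d (a z10 (c (b (d (c z11 (a z10 z11)) (c z11 (a z10 z11))) (d (c (a z10 z11) (a z10 z11)) (c z11 (a z10 z11)))) (b (d (a (c z10 z14) z15) (a (c z10 z14) (c z11 z15))) (d (a (c z10 z14) (c z11 z15)) (a (c z10 z14) (c z11 z15)))))) (a z10 (c (b z11 (d (c z11 (a z10 z11)) (c z11 (a z10 z11)))) (b (d (a (c z10 z14) z11) (a (c z10 (b (d (a z14 z15) (a (c z10 z14) (c z11 z15))) (d (a z14 (c z11 z15)) (a (c z10 z14) (c z11 z15))))) z11)) (d (a (c z10 z14) z11) (a z10 z11)))))) (d (a z10 (c z10 (b (d (a (c z10 z14) (c z11 z15)) (a (c z10 z14) (c z11 z15))) (d (a (c z10 z14) (c (b (d (c z11 z15) (c z11 (a z14 z15))) (d (c (a z10 z11) (a z14 z15)) (c (a z10 z11) (a z14 z15)))) z15)) (a (c z10 z14) (c (b (d (c z11 (a z10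 z11)) z11) (d (c z11 (a z10 z11)) (c z11 (a z10 z11)))) z15)))))) (a z10 (c z10 (b (d (a z10 (c z11 z15)) (a z10 (c z11 (b (d z15 (a (c z11 z15) z15)) (d (a (c z11 z15) z15) (a (c z11 z15) z15)))))) (d (a z10 (c (b z11 (d (c z11 (a z10 z11)) (c z11 (a z10 z11)))) (b (d z15 (a z14 z15)) (d (a z14 z15) (a z14 z15))))) (a z10 (c z11 (b (d (a (c z10 z14) z15) (a (c z10 z14) z15)) (d (a z14 z15) (a (c z10 z14) (c z11 z15)))))))))))) (b (d (a z10 (c (b z11 (d (c z11 (a z10 z11)) (c z11 (a z10 z11)))) (b (d (a z10 z11) (a z10 z11)) (d (a z10 z11) (a z10 z11))))) (a z10 (c z11 (b (d (a z10 z11) (a z10 z11)) (d (a z10 z11) (a z10 z11)))))) (d (a z10 (c z10 (b (d (a z10 z11) (a z10 z11)) (d (a z10 (c z11 (b (d (a z10 z11) (a z10 z11)) (d (a z10 z11) (a z10 z11))))) z10)))) z10))) (d (b (d (a z10 (c z10 (b (d (a (c z10 z14) (c z10 z14)) (a (c z10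 z14) (c z10 z14))) (d (a (c z10 z14) (c z10 z14)) (a (c z10 z14) (c z10 z14)))))) (a z10 (c z10 (b (d (a z10 (c z10 z14)) (a z10 (c z10 (b (d (a z14 (c z11 z15)) (a (c z10 z14) (c z11 z15))) (d (a z14 (c z11 z15)) (a (c z10 z14) (c z11 z15))))))) (d (a z10 (c z10 z14)) z10))))) (d (a z10 (c z10 (b (d (a z14 (c z10 z14)) (a (c z10 z14) (c z10 z14))) (d (a z14 (c z10 z14)) (a (c z10 z14) (c z10 z14)))))) z10)) z10)))) z10) z10))) _ _ (by decide +kernel)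

theorem okB717 : CKB ⟨6144, 9216, 4096, 4608⟩ ⟨9216, 12288, 4096, 4608⟩ :=
  ckB_sound (a z12 (b (d z5 (c (a z12 z13) z13)) z12)) _ _ (by decide +kernel)

theorem okB718 : CKB ⟨6144, 7680, 4096, 4608⟩ ⟨9216, 12288, 4608, 5120⟩ :=
  ckB_sound (b (d z12 (c (a (b (d z12 (c z8 z12)) z12) (b (d (c (a z12 (b (d z12 (c z8 z12)) z12)) z12) (c z8 z12)) (d z12 (c z8 z12)))) z12)) (d z12 (c (a z12 (b (d z12 (c z8 z12)) (d z12 (c z8 z12)))) z12))) _ _ (by decide +kernel)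

theorem okB719 : CKB ⟨7680, 9216, 4096, 4352⟩ ⟨9216, 12288, 4608, 4864⟩ :=
  ckB_sound (c (a (b (d z12 (c (a z12 (b (d (c (a z12 z13) z13) (c (a (b (d z12 (c (a z12 (b (d (c z9 z13) (c z9 z13)) z12)) z12)) z12) (b z13 (d z13 (c (a (b z13 (d z13 (c z9 z13))) z13) z13)))) z13)) (d z12 (c (a z12 (b (d (c (a (b z13 z12) z13) z13) (c (a (b (d (c z9 z13) (c z9 z13)) (d z12 (c z8 z12))) z13) z13)) (d (c (a z12 z13) z13) (c (a (b (d z12 (c z8 z12)) z12) (b z13 (d z13 (c z9 z13)))) z13)))) z12)))) z12)) (d z12 (c (a z12 (b (d z12 (c (a z12 (b (d z12 (c (a z12 (b (d (c z9 z13) (c z9 z13)) (d (c z9 z13) (c z9 z13)))) z12)) (d z12 (c (a z12 (b (d z12 (c z8 z12)) (d z12 (c z8 z12)))) z12)))) z12)) z12)) z12))) (b z13 (d z13 (c (b (d z13 (a (c (b z13 (d z13 (a (c (b z13 (d z13 (a (c z9 z13) z13))) z13) z13))) z13) z13)) (d (a (c (b z13 (d z13 (a (c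 (b z13 (d z13 (a z12 z13))) z13) z13))) z13) z13) (a (c (b (d (a (c (b z13 (d z13 (a (c (b z13 (d z13 (a z12 z13))) z13) z13))) z13) z13) (a (c (b (d (a (c z9 z13) z13) (a (c z9 z13) z13)) (d (a (c z9 z13) z13) (a (c z9 z13) z13))) z13) z13)) (d (a (c (b (d (a z12 z13) (a z12 z13)) (d (a z12 z13) (a z12 z13))) z13) z13) (a (c (b (d (a z12 z13) (a (c z8 z12) z13)) (d (a z12 z13) (a (c z8 z12) (c z9 z13)))) z13) z13))) z13) z13))) z13)))) z13) _ _ (by decide +kernel)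

end Vale.Agent.Lib.P154Q5
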