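import Vale.Agent.Lib.P154Q5.CkBDefs

namespace Vale.Agent.Lib.P154Q5

set_option maxRecDepth 100000
set_option exponentiation.threshold 1000

open Tr

theorem okB720 : CKB ⟨7680, 8448, 4096, 4352⟩ ⟨9216, 10752, 4864, 5120⟩ :=
  ckB_sound (b (d (c (a (b (d (c (a z12 (b (d z12 (c z8 z12)) (d z12 (c z8 z12)))) z12) (c z8 z12)) (d (c (a z12 (b (d z12 (c z8 z12)) (d z12 (c z8 z12)))) z12) (c z8 z12))) (b (d (c (a (b (d (c z8 z12) (c z8 z12)) (d (c z8 z12) (c z8 z12))) (b (d (c z9 z13) (c z9 z13)) (d (c z9 z13) (c z9 z13)))) z13) (c (a z8 z9) (a z12 z13))) (d (c (a (b (d (c z8 z12) (c z8 z12)) (d (c z8 z12) (c z8 z12))) (b (d (c z9 z13) (c z9 z13)) (d (c (a z8 z9) z13) (c (a z8 z9) (a z12 z13))))) z12) (c (a z8 (b (d (c z9 (a (b z13 z12) z13)) z9) (d (c (a z8 z9) (a z12 z13)) (c z9 (a (b (d z12 z8) (d z12 z8)) (b z13 (d z13 z9))))))) z12)))) z12) (c (a z8 (b (d (c (a z8 z9)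 (a z12 z13)) (c (a z8 z9) (a (b (d z12 (c z8 z12)) (d z12 (c z8 z12))) (b z13 (d z13 (c z9 z13)))))) (d (c z8 z12) (c z8 (a (b (d z12 (c z8 z12)) z12) (b (d (c (a (b (d z13 (c z9 z13)) z12) z13) z13) (c z9 z13)) (d (c (a z12 z13) z13) (c (a z8 z9) z13)))))))) z12)) (d (c (a (b (d z12 (c z8 z12)) (d z12 (c z8 z12))) (b (d (c (a (b (d (c z8 z12) (c z8 z12)) (d z12 (c z8 z12))) (b (d (c z8 z12) (c z8 z12)) (d (c z8 z12) (c z8 z12)))) z12) (c z8 z12)) (d (c (a (b (d z12 (c z8 z12)) (d z12 (c z8 z12))) (b (d (c z8 z12) (c z8 z12)) (d (c z8 z12) (c z8 z12)))) z12) (c z8 z12)))) z12) (c (a z8 (b (d (c z8 z12) (c z8 (a z12 (b (d z12 (c z8 z12)) (d z12 (c z8 z12)))))) (d (c z8 z12) (c z8 (a z12 (b (d z12 (c z8 z12)) (d z12 (c z8 z12)))))))) z12))) _ _ (by decide +kernel)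

theorem okB721 : CKB ⟨8448, 9216, 4096, 4352⟩ ⟨9216, 10752, 4864, 5120⟩ :=
  ckB_sound (b (d (c (b z13 (d z13 (a (c z9 z13) z13))) z13) (c z9 z13)) (d (c (b (d (a (c (b (d (a (c z9 z13) z13) (a (c z9 z13) z13)) (d (a (c z9 z13) z13) (a (c z9 z13) z13))) z13) z13) (a (c z9 z13) z13)) (d (a (c (b (d (a (c z9 z13) z13) (a (c z9 z13) z13)) (d (a (c (b (d (a z8 z9) z9) (d (a z8 z9) (a z8 z9))) z13) z13) (a (c (b z9 (d (a z8 z9) (a z8 z9))) (b z13 (d z13 (a z12 z13)))) z13))) z13) z13) (a (c (b (d (a (c z9 (b z13 (d z13 (a (c z9 z13) z13)))) z9) z9) (d (a (c z9 (b (d (a z12 z13) (a z12 z13)) (d (a z12 z13) (a z12 z13)))) z9) (a (c z9 (b (d (a (c z8 z12) z13) (a z8 z9)) (d (a z12 z13) (a z8 z9)))) z9))) z13) z13))) z13) (c (b (d (a (c z9 z13) z13) (a (c z9 (b z13 (d z13 (a (c z9 z13) z13)))) z9)) (d (a (c (b z9 (d (a (c z9 (b z9 (d (a z8 z9) (a z8 z9)))) z9) (a (c z9 (b z9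 (d (a z8 z9) z9))) z9))) (b z13 (d z13 (a (c (b (d z13 (a z12 z13)) (d (a z12 z13) (a z12 z13))) z13) z13)))) z13) (a (c z9 (b (d (a (c (b (d z13 (a (c z9 z13) z13)) (d (a (c (b z13 (d z13 z9)) z13) z13) (a (c z9 z13) z13))) z13) z13) (a (c z9 z13) z13)) (d (a (c (b (d (a z12 z13) (a z12 z13)) (d (a z12 z13) (a z12 z13))) z13) z13) (a (c (b (d (a z8 z9) z9) (d (a z8 z9) (a z8 z9))) z13) z13)))) z9))) z13))) _ _ (by decide +kernel)

theorem okB722 : CKB ⟨7680, 9216, 4096, 4352⟩ ⟨10752, 12288, 4864, 5120⟩ :=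
  ckB_sound z13 _ _ (by decide +kernel)

theorem okB723 : CKB ⟨7680, 9216, 4352, 4608⟩ ⟨9216, 12288, 4608, 4864⟩ :=
  ckB_sound (c (a z12 (b (d (c (b z13 (d z13 (a z12 z13))) z13) (c (b (d (a (c (b (d z13 (a z12 z13)) (d (a z12 z13) (a z12 z13))) z13) z13) (a (c (b (d (a z12 z13) (a (c (b (d (a z12 (c z9 z13)) (a (c z8 z12) (c z9 z13))) (d (a z12 (c z9 z13)) (a z12 (c z9 z13)))) z12) z13)) (d (a z12 z13) (a (c (b (d z12 (a z12 (c z8 z12))) (d z12 (a z12 (c z8 z12)))) z12) (c (b z13 (d z13 (a (c z9 z13) z13))) z13)))) z13) z13)) (d (a z12 z13) (a (c (b (d (a z12 (c (b z13 (d z13 (a (c (b z13 (d z13 (a z12 z13))) z13) z13))) z13)) (a (c (b (d z12 (a z12 (c z8 z12))) (d z12 (a z12 (c z8 z12)))) z12) (c (b (d (a (c z9 z13) z13) (a (c z9 z13) z13)) (d (a (c z9 z13) z13) (a (c z9 z13) z13))) z13))) (d (a z12 (c (b (d (a z12 z13) (a z12 z13)) (d (a z12 z13) (a z12 z13))) z13))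 (a z12 (c (b (d (a (c z8 z12) z13) (a (c z8 z12) z13)) (d (a z12 z13) (a (c z8 z12) (c z9 z13)))) z13)))) z12) z13))) z13)) (d z14 (c (b (d (a z12 z15) (a (c (b (d z12 (a z12 (c (b (d (a z12 (c z9 z13)) (a (c z8 z12) (c z9 z13))) (d (a z12 (c z9 z13)) (a (c z8 z12) (c z9 z13)))) z12))) (d z12 (a z12 (c (b (d (a z12 (c z10 z14)) (a z12 (c z10 z14))) (d z14 (a z14 (c z10 z14)))) z14)))) z12) (c (b z15 (d z15 (a (c (b z15 (d z15 (a (c z11 z15) z15))) z15) z15))) z15))) (d (a z14 (c (b z15 (d z15 (a (c (b z15 (d z15 (a z14 z15))) z15) z15))) z15)) (a (c (b (d z14 (a z14 (c (b (d z14 (a z14 (c z10 z14))) (d z14 (a z14 (c z10 z14)))) z14))) (d z14 (a z14 (c (b (d z14 (a z14 (c z10 z14))) z14) z14)))) z14) (c (b (d (a (c (b z15 (d z15 (a (c (b z15 (d z15 (a z14 z15))) z15) z15))) z15) z15) (a (c (b (d (a (c z11 z15) z15) (a (c z11 z15) z15)) (d (a (c z11 z15) z15) (a (c z11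 z15) z15))) z15) z15)) (d (a (c (b (d (a z14 z15) (a z14 z15)) (d (a z14 z15) (a z14 z15))) z15) z15) (a (c (b (d (a (c z10 z14) z15) (a (c z10 z14) z15)) (d (a (c z10 z14) z15) (a (c z10 z14) (c z11 z15)))) z15) z15))) z15)))) z14)))) z12) _ _ (by decide +kernel)

theorem okB724 : CKB ⟨7680, 8448, 4352, 4608⟩ ⟨9216, 10752, 4864, 5120⟩ :=
  ckB_sound (b (d (c (a (b (d z12 (c z8 z12)) (d z12 (c z8 z12))) (b (d (c (a (b (d z12 (c z8 z12)) z12) (b (d (c z8 z12) (c z8 z12)) (d (c z8 z12) (c z8 z12)))) z12) (c z8 z12)) (d (c (a z12 (b (d z12 (c z8 z12)) (d z12 (c z8 z12)))) z12) (c z8 z12)))) z12) (c (a z8 (b (d (c z8 z12) z8) z8)) z12)) (d (c (a (b (d z12 (c z8 z12)) z12) (b (d (c (a z12 (b (d z12 (c z8 z12)) (d z12 (c z8 z12)))) z12) (c z8 z12)) (d z12 (c z8 z12)))) z12) (c z8 z12))) _ _ (by decide +kernel)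

theorem okB725 : CKB ⟨8448, 9216, 4352, 4480⟩ ⟨9216, 10752, 4864, 5120⟩ :=
  ckB_sound (d (c (b (d (a (c (b (d (a (c z8 z12) z13) (a (c z8 z12) (c z9 z13))) (d (a (c z8 z12) (c z9 z13)) (a (c z8 z12) (c z9 z13)))) z13) z13) (a (c (b (d (a z8 z9) (a z8 z9)) (d (a z8 z9) (a z8 z9))) (b z13 (d z13 (a z12 z13)))) z13)) (d (a (c (b (d (a (c z8 z12) (c z9 z13)) (a (c z8 z12) (c z9 z13))) (d (a (c z8 z12) (c (b (d (a z8 z9) z9) (d (a z8 z9) (a z8 z9))) z13)) (a (c z8 z12) (c (b z9 (d (a z8 z9) (a z8 z9))) (b z13 (d z13 (a z12 z13))))))) z12) z13) (a (c (b (d (a z8 (c z9 (b z13 (d z13 (a (c z9 z13) z13))))) (a z8 z9)) (d (a z8 (c z9 (b (d (a z12 z13) (a z12 z13)) (d (a z12 z13) (a z12 z13))))) (a z8 (c z9 (b (d (a (c z8 z12) z13) (a z8 z9)) (d (a (c z8 z12) z13) (a z8 z9))))))) z12) (c z9 z13)))) z13) (c (b (d (a (c (b (d (a z8 z9) (a z8 z9)) (d (a z8 z9) (a z8 z9))) (b (d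 (a z12 z13) (a z12 z13)) (d (a z12 z13) (a z12 z13)))) (c z9 z13)) (a (c (b (d (a z8 z9) (a z8 z9)) (d (a z8 z9) (a z8 z9))) (b (d (a (c (b (d z12 (a z12 (c z9 z13))) (d z12 (a z12 (c z9 z13)))) z12) z13) (a (c z8 z12) z13)) (d (a z12 z13) (a (c z8 z12) (c z9 z13))))) z9)) (d (a (c z8 (b (d z12 (a z12 z13)) z12)) (c z9 z13)) (a (c z8 (b (d (a z12 (c (b (d z13 (a (c z9 z13) z13)) (d (a (c (b z13 (d z13 z9)) z13) z13) (a (c z9 z13) z13))) z13)) (a (c z8 z12) (c z9 z13))) (d (a z12 (c (b (d (a z12 z13) (a (c z8 z12) z13)) (d (a z12 z13) (a z12 z13))) z13)) (a (c z8 z12) (c (b (d (a z8 z9) z9) (d (a z8 z9) (a z8 z9))) z13))))) z9))) z13)) _ _ (by decide +kernel)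

theorem okB726 : CKB ⟨8448, 9216, 4480, 4608⟩ ⟨9216, 10752, 4864, 5120⟩ :=
  ckB_sound (d (c (b (d (a (c (b (d (a (c z8 z12) (c z8 z12)) (a (c z8 z12) (c z8 z12))) (d (a (c z8 z12) (c z10 z14)) (a (c z8 z12) (c z10 z14)))) z12) (c (b (d z15 (a (c z9 z13) z15)) (d (a (c z11 z15) z15) (a (c z11 z15) z15))) z15)) (a (c (b (d (a z8 (c z8 (b (d z12 (a z12 z13)) (d z12 (a z12 (c z9 z13)))))) z8) z8) z12) (c z11 z15))) (d (a (c (b (d (a (c z10 z14) (c z10 z14)) (a (c z10 z14) (c z10 z14))) (d (a z14 (c z10 z14)) (a (c z10 z14) (c z10 z14)))) z14) (c (b (d (a (c z11 z15) z15) (a (c z11 z15) z15)) (d (a (c (b (d (a z10 z11) (a z10 z11)) (d (a z10 z11) (a z10 z11))) z15) z15) (a (c (b z11 (d (a z10 z11) (a z10 z11))) (b z15 (d z15 (a z14 z15)))) z15))) z15)) (a (c z10 z14) (c (b (d (a (c z11 (b z15 (d z15 (a (c z11 z15) z15)))) z11) z11) (d (a (c z11 (b (d (a z14 z15) (a z14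 z15)) (d (a z14 z15) (a z14 z15)))) z11) (a (c z11 (b (d (a (c z10 z14) z15) (a z10 z11)) (d (a (c z10 z14) z15) (a z10 z11)))) z11))) z15)))) z14) (c (b (d (a (c z8 z12) (c z11 z15)) (a (c z8 (b (d (a z12 (c (b (d z12 (a z12 (c z9 z13))) (d z12 (a z12 (c z9 z13)))) z12)) (a (c z8 z12) (c z8 z12))) (d (a z12 (c (b (d z12 (a z12 (c z10 z14))) (d z14 (a z14 (c z10 z14)))) z14)) (a z12 (c z10 z14))))) (c z11 (b z15 (d z15 (a (c z11 z15) z15)))))) (d (a (c z10 z14) (c (b z11 (d (a (c z11 (b (d (a z10 z11) z11) (d (a z10 z11) (a z10 z11)))) z11) (a (c z11 (b z11 (d (a z10 z11) z11))) z11))) (b z15 (d z15 (a (c (b (d z15 (a z14 z15)) (d (a z14 z15) (a z14 z15))) z15) z15))))) (a (c z10 (b (d z14 (a z14 (c z10 z14))) (d z14 (a z14 (c z10 z14))))) (c z11 (b (d (a (c (b (d z15 (a (c z11 z15) z15)) (d (a (c (b z15 (d z15 z11)) z15) z15) (a (c z11 z15) z15))) z15) z15) (a (c z11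 z15) z15)) (d (a (c (b (d (a z14 z15) (a (c z10 z14) z15)) (d (a z14 z15) (a (c z10 z14) z15))) z15) z15) (a (c (b (d (a z10 z11) z11) (d (a z10 z11) (a z10 z11))) z15) z15))))))) z14)) _ _ (by decide +kernel)

theorem okB727 : CKB ⟨7680, 9216, 4352, 4608⟩ ⟨10752, 12288, 4864, 5120⟩ :=
  ckB_sound z12 _ _ (by decide +kernel)

theorem okB728 : CKB ⟨6144, 9216, 4608, 5120⟩ ⟨9216, 12288, 4096, 4608⟩ :=
  ckB_sound z14 _ _ (by decide +kernel)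

theorem okB729 : CKB ⟨6144, 7680, 4608, 5120⟩ ⟨9216, 12288, 4608, 5120⟩ :=
  ckB_sound (b (d z12 (c (a z12 (b (d z12 (c z8 z12)) (d z14 (c z10 z14)))) z12)) (d z14 (c (a z14 (b (d z14 (c z10 z14)) (d z14 (c z10 z14)))) z14))) _ _ (by decide +kernel)

theorem okB730 : CKB ⟨7680, 9216, 4608, 4864⟩ ⟨9216, 12288, 4608, 4864⟩ :=
  ckB_sound (c (a z14 (b (d z14 (c (b (d (a z14 (c (b (d z15 (a z14 z15)) (d (a z14 z15) (a z14 z15))) z15)) (a z14 (c (b (d (a (c (b (d z14 (a z14 z15)) z14) z14) z15) (a (c (b (d (a z14 (c z11 z15)) (a (c z10 z14) (c z11 z15))) (d (a z14 (c z11 z15)) (a (c z10 z14) (c z11 z15)))) z14) z15)) (d (a z14 z15) (a (c (b (d (a z14 (c z10 z14)) (a (c z10 z14) (c z10 z14))) (d (a z14 (c z10 z14)) (a z14 (c z10 z14)))) z14) (c (b z15 (d z15 (a (c z11 z15) z15))) z15)))) z15))) (d z14 (a z14 (c (b (d (a z14 (c (b z15 (d z15 (a (c (b z15 (d z15 (a z14 z15)))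 z15) z15))) z15)) (a (c (b (d z14 (a z14 (c z10 z14))) (d z14 (a z14 (c z10 z14)))) z14) (c (b (d (a (c z11 z15) z15) (a (c z11 z15) z15)) (d (a (c z11 z15) z15) (a (c z11 z15) z15))) z15))) (d (a z14 (c (b (d (a z14 z15) (a z14 z15)) (d (a z14 z15) (a z14 z15))) z15)) (a (c (b (d z14 (a z14 (c z10 z14))) z14) z14) (c (b (d (a (c z10 z14) z15) (a (c z10 z14) z15)) (d (a (c z10 z14) z15) (a (c z10 z14) (c z11 z15)))) z15)))) z14)))) z14)) (d z14 (c (b (d z14 (a z14 (c (b (d (a z14 (c (b (d z14 (a z14 z15)) z14) z14)) (a z14 (c (b (d (a z14 (c z11 z15)) (a (c z10 z14) (c z11 z15))) (d (a z14 (c z11 z15)) (a (c z10 z14) (c z11 z15)))) z14))) (d z14 (a z14 (c (b (d (a z14 (c z10 z14)) (a (c z10 z14) (c z10 z14))) (d (a z14 (c z10 z14)) (a z14 (c z10 z14)))) z14)))) z14))) (d z14 (a z14 (c (b (d z14 (a z14 (c (b (d z14 (a z14 (c z10 z14))) (d z14 (a z14 (c z10 z14)))) z14)))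 (d z14 (a z14 (c (b (d z14 (a z14 (c z10 z14))) z14) z14)))) z14)))) z14)))) z14) _ _ (by decide +kernel)

theorem okB731 : CKB ⟨7680, 8448, 4608, 4864⟩ ⟨9216, 10752, 4864, 5120⟩ :=
  ckB_sound (b (d (c (a z14 (b (d z14 (c z10 z14)) (d z14 (c z10 z14)))) z14) (c z10 z14)) (d (c (a z14 (b (d z14 (c z10 z14)) (d z14 (c z10 z14)))) z14) (c z10 z14))) _ _ (by decide +kernel)

theorem okB732 : CKB ⟨8448, 9216, 4608, 4736⟩ ⟨9216, 10752, 4864, 5120⟩ :=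
  ckB_sound (d (c (b (d (a (c (b (d (a z14 (c z10 z14)) (a (c z10 z14) (c z10 z14))) (d (a z14 (c z10 z14)) (a (c z10 z14) (c z10 z14)))) z14) (c (b (d (a (c z10 z14) (c z11 z15)) (a (c z10 z14) (c z11 z15))) (d (a (c z10 z14) (c z11 z15)) (a (c z10 z14) (c z11 z15)))) z15)) (a (c z10 z14) (c (b (d (a (c z10 (b (d z14 (a z14 z15)) (d z14 (a z14 (c z11 z15))))) z11) (a z10 z11)) (d (a z10 z11) (a z10 z11))) (b z15 (d z15 (a z14 z15)))))) (d (a (c (b (d (a z14 (c z10 z14)) (a (c z10 z14) (c z10 z14))) (d z14 (a z14 (c z10 z14)))) z14) (c (b (d (a (c z10 z14) (c z11 z15)) (a (c z10 z14) (c z11 z15))) (d (a (c z10 z14) (c (b (d (a z10 z11) (a z10 z11)) (d (a z10 z11) (a z10 z11))) z15)) (a (c z10 z14) (c (b z11 (d (a z10 z11) (a z10 z11))) (b z15 (d z15 (a z14 z15))))))) z14)) (a (c z10 z14) (c (b (d (a z10 (c z11 (b z15 (d z15 (a (c z11 z15) z15))))) (a z10 (c z11 (b (d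 (a (c z11 z15) z15) z11) (d (a (c z11 z15) z15) z11))))) (d (a z10 (c (b z11 (d (a z10 z11) z11)) (b (d (a z14 z15) (a (c z10 z14) z15)) (d (a z14 z15) (a z14 z15))))) (a z10 (c z11 (b (d (a (c z10 z14) z15) (a z10 z11)) (d (a (c z10 z14) (c z11 z15)) (a z10 z11))))))) z14)))) z14) (c (b (d (a (c z10 z14) (c (b (d (a z10 z11) (a z10 z11)) (d (a z10 z11) (a z10 z11))) (b (d (a z14 z15) (a z14 z15)) (d (a z14 z15) (a z14 z15))))) (a z10 (c (b (d (a z10 z11) (a z10 z11)) (d (a z10 z11) (a z10 z11))) (b (d (a (c (b (d (a z14 z15) (a z14 (c z11 z15))) (d z14 (a z14 (c z11 z15)))) z14) z15) (a (c z10 z14) z15)) (d (a (c (b (d z14 (a z14 (c z10 z14))) (d z14 (a z14 (c z10 z14)))) z14) z15) (a (c z10 z14) (c z11 z15))))))) (d (a (c z10 z14) (c (b (d (a z10 z11) z10) z10) (b (d z14 (a z14 z15)) z14))) (a z10 (c z10 (b (d (a (c (b (d z14 (a z14 (c z10 z14))) z14) z14) (c (b (d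 z15 (a (c z11 z15) z15)) (d (a (c (b (d z15 z11) (d (a z14 z15) z11)) z15) z15) (a (c z11 z15) z15))) z15)) (a (c z10 z14) (c z11 z15))) (d (a z14 (c (b (d (a z14 z15) (a (c z10 z14) z15)) (d (a z14 z15) (a (c z10 z14) z15))) z15)) (a (c z10 z14) (c (b (d (a z10 z11) (a z10 z11)) (d (a z10 z11) (a z10 z11))) z15)))))))) z14)) _ _ (by decide +kernel)

theorem okB733 : CKB ⟨8448, 9216, 4736, 4864⟩ ⟨9216, 10752, 4864, 5120⟩ :=
  ckB_sound (d (c (b (d (a (c (b (d z14 (a z14 (c z10 z14))) (d z14 (a z14 (c z10 z14)))) z14) (c (b (d (a (c z10 z14) (c z10 z14)) (a (c z10 z14) (c z10 z14))) (d (a (c z10 z14) (c z10 z14)) (a (c z10 z14) (c z10 z14)))) z14)) (a (c z10 z14) (c (b (d (a z10 (c z10 (b (d z14 (a z14 (c z11 z15))) (d z14 (a z14 (c z11 z15)))))) z10) z10) z14))) (d (a (c (b (d z14 (a z14 (c z10 z14))) z14) z14) (c (b (d (a (c z10 z14) (c z10 z14)) (a (c z10 z14) (c z10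 z14))) (d (a z14 (c z10 z14)) (a (c z10 z14) (c z10 z14)))) z14)) (a (c z10 z14) (c z10 z14)))) z14) (c (b (d (a (c z10 z14) (c z10 z14)) (a z10 (c z10 (b (d (a z14 (c (b (d (a z14 z15) (a (c z10 z14) (c z11 z15))) (d (a z14 (c (b (d z15 z11) (d (a z14 z15) z11)) z15)) (a z14 (c z11 z15)))) z14)) (a (c z10 z14) (c z10 z14))) (d (a z14 (c (b (d z14 (a z14 (c z10 z14))) (d z14 (a z14 (c z10 z14)))) z14)) (a (c z10 z14) (c z10 z14))))))) (d (a (c z10 z14) (c z10 z14)) (a z10 (c z10 (b (d (a z14 (c (b (d z14 (a z14 (c z10 z14))) z14) z14)) (a z14 (c z10 z14))) (d z14 (a z14 (c z10 z14)))))))) z14)) _ _ (by decide +kernel)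

theorem okB734 : CKB ⟨7680, 9216, 4608, 4864⟩ ⟨10752, 12288, 4864, 5120⟩ :=
  ckB_sound z14 _ _ (by decide +kernel)

end Vale.Agent.Lib.P154Q5
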