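import Vale.Agent.Lib.P154Q5.CkBDefs

namespace Vale.Agent.Lib.P154Q5

set_option maxRecDepth 100000
set_option exponentiation.threshold 1000

open Tr

theorem okB735 : CKB ⟨7680, 9216, 4864, 5120⟩ ⟨9216, 12288, 4608, 5120⟩ :=
  ckB_sound (d z14 (c (a (b (d z14 (c z10 z14)) (d z14 (c z10 z14))) (b (d (c (b (d (a z14 (c (b (d (a z14 (c z10 z14)) (a (c z10 z14) (c z10 z14))) (d (a z14 (c z10 z14)) (a (c z10 z14) (c z10 z14)))) z14)) (a (c z10 z14) (c z10 z14))) (d (a z14 (c (b (d (a z14 (c z10 z14)) (a (c z10 z14) (c z10 z14))) (d z14 (a z14 (c z10 z14)))) z14)) (a (c z10 z14) (c z10 z14)))) z14) (c (b (d (a (c z10 z14) (c z10 z14)) (a z10 (c z10 (b (d z14 (a z14 (c z10 z14))) (d z14 (a z14 (c z10 z14))))))) (d (a (c z10 z14) (c z10 z14)) z10)) z14)) (d (c (b (d (a z14 (c (b (d z14 (a z14 (c z10 z14))) (d z14 (a z14 (c z10 z14))))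 z14)) (a (c z10 z14) (c z10 z14))) (d (a z14 (c (b (d z14 (a z14 (c z10 z14))) z14) z14)) (a (c z10 z14) (c z10 z14)))) z14) (c z10 z14)))) z14)) _ _ (by decide +kernel)

theorem okB736 : CKB ⟨9216, 12288, 4096, 4608⟩ ⟨6144, 9216, 4096, 5120⟩ :=
  ckB_sound (d (c z3 (b z1 (d (a (c z3 z7) z7) z3))) z11) _ _ (by decide +kernel)

theorem okB737 : CKB ⟨9216, 12288, 4608, 5120⟩ ⟨6144, 7680, 4096, 4608⟩ :=
  ckB_sound (b z3 (d (a (c (b z3 (d (a z2 z3) z3)) (b (d (a (c z3 (b z3 (d (a z2 z3) z3))) z3) z3) (d (a z2 z3) (a z2 z3)))) z3) (a (c z3 (b z3 (d (a z2 z3) (a z2 z3)))) z3))) _ _ (by decide +kernel)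

theorem okB738 : CKB ⟨9216, 12288, 4608, 4864⟩ ⟨7680, 9216, 4096, 4352⟩ :=
  ckB_sound (a (c (b z3 (d (a (c z3 (b z3 (d (a (c (b z3 (d (a (c z3 (b z3 (d (a z6 z7) z3))) z3) z3)) (b z7 (d z7 (a (b z7 (c (d z7 (a z6 z7)) z7)) z7)))) z7) (a (c z3 (b (d (a (b z7 (c (d z7 z3) z7)) z7) (a (b (c z3 z7) (c z3 z7)) z7)) (d (a (b (c (d (a z6 z7) z3) z7) (c (d (a z6 z7) (a z2 z3)) z7)) z7) (a (b (c z3 z7) (c (d (a z2 z3) z3) (d z7 (a z6 z7)))) z7)))) z3)))) z3) (a (c z3 (b z3 (d (a (c z3 (b z3 (d (a (b z3 (c z3 (d (a z6 z7) (a z6 z7)))) z3) (a (b z3 (c z3 (d (a z2 z3) (a z2 z3)))) z3)))) z3) z3))) z3))) (b z7 (d z7 (a (b (d z7 (c (a (b z7 (d z7 (c (a (b z7 (d z7 (c z3 z7))) z7) z7))) z7) z7)) (d (c (a (b z7 (d z7 (c (a (b z7 (d z7 (c (a z6 z7) z7))) z7) z7))) z7) z7) (c (a (b (d (c (a (b z7 (d z7 (c (a (b z7 (d z7 (c z3 z7))) z7) z7)))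 z7) z7) (c (a (b (d (c z3 z7) (c z3 z7)) (d (c z3 z7) (c z3 z7))) z7) z7)) (d (c (a (b (d (c (a z6 z7) z7) (c (a z6 z7) z7)) (d (c (a z6 z7) z7) (c (a z6 z7) z7))) z7) z7) (c (a (b (d (c z3 z7) (c z3 z7)) (d (c (a z2 z3) z7) (c (a z2 z3) (a z6 z7)))) z7) z7))) z7) z7))) z7)))) z7) _ _ (by decide +kernel)

theorem okB739 : CKB ⟨9216, 12288, 4608, 4864⟩ ⟨7680, 9216, 4352, 4608⟩ :=
  ckB_sound (a (c z3 (b (d (a (b z7 (d z7 (c z3 z7))) z7) z11) (d (a (b (d (c (a (b (d z7 (c z3 z7)) (d (c z3 z7) (c z3 z7))) z7) z7) (c z3 z7)) (d (c (a (b (d (c z3 z7) (c z3 z7)) (d (c (a (b (d (c z3 (a z6 z7)) (c z3 (a z6 z7))) (d (c (a z2 z3) (a z6 z7)) (c z3 (a z6 z7)))) z3) z7) (c (a (b z3 (d (c z3 (a z2 z3)) (c z3 (a z2 z3)))) z3) (a (b z7 (d z7 (c (a z6 z7) z7))) z7)))) z7) z7) (c (a (b (d (c z3 (a (b z7 (d z7 (c (a (b z7 (d z7 (c z3 z7))) z7)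 z7))) z7)) (c z3 (a (b (d (c z3 z7) (c z3 z7)) (d (c z3 z7) (c z3 z7))) z7))) (d (c (a (b z3 (d (c z3 (a z2 z3)) (c z3 (a z2 z3)))) z3) (a (b (d (c (a z6 z7) z7) (c (a z6 z7) z7)) (d (c (a z6 z7) z7) (c (a z6 z7) z7))) z7)) (c z3 (a (b (d (c (a z2 z3) z7) (c z3 z7)) (d (c (a z2 z3) z7) (c (a z2 z3) (a z6 z7)))) z7)))) z3) z7))) z7) (a (b (d (c z3 z15) (c z11 (a (b z15 (d z15 (c (a (b z15 (d z15 (c z11 z15))) z15) z15))) z15))) (d (c (a (b z3 (d (c z3 (a (b (d (c z3 (a z6 z7)) (c z3 (a z6 z7))) (d (c (a z2 z3) (a z6 z7)) (c (a z2 z3) (a z6 z7)))) z3)) (c z3 (a (b (d (c z3 (a z10 z11)) z11) (d (c z3 (a z10 z11)) (c z11 (a z10 z11)))) z11)))) z3) (a (b z15 (d z15 (c (a (b z15 (d z15 (c (a z14 z15) z15))) z15) z15))) z15)) (c (a (b z11 (d (c z11 (a (b z11 (d (c z11 (a z10 z11)) (c z11 (a z10 z11)))) z11)) (c z11 (a (b z11 (d (c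 z11 (a z10 z11)) z11)) z11)))) z11) (a (b (d (c (a (b z15 (d z15 (c (a (b z15 (d z15 (c z11 z15))) z15) z15))) z15) z15) (c (a (b (d (c z11 z15) (c z11 z15)) (d (c z11 z15) (c z11 z15))) z15) z15)) (d (c (a (b (d (c (a z14 z15) z15) (c (a z14 z15) z15)) (d (c (a z14 z15) z15) (c (a z14 z15) z15))) z15) z15) (c (a (b (d (c (a z10 z11) z15) (c (a z10 z11) z15)) (d (c (a z10 z11) z15) (c (a z10 z11) (a z14 z15)))) z15) z15))) z15)))) z11)))) z3) _ _ (by decide +kernel)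

theorem okB740 : CKB ⟨9216, 10752, 4864, 5120⟩ ⟨7680, 8448, 4096, 4352⟩ :=
  ckB_sound (b (d (a (c (b (d (a (c z3 (b z3 (d (a z2 z3) (a z2 z3)))) z3) (a (c z3 (b z3 (d (a z2 z3) (a z2 z3)))) z3)) (d (a z2 z3) (a z2 z3))) (b (d (a (c (b (d (a z2 z3) (a z2 z3)) (d (a z2 z3) (a z2 z3))) (b (d (a z6 z7) (a z6 z7)) (d (a z6 z7) (a z6 z7)))) z7) (a (c (b (d (a z2 z3) (a z2 z3)) (d (a z2 z3) (a z2 z3))) (b (d (a z6 z7) (a (b (c z2 z6) (c z2 z6)) z7)) (d (a z6 z7) (a (b (c z2 z6) (c z2 z6)) (b z7 (c z3 z7)))))) z3)) (d (a (c z2 z6) (c z3 z7)) (a (c z2 (b (d (a z6 (b z7 (c (d z7 z3) z7))) (a (b (c z2 z6) z6) (b (c z3 z7) (c z3 z7)))) (d z6 (a z6 (b (c z3 z7) (c z2 z6)))))) z3)))) z3) (a (c (b z3 (d (a z2 z3) (a z2 z3))) (b (d (a (c (b (d (a z2 z3) z3) (d (a z2 z3) (a z2 z3))) (b (d (a z2 z3) (a z2 z3)) (d (a z2 z3) (a z2 z3)))) z3)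 (a (c (b z3 (d (a z2 z3) (a z2 z3))) (b (d (a z2 z3) (a z2 z3)) (d (a z2 z3) (a z2 z3)))) z3)) (d (a z2 z3) (a z2 z3)))) z3)) (d (a (c z2 (b (d (a (c z2 z6) (c z3 z7)) (a z2 z3)) (d (a (c z2 z6) (c (b z3 (d (a z2 z3) (a z2 z3))) (b z7 (d z7 (a z6 z7))))) (a z2 (c (b z3 (d (a z2 z3) z3)) (b (d (a (b (c (d z7 z3) z7) (c (d (a z6 z7) z3) z7)) z7) (a (b (c z3 z7) (c z3 z7)) z7)) (d (a z6 z7) (a (b (c z2 z6) (c z2 z6)) z7)))))))) z3) (a (c z2 (b (d (a z2 z3) (a z2 z3)) (d (a z2 (c z3 (b z3 (d (a z2 z3) (a z2 z3))))) (a z2 (c z3 (b z3 (d (a z2 z3) (a z2 z3)))))))) z3))) _ _ (by decide +kernel)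

theorem okB741 : CKB ⟨9216, 10752, 4864, 5120⟩ ⟨8448, 9216, 4096, 4352⟩ :=
  ckB_sound (b (d (a (b z7 (d z7 (c (a z6 z7) z7))) z7) (a (b (d (c (a (b (d (c (a z6 z7) z7) (c (a z6 z7) z7)) (d (c (a z6 z7) z7) (c (a z6 z7) z7))) z7) z7) (c (a (b (d (c (a z6 z7) z7) (c (a (b (d (c z2 z6) (c z2 z6)) (d z6 (c z2 z6))) z7) z7)) (d (c (a z6 z7) z7) (c (a (b (d z6 (c z2 z6)) (d z6 (c z2 z6))) (b z7 (d z7 (c z3 z7)))) z7))) z7) z7)) (d (c (a z6 z7) z7) (c (a (b (d (c (a z6 (b z7 (d z7 (c (a z6 z7) z7)))) z6) (c (a z6 (b (d (c z3 z7) (c z3 z7)) (d (c z3 z7) (c z3 z7)))) z6)) (d z6 (c (a z6 (b (d (c (a z2 z3) z7) (c z3 z7)) (d (c z2 z6) (c z2 z6)))) z6))) z7) z7))) z7)) (d (a z6 z7) (a (b (d (c (a z6 z7) z7) (c (a (b (d z6 (c (a z6 (b (d z6 (c z2 z6)) (d z6 (c z2 z6)))) z6)) (d z6 (c (a z6 (b (d z6 (c z2 z6)) z6)) z6))) (b z7 (d z7 (c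 (a (b (d z7 (c z3 z7)) (d (c z3 z7) (c z3 z7))) z7) z7)))) z7)) (d (c (a z6 (b z7 (d z7 (c (a z6 z7) z7)))) z6) (c (a z6 (b (d (c (a (b (d z7 (c (a (b z7 z6) z7) z7)) (d (c (a z6 z7) z7) (c (a z6 z7) z7))) z7) z7) (c (a (b (d (c z3 z7) (c z3 z7)) (d (c z3 z7) (c z3 z7))) z7) z7)) (d (c (a z6 z7) z7) (c (a (b (d (c z2 z6) (c z2 z6)) (d z6 (c z2 z6))) z7) z7)))) z6))) z7))) _ _ (by decide +kernel)

theorem okB742 : CKB ⟨10752, 12288, 4864, 5120⟩ ⟨7680, 9216, 4096, 4352⟩ :=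
  ckB_sound z7 _ _ (by decide +kernel)

theorem okB743 : CKB ⟨9216, 10752, 4864, 5120⟩ ⟨7680, 8448, 4352, 4608⟩ :=
  ckB_sound (b (d (a (c (b z3 (d (a z2 z3) (a z2 z3))) (b (d (a (c (b z3 (d (a z2 z3) z3)) (b (d (a z2 z3) (a z2 z3)) (d (a z2 z3) (a z2 z3)))) z3) (a (c z3 (b z3 (d (a z2 z3) (a z2 z3)))) z3)) (d (a z2 z3) (a z2 z3)))) z3) (a (c (b z3 (d (a z2 z3) z3)) (b (d (a (c z3 (b z3 (d (a z2 z3) (a z2 z3)))) z3) z3) (d (a z2 z3) (a z2 z3)))) z3)) (d (a (c z2 (b (d (a z2 z3) (a z2 z3)) z2)) z3) (a z2 z3))) _ _ (by decide +kernel)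

theorem okB744 : CKB ⟨9216, 10752, 4864, 4992⟩ ⟨8448, 9216, 4352, 4608⟩ :=
  ckB_sound (d (a (b (d (c (a (b (d (c (a z2 z3) z7) (c (a z2 z3) (a z6 z7))) (d (c (a z2 z3) (a z6 z7)) (c (a z2 z3) (a z6 z7)))) z7) z7) (c (a (b (d (c (a z2 z3) (a z6 z7)) (c (a z2 z3) (a (b (d (c z2 z6) (c z2 z6)) (d z6 (c z2 z6))) z7))) (d (c (a z2 z3) (a z6 z7)) (c (a z2 z3) (a (b (d z6 (c z2 z6)) (d z6 (c z2 z6))) (b z7 (d z7 (c z3 z7))))))) z3) z7)) (d (c (a (b (d (c z2 z6) (c z2 z6)) (d (c z2 z6) (c z2 z6))) (b z7 (d z7 (c z3 z7)))) z7) (c (a (b (d (c z2 (a z6 (b z7 (d z7 (c (a z6 z7) z7))))) (c z2 (a z6 (b (d (c z3 z7) (c z3 z7)) (d (c z3 z7) (c z3 z7)))))) (d (c z2 z6) (c z2 (a z6 (b (d (c (a z2 z3) z7) (c (a z2 z3) z7)) (d (c z2 z6) (c z2 z6))))))) z3) (a z6 z7)))) z7) (a (b (d (c (a (b (d (c (a z2 z3) (a z2 z3)) (c (a z2 z3) (a z10 z11)))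 (d (c (a z2 z3) (a z2 z3)) (c (a z2 z3) (a z10 z11)))) z3) (a (b (d z15 (c (a z14 z15) z15)) (d (c (a z6 z7) z15) (c (a z14 z15) z15))) z15)) (c (a (b (d (c (a z10 z11) (a z10 z11)) (c z11 (a z10 z11))) (d (c (a z10 z11) (a z10 z11)) (c (a z10 z11) (a z10 z11)))) z11) (a (b (d (c (a z14 z15) z15) (c (a (b (d (c z10 z14) (c z10 z14)) (d (c z10 z14) (c z10 z14))) z15) z15)) (d (c (a z14 z15) z15) (c (a (b (d z14 (c z10 z14)) (d z14 (c z10 z14))) (b z15 (d z15 (c z11 z15)))) z15))) z15))) (d (c (a (b (d (c z2 (a z2 (b z3 (d (c z3 z7) (c z3 (a z6 z7)))))) z2) z2) z3) (a z14 z15)) (c (a z10 z11) (a (b (d (c (a z14 (b z15 (d z15 (c (a z14 z15) z15)))) z14) (c (a z14 (b (d (c z11 z15) (c z11 z15)) (d (c z11 z15) (c z11 z15)))) z14)) (d z14 (c (a z14 (b (d (c (a z10 z11) z15) (c (a z10 z11) z15)) (d (c z10 z14) (c z10 z14)))) z14)))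 z15)))) z11)) _ _ (by decide +kernel)

theorem okB745 : CKB ⟨9216, 10752, 4992, 5120⟩ ⟨8448, 9216, 4352, 4608⟩ :=
  ckB_sound (d (a (b (d (c (a (b (d (c z2 z6) (c z2 z6)) (d (c z2 z6) (c z2 z6))) (b (d (c z3 z7) (c z3 z7)) (d (c z3 z7) (c z3 z7)))) (a z6 z7)) (c (a z2 (b z3 (d (c z3 z7) z3))) (a z6 z7))) (d (c (a (b (d (c z2 z6) (c z2 z6)) (d (c z2 z6) (c z2 z6))) (b (d (c (a (b z3 (d (c z3 (a z6 z7)) (c z3 (a z6 z7)))) z3) z7) (c z3 z7)) (d (c (a z2 z3) z7) (c (a z2 z3) (a z6 z7))))) z6) (c (a z2 (b (d (c z3 (a (b (d z7 (c (a (b z7 z6) z7) z7)) (d (c (a z6 z7) z7) (c (a z6 z7) z7))) z7)) (c z3 (a (b (d (c z3 z7) (c z3 z7)) (d (c (a z2 z3) z7) (c z3 z7))) z7))) (d (c (a z2 z3) (a z6 z7)) (c (a z2 z3) (a (b (d (c z2 z6) (c z2 z6)) (d z6 (c z2 z6))) z7))))) z6))) z7) (a (b (d (c (a z2 z3) (a z14 z15)) (c (a z10 z11) (a (b (d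 z14 (c (a z14 (b (d (c z10 z14) (c z10 z14)) (d z14 (c z10 z14)))) z14)) (d z14 (c (a z14 (b (d z14 (c z10 z14)) z14)) z14))) (b z15 (d z15 (c (a (b (d z15 (c z11 z15)) (d (c z11 z15) (c z11 z15))) z15) z15)))))) (d (c (a z2 (b (d (c z3 (a (b z3 (d (c z3 (a z6 z7)) (c z3 (a z6 z7)))) z3)) (c z3 (a (b z11 (d (c z3 (a z10 z11)) (c z11 (a z10 z11)))) z11))) (d (c (a z2 z3) (a z2 z3)) (c z3 (a z10 z11))))) (a z14 (b z15 (d z15 (c (a z14 z15) z15))))) (c (a z10 (b z11 (d (c z11 (a z10 z11)) (c z11 (a z10 z11))))) (a z14 (b (d (c (a (b (d z15 (c (a (b z15 z14) z15) z15)) (d (c (a z14 z15) z15) (c (a z14 z15) z15))) z15) z15) (c (a (b (d (c z11 z15) (c z11 z15)) (d (c (a z10 z11) z15) (c (a z10 z11) z15))) z15) z15)) (d (c (a z14 z15) z15) (c (a (b (d (c z10 z14) (c z10 z14)) (d z14 (c z10 z14))) z15) z15))))))) z11)) _ _ (by decide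 +kernel)

theorem okB746 : CKB ⟨10752, 12288, 4864, 5120⟩ ⟨7680, 9216, 4352, 4608⟩ :=
  ckB_sound z3 _ _ (by decide +kernel)

theorem okB747 : CKB ⟨9216, 12288, 4608, 5120⟩ ⟨6144, 7680, 4608, 5120⟩ :=
  ckB_sound (b z3 (d (a (c z3 (b z3 (d (a z2 z3) (a z10 z11)))) z3) (a (c z11 (b z11 (d (a z10 z11) (a z10 z11)))) z11))) _ _ (by decide +kernel)

theorem okB748 : CKB ⟨9216, 12288, 4608, 4864⟩ ⟨7680, 9216, 4608, 5120⟩ :=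
  ckB_sound (d (a (c z11 (b z11 (d (a (b (d (c z11 (a (b (d z15 (c z11 z15)) (d (c z11 z15) (c z11 z15))) z15)) z11) (d (c z11 (a (b (d (c (a (b z11 (d (c z11 z15) z11)) z11) z15) (c z11 z15)) (d (c (a (b (d (c z11 (a z14 z15)) (c z11 (a z14 z15))) (d (c (a z10 z11) (a z14 z15)) (c (a z10 z11) (a z14 z15)))) z11) z15) (c (a (b (d (c z11 (a z10 z11)) (c z11 (a z10 z11))) (d (c (a z10 z11) (a z10 z11)) (c z11 (a z10 z11)))) z11) (a (b z15 (d z15 (c (a z14 z15) z15))) z15)))) z15)) (c z11 (a (b (d (c z11 (a (b z15 (d z15 (c (a (b z15 (d z15 (c z11 z15))) z15) z15))) z15)) (c z11 (a (b (d (c z11 z15) (c z11 z15)) (d (c z11 z15) (c z11 z15))) z15))) (d (c (a (b z11 (d (c z11 (a z10 z11)) (c z11 (a z10 z11)))) z11) (a (b (d (c (a z14 z15) z15) (c (a z14 z15) z15)) (d (c (a z14 z15) z15) (c (a z14 z15) z15))) z15)) (c (a (b z11 (d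 (c z11 (a z10 z11)) z11)) z11) (a (b (d (c (a z10 z11) z15) (c (a z10 z11) z15)) (d (c (a z10 z11) z15) (c (a z10 z11) (a z14 z15)))) z15)))) z11)))) z11) (a (b z11 (d (c z11 (a (b (d (c z11 (a (b z11 (d (c z11 z15) z11)) z11)) z11) (d (c z11 (a (b (d (c z11 (a z14 z15)) (c z11 (a z14 z15))) (d (c (a z10 z11) (a z14 z15)) (c (a z10 z11) (a z14 z15)))) z11)) (c z11 (a (b (d (c z11 (a z10 z11)) (c z11 (a z10 z11))) (d (c (a z10 z11) (a z10 z11)) (c z11 (a z10 z11)))) z11)))) z11)) (c z11 (a (b z11 (d (c z11 (a (b z11 (d (c z11 (a z10 z11)) (c z11 (a z10 z11)))) z11)) (c z11 (a (b z11 (d (c z11 (a z10 z11)) z11)) z11)))) z11)))) z11)))) z11) z11) _ _ (by decide +kernel)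

theorem okB749 : CKB ⟨9216, 10752, 4864, 5120⟩ ⟨7680, 8448, 4608, 4864⟩ :=
  ckB_sound (b (d (a (c z11 (b z11 (d (a z10 z11) (a z10 z11)))) z11) (a (c z11 (b z11 (d (a z10 z11) (a z10 z11)))) z11)) (d (a z10 z11) (a z10 z11))) _ _ (by decide +kernel)

end Vale.Agent.Lib.P154Q5
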