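import Vale.Agent.Lib.P154Q5.CkBDefs

namespace Vale.Agent.Lib.P154Q5

set_option maxRecDepth 100000
set_option exponentiation.threshold 1000

open Tr

theorem okB75 : CKB ⟨4097, 8193, 2048, 3072⟩ ⟨0, 6144, 7168, 8192⟩ :=
  ckB_sound z0 _ _ (by decide +kernel)

theorem okB76 : CKB ⟨4097, 8193, 3072, 4096⟩ ⟨0, 6144, 6144, 8192⟩ :=
  ckB_sound (d (a z0 (b (d (c (b (d (c (a z0 z1) (a z0 z1)) (a z0 z1)) (d (c (a z0 (b (d (c (a (b z1 (d (c (a z0 z1) (a z0 z1)) (a z0 z1))) z1) (a (b z1 (d (c (a z0 z1) (a z0 z1)) (c (a z0 z1) (a z0 z1)))) z1)) (a (b (d z1 z1) (d (c (a z0 z1) (a z0 z1)) (a z0 z1))) z1)) (d (c (a z0 z1) (a z0 z1)) (a z0 z1)))) (a z0 (b (d (c (a (b z1 (d z1 (c (a z0 z1) z1))) z1) z1) (c (a (b z1 (d (c (a z0 z1) (a z0 z1)) (c (a z0 z1) (a z0 z1)))) z1) (a (b z1 (d z1 (c (a z0 z1) z1))) z1)))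 (d (c (a z0 z1) (a z0 z1)) (c (a z0 z1) (a z0 z1)))))) (a z0 (b (d (a (c (b (d z1 z1) (d (a z0 z1) (a z0 z1))) (b z1 (d (a z0 z1) (a z0 z1)))) z1) (a (b (d z1 z1) (d (a z0 z1) (a z0 z1))) z1)) (d (a z0 z1) (a z0 z1)))))) (b (d (a z0 z1) (a z0 z1)) (d (a z0 (c (b z1 (d (a z0 z1) (a z0 z1))) (b z1 (d (a z0 z1) (a z0 z1))))) (a z0 (c (b (d (a (c (b z1 (d z1 (a z0 z1))) z1) z1) (a (c (b z1 (d (a z0 z1) (a z0 z1))) (b z1 (d (a z0 z1) (a z0 z1)))) z1)) (d (a z0 z1) (a z0 z1))) (b z1 (d (a z0 z1) (a z0 z1)))))))) (b (d (a z0 (c (b z1 (d z1 z1)) z1)) (a z0 (b z1 (d z1 z0)))) (d (a z0 (c (b (d (a (c (b (d z1 z1) (d (a z0 z1) (a z0 z1))) (b z1 (d (a z0 z1) (a z0 z1)))) z1) (a (b (d z1 z0) (d (a z0 z1) z0)) z1)) (d (a z0 z1) (a z0 z1))) (b (d (a (c (b z1 (d z1 (a z0 z1))) z1) z1) (a (c (b z1 (d (a z0 z1)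 (a z0 z1))) (b z1 (d z1 (a z0 z1)))) z1)) (d (a z0 z1) (a z0 z1))))) (a z0 (b (d (a (b (d z1 z1) (d (a z0 z1) (a z0 z1))) z1) z0) (d (a z0 z1) z0)))))) (d (c (b (d (c (a z0 (b (d (c (a z0 z1) (a z0 z1)) (a z0 z1)) (d (c (a z0 (b z1 (d z1 z1))) z0) (a z0 (b z1 (d z1 (a z0 z1))))))) (a z0 (b (d (c (a z0 z1) (a z0 z1)) (c (a z0 z1) (a z0 z1))) z0))) (a z0 (b (d (a z0 z1) (a z0 z1)) (d (a z0 (c (b z1 (d (c (a z0 z1) z1) (a z0 z1))) z1)) (a z0 (b z1 (d (a z0 z1) z1))))))) (d (c (a z0 (b (d z0 z0) z0)) z0) (a z0 (b (d z0 z0) z0)))) (b (d z0 (a z0 (c (b (d (a z0 z1) (a z0 z1)) z0) z0))) z0)) (b (d (a z0 (c (b (d (a z0 z1) (a z0 z1)) (d (a z0 (c (b z1 (d z1 z1)) z1)) z0)) (b (d (a z0 z1) (a z0 z1)) z0))) (a z0 (b (d (a z0 z1) z0) (d z0 z0)))) (d (a z0 (c (b (d z0 z0) z0) z0)) (a z0 (b (d z0 z0) z0)))))))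 z0) _ _ (by decide +kernel)

theorem okB77 : CKB ⟨0, 4097, 0, 4096⟩ ⟨6144, 12288, 4096, 8192⟩ :=
  ckB_sound (b (d (b z0 (d (c z0 (b z0 z12)) z8)) (b z0 (d (c (b z0 z8) (b z0 z8)) (b z0 (d z8 (b (d (c (b z0 z0) z8) (b z0 (d z0 z0))) (d z0 (a (b (d z0 z0) z0) z0)))))))) (d (a (b (d (c z0 z12) (c z8 (b z8 (d (a (b (d z12 (c z8 z12)) (d (c z8 z12) (c z8 z12))) (b (d z12 (c z8 z12)) (d z12 (c z8 z12)))) z8)))) (d (c z0 z12) (c z8 (a (b (d (b (d (c z8 z12) (c z8 z12)) (d (c z8 z12) (c z8 z12))) (b z8 (d (c z8 z12) z8))) (d (a (b (d (c z8 z12) (c z8 z12)) (d (c z8 z12) (c z8 z12))) (b (d (c z8 z12) (c z8 z12)) (d (c z8 z12) (c z8 z12)))) (a (b (d (c z8 z12) z8) (d (c z8 z12) (c z8 (a (b (d (c z8 z12) z8) (d (c z8 z12) z8)) (b (d (c z8 z12) z8) (d (c z8 z12) z8)))))) (b (d (c z8 z12) z8) (d (c z8 z12)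 z8))))) (b (d (b (d (c z8 z12) (c z8 z12)) (d (c z8 z12) (c z8 z12))) z8) (d (b (d (c z8 z12) (c z8 z12)) (d (c z8 z12) (c z8 z12))) (b (d (c z8 z12) z8) (d (c z8 z12) z8)))))))) (b (d (c z0 z12) (c z8 (b z8 (d (a (b (d z12 (c z8 z12)) (d z12 (c z8 z12))) (b (d (c z8 z12) (c z8 z12)) (d (c z8 z12) (c z8 z12)))) z8)))) (d (c z0 z12) (c z8 (b (d (a (b (d (c z8 z12) (c z8 z12)) (d (c z8 z12) (c z8 z12))) (b (d (c z8 z12) (c z8 z12)) (d (c z8 z12) (c z8 z12)))) z8) (d (a (b (d (c z8 z12) (c z8 z12)) (d (c z8 z12) (c z8 z12))) (b (d (c z8 z12) (c z8 z12)) (d (c z8 z12) (c z8 z12)))) (a (b z8 (d (c z8 z12) z8)) z8))))))) z8)) _ _ (by decide +kernel)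

theorem okB78 : CKB ⟨4097, 8193, 0, 2048⟩ ⟨6144, 12288, 4096, 6144⟩ :=
  ckB_sound (b z0 (d (c (a (b (d (c (b z0 z0) (b z0 (d (a (c z0 z4) (c z1 z5)) z0))) (c (b z0 z0) (b z0 z8))) (d (c z0 (a z0 (b (d (c z0 z4) z0) z0))) z8)) (b z0 (d (c (b z0 (d z1 (a z1 z0))) (b z0 z1)) (c (b z0 (d (a z1 z0) (a z9 z0))) (b z0 z9))))) (a (b (d z12 (b z0 (d z12 (c (a (b (d z12 (c z8 z12)) z12) (b (d (c (a z13 z0) z13) (c z9 z13)) (d z13 (c z9 z13)))) z12)))) (d z12 (a z12 (b (d z12 (c (b (d (c (a z12 z13) z12) (c z8 z12)) (d (c (a z12 (b (d z13 (c z9 z13)) (d z13 (c z9 z13)))) z12) (c z8 z12))) z12)) (d z12 (c (b (d (c (a z12 (b (d (c (a z12 z13) z13) (c z9 z13)) (d (c (a z12 z13) z13) (c z9 z13)))) z12) (c z8 z12)) (d z12 (c z8 z12))) z12)))))) (b z0 (d (b z0 z13) (b z0 z13))))) (c (a (b (d (c (b z0 (d (a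 z8 z9) (a z8 z9))) (b z0 z8)) (c (b z0 (d (a z8 z9) (a z8 (c (b (d (c (a z9 z0) (a z9 z0)) (c (a z9 z0) (a z9 z0))) z9) (b (d z9 (a z9 z0)) z9))))) (b z0 (d z8 (a z8 z9))))) z8) (b z0 (d (c (b z0 (d (a z9 z0) (a z9 z0))) (b z0 z9)) (c (b z0 (d (a z9 z0) (a z9 z0))) (b z0 z9))))) (a (b (d (b z0 (d (c z8 z12) (c z8 z12))) (b z0 z8)) z8) (b z0 (d (b z0 (d (c z9 z13) (c z9 z13))) (b z0 z9))))))) _ _ (by decide +kernel)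

theorem okB79 : CKB ⟨4097, 8193, 0, 1024⟩ ⟨6144, 12288, 6144, 8192⟩ :=
  ckB_sound z0 _ _ (by decide +kernel)

theorem okB80 : CKB ⟨4097, 6145, 1024, 1536⟩ ⟨6144, 9216, 6144, 6656⟩ :=
  ckB_sound (c (b z0 (d (a z8 (c (b (d (c (a z9 z0) (a z9 z0)) (c (a z9 z0) (a z9 z0))) z9) (b (d (a z9 z0) (a z9 z0)) z9))) (a z8 (c (b (d (c (a (b z0 z9) z0) (a z9 z0)) (c (a (b z0 z1) z0) (a (b z0 z9) z0))) (d z9 (c (a (b z1 (d z1 (c (a z0 z1) z1))) z0) z9))) (b (d (a z9 z0) (a (c (b z0 z9) z9) z0)) z9))))) (b z0 (d (a z8 z9) (a z8 (c (b (d (a z9 z0) (a z9 z0)) z9) z9))))) _ _ (by decide +kernel)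

theorem okB81 : CKB ⟨4097, 6145, 1024, 1536⟩ ⟨6144, 7680, 6656, 7168⟩ :=
  ckB_sound (b z0 (d (a (c (b (d z0 (c (b z0 z0) z0)) z0) z8) (c (b (d (c (a (b z0 z1) z0) (a (b z0 z1) z0)) (c (a (b z0 z1) z0) (a (b z0 z1) z0))) (d (c (a (b z1 (d (c (a z0 z1) (a z0 z1)) (c (a z0 z1) (a z0 z1)))) z0) (a (b z1 (d (c (a z0 z1) z9) (c (a z0 z1) (a z0 z1)))) z0)) (c (a (b z1 (d (c (a z0 z1) (a z0 z1)) (c (a z0 z1) (a z0 z1)))) z0) (a (b z1 (d (c (a z0 z1) (a z0 z1)) (c (a z0 z1) (a z0 z1)))) z0)))) (b (d (a (c (b z0 z9) (b z0 z9)) z0) (a (c (b z0 z1) (b z0 z9)) z0)) (d (a (c (b z9 (d z9 (a z8 z9))) z9) z0) (a (c (b z1 (d (a z8 z9) (a z0 z1))) (b z9 (d z9 (a z8 z9)))) z0))))) (a (c (b (d (c (b z0 z0) (b z0 z0)) (b z0 (d z0 z0))) z0) (b (d (c (b z0 z0) z0) (c (b z0 z0) (b z0 z0))) z0)) (c (b (d (c (a (b z0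 (d (c (a z1 z0) (a z1 z0)) (c (a (b (d z1 z1) z1) z0) (a z1 z0)))) z0) (a (b z0 (d z1 (c (a z1 z0) z1))) z0)) (a (b z0 (d (c (a (b (d z1 z1) z1) z0) (a z1 z0)) (a (b (d z1 (a z1 z0)) z1) z0))) z0)) (d (c (a (b (d (c (a (b z1 (d z1 (c (a z0 z1) z1))) z0) z1) (c (a (b (d z1 z1) (d (c (a z0 z1) (a z0 z1)) (a z0 z1))) z0) (a (b z1 (d (c (a z0 z1) z1) (c (a z0 z1) (a z0 z1)))) z0))) (d (c (a z0 z1) (a z0 z1)) (c (a z0 z1) (a z0 z1)))) z0) (a (b (d z1 (c (a (b z1 (d z1 (c (a z0 z1) z1))) z0) z1)) (d (c (a z0 z1) (a z0 z1)) (c (a z0 z1) (a z0 z1)))) z0)) (a (b (d (c (a (b (d z1 z1) (d (c (a z0 z1) (a z0 z1)) (a z0 z1))) z0) (a (b z1 (d (c (a z0 z1) (a z0 z1)) (c (a z0 z1) (a z0 z1)))) z0)) (a (b (d (c (a (b z1 (d z1 z1)) z1) z1) (a (b z1 (d z1 z1)) z1)) (d (c (a z0 z1) (a z0 z1)) (a z0 z1))) z0)) (d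 (c (a z0 z1) (a z0 z1)) (a z0 z1))) z0))) (b (d (a (c (b z0 z1) (b z0 z1)) z0) (a (c (b z0 (d (a z1 z0) (a z1 z0))) (b z0 z1)) z0)) (d (a (c (b z1 (d (a z0 z1) (a z0 z1))) (b z1 (d (a z8 z9) (a z0 z1)))) z0) (a (c (b (d (a (c (b z1 (d z1 (a z0 z1))) z1) z0) (a (c (b z1 (d (a z0 z1) (a z0 z1))) (b z1 (d (a z0 z1) (a z0 z1)))) z0)) (d (a z0 z1) (a z0 z1))) (b (d z1 (a (c (b z1 (d z1 (a z0 z1))) z1) z0)) (d (a z0 z1) (a z0 z1)))) z0))))))) _ _ (by decide +kernel)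

theorem okB82 : CKB ⟨4097, 6145, 1024, 1536⟩ ⟨7680, 9216, 6656, 7168⟩ :=
  ckB_sound (b z0 (d (a z8 (c (b (d (a z9 z0) (a (c (b z0 z9) z9) z0)) z9) (b (d (a z9 z0) (a z9 z0)) z9))) (a (c (b (d z8 (c (b z0 z0) z8)) z8) z8) (c (b (d (a (c (b z0 z9) (b z0 z9)) z0) (a (c (b z0 z1) (b z0 z9)) z0)) (d (a (c (b z9 (d (a z8 z9) (a z8 z9))) (b z9 (d z9 (a z8 z9)))) z0) (a (c (b z1 (d (a z8 z9) (a z0 z1))) (b z9 (d (a z8 z9) (a z8 z9)))) z0))) (b (d (a (b z0 z9) z0) (a (b z0 z9) z0)) (d z9 (a (b z9 (d (c (a z8 z9) z9) (c (a z8 z9) (a z8 z9)))) z0))))))) _ _ (by decide +kernel)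

theorem okB83 : CKB ⟨4097, 6145, 1536, 2048⟩ ⟨6144, 9216, 6144, 6656⟩ :=
  ckB_sound (c (a z8 (b (d (c (b (d (a z8 z9) (a z8 z9)) z8) z8) (c (b (d (a z8 z9) (a z8 z9)) (d z8 (a z8 (c (b z1 (d (a z0 z1) (a z0 z1))) (b z9 (d (a z8 z9) (a z8 z9))))))) (b (d (a z8 z9) (a z8 z9)) z8))) z8)) z8) _ _ (by decide +kernel)

theorem okB84 : CKB ⟨4097, 6145, 1536, 2048⟩ ⟨6144, 7680, 6656, 7168⟩ :=
  ckB_sound (a z0 (b (d (c (b (d (a z0 z1) (a z0 z1)) (d (a z0 (c (b z1 (d (a z0 z1) (a z0 z1))) (b z1 (d (a z0 z1) (a z0 z1))))) (a z0 (c (b (d (a (c (b z1 (d z1 (a z0 z1))) z1) z1) (a (c (b z1 (d (a z0 z1) (a z0 z1))) (b z1 (d z1 (a z0 z1)))) z1)) (d (a z0 z1) (a z0 z1))) (b z1 (d (a z0 z1) (a z0 z1))))))) (b (d (a z8 z9) (a z8 z9)) (d z8 (a z8 (c (b z1 (d (a z8 z9) (a z0 z1))) (b z9 (d (a z8 z9) (a z8 z9))))))))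 (c (b (d (a z0 z1) (a z0 (b z1 (d (c (a (b z1 (d z1 z1)) z0) z1) (a (b z1 (d z1 z1)) z0))))) (d (a z0 (c (b (d (a (c (b z1 (d (a z0 z1) (a z0 z1))) (b z1 (d (a z0 z1) (a z0 z1)))) z1) (a (c (b (d (a z0 z1) (a z0 z1)) (d (a z0 z1) (a z0 z1))) (b z1 (d (a z0 z1) (a z0 z1)))) z1)) (d (a z0 z1) (a z0 z1))) (b (d (a (c (b z1 (d (a z0 z1) (a z0 z1))) (b z1 (d z1 (a z0 z1)))) z1) (a (c (b z1 (d (a z0 z1) (a z0 z1))) (b z1 (d (a z0 z1) (a z0 z1)))) z1)) (d (a z0 z1) (a z0 z1))))) (a z0 (b (d (c (a (b (d (c (a z0 z1) z1) (a z0 z1)) (d (c (a z0 z1) (a z0 z1)) (a z0 z1))) z1) (a (b (d z1 (a z0 z1)) (d (a z0 z1) (a z0 z1))) z1)) (a (b (d (c (a z0 z1) (a z0 z1)) (a z0 z1)) (d (c (a z0 z1) (a z0 z1)) (a z0 z1))) z1)) (d (c (a z0 z1) (a z0 z1)) (a z0 z1)))))) (b (d (a z0 z1) (a z0 z1)) (d (a z0 (c (b (d z1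 (a (c (b z1 (d (a z0 z1) (a z0 z1))) (b z1 (d z1 (a z0 z1)))) z1)) (d (a z0 z1) (a z0 z1))) (b z1 (d (a z8 z9) (a z0 z1))))) (a z0 (c (b (d (a (c (b z1 (d (a z0 z1) (a z0 z1))) (b z1 (d (a z0 z1) (a z0 z1)))) z1) (a (c (b (d z1 (a z0 z1)) (d (a z0 z1) (a z0 z1))) (b z1 (d (a z0 z1) (a z0 z1)))) z1)) (d (a z0 z1) (a z0 z1))) (b (d (a (c (b z1 (d (a z0 z1) (a z0 z1))) z1) z1) (a (c (b z1 (d (a z0 z1) (a z0 z1))) (b z1 (d (a z0 z1) (a z0 z1)))) z1)) (d (a z0 z1) (a z0 z1))))))))) (d z0 (c (b (d (a z0 (c (b (d (a z0 z1) (a z0 z1)) (d (a z0 z1) (a z0 z1))) (b (d (a z0 z1) (a z0 z1)) (d (a z0 z1) (a z0 z1))))) (a z0 (b (d (c (a z0 z1) (a z0 z1)) (a z0 z1)) (d (c (a z0 z1) (a z0 z1)) (a z0 z1))))) (d z0 (a z0 (b (d z0 z0) z0)))) (b (d z0 (a z0 (c (b (d (a z0 z1) (a z0 z1)) (d (a z0 z1) (a z0 z1))) (b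 (d (a z0 z1) (a z0 z1)) (d (a z0 z1) (a z0 z1)))))) z0))))) _ _ (by decide +kernel)

theorem okB85 : CKB ⟨4097, 6145, 1536, 2048⟩ ⟨7680, 9216, 6656, 7168⟩ :=
  ckB_sound (a z8 (b (d (c (b (d (a z8 z9) (a z8 z9)) z8) z8) (c (b (d (a z8 z9) (a z8 z9)) (d z8 (a z8 (c (b (d z9 (a (c (b z1 (d z1 (a z0 z1))) z1) z1)) (d (a z8 z9) (a z0 z1))) (b z9 (d (a z8 z9) (a z8 z9))))))) (b (d (a z8 z9) (a z8 z9)) z8))) z8)) _ _ (by decide +kernel)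

theorem okB86 : CKB ⟨6145, 8193, 1024, 2048⟩ ⟨6144, 9216, 6144, 7168⟩ :=
  ckB_sound (b z0 (d (c (b z0 (d (a z9 z0) (a z9 z0))) (b z0 z9)) (c (b z0 (d (a z1 z0) z1)) (b z0 z9)))) _ _ (by decide +kernel)

theorem okB87 : CKB ⟨4097, 8193, 1024, 2048⟩ ⟨9216, 12288, 6144, 7168⟩ :=
  ckB_sound (a (b (d (b z0 (d z8 (c (a z8 z9) z8))) (b z0 (d (c (a z8 z9) z8) (c (a z8 (b (d (c (a z9 z0) z9) (c (a z9 z0) z9)) z9)) z8)))) z8) (b z0 (d (b z0 z9) (b z0 z9)))) _ _ (by decide +kernel)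

theorem okB88 : CKB ⟨4097, 6145, 1024, 1280⟩ ⟨6144, 9600, 7168, 7680⟩ :=
  ckB_sound z0 _ _ (by decide +kernel)

theorem okB89 : CKB ⟨4097, 6145, 1280, 1536⟩ ⟨6144, 8256, 7168, 7424⟩ :=
  ckB_sound (a (b (d (c (b z0 (d z0 (c (b (d z0 z0) z0) z0))) (b z0 z0)) (c (b z0 (d (c (b (d z0 z0) z0) z0) (b (d z0 z0) z0))) (b z0 (d z0 (c (b (d z0 z0) z0) z0))))) (d z0 (a z0 (c (b (d z0 z0) z0) z0)))) (b (d (c (a (b z0 (d (c (a (b (d (c (a z1 z0) z1) (a z1 z0)) z1) z0) (a z1 z0)) (a (c (b (d (a z1 z0) (a z1 z0)) z1) (b (d z1 (a z1 z0)) z1)) z0))) z0) (a (b z0 (d z1 (c (a z1 z0) z1))) z0)) (a (c (b z0 (d (a (c (b (d (a z1 z0) (a z1 z0)) (d z1 z1)) (b (d z1 (a z1 z0)) z1)) z0) (a (b (d (a z1 z0) z0) (d z1 z0)) z0))) (b z0 (d (a z1 z0) (a (c (b (d z1 (a (b z0 z1) z0)) z1) z1) z0)))) z0)) (d (c (a (b (d (c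 (a (b (d (c (a (b z1 (d z1 z1)) z1) z1) (a (c (b z1 (d z1 z1)) z1) z1)) (d (c (a z0 z1) (a z0 z1)) (a z0 z1))) z0) (a (b z1 (d (c (a z0 z1) (a z0 z1)) (c (a z0 z1) (a z0 z1)))) z0)) (a (c (b (d (a (c (b z1 (d z1 z1)) z1) z1) (a (b z1 (d z1 z0)) z1)) (d (a z0 z1) (a z0 z1))) (b (d z1 (a (c (b z1 (d z1 (a z0 z1))) z1) z1)) (d (a z0 z1) (a z0 z1)))) z0)) (d (c (a z0 z1) (a z0 z1)) (a z0 z1))) z0) (a (b (d (c (a (b z1 (d z1 (c (a z0 z1) z1))) z0) z1) (c (a (b z1 (d (c (a z0 z1) (a z0 z1)) (c (a z0 z1) (a z0 z1)))) z0) (a (b z1 (d z1 (c (a z0 z1) z1))) z0))) (d (c (a z0 z1) (a z0 z1)) (c (a z0 z1) (a z0 z1)))) z0)) (a (c (b (d (a (c (b (d (a (c (b z1 (d (a z0 z1) (a z0 z1))) z1) z1) (a (b z1 (d (a z0 z1) z0)) z1)) (d (a z0 z1) (a z0 z1))) (b (d z1 (a (c (b z1 (d z1 (a z0 z1))) z1) z1)) (d (a z0 z1)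 (a z0 z1)))) z0) (a (b (d (a (b (d z1 z0) (d (a z0 z1) z0)) z1) z0) (d (a z0 z1) z0)) z0)) (d (a z0 z1) (a (b (d (a z0 z1) z0) z0) z1))) (b (d (a (c (b z1 (d (a z0 z1) (a z0 z1))) (b z1 (d (a z0 z1) (a z0 z1)))) z0) (a (c (b (d (a (c (b z1 (d z1 (a z0 z1))) z1) z1) (a (b (d z1 z1) (d (c (a z0 z1) z1) (a z0 z1))) z1)) (d (a z0 z1) (a z0 z1))) (b (d z1 (a (b z1 (d z1 (c (a z0 z1) z1))) z1)) (d (a z0 z1) (a z0 z1)))) z0)) (d (a z0 z1) (a z0 z1)))) z0)))) _ _ (by decide +kernel)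

end Vale.Agent.Lib.P154Q5
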