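import Vale.Agent.Lib.P154Q5.CkBDefs

namespace Vale.Agent.Lib.P154Q5

set_option maxRecDepth 100000
set_option exponentiation.threshold 1000

open Tr

theorem okB750 : CKB ⟨9216, 10752, 4864, 4992⟩ ⟨8448, 9216, 4608, 4864⟩ :=
  ckB_sound (d (a (b (d (c (a (b (d (c z11 (a z10 z11)) (c z11 (a z10 z11))) (d (c (a z10 z11) (a z10 z11)) (c (a z10 z11) (a z10 z11)))) z11) (a (b (d (c (a z10 z11) (a z14 z15)) (c (a z10 z11) (a z14 z15))) (d (c (a z10 z11) (a z14 z15)) (c (a z10 z11) (a z14 z15)))) z15)) (c (a (b (d (c z11 (a z10 z11)) z11) (d (c (a z10 z11) (a z10 z11)) (c z11 (a z10 z11)))) z11) (a (b (d (c (a z10 z11) (a z14 z15)) (c (a z10 z11) (a (b (d (c z10 z14) (c z10 z14)) (d (c z10 z14) (c z10 z14))) z15))) (d (c (a z10 z11) (a z14 z15)) (c (a z10 z11) (a (b (d z14 (c z10 z14)) (d z14 (c z10 z14))) (b z15 (d z15 (c z11 z15))))))) z11))) (d (c (a z10 z11) (a (b (d (c (a z10 (b z11 (d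 (c z11 z15) (c z11 (a z14 z15))))) z14) (c z10 z14)) (d (c z10 z14) (c z10 z14))) (b z15 (d z15 (c z11 z15))))) (c (a z10 z11) (a (b (d (c z10 (a z14 (b z15 (d z15 (c (a z14 z15) z15))))) (c z10 (a (b (d z14 (c z10 z14)) z14) (b (d (c z11 z15) (c z11 z15)) (d (c (a z10 z11) z15) (c z11 z15)))))) (d (c z10 (a z14 (b (d (c (a z14 z15) z15) (c (a z14 z15) z15)) z14))) (c z10 (a z14 (b (d (c (a z10 z11) z15) (c (a z10 z11) (a z14 z15))) (d (c z10 z14) (c z10 z14))))))) z11)))) z11) (a (b (d (c (a (b z11 (d (c z11 (a z10 z11)) (c z11 (a z10 z11)))) z11) (a (b (d (c (a z10 z11) (a z10 z11)) (c (a z10 z11) (a z10 z11))) (d (c (a z10 z11) (a z10 z11)) (c (a z10 z11) (a z10 z11)))) z11)) (c (a (b z11 (d (c z11 (a z10 z11)) z11)) z11) (a (b (d (c (a z10 z11) (a z10 z11)) (c z11 (a z10 z11))) (d (c (a z10 z11) (a z10 z11)) (c (a z10 z11) (a z10 z11)))) z11))) (d (c (a z10 z11) (a (b (d (c z10 (a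 z10 (b z11 (d (c z11 (a z14 z15)) (c z11 (a z14 z15)))))) z10) z10) z11)) (c (a z10 z11) (a z10 z11)))) z11)) _ _ (by decide +kernel)

theorem okB751 : CKB ⟨9216, 10752, 4992, 5120⟩ ⟨8448, 9216, 4608, 4864⟩ :=
  ckB_sound (d (a (b (d (c (a z10 z11) (a (b (d (c z10 z14) (c z10 z14)) (d (c z10 z14) (c z10 z14))) (b (d (c z11 z15) (c z11 z15)) (d (c z11 z15) (c z11 z15))))) (c (a z10 z11) (a (b (d (c z10 z14) z10) z10) (b z11 (d (c z11 z15) z11))))) (d (c z10 (a (b (d (c z10 z14) (c z10 z14)) (d (c z10 z14) (c z10 z14))) (b (d (c (a (b (d (c z11 z15) z11) (d (c z11 (a z14 z15)) (c z11 (a z14 z15)))) z11) z15) (c (a (b z11 (d (c z11 (a z10 z11)) (c z11 (a z10 z11)))) z11) z15)) (d (c (a z10 z11) z15) (c (a z10 z11) (a z14 z15)))))) (c z10 (a z10 (b (d (c (a (b z11 (d (c z11 (a z10 z11)) z11)) z11) (a (b (d z15 (c (a (b (d z15 (c z11 z15)) z14) z15) z15)) (d (c (a z14 z15) z15) (c (a z14 z15)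 z15))) z15)) (c z11 (a (b (d (c z11 z15) (c z11 z15)) (d (c (a z10 z11) z15) (c (a z10 z11) z15))) z15))) (d (c (a z10 z11) (a z14 z15)) (c (a z10 z11) (a (b (d (c z10 z14) (c z10 z14)) (d (c z10 z14) (c z10 z14))) z15)))))))) z11) (a (b (d (c (a z10 z11) (a z10 z11)) (c (a z10 z11) (a z10 z11))) (d (c z10 (a z10 (b (d (c z11 (a (b (d (c z11 z15) (c z11 (a (b (d z15 (c z11 z15)) z14) z15))) (d (c (a z10 z11) (a z14 z15)) (c z11 (a z14 z15)))) z11)) (c z11 (a (b z11 (d (c z11 (a z10 z11)) (c z11 (a z10 z11)))) z11))) (d (c (a z10 z11) (a z10 z11)) (c (a z10 z11) (a z10 z11)))))) (c z10 (a z10 (b (d (c z11 (a (b z11 (d (c z11 (a z10 z11)) z11)) z11)) z11) (d (c z11 (a z10 z11)) (c z11 (a z10 z11)))))))) z11)) _ _ (by decide +kernel)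

theorem okB752 : CKB ⟨10752, 12288, 4864, 5120⟩ ⟨7680, 9216, 4608, 4864⟩ :=
  ckB_sound z11 _ _ (by decide +kernel)

theorem okB753 : CKB ⟨9216, 12288, 4864, 5120⟩ ⟨7680, 9216, 4864, 5120⟩ :=
  ckB_sound (a (c (b z11 (d (a z10 z11) (a z10 z11))) (b (d (a (b (d (c z11 (a (b (d (c z11 (a z10 z11)) (c z11 (a z10 z11))) (d (c (a z10 z11) (a z10 z11)) (c (a z10 z11) (a z10 z11)))) z11)) (c z11 (a (b (d (c z11 (a z10 z11)) z11) (d (c (a z10 z11) (a z10 z11)) (c z11 (a z10 z11)))) z11))) (d (c (a z10 z11) (a z10 z11)) (c (a z10 z11) (a z10 z11)))) z11) (a (b (d (c z11 (a (b z11 (d (c z11 (a z10 z11)) (c z11 (a z10 z11)))) z11)) (c z11 (a (b z11 (d (c z11 (a z10 z11)) z11)) z11))) (d (c (a z10 z11) (a z10 z11)) (c (a z10 z11) (a z10 z11)))) z11)) (d (a (b (d (c (a z10 z11) (a z10 z11)) (c (a z10 z11) (a z10 z11))) (d (c z10 (a z10 (b z11 (d (c z11 (a z10 z11)) (c z11 (a z10 z11)))))) z10)) z11)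 (a z10 z11)))) z11) _ _ (by decide +kernel)

theorem okB754 : CKB ⟨9216, 12288, 4096, 4608⟩ ⟨9216, 12288, 4096, 5120⟩ :=
  ckB_sound (d z15 (b z13 (d z15 (a (c (b z15 (d z15 (a (c z11 z15) z15))) z15) z15)))) _ _ (by decide +kernel)

theorem okB755 : CKB ⟨9216, 12288, 4608, 5120⟩ ⟨9216, 12288, 4096, 4608⟩ :=
  ckB_sound (b z15 (d z7 (a (c (b z15 (d z15 (a z14 z15))) z15) z15))) _ _ (by decide +kernel)

theorem okB756 : CKB ⟨9216, 12288, 4608, 4864⟩ ⟨9216, 12288, 4608, 4864⟩ :=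
  ckB_sound (a (c (b z15 (d z15 (a (c (b (d z15 (a (c (b z15 (d z15 (a (c (b z15 (d z15 (a (c z11 z15) z15))) z15) z15))) z15) z15)) (d (a (c (b z15 (d z15 (a (c (b z15 (d z15 (a z14 z15))) z15) z15))) z15) z15) (a (c (b (d (a (c (b z15 (d z15 (a (c (b (d z15 (a z14 z15)) (d (a z14 z15) (a z14 z15))) z15) z15))) z15) z15) (a (c (b (d (a (c z11 z15) z15) (a (c z11 z15) z15)) (d (a (c z11 z15) z15) (a (c z11 z15) z15))) z15) z15)) (d (a (c (b (d (a z14 z15) (a z14 z15)) (d (a z14 z15) (a z14 z15))) z15) z15) (a (c (b (d (a (c z10 z14) z15) (a (c z10 z14) z15)) (d (a (c z10 z14) z15) (a (c z10 z14) (c z11 z15)))) z15) z15))) z15) z15))) z15) z15))) z15) z15) _ _ (by decide +kernel)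

theorem okB757 : CKB ⟨9216, 12288, 4608, 4864⟩ ⟨9216, 12288, 4864, 5120⟩ :=
  ckB_sound (a (c (b (d (a (c (b z15 (d (a (c (b z15 (d z15 (a (c z11 z15) z15))) z15) z15) (a (c z11 z15) z15))) z15) z15) (a (c z11 z15) z15)) (d (a (c (b (d (a (c (b (d (a (c z11 z15) z15) (a (c z11 z15) z15)) (d (a (c z11 z15) z15) (a (c z11 z15) z15))) z15) z15) (a (c z11 z15) z15)) (d (a (c (b (d (a (c (b z11 (d (a (c z11 (b z15 (d z15 (a z14 z15)))) z11) z11)) z15) z15) (a (c z11 z15) z15)) (d (a (c (b (d (a z10 z11) (a z10 z11)) (d (a z10 z11) (a z10 z11))) z15) z15) (a (c (b (d (a z10 z11) (a z10 z11)) (d (a z10 z11) (a z10 z11))) (b (d z15 (a z14 z15)) (d (a z14 z15) (a z14 z15)))) (c z11 z15)))) z15) z15) (a (c (b (d (a (c z11 (b (d z15 (a (c z11 z15) z15)) (d (a (c (b z15 (d z15 (a z14 z15))) z15) z15) (a (c z11 z15) z15)))) z11) (a (c z11 (b (d (a (c z11 z15) z15) z11) (d (a (c z11 z15) z15) (a (c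 z11 z15) z11)))) z11)) (d (a (c (b z11 (d (a z10 z11) (a z10 z11))) (b (d (a z14 z15) (a z14 z15)) (d (a z14 z15) (a z14 z15)))) z11) (a (c (b z11 (d (a z10 z11) z11)) (b (d (a (c z10 z14) z15) (a z10 z11)) (d (a (c z10 z14) (c z11 z15)) (a z10 z11)))) z11))) z15) z15))) z15) z15) (a (c (b (d (a (c z11 z15) z15) (a (c z11 (b z15 (d z15 (a (c z11 z15) z15)))) z11)) (d (a (c (b z11 (d (a (c z11 (b (d (a z10 z11) (a z10 z11)) (d (a z10 z11) (a z10 z11)))) z11) (a (c z11 (b (d (a z10 z11) z11) (d (a z10 z11) (a z10 z11)))) z11))) (b z15 (d z15 (a (c (b (d z15 (a z14 z15)) (d (a z14 z15) (a z14 z15))) z15) z15)))) z15) (a (c (b z11 (d (a (c z11 (b z11 (d (a z10 z11) (a z10 z11)))) z11) z11)) (b (d (a (c (b (d z15 (a (c z11 z15) z15)) (d (a (c (b (d z15 z11) (d (a z14 z15) z11)) z15) z15) (a (c z11 z15) z15))) z15) z15) (a (c (b z11 (d (a (c z11 z15) z11) z11)) z15) z15)) (d (a (c (b (d (a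 z14 z15) (a (c z10 z14) z15)) (d (a z14 z15) (a (c z10 z14) (c z11 z15)))) z15) z15) (a (c (b (d (a z10 z11) (a z10 z11)) (d (a z10 z11) (a z10 z11))) z15) z15)))) z11))) z15) z15))) z15) z15) _ _ (by decide +kernel)

theorem okB758 : CKB ⟨9216, 12288, 4864, 5120⟩ ⟨9216, 12288, 4608, 4864⟩ :=
  ckB_sound (a (c (b (d (a (c (b (d z15 (a (c (b z15 (d z15 (a z14 z15))) z15) z15)) (d z15 (a z14 z15))) z15) z15) (a (c (b (d (a (c (b (d (a z14 z15) (a z14 z15)) (d (a z14 z15) (a z14 z15))) z15) z15) (a (c (b (d (a (c (b (d z14 (a z14 (c (b z15 (d z15 (c z11 z15))) z15))) z14) z14) z15) (a (c (b (d (a z14 (c z11 z15)) (a (c z10 z14) (c z11 z15))) (d (a z14 (c z11 z15)) (a (c z10 z14) (c z11 z15)))) z14) z15)) (d (a z14 z15) (a (c (b (d (a z14 (c z10 z14)) (a (c z10 z14) (c z10 z14))) (d (a z14 (c z10 z14)) (a z14 (c z10 z14)))) z14) (c (b (d z15 (c z11 z15)) (d (c z11 z15) (c z11 z15))) z15))))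 z15) z15)) (d (a z14 z15) (a (c (b (d (a z14 (c (b (d z15 (c (a (b z15 (d z15 (c z11 z15))) z15) z15)) (d (c (a z14 z15) z15) (c (a z14 z15) z15))) z15)) (a (c (b (d z14 (a z14 (c z10 z14))) (d z14 (a z14 (c z10 z14)))) z14) (c (b (d (c z11 z15) (c z11 z15)) (d (c z11 z15) (c z11 z15))) z15))) (d (a z14 (c (b (d (c (a z14 z15) z15) (c (a z14 z15) z15)) (d z14 (c (a z14 z15) z14))) z15)) (a (c (b (d z14 (a z14 (c z10 z14))) z14) z14) (c (b (d (c (a z10 z11) z15) (c (a z10 z11) (a z14 z15))) (d (c z10 z14) (c z10 z14))) z15)))) z14) z15))) z15) z15)) (d (a z14 z15) (a (c (b (d (a z14 z15) (a (c (b (d z14 (a z14 (c (b (d (c z10 z14) (c z10 z14)) (d (c z10 z14) (c z10 z14))) z14))) (d z14 (a z14 (c (b (d (c z10 z14) (c z10 z14)) (d z14 (c z10 z14))) z14)))) z14) (c (b z15 (d z15 (c (a (b (d z15 (c z11 z15)) (d (c z11 z15) (c z11 z15))) z15) z15))) z15))) (d (a z14 (c (b z15 (d z15 (c (a z14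 z15) z15))) z15)) (a (c (b (d z14 (a z14 (c (b (d z14 (c z10 z14)) (d z14 (c z10 z14))) z14))) z14) z14) (c (b (d (c (a (b (d z15 (c (a (b (d z15 (c z11 z15)) z14) z15) z15)) (d (c (a z14 z15) z15) (c (a z14 z15) z15))) z15) z15) (c (a (b (d (c z11 z15) (c z11 z15)) (d (c (a z10 z11) z15) (c (a z10 z11) (a z14 z15)))) z15) z15)) (d (c (a (b (d z14 (c (a z14 z15) z14)) z14) z15) z15) (c (a (b (d (c z10 z14) (c z10 z14)) (d (c z10 z14) (c z10 z14))) z15) z15))) z15)))) z14) z15))) z15) z15) _ _ (by decide +kernel)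

theorem okB759 : CKB ⟨9216, 10752, 4864, 4992⟩ ⟨9216, 10752, 4864, 5120⟩ :=
  ckB_sound (d (a (c (b (d (a (c (b (d (a (c z10 z14) (c z11 z15)) (a (c z10 z14) (c z11 z15))) (d (a (c z10 z14) (c z11 z15)) (a (c z10 z14) (c z11 z15)))) z15) z15) (a (c (b (d (a (c z10 (b (d z14 (a z14 (c z11 z15))) (d z14 (a z14 (c z11 z15))))) z11) (a z10 z11)) (d (a z10 z11) (a z10 z11))) (b z15 (d z15 (a z14 z15)))) (c z11 z15))) (d (a (c (b (d (a (c z10 z14) (c (b z11 (d (c z11 (a z14 z15)) (c z11 (a z14 z15)))) z15)) (a (c z10 z14) (c z11 z15))) (d (a (c z10 z14) (c (b (d (c (a z10 z11) (a z14 z15)) (c (a z10 z11) (a z14 z15))) z10) z15)) (a (c z10 z14) (c (b (d (c z11 (a z10 z11)) (c z11 (a z10 z11))) z10) (b (d z15 (a z14 z15)) z14))))) z14) (c (b z15 (d z15 (c z11 z15))) z15)) (a (c (b (d (a z10 (c z11 (b (d z15 (a (c z11 z15) z15)) (d (a z14 z15) (a (c z10 z14) z15))))) (a z10 (c z11 (b (d (a (c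 z11 z15) z15) z11) (d (a (c z10 z14) z15) (a z10 z11)))))) (d (a z10 (c (b (d (c z11 (a z10 z11)) z11) z10) (b (d (a z14 z15) (a z14 z15)) (d z14 (a z14 (c z11 z15)))))) (a z10 (c (b z11 z10) (b (d (a (c z10 z14) (c z11 z15)) (a z10 z11)) (d (a (c z10 z14) (c z11 z15)) z10)))))) z14) (c z11 z15)))) z15) z15) (a (c (b (d (a (c (b (d (a z10 z11) (a z10 z11)) (d (a z10 z11) (a z10 z11))) (b (d (a z14 z15) (a z14 z15)) (d (a z14 z15) (a z14 z15)))) (c z11 z15)) (a (c (b (d (a z10 z11) (a z10 z11)) (d (a z10 z11) (a z10 z11))) (b (d (a (c (b (d (a z14 (c (b z15 (d z15 z11)) z15)) (a (c z10 z14) (c z11 z15))) (d z14 (a z14 (c z11 z15)))) z14) z15) (a (c z10 z14) (c z11 z15))) (d (a (c (b (d z14 (a z14 (c z10 z14))) (d z14 (a z14 (c z10 z14)))) z14) (c (b z15 (d z15 (a (c z11 z15) z15))) z15)) (a (c z10 z14) (c z11 z15))))) z11)) (d (a (c (b (d (a z10 (c z11 (b z11 (d (a z10 z11) (a z10 z11)))))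 z10) z10) (b (d z14 (a z14 (c (b z15 (d z15 (a z14 z15))) z15))) z14)) (c z11 z15)) (a (c z10 (b (d (a z14 (c (b (d (a (c (b (d z15 z11) (d (a z14 z15) z11)) z15) z15) (a (c z11 z15) z15)) (d (a z14 z15) (a (c z10 z14) z15))) z15)) (a (c z10 z14) (c (b z11 (d (a z10 z11) (a z10 z11))) z15))) (d (a z14 (c (b (d (a z14 z15) (a (c z10 z14) z15)) (d (a z14 z15) (a (c z10 z14) (c z11 z15)))) z15)) (a (c z10 z14) (c (b (d (a z10 z11) (a z10 z11)) z10) z15))))) z11))) z15) z15)) _ _ (by decide +kernel)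

theorem okB760 : CKB ⟨9216, 10752, 4992, 5120⟩ ⟨9216, 10752, 4864, 4992⟩ :=
  ckB_sound (a (c (b (d (a (c (b (d (a (c z10 z14) (c z10 z14)) (a (c z10 z14) (c z10 z14))) (d (a (c z10 z14) (c z10 z14)) (a (c z10 z14) (c z10 z14)))) z14) (c (b (d (c z11 z15) (c z11 z15)) (d (c z11 z15) (c z11 z15))) z15)) (a (c (b (d (a z10 (c z10 (b (d z14 (a z14 (c z11 z15))) (d z14 (a z14 (c z10 z14)))))) z10) z10) z14) (c (b z11 (d (c z11 (a (b z15 (d z15 (c z11 z15))) z15)) z11)) z15))) (d (a (c (b (d (a (c z10 z14) (c z10 z14)) (a (c z10 z14) (c z10 z14))) (d (a z14 (c z10 z14)) (a (c z10 z14) (c z10 z14)))) z14) (c (b (d (c (a (b (d (c z11 (a (b z15 z14) z15)) z11) (d (c (a z10 z11) (a z14 z15)) (c z11 (a z14 z15)))) z11) z15) (c (a (b z11 (d (c z11 (a z10 z11)) (c z11 (a z10 z11)))) z11) (a (b z15 (d z15 (c (a z14 z15) z15))) z15))) (d (c (a z10 z11) (a z14 z15)) (c (a z10 z11) (a z14 z15)))) z15))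 (a (c z10 z14) (c (b (d (c z11 (a (b (d (c (a (b (d z15 (c z11 z15)) z14) z15) z15) (c z11 z15)) (d (c (a z14 z15) z15) (c (a z10 z11) z15))) z15)) (c z11 (a (b (d (c z11 z15) (c z11 z15)) (d (c (a z10 z11) z15) (c (a z10 z11) (a z14 z15)))) z15))) (d (c (a z10 z11) (a (b (d z14 (c z10 z14)) (d z14 (c z10 z14))) z15)) (c (a z10 z11) (a (b (d (c z10 z14) z10) (d (c z10 z14) z10)) z15)))) z15)))) z14) z15) _ _ (by decide +kernel)

theorem okB761 : CKB ⟨9216, 10752, 4992, 5120⟩ ⟨9216, 10752, 4992, 5120⟩ :=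
  ckB_sound (a (c (b (d (a (c z10 z14) (c z11 z15)) (a (c z10 (b (d (a z14 (c (b (d (a z14 (c (b (d z15 z11) (d (a z14 z15) z11)) z15)) (a z14 (c z11 z15))) (d z14 (a z14 (c z10 z14)))) z14)) (a (c z10 z14) (c z10 z14))) (d (a z14 (c (b (d z14 (a z14 (c z10 z14))) (d z14 (a z14 (c z10 z14)))) z14)) (a (c z10 z14) (c z10 z14))))) (c z11 (b (d z15 (a (c z11 z15) z15)) (d (a (c (b (d z15 (a (c z11 z15) z15)) (d (a (c (b z15 (d z15 z11)) z15) z15) (a (c z11 z15) z15))) z15) z15) (a (c z11 z15) z15)))))) (d (a (c z10 z14) (c (b (d (c z11 (a (b (d (c z11 (a (b (d z15 (c z11 z15)) z14) z15)) z11) (d (c z11 (a z14 z15)) (c z11 (a z10 z11)))) z11)) (c z11 (a (b z11 (d (c z11 (a z10 z11)) (c z11 (a z10 z11)))) z11))) (d (c (a z10 z11) (a z10 z11)) (c (a z10 z11) (a z10 z11)))) (b (d z15 (a (c (b (d z15 (a (c (b z15 z14) z15) z15)) (d (a z14 z15) (a z14 z15))) z15) z15)) (d (a z14 z15) (a z14 z15)))))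 (a (c z10 (b (d z14 (a z14 (c z10 z14))) (d z14 (a z14 (c z10 z14))))) (c (b z11 (d (c z11 (a z10 z11)) (c z11 (a z10 z11)))) (b (d (a (c (b (d (a (c (b (d (a z14 z15) z11) z14) z15) z15) (a (c z11 z15) z15)) (d (a z14 z15) (a (c z10 z14) z15))) z15) z15) (a (c (b (d (a (c z11 z15) z11) (a (c z11 (b (d z15 (a z14 z15)) z14)) z11)) (d (a z10 z11) (a z10 z11))) z15) z15)) (d (a (c (b (d (a z14 z15) (a (c z10 z14) (c z11 z15))) (d (a z14 (c (b (d z15 z11) (d (c z11 z15) z11)) z15)) (a z14 (c z11 z15)))) z14) z15) (a (c z10 z14) z15))))))) z14) (c z11 z15)) _ _ (by decide +kernel)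

theorem okB762 : CKB ⟨9216, 10752, 4864, 5120⟩ ⟨10752, 12288, 4864, 5120⟩ :=
  ckB_sound z15 _ _ (by decide +kernel)

theorem okB763 : CKB ⟨10752, 12288, 4864, 5120⟩ ⟨9216, 12288, 4864, 5120⟩ :=
  ckB_sound z15 _ _ (by decide +kernel)

theorem okB764 : CKB ⟨6144, 9216, 4096, 5120⟩ ⟨6144, 9216, 5120, 6144⟩ :=
  ckB_sound (b (d (a z8 (c z8 (b (d (a z8 z9) (a z8 z9)) (d (a z8 (c (b z9 z10) (b (d (b z9 (d (a z8 z9) (a z8 z9))) (b z9 (d (a z8 z9) z9))) z10))) z8)))) z8) z10) _ _ (by decide +kernel)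

end Vale.Agent.Lib.P154Q5
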