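import Vale.Agent.Lib.P154Q5.CkBDefs

namespace Vale.Agent.Lib.P154Q5

set_option maxRecDepth 100000
set_option exponentiation.threshold 1000

open Tr

theorem okB765 : CKB ⟨6144, 7680, 4096, 4608⟩ ⟨9216, 12288, 5120, 5632⟩ :=
  ckB_sound (b (d (c (a z8 (b (d (c z8 z12) z8) (d (c z8 z12) z8))) z12) (c z8 z12)) (d (c z8 z12) (c z8 z12))) _ _ (by decide +kernel)

theorem okB766 : CKB ⟨7680, 9216, 4096, 4352⟩ ⟨9216, 12288, 5120, 5376⟩ :=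
  ckB_sound (c (a (b (d (c (a z8 (b (d (c (a z8 z9) (a z8 z9)) (c (a z8 z9) (a z8 z9))) (d (c z8 (a z8 (b (d (c z9 z13) (c z9 (a (b z13 z12) z13))) (d (c (a z8 z9) z13) (c z9 (a z12 z13)))))) z8))) z12) (c z8 (a (b (d z12 (c (a z12 (b (d z12 (c z8 z12)) z12)) z12)) z12) (b (d (c (a z12 z13) z13) (c (a (b (d (c z8 z12) (c z8 z12)) (d (c z8 z12) (c z8 z12))) (b (d z13 (c z9 z13)) (d (c z9 z13) (c z9 z13)))) z13)) (d (c (a z12 (b (d z13 (c (a (b (d z13 (c z9 z13)) z12) z13) z13)) (d (c (a z12 z13) z13) (c (a z12 z13) z13)))) z12) (c (a (b (d z12 (c z8 z12)) (d z12 (c z8 z12))) (b (d (c z9 z13) (c z9 z13)) (d (c (a z8 z9) z13) (c z9 z13)))) z12)))))) (d (c z8 z12) (c z8 (a z12 (b (d z12 (c (a (b (d z12 (c z8 z12)) (d z12 (c z8 z12))) (b (d (c z8 z12) (c z8 z12)) (d (c z8 z12) (c z8 z12)))) z12)) (d z12 (c (a (b (d z12 (c z8 z12)) z12) (b (d (c z8 z12) (c z8 z12))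 (d (c z8 z12) (c z8 z12)))) z12))))))) (b (d (c z9 z13) (c z9 z13)) (d (c (b z9 (d (a (c z9 (b (d (a (c z9 z13) z13) z9) (d (a (c (b z9 (d (a z8 z9) (a z8 z9))) z13) z13) (a (c z9 (b (d z13 (a z12 z13)) (d (a z12 z13) (a z12 z13)))) z9)))) z9) (a (c z9 (b z9 (d (a (c z9 (b (d (a z12 z13) z9) (d (a z12 z13) (a z8 z9)))) z9) (a (c z9 (b z9 (d (a z8 z9) (a z8 z9)))) z9)))) z9))) z13) (c z9 (b (d z13 (a (c (b (d z13 (a (c z9 z13) z13)) (d (a (c z9 z13) z13) (a (c z9 z13) z13))) z13) z13)) (d (a (c (b (d z13 (a (c (b z13 (d z13 (a (c z9 z13) z13))) z13) z13)) (d (a (c (b z13 (d z13 (a z12 z13))) z13) z13) (a (c (b (d (a z12 z13) (a z12 z13)) (d (a z12 z13) (a z12 z13))) z13) z13))) z13) z13) (a (c (b (d (a (c z9 z13) z13) (a (c z9 z13) z13)) (d (a (c (b z9 (d (a z8 z9) (a z8 z9))) z13) z13) (a (c z9 z13) z13))) z13) z13))))))) z13) _ _ (by decide +kernel)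

theorem okB767 : CKB ⟨7680, 9216, 4096, 4352⟩ ⟨9216, 12288, 5376, 5632⟩ :=
  ckB_sound (c (a (b (d (c z8 (a (b (d (c z8 z12) z8) (d (c z8 z12) z8)) (b (d (c (a z8 z9) (a z12 z13)) (c (a z8 z9) (a z12 z13))) (d (c z8 z12) (c z8 z12))))) (c z8 (a z8 (b (d (c (a z8 z9) (a (b (d z12 (c z8 z12)) (d z12 (c z8 z12))) (b z13 (d z13 (c z9 z13))))) (c (a z8 z9) (a z8 z9))) z8)))) (d (c z8 (a (b (d (c z8 z12) z8) (d (c z8 z12) z8)) (b (d (c z8 z12) (c z8 z12)) (d (c z8 z12) z8)))) z8)) (b z9 (d (c z9 (b (d (a (c z9 z13) z13) z9) (d (a (c (b z9 (d (a (c z9 (b (d z13 (a z12 z13)) (d (a z12 z13) (a z12 z13)))) z9) (a (c z9 (b z9 (d (a z12 z13) z9))) z9))) z13) z13) (a (c z9 (b z13 (d z13 (a (c (b z13 (d z13 (a z12 z13))) z13) z13)))) z9)))) (c z9 (b z9 (d (a (c z9 (b (d (a (c (b (d z13 z9) (d z13 z9)) z13) z13) (a (c z9 z13) z13)) (d (a (c (b (d (a z12 z13) z9) (d (a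 z12 z13) z9)) z13) z13) (a (c z9 z13) z13)))) z9) (a (c z9 (b z9 (d (a (c z9 (b z13 (d z13 (a z12 z13)))) z9) z9))) z9))))))) (a z12 z13)) _ _ (by decide +kernel)

theorem okB768 : CKB ⟨7680, 8448, 4352, 4608⟩ ⟨9216, 10752, 5120, 5376⟩ :=
  ckB_sound (b (d (c z8 z12) (c z8 (a z12 (b (d z12 (c (a z12 (b (d z12 (c z8 z12)) (d z12 (c z8 z12)))) z12)) (d z12 (c (a z12 (b (d z12 (c z8 z12)) (d z12 (c z8 z12)))) z12)))))) (d (c z8 z12) (c z8 z12))) _ _ (by decide +kernel)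

theorem okB769 : CKB ⟨8448, 9216, 4352, 4480⟩ ⟨9216, 10752, 5120, 5376⟩ :=
  ckB_sound (d (c (b (d (a (c (b (d (a z8 z9) z9) (d (a z8 z9) (a z8 z9))) (b (d (a (c z8 z12) (c z9 z13)) (a z8 z9)) (d (a (c z8 z12) (c z9 z13)) (a z8 z9)))) z9) (a (c (b z9 (d (a z8 z9) (a z8 z9))) (b (d (a z8 z9) (a z8 z9)) (d (a z8 z9) (a z8 z9)))) z9)) (d (a (c z8 (b (d (a (c z8 z12) (c z9 z13)) (a z8 z9)) (d (a (c z8 z12) (c (b z9 (d (a z8 z9) (a z8 z9))) z13)) (a z8 (c z9 (b (d z13 (a z12 z13)) (d (a z12 z13) (a z12 z13)))))))) z9) (a (c z8 (b (d (a z8 z9) z8) z8)) z9))) (b (d z13 (a (c (b (d z13 (a z12 z13)) (d (a z12 z13) (a z12 z13))) z13) z13)) (d (a z12 z13) (a z12 z13)))) (c (b (d (a (c z9 (b (d (a z8 z9) (a z8 z9)) (d (a z8 z9) (a z8 z9)))) z9) (a (c z9 (b (d (a z8 z9) z9) (d (a z8 z9) (a z8 z9)))) z9)) (d (a z8 z9) (a z8 z9))) (b (d (a (c (b (d (a z12 z13) (a (c (b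 (d z12 (a z12 z13)) z12) z12) z13)) (d (a z12 z13) (a z12 z13))) z13) z13) (a (c (b (d (a (c z8 z12) z13) (a (c z8 z12) (c z9 z13))) (d (a (c z8 z12) (c z9 z13)) (a (c z8 z12) (c z9 z13)))) z13) z13)) (d (a (c (b (d z12 (a z12 (c (b z13 (d z13 (a (c z9 z13) z13))) z13))) (d z12 (a z12 (c (b (d (a z12 z13) (a z12 z13)) (d (a z12 z13) (a z12 z13))) z13)))) z12) z13) (a (c (b (d (a (c z8 z12) (c z9 z13)) (a (c z8 z12) (c z9 z13))) (d (a (c z8 z12) (c (b z9 (d (a z8 z9) (a z8 z9))) z13)) (a (c z8 z12) (c z9 z13)))) z12) z13))))) _ _ (by decide +kernel)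

theorem okB770 : CKB ⟨8448, 9216, 4480, 4608⟩ ⟨9216, 10752, 5120, 5376⟩ :=
  ckB_sound (d (c (b (d (a (c z8 (b (d (a (c z8 z12) (c z8 z12)) z8) (d (a (c z8 z12) (c z10 z14)) z8))) z11) (a z8 z11)) (d (a z10 (c z11 (b (d (a (c z11 z15) z15) (a (c z11 (b z15 (d z15 (a (c (b z15 (d z15 z11)) z15) z15)))) z11)) (d (a (c (b z11 (d (a z10 z11) (a z10 z11))) z15) z15) (a (c z11 (b (d (a z14 z15) (a z14 z15)) (d (a z14 z15) (a z14 z15)))) z11))))) (a z10 (c z11 (b z11 (d (a (c z11 (b (d (a (c z10 z14) z15) (a z10 z11)) (d (a z14 z15) (a z10 z11)))) z11) (a (c z11 (b z11 (d (a z10 z11) (a z10 z11)))) z11))))))) (b (d (a z12 z15) (a z12 z15)) (d z14 (a z14 z15)))) (c (b (d (a z8 z11) (a z8 z11)) (d (a z10 z11) (a z10 z11))) (b (d (a (c (b (d z12 (a z12 (c (b (d z12 (a z12 z13)) (d z12 (a z12 (c z9 z13)))) z12))) (d z12 (a z12 (c (b (d z12 (a z12 (c z10 z14))) z14)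 z14)))) z12) z15) (a (c (b (d (a (c z8 z12) (c z8 z12)) (a (c z8 z12) (c z8 z12))) (d (a z12 (c z10 z14)) (a (c z8 z12) (c z10 z14)))) z12) (c (b (d z15 (a (c z9 z13) z15)) (d (a (c z11 z15) z15) (a (c z11 z15) z15))) z15))) (d (a z14 (c (b (d z15 (a (c (b z15 (d z15 (a (c z11 z15) z15))) z15) z15)) (d (a (c (b z15 (d z15 (a z14 z15))) z15) z15) (a (c (b (d (a z14 z15) (a (c z10 z14) z15)) (d (a z14 z15) (a z14 z15))) z15) z15))) z15)) (a (c (b (d (a z14 (c z10 z14)) (a (c z10 z14) (c z10 z14))) (d (a z14 (c z10 z14)) (a (c z10 z14) (c z10 z14)))) z14) (c (b (d (a (c z11 z15) z15) (a (c z11 z15) z15)) (d (a (c (b z11 (d (a z10 z11) (a z10 z11))) z15) z15) (a (c z11 z15) z15))) z15)))))) _ _ (by decide +kernel)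

theorem okB771 : CKB ⟨7680, 9216, 4352, 4608⟩ ⟨10752, 12288, 5120, 5376⟩ :=
  ckB_sound z12 _ _ (by decide +kernel)

theorem okB772 : CKB ⟨7680, 9216, 4352, 4608⟩ ⟨9216, 12288, 5376, 5632⟩ :=
  ckB_sound (c (a (b (d (c z8 (a (b (d (c z8 z12) z8) (d (c z8 z12) z8)) (b (d (c z8 z12) z8) (d (c z8 z12) z8)))) z8) z8) (b (d (c (b (d (a (c z9 (b z9 (d (a z8 z9) (a z8 z9)))) z9) z9) (d (a z8 z9) (a z8 z9))) (b (d (a (c (b (d (a z8 z9) (a z8 z9)) (d (a z8 z9) (a z8 z9))) (b z13 (d z13 (a z12 z13)))) z13) (a (c (b (d (a z8 z9) (a z8 z9)) (d (a z8 z9) (a z8 z9))) (b (d (a z12 z13) (a z12 z13)) (d (a z12 z13) (a z12 z13)))) z9)) (d (a (c (b (d (a z8 z9) z8) z8) z12) (c z9 z13)) (a (c z8 z12) z9)))) (c (b z9 (d (a z8 z9) (a z8 z9))) (b (d (a (c (b z9 (d (a z8 z9) (a z8 z9))) (b (d (a (c (b (d z12 z8) z12) z12) z13) (a (c z8 z12) z13)) (d (a z12 z13) (a (c z8 z12) (c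 z9 z13))))) z9) (a (c (b z9 (d (a z8 z9) z9)) (b (d (a z8 z9) (a z8 z9)) (d (a z8 z9) (a z8 z9)))) z9)) (d (a (c z8 (b (d (a z12 (c (b z13 (d z13 z9)) z13)) (a (c z8 z12) (c z9 z13))) (d (a z12 (c (b (d (a z12 z13) z9) (d (a z12 z13) z9)) z13)) (a (c z8 z12) (c z9 z13))))) z9) (a z8 z9))))) (d (c (b (d (a z8 z11) (a z8 z11)) z10) (b (d (a (c z8 z12) (c z11 z15)) (a (c z8 z12) (c z11 z15))) (d (a (c z10 z14) (c (b z11 (d (a (c z11 (b (d z15 (a z14 z15)) (d (a z14 z15) (a z14 z15)))) z11) (a (c z11 (b z11 (d (a z14 z15) (a z10 z11)))) z11))) z15)) (a (c z10 z14) (c z11 (b z15 (d z15 (a (c (b (d z15 (a z14 z15)) (d (a z14 z15) (a z14 z15))) z15) z15)))))))) (c z10 (b (d (a (c z8 (b (d (a z12 (c (b (d z12 z8) (d z12 z8)) z12)) (a (c z8 z12) (c z8 z12))) (d (a z12 (c (b (d z12 z8) z14) z14)) (a z12 (c z10 z14))))) z11) (a z8 z11)) (d (a z10 (c z11 (b (d (a (c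 (b (d z15 z11) (d (a (c z11 z15) z15) z11)) z15) z15) (a (c z11 z15) z15)) (d (a (c (b (d (a z14 z15) z11) (d (a z14 z15) z11)) z15) z15) (a (c z11 z15) z15))))) (a z10 (c z11 (b z11 (d (a (c z11 (b z15 (d z15 (a z14 z15)))) z11) z11)))))))))) (a z12 (b (d z13 (c (b z13 (d z13 (a z12 z13))) z13)) z14))) _ _ (by decide +kernel)

theorem okB773 : CKB ⟨6144, 7680, 4096, 4608⟩ ⟨9216, 12288, 5632, 6144⟩ :=
  ckB_sound (b (d (c z8 (a z12 (b (d z12 (c (a z12 (b (d z12 (c z8 z12)) (d z12 (c z8 z12)))) z12)) z12))) z8) (d (c z8 z12) z8)) _ _ (by decide +kernel)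

theorem okB774 : CKB ⟨7680, 9216, 4096, 4352⟩ ⟨9216, 12288, 5632, 6144⟩ :=
  ckB_sound (d (c (a z8 z9) (a (b (d (c (a z12 (b (d (c (a z12 z13) z13) (c (a z12 z13) z13)) (d z12 (c (a z12 (b (d z13 (c z9 z13)) (d (c (a z12 z13) z13) (c z9 z13)))) z12)))) z12) (c (a (b (d (c z8 z12) (c z8 z12)) (d (c z8 z12) (c z8 z12))) (b (d (c (a z8 z9) z13) (c (a z8 z9) (a z12 z13))) (d (c z8 z12) (c z8 z12)))) z12)) (d (c (a z12 (b (d z12 (c (a z12 (b (d z12 (c z8 z12)) z12)) z12)) z12)) z12) (c (a (b (d z12 (c z8 z12)) (d z12 (c z8 z12))) (b (d (c z8 z12) (c z8 z12)) (d (c z8 z12) (c z8 z12)))) z12))) (b (d z13 (c (b z13 (d z13 (a (c z9 z13) z13))) z13)) (d (c (b z13 (d z13 (a (c (b (d z13 (a (c z9 z13) z13)) (d (a (c (b (d z13 (a z12 z13)) (d (a z12 z13) (a z12 z13))) z13) z13) (a (c z9 z13) z13))) z13) z13))) z13) (c (b (d (a (c z9 z13) z13) (a (c z9 z13) z13)) (d (a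 (c z9 z13) z13) (a (c z9 z13) z13))) z13))))) (c (a z8 z9) (a (b (d (c z8 z12) (c z8 (a z12 (b (d (c (a z12 z13) z13) (c (a z12 z13) z13)) z12)))) (d (c z8 z12) (c z8 z12))) (b (d (c z9 z13) z9) (d (c z9 z13) (c z9 (b z13 (d z13 (a (c (b (d z13 (a (c z9 z13) z13)) (d (a (c z9 z13) z13) (a (c z9 z13) z13))) z13) z13))))))))) _ _ (by decide +kernel)

theorem okB775 : CKB ⟨7680, 9216, 4352, 4608⟩ ⟨9216, 12288, 5632, 5888⟩ :=
  ckB_sound (c (a z8 (b (d (c z9 (b (d (a (c z9 (b (d (a z8 z9) z9) (d (a z8 z9) (a z8 z9)))) z9) (a (c z9 (b z9 (d (a z8 z9) (a z8 z9)))) z9)) (d (a z8 z9) (a z8 z9)))) (c z9 (b z9 (d (a z8 z9) (a z8 z9))))) (d (c z10 (b (d (a z8 z11) (a z8 z11)) (d (a z10 z11) z10))) z10))) (a (b (d z12 (c (a (b (d z12 (c z8 z12)) (d z12 (c z8 z12))) (b (d (c z8 z12) (c z8 z12)) (d (c z8 z12) (c z8 z12)))) z12)) (d z12 (c (a (b (d z12 (c z8 z12)) (d z12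 (c z8 z12))) (b (d (c z8 z12) (c z8 z12)) (d (c z8 z12) (c z8 z12)))) z12))) (b (d (c (b (d (a (c (b (d z13 (a z12 z13)) (d (a z12 z13) (a z12 z13))) z13) z13) (a (c (b (d (a z12 z13) (a (c z8 z12) z13)) (d (a z12 z13) (a (c z8 z12) z13))) z13) z13)) (d (a z12 z13) (a (c (b (d (a z12 z13) (a z12 (c z9 z13))) (d z12 (a z12 (c z9 z13)))) z12) z13))) z13) (c (b (d (a (c (b (d (a z8 z9) (a z8 z9)) (d (a z8 z9) (a z8 z9))) z13) z13) (a (c (b z9 (d (a z8 z9) (a z8 z9))) (b (d z13 (a z12 z13)) (d (a z12 z13) (a z12 z13)))) z13)) (d (a (c z8 z12) z13) (a (c z8 z12) (c z9 z13)))) z13)) (d (c (b (d (a z12 z15) (a (c (b (d z12 (a z12 (c z8 z12))) (d z12 (a z12 (c z10 z14)))) z12) z15)) (d (a z14 z15) (a (c (b (d z14 (a z14 (c z10 z14))) z14) z14) (c (b (d z15 (a (c z11 z15) z15)) (d (a (c (b (d z15 (a z14 z15)) (d (a z14 z15) (a z14 z15))) z15) z15) (a (c z11 z15) z15)))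 z15)))) z14) (c (b (d (a (c z8 z12) (c z11 z15)) (a (c z8 z12) (c z11 z15))) (d (a (c z10 z14) (c z11 z15)) (a (c z10 z14) (c z11 z15)))) z14))))) _ _ (by decide +kernel)

theorem okB776 : CKB ⟨7680, 9216, 4352, 4608⟩ ⟨9216, 12288, 5888, 6144⟩ :=
  ckB_sound (c z8 (a (b (d (c z8 z12) z8) (d (c z8 z12) z8)) (b (d (c (b (d (a (c (b z9 (d (a z8 z9) z9)) (b (d (a z12 z13) (a z12 z13)) (d (a z12 z13) (a z12 z13)))) z9) (a (c z9 (b z9 (d (a z8 z9) (a z8 z9)))) z9)) (d (a z8 z9) (a z8 z9))) (b z13 (d z13 (a z12 z13)))) (c (b (d (a (c z9 (b z9 (d (a z8 z9) z9))) z9) z9) (d (a z8 z9) (a z8 z9))) (b (d (a (c (b z13 (d z13 (a z12 z13))) z13) z13) (a (c (b (d (a z12 z13) (a z12 z13)) (d (a z12 z13) (a z12 z13))) z13) z13)) (d (a z12 z13) (a (c (b (d z12 (a z12 (c z9 z13))) (d z12 (a z12 (c z9 z13)))) z12) z13))))) (d (c (b (d (a z8 z11) (a z8 z11)) (d (a z10 (c z11 (b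 (d z15 (a (c z11 z15) z15)) (d (a (c (b z15 (d z15 z11)) z15) z15) (a (c z11 z15) z15))))) z10)) z14) (c z10 (b (d (a z12 z15) (a z12 z15)) (d z14 (a z14 (c (b (d z15 (a (c z11 z15) z15)) (d (a (c z11 z15) z15) (a (c z11 z15) z15))) z15))))))))) _ _ (by decide +kernel)

theorem okB777 : CKB ⟨6144, 7680, 4608, 5120⟩ ⟨9216, 12288, 5120, 5632⟩ :=
  ckB_sound (b (d (c z8 z12) (c z8 z12)) (d (c z10 z14) (c z10 z14))) _ _ (by decide +kernel)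

theorem okB778 : CKB ⟨7680, 8448, 4608, 4864⟩ ⟨9216, 10752, 5120, 5376⟩ :=
  ckB_sound (b (d (c z10 z14) (c z10 z14)) (d (c z10 z14) z10)) _ _ (by decide +kernel)

theorem okB779 : CKB ⟨8448, 9216, 4608, 4736⟩ ⟨9216, 10752, 5120, 5376⟩ :=
  ckB_sound (d (c (b (d (a z10 (c (b (d (a z10 z11) z11) (d (a z10 z11) (a z10 z11))) (b (d (a (c z10 z14) (c z11 z15)) (a (c z10 z14) z11)) (d (a (c z10 z14) (c z11 z15)) (a z10 z11))))) (a z10 (c (b z11 (d (a z10 z11) (a z10 z11))) (b (d (a z10 z11) (a z10 z11)) (d (a z10 z11) (a z10 z11)))))) (d (a z10 (c z10 (b (d (a (c z10 z14) (c z11 z15)) (a z10 (c z11 (b z15 (d z15 (a (c (b z15 (d z15 z11)) z15) z15)))))) (d (a (c z10 z14) (c (b z11 (d (a z10 z11) (a z10 z11))) (b z15 (d z15 (a z14 z15))))) (a z10 (c (b z11 (d (a z10 z11) z11)) (b (d (a z14 z15) (a z14 z15)) (d (a z14 z15) (a z14 z15))))))))) (a z10 (c z10 (b (d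 (a z10 z11) (a z10 z11)) (d (a z10 (c z11 (b (d (a (c z10 z14) z15) (a z10 z11)) (d (a (c z10 z14) z15) (a z10 z11))))) z10)))))) z14) (c (b (d (a z10 (c z11 (b (d (a z10 z11) (a z10 z11)) (d (a z10 z11) (a z10 z11))))) z10) z10) (b (d (a z14 (c (b (d (a z14 z15) (a (c (b (d z14 (a z14 (c z11 z15))) (d z14 (a z14 (c z11 z15)))) z14) z15)) (d (a z14 z15) (a (c (b (d z14 (a z14 (c z10 z14))) (d z14 (a z14 (c z10 z14)))) z14) z15))) z15)) (a (c (b (d (a z14 (c z10 z14)) (a (c z10 z14) (c z10 z14))) (d z14 (a z14 (c z10 z14)))) z14) (c (b (d (a (c z10 z14) z15) (a (c z10 z14) (c z11 z15))) (d (a (c z10 z14) (c z11 z15)) (a (c z10 z14) (c z11 z15)))) z15))) (d (a z14 (c (b (d (a z14 z15) (a z14 (c (b (d z15 (a (c z11 z15) z15)) (d (a (c (b z15 (d z15 z11)) z15) z15) (a (c z11 z15) z15))) z15))) (d z14 (a z14 (c (b (d (a z14 z15) (a (c z10 z14) z15)) (d (a z14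 z15) (a (c z10 z14) z15))) z15)))) z14)) (a (c (b (d z14 (a z14 (c z10 z14))) (d z14 (a z14 (c z10 z14)))) z14) (c (b (d (a (c z10 z14) (c z11 z15)) (a (c z10 z14) (c z11 z15))) (d (a (c z10 z14) (c (b (d (a z10 z11) z11) (d (a z10 z11) (a z10 z11))) z15)) (a (c z10 z14) (c (b z11 (d (a z10 z11) z11)) (b z15 (d z15 (a z14 z15))))))) z14)))))) _ _ (by decide +kernel)

end Vale.Agent.Lib.P154Q5
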