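import Vale.Agent.Lib.P154Q5.CkBDefs

namespace Vale.Agent.Lib.P154Q5

set_option maxRecDepth 100000
set_option exponentiation.threshold 1000

open Tr

theorem okB780 : CKB ⟨8448, 9216, 4736, 4864⟩ ⟨9216, 10752, 5120, 5376⟩ :=
  ckB_sound (d (c (b (d (a z10 (c z10 (b (d (a (c z10 z14) (c z10 z14)) (a z10 (c z10 (b (d z14 (a z14 z15)) z14)))) (d (a (c z10 z14) (c z10 z14)) z10)))) z10) z10) z14) (c z10 (b (d (a z14 (c (b (d z14 (a z14 (c (b (d (a z14 z15) (a z14 (c z11 z15))) (d z14 (a z14 (c z11 z15)))) z14))) (d z14 (a z14 (c (b (d z14 (a z14 (c z10 z14))) (d z14 (a z14 (c z10 z14)))) z14)))) z14)) (a (c (b (d z14 (a z14 (c z10 z14))) z14) z14) (c (b (d (a (c z10 z14) (c z10 z14)) (a (c z10 z14) (c z10 z14))) (d (a (c z10 z14) (c z10 z14)) (a (c z10 z14) (c z10 z14)))) z14))) (d z14 (a z14 (c (b (d (a z14 (c z10 z14)) (a (c z10 z14) (c z10 z14))) (d (a z14 (c z10 z14)) (a (c z10 z14) (c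 z10 z14)))) z14)))))) _ _ (by decide +kernel)

theorem okB781 : CKB ⟨7680, 9216, 4608, 4864⟩ ⟨10752, 12288, 5120, 5376⟩ :=
  ckB_sound z14 _ _ (by decide +kernel)

theorem okB782 : CKB ⟨7680, 9216, 4608, 4864⟩ ⟨9216, 12288, 5376, 5632⟩ :=
  ckB_sound (c (a z10 (b (d (c z10 (b (d (a (c z10 z14) (c (b (d (a z10 z11) (a z10 z11)) (d (a z10 z11) (a z10 z11))) (b z15 (d z15 (a z14 z15))))) (a z10 (c (b (d (a z10 z11) (a z10 z11)) (d (a z10 z11) (a z10 z11))) (b (d (a z14 z15) (a z14 z15)) (d (a z14 z15) (a z14 z15)))))) (d (a (c z10 z14) (c (b (d (a z10 z11) z10) (d (a z10 (c z11 (b (d (a z14 z15) (a z14 z15)) (d (a z14 z15) (a z14 z15))))) z10)) z14)) (a z10 (c z10 (b (d z14 (a z14 z15)) z14)))))) (c z10 (b (d (a z10 (c (b (d (a z10 z11) z11) (d (a z10 z11) (a z10 z11))) (b (d (a (c (b (d (a z14 z15) z10) (d z14 z10)) z14) z15) (a (c z10 z14) z15)) (d (a (c (b (d z14 z10) (d z14 z10)) z14)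 z15) (a (c z10 z14) (c z11 z15)))))) (a z10 (c (b z11 (d (a z10 z11) (a z10 z11))) (b (d (a z10 z11) (a z10 z11)) (d (a z10 z11) (a z10 z11)))))) (d (a z10 (c z10 (b (d (a z14 (c (b (d z15 z11) (d (a (c z11 z15) z15) z11)) z15)) (a (c z10 z14) (c z11 z15))) (d (a z14 (c (b (d (a z14 z15) z11) (d (a z14 z15) (a z10 z11))) z15)) (a (c z10 z14) (c z11 z15)))))) (a z10 (c z10 (b (d (a z10 z11) z10) z10))))))) (d (c z10 (b (d (a (c z10 z14) (c z10 z14)) (a z10 (c z10 z14))) (d (a (c z10 z14) (c z10 z14)) (a z10 (c z10 z14))))) (c z10 (b (d (a z10 (c z10 (b (d (a z14 (c (b (d (a z14 z15) z10) (d z14 z10)) z14)) (a (c z10 z14) (c z10 z14))) (d (a z14 (c (b (d z14 z10) (d z14 z10)) z14)) (a (c z10 z14) (c z10 z14)))))) z10) z10))))) z14) _ _ (by decide +kernel)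

theorem okB783 : CKB ⟨7680, 9216, 4864, 5120⟩ ⟨9216, 12288, 5120, 5632⟩ :=
  ckB_sound (d (c (a (b (d (c z10 z14) z10) (d (c z10 z14) z10)) (b (d (c z10 z14) (c z10 (b (d z14 (a z14 (c (b (d (a z14 (c z10 z14)) (a (c z10 z14) (c z10 z14))) (d (a z14 (c z10 z14)) (a z14 (c z10 z14)))) z14))) (d z14 (a z14 (c (b (d z14 (a z14 (c z10 z14))) (d z14 (a z14 (c z10 z14)))) z14)))))) (d (c z10 z14) (c z10 (b (d z14 (a z14 (c (b (d z14 (a z14 (c z10 z14))) z14) z14))) z14))))) z14) (c (a z10 (b (d (c z10 (b (d (a (c z10 z14) (c z10 z14)) (a z10 (c z10 z14))) (d (a (c z10 z14) (c z10 z14)) z10))) z10) z10)) z14)) _ _ (by decide +kernel)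

theorem okB784 : CKB ⟨6144, 9216, 4608, 5120⟩ ⟨9216, 12288, 5632, 6144⟩ :=
  ckB_sound (a (b (d (c z8 z12) z8) (d (c z10 z14) z10)) (b (d (c z10 (a (b (d z14 (c (a z14 (b (d z14 (c z10 z14)) (d z14 (c z10 z14)))) z14)) (d z14 (c (a z14 (b (d z14 (c z10 z14)) (d z14 (c z10 z14)))) z14))) (b (d (c (b (d (a z14 (c (b (d z15 (a z14 z15)) (d (a z14 z15) (a z14 z15))) z15)) (a z14 (c (b (d (a z14 z15) (a (c z10 z14) z15)) (d (a z14 z15) (a (c z10 z14) (c z11 z15)))) z15))) (d z14 (a z14 (c (b (d (a z14 (c (b z15 (d z15 (a (c z11 z15) z15))) z15)) (a (c z10 z14) (c z11 z15))) (d (a z14 (c (b (d (a z14 z15) (a z14 z15)) (d (a z14 z15) (a z14 z15))) z15)) (a (c z10 z14) (c z11 z15)))) z14)))) z14) (c (b (d (a (c z10 z14) (c (b (d (a z10 z11) (a z10 z11)) (d (a z10 z11) (a z10 z11))) z15)) (a (c z10 z14) (c (b (d (a z10 z11) z11) (d (a z10 z11) (a z10 z11))) (b (d z15 (a z14 z15)) (d (a z14 z15)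 (a z14 z15)))))) (d (a (c z10 z14) (c z10 z14)) (a (c z10 z14) (c z10 z14)))) z14)) (d (c (b (d z14 (a z14 (c (b (d z14 (a z14 (c z10 z14))) (d z14 (a z14 (c z10 z14)))) z14))) (d z14 (a z14 (c (b (d z14 (a z14 (c z10 z14))) (d z14 (a z14 (c z10 z14)))) z14)))) z14) (c (b (d (a (c z10 z14) (c z10 z14)) (a (c z10 z14) (c z10 z14))) (d (a (c z10 z14) (c z10 z14)) (a (c z10 z14) (c z10 z14)))) z14))))) (c z10 (a (b (d (c z10 z14) z10) (d (c z10 z14) z10)) (b (d (c (b (d (a z10 (c (b z11 (d (a z10 z11) z11)) (b (d (a z14 z15) (a (c z10 z14) z15)) (d (a z14 z15) (a (c z10 z14) z15))))) z10) z10) z14) (c z10 (b (d z14 (a z14 (c (b (d (a z14 z15) (a (c z10 z14) z15)) (d (a z14 z15) (a z14 z15))) z15))) (d z14 (a z14 (c (b (d z14 (a z14 (c z11 z15))) (d z14 (a z14 (c z11 z15)))) z14)))))) (d (c z10 z14) (c z10 (b (d z14 (a z14 (c (b (d z14 (a z14 (c z10 z14))) z14) z14))) z14))))))) (d (c z10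 (a (b (d z14 (c (a z14 (b (d z14 (c z10 z14)) z14)) z14)) z14) (b (d z14 (c (b (d (a z14 (c z10 z14)) (a (c z10 z14) (c z10 z14))) (d (a z14 (c z10 z14)) (a (c z10 z14) (c z10 z14)))) z14)) (d z14 (c (b (d (a z14 (c z10 z14)) (a (c z10 z14) (c z10 z14))) (d (a z14 (c z10 z14)) (a (c z10 z14) (c z10 z14)))) z14))))) (c z10 (a (b (d (c z10 z14) z10) (d (c z10 z14) z10)) (b (d (c z10 z14) (c z10 z14)) (d (c z10 z14) z10))))))) _ _ (by decide +kernel)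

theorem okB785 : CKB ⟨9216, 12288, 4096, 5120⟩ ⟨6144, 9216, 5120, 6144⟩ :=
  ckB_sound (b z11 (d (c (b z11 (d (a (c z11 (b z11 (d (a z10 z11) z11))) z11) z11)) (b z11 (d (a (c (b z11 (d (a z10 z11) (a z10 z11))) (b (d (a (b z11 (d (c z11 (a z10 z11)) (c z11 (a z10 z11)))) z11) (a (b z11 (d (c z11 (a z10 z11)) z11)) z11)) (d (a z10 z11) (a z10 z11)))) z11) (a (c (b z11 (d (a z10 z11) (a z10 z11))) (b z11 (d (a z10 z11) (a z10 z11)))) z11)))) (c (b z11 (d z11 (a (c (b z11 (d (a z10 z11) (a z10 z11))) z11) z11))) (b z11 (d (a (c (b z11 (d (a z10 z11) z11)) (b z11 (d (a z10 z11) (a z10 z11)))) z11) (a (c z11 (b z11 (d (a z10 z11) z11))) z11)))))) _ _ (by decide +kernel)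

theorem okB786 : CKB ⟨9216, 12288, 4096, 4608⟩ ⟨9216, 12288, 5120, 6144⟩ :=
  ckB_sound (d (b z13 (d (a (c z11 z15) z15) (a (c z11 z15) z15))) (b z9 (d (a (c z11 z15) z11) z11))) _ _ (by decide +kernel)

theorem okB787 : CKB ⟨9216, 12288, 4608, 4864⟩ ⟨9216, 12288, 5120, 5376⟩ :=
  ckB_sound (a (c (b (d (a (c z11 z15) z15) (a (c z11 z15) z11)) (d (a (c (b z11 (d (a (c z11 (b (d (a (c z11 z15) z15) (a (c z11 (b z15 (d z15 (a (c (b (d z15 z11) (d (a z14 z15) z11)) z15) z15)))) z11)) (d (a (c (b (d (a z10 z11) z11) (d (a z10 z11) (a z10 z11))) (b z15 (d z15 (a z14 z15)))) (c z11 z15)) (a (c (b z11 (d (a z10 z11) (a z10 z11))) (b (d (a z14 z15) (a z14 z15)) (d (a z14 z15) (a z14 z15)))) z11)))) z11) (a (c z11 (b (d (a (c z11 (b (d (a (c z11 z15) z15) z11) (d (a (c z11 z15) z15) z11))) z11) z11) (d (a (c z11 (b (d (a (c z10 z14) z15) (a z10 z11)) (d (a (c z10 z14) (c z11 z15)) (a z10 z11))))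 z11) (a (c z11 (b (d (a z10 z11) (a z10 z11)) (d (a z10 z11) (a z10 z11)))) z11)))) z11))) z15) z15) (a (c (b z11 (d (a (c z11 (b z11 (d (a (c z11 (b z11 (d (a z10 z11) (a z10 z11)))) z11) (a (c z11 (b z11 (d (a z10 z11) z11))) z11)))) z11) z11)) (b (d z15 (a (c (b (d z15 (a (c z11 z15) z15)) (d (a (c z11 z15) z15) (a (c z11 z15) z15))) z15) z15)) (d (a (c (b (d z15 (a (c (b (d z15 (a (c z11 z15) z15)) (d (a (c (b (d z15 z11) (d (a z14 z15) z11)) z15) z15) (a (c z11 z15) z15))) z15) z15)) (d (a (c (b (d z15 (a z14 z15)) (d (a z14 z15) (a z14 z15))) z15) z15) (a (c (b (d (a z14 z15) (a (c z10 z14) z15)) (d (a z14 z15) (a (c z10 z14) (c z11 z15)))) z15) z15))) z15) z15) (a (c (b (d (a (c z11 z15) z15) (a (c z11 z15) z15)) (d (a (c (b (d (a z10 z11) (a z10 z11)) (d (a z10 z11) (a z10 z11))) z15) z15) (a (c (b z11 (d (a z10 z11) (a z10 z11))) (b z15 (d z15 (a z14 z15)))) z15))) z15) z15))))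 z11))) z15) z15) _ _ (by decide +kernel)

theorem okB788 : CKB ⟨9216, 12288, 4608, 4864⟩ ⟨9216, 12288, 5376, 5632⟩ :=
  ckB_sound (a (c (b z11 (d (a (c z11 (b (d (a (c z11 z15) z15) (a (c z11 z15) z11)) (d (a (c (b (d (a (c z11 (b z15 (d z15 (a (c z11 z15) z15)))) z11) z11) (d (a (c (b z11 (d (a z10 z11) z11)) (b (d (a z14 z15) (a z14 z15)) (d (a z14 z15) (a z14 z15)))) z11) (a (c z11 (b (d (a (c z10 z14) z15) (a z10 z11)) (d (a (c z10 z14) (c z11 z15)) (a z10 z11)))) z11))) z15) z15) (a (c (b z11 (d (a (c z11 (b z11 (d (a z10 z11) (a z10 z11)))) z11) z11)) (b z15 (d z15 (a (c (b (d z15 (a z14 z15)) (d (a z14 z15) (a z14 z15))) z15) z15)))) z11)))) z11) (a (c z11 (b z11 (d (a (c z11 (b (d (a (c (b (d z15 z11) (d (a (c z11 z15) z15) z11)) z15) z15) (a (c z11 z15) z15)) (d (a (c (b (d (a z14 z15) z11) (d (a z14 z15) (a z10 z11))) z15) z15) (a (c (b z11 (d (a z10 z11) (a z10 z11))) z15) z15))))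 z11) (a (c z11 (b z11 (d (a (c z11 (b (d z15 (a z14 z15)) (d (a z14 z15) (a z14 z15)))) z11) (a (c z11 (b (d (a z14 z15) z11) (d (a z14 z15) (a z10 z11)))) z11)))) z11)))) z11))) z15) z15) _ _ (by decide +kernel)

theorem okB789 : CKB ⟨9216, 10752, 4864, 4992⟩ ⟨9216, 10752, 5120, 5376⟩ :=
  ckB_sound (d (a (c (b (d (a (c (b (d (a z10 z11) (a z10 z11)) (d (a z10 z11) (a z10 z11))) (b (d (a (c z10 z14) (c z11 z15)) (a (c z10 (b (d z14 (a z14 (c (b z15 (d z15 z11)) z15))) z14)) z11)) (d (a (c z10 z14) (c z11 z15)) (a z10 z11)))) z11) (a (c (b z11 (d (a z10 z11) (a z10 z11))) (b (d (a z10 z11) (a z10 z11)) (d (a z10 z11) (a z10 z11)))) z11)) (d (a (c z10 (b (d (a (c z10 z14) (c z11 z15)) (a z10 (c z11 (b (d z15 (a (c (b z15 (d z15 z11)) z15) z15)) (d (a z14 z15) (a z14 z15)))))) (d (a (c z10 z14) (c (b (d (a z10 z11) (a z10 z11)) z10) (b (d z15 (a z14 z15)) z14))) (a z10 (c (b (d (a z10 z11)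 z11) z10) (b (d (a z14 z15) (a z14 z15)) (d z14 (a z14 z15)))))))) z11) (a (c z10 (b (d (a z10 (c z11 (b (d (a (c z11 z15) z15) z11) (d (a (c z10 z14) z15) (a z10 z11))))) z10) (d (a z10 (c (b z11 z10) (b (d (a (c z10 z14) z15) (a z10 z11)) (d (a (c z10 z14) (c z11 z15)) z10)))) z10))) z11))) (b (d z15 (a (c (b (d z15 (a z14 z15)) (d (a z14 z15) (a z14 z15))) z15) z15)) (d (a z14 z15) (a z14 z15)))) z15) (a (c (b (d (a (c (b z11 (d (a z10 z11) z11)) (b (d (a z10 z11) (a z10 z11)) (d (a z10 z11) (a z10 z11)))) z11) (a (c z11 (b (d (a z10 z11) (a z10 z11)) (d (a z10 z11) (a z10 z11)))) z11)) (d (a z10 z11) (a z10 z11))) (b (d (a (c (b (d (a z14 z15) (a (c (b (d (a z14 (c (b z15 (d z15 z11)) z15)) (a z14 (c z11 z15))) (d z14 (a z14 (c z11 z15)))) z14) z15)) (d (a z14 z15) (a (c (b (d z14 (a z14 (c z10 z14))) (d z14 (a z14 (c z10 z14)))) z14) (c (b z15 (d z15 (a (c z11 z15) z15))) z15))))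 z15) z15) (a (c (b (d (a (c z10 z14) (c z11 z15)) (a (c z10 z14) (c z11 z15))) (d (a (c z10 z14) (c z11 z15)) (a (c z10 z14) (c z11 z15)))) z15) z15)) (d (a (c (b (d (a z14 (c (b z15 (d z15 (a z14 z15))) z15)) (a z14 (c (b (d (a (c (b z15 (d z15 z11)) z15) z15) (a (c z11 z15) z15)) (d (a z14 z15) (a (c z10 z14) z15))) z15))) (d z14 (a z14 (c (b (d (a z14 z15) (a (c z10 z14) z15)) (d (a z14 z15) (a (c z10 z14) (c z11 z15)))) z15)))) z14) z15) (a (c (b (d (a (c z10 z14) (c (b z11 (d (a z10 z11) z11)) z15)) (a (c z10 z14) (c z11 z15))) (d (a (c z10 z14) (c (b (d (a z10 z11) (a z10 z11)) z10) z15)) (a (c z10 z14) (c (b (d (a z10 z11) (a z10 z11)) z10) (b (d z15 (a z14 z15)) z14))))) z14) (c (b z15 (d z15 (a (c z11 z15) z15))) z15))))) z11)) _ _ (by decide +kernel)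

theorem okB790 : CKB ⟨9216, 10752, 4992, 5120⟩ ⟨9216, 10752, 5120, 5376⟩ :=
  ckB_sound (d (a (c (b (d (a (c z10 (b (d (a (c z10 z14) (c z10 z14)) (a z10 (c z10 z14))) (d (a (c z10 z14) (c z10 z14)) z10))) (c z11 (b z11 (d (a (c z11 z15) z15) (a (c z11 (b z15 (d z15 (a (c (b z15 (d z15 z11)) z15) z15)))) z11))))) (a z10 z11)) (d (a z10 (c (b z11 (d (c z11 (a z10 z11)) z11)) (b (d (a (c (b z11 (d (a z10 z11) (a z10 z11))) (b z15 (d z15 (a z14 z15)))) z15) (a (c z11 (b (d (a (c (b z15 z14) z15) z15) (a (c (b (d (a z14 z15) z11) z14) z15) z15)) (d (a z14 z15) (a z14 z15)))) z11)) (d (a (c z10 z14) (c z11 z15)) (a (c z10 (b (d z14 (a z14 z15)) z14)) z11))))) (a z10 (c z11 (b (d (a (c z11 (b (d (a (c z11 z15) z15) (a (c z11 z15) z11)) (d (a (c z10 z14) z15) (a z10 z11)))) z11) (a (c z11 (b z11 (d (a z10 z11) (a z10 z11)))) z11)) (d (a z10 z11) (a z10 z11))))))) (b (d (a z14 z15) (a z14 z15))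 (d z14 (a z14 (c (b z15 (d z15 (a z14 z15))) z15))))) (c z11 z15)) (a (c (b (d (a z10 z11) (a z10 z11)) (d (a z10 (c z11 (b (d (a (c z11 (b z11 (d (a z10 z11) z11))) z11) z11) (d (a z10 z11) (a z10 z11))))) (a z10 (c z11 (b z11 (d (a z10 z11) (a z10 z11))))))) (b (d (a (c (b (d z14 (a z14 (c (b (d z14 (a z14 (c z11 z15))) (d z14 (a z14 (c z10 z14)))) z14))) (d z14 (a z14 (c (b (d z14 (a z14 (c z10 z14))) z14) z14)))) z14) (c (b z15 (d z15 (a (c (b (d z15 (a (c z11 z15) z15)) (d (a (c (b z15 (d z15 z11)) z15) z15) (a (c z11 z15) z15))) z15) z15))) z15)) (a (c (b (d (a (c z10 z14) (c z10 z14)) (a (c z10 z14) (c z10 z14))) (d (a (c z10 z14) (c z10 z14)) (a (c z10 z14) (c z10 z14)))) z14) (c (b (d (a (c z11 z15) z15) (a (c z11 z15) z15)) (d (a (c z11 z15) z15) (a (c z11 z15) z15))) z15))) (d (a z14 (c (b (d (a (c (b (d z15 (a (c (b z15 z14) z15) z15)) (d (a z14 z15) (a z14 z15))) z15) z15)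 (a (c (b (d (a (c (b (d (a z14 z15) z11) z14) z15) z15) (a (c z11 z15) z15)) (d (a z14 z15) (a (c z10 z14) z15))) z15) z15)) (d (a z14 z15) (a (c (b (d (a z14 z15) (a (c z10 z14) (c z11 z15))) (d z14 (a z14 (c z11 z15)))) z14) z15))) z15)) (a (c (b (d (a z14 (c z10 z14)) (a (c z10 z14) (c z10 z14))) (d (a z14 (c z10 z14)) (a (c z10 z14) (c z10 z14)))) z14) (c (b (d (a (c (b z11 (d (a z10 z11) (a z10 z11))) z15) z15) (a (c (b z11 (d (a z10 z11) z11)) (b z15 (d z15 (a z14 z15)))) z15)) (d (a (c z10 z14) z15) (a (c z10 z14) (c z11 z15)))) z15))))) z11)) _ _ (by decide +kernel)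

theorem okB791 : CKB ⟨9216, 10752, 4864, 5120⟩ ⟨10752, 12288, 5120, 5376⟩ :=
  ckB_sound z15 _ _ (by decide +kernel)

theorem okB792 : CKB ⟨10752, 12288, 4864, 5120⟩ ⟨9216, 12288, 5120, 5376⟩ :=
  ckB_sound z15 _ _ (by decide +kernel)

theorem okB793 : CKB ⟨9216, 10752, 4864, 4992⟩ ⟨9216, 10752, 5376, 5632⟩ :=
  ckB_sound (d (a (c (b (d (a (c z11 (b z11 (d (a z10 z11) (a z10 z11)))) z11) (a (c z11 (b z11 (d (a z10 z11) z11))) z11)) (d (a z10 z11) (a z10 z11))) (b (d (a (c (b (d (a z10 z11) (a z10 z11)) (d (a z10 z11) (a z10 z11))) (b z15 (d z15 (a z14 z15)))) z15) (a (c (b (d (a z10 z11) (a z10 z11)) (d (a z10 z11) (a z10 z11))) (b (d (a z14 z15) (a z14 z15)) (d (a z14 z15) (a z14 z15)))) z11)) (d (a (c (b (d (a z10 (c z11 (b (d z15 (a (c z11 z15) z15)) (d (a z14 z15) (a z14 z15))))) z10) (d (a z10 (c (b z11 z10) (b (d (a z14 z15) (a z14 z15)) (d z14 (a z14 z15))))) z10)) z14) (c z11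 z15)) (a (c z10 (b (d z14 (a z14 (c (b z15 (d z15 (a z14 z15))) z15))) z14)) z11)))) z11) (a (c (b z11 (d (a z10 z11) (a z10 z11))) (b (d (a (c (b (d (a z10 z11) (a z10 z11)) (d (a z10 z11) (a z10 z11))) (b (d (a (c (b (d (a z14 (c z11 z15)) z10) (d z14 z10)) z14) z15) (a (c z10 z14) (c z11 z15))) (d (a (c (b (d z14 z10) (d z14 z10)) z14) (c (b z15 (d z15 z11)) z15)) (a (c z10 z14) (c z11 z15))))) z11) (a (c (b z11 (d (a z10 z11) (a z10 z11))) (b (d (a z10 z11) (a z10 z11)) (d (a z10 z11) (a z10 z11)))) z11)) (d (a (c z10 (b (d (a (c (b (d z14 z10) z14) z14) (c (b (d (a (c z11 z15) z15) z11) (d (a z14 z15) z11)) z15)) (a (c z10 z14) (c z11 z15))) (d (a z14 (c (b (d (a z14 z15) (a z10 z11)) (d (a z14 z15) z10)) z15)) (a (c z10 z14) (c (b (d (a z10 z11) z11) z10) z15))))) z11) (a (c z10 (b (d (a z10 (c z11 z15)) z10) z10)) z11)))) z11)) _ _ (by decide +kernel)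

theorem okB794 : CKB ⟨9216, 10752, 4992, 5120⟩ ⟨9216, 10752, 5376, 5632⟩ :=
  ckB_sound (d (a (c (b (d (a z10 z11) (a z10 z11)) z10) (b (d (a (c z10 z14) (c z11 z15)) (a (c z10 z14) (c z11 z15))) (d (a (c z10 z14) (c (b (d (a (c z11 (b (d (a (c (b z15 z14) z15) z15) (a (c z11 z15) z15)) (d (a z14 z15) (a z14 z15)))) z11) (a (c z11 (b z11 (d (a (c z10 z14) z15) (a z10 z11)))) z11)) (d (a z10 z11) (a z10 z11))) z15)) (a (c z10 z14) (c (b (d (a (c z11 (b z11 (d (a z10 z11) z11))) z11) z11) (d (a z10 z11) (a z10 z11))) (b (d z15 (a (c (b (d z15 (a (c (b z15 z14) z15) z15)) (d (a z14 z15) (a z14 z15))) z15) z15)) (d (a z14 z15) (a z14 z15)))))))) z11) (a (c z10 (b (d (a (c z10 (b (d (a z14 (c (b (d (a z14 (c z11 z15)) z10) (d z14 z10)) z14)) (a (c z10 z14) (c z10 z14))) (d (a z14 (c (b (d z14 z10) (d z14 z10)) z14)) (a (c z10 z14) (c z10 z14))))) (c z11 (b (d z15 (a (c z11 z15) z15)) (d (a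 (c (b (d z15 z11) (d (a (c z11 z15) z15) z11)) z15) z15) (a (c z11 z15) z15))))) (a z10 z11)) (d (a z10 (c (b z11 (d (a z10 z11) z11)) (b (d (a (c (b (d (a (c z11 z15) z15) z11) (d (a z14 z15) (a z10 z11))) z15) z15) (a (c z11 z15) z15)) (d (a (c (b (d (a z14 z15) z10) (d (a z14 (c z11 z15)) z10)) z14) z15) (a (c z10 z14) (c z11 z15)))))) (a z10 (c z11 (b (d (a (c z11 (b z15 (d z15 (a z14 z15)))) z11) (a (c z11 (b (d (a (c z11 z15) z15) z11) (d (a z14 z15) (a z10 z11)))) z11)) (d (a z10 z11) (a z10 z11)))))))) z11)) _ _ (by decide +kernel)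

end Vale.Agent.Lib.P154Q5
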