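import Vale.Agent.Lib.P154Q5.CkBDefs

namespace Vale.Agent.Lib.P154Q5

set_option maxRecDepth 100000
set_option exponentiation.threshold 1000

open Tr

theorem okB795 : CKB ⟨9216, 10752, 4864, 5120⟩ ⟨10752, 12288, 5376, 5632⟩ :=
  ckB_sound (b (d z15 (a (c (b (d z15 (a (c (b z15 (d z15 (a z14 z15))) z15) z15)) (d z15 (a z14 z15))) z15) z15)) (d (a z14 z15) (a z14 z15))) _ _ (by decide +kernel)

theorem okB796 : CKB ⟨10752, 12288, 4864, 5120⟩ ⟨9216, 12288, 5376, 5632⟩ :=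
  ckB_sound z15 _ _ (by decide +kernel)

theorem okB797 : CKB ⟨9216, 12288, 4608, 4864⟩ ⟨9216, 12288, 5632, 6144⟩ :=
  ckB_sound (d (a (c (b z11 (d (a (c z11 (b z11 (d (a (c z11 (b z11 (d (a (c z11 (b z11 (d (a z10 z11) z11))) z11) z11))) z11) z11))) z11) z11)) (b (d z15 (a (c (b z15 (d (a (c z11 z15) z15) (a (c z11 z15) z15))) z15) z15)) (d (a (c (b (d z15 (a (c (b z15 (d z15 (a (c z11 z15) z15))) z15) z15)) (d (a (c (b z15 (d z15 (a (c (b z15 (d z15 (a z14 z15))) z15) z15))) z15) z15) (a (c (b (d (a (c (b z15 (d z15 (a (c z11 z15) z15))) z15) z15) (a (c z11 z15) z15)) (d (a (c (b (d (a z14 z15) (a z14 z15)) (d (a z14 z15) (a z14 z15))) z15) z15) (a (c z11 z15) z15))) z15) z15))) z15) z15) (a (c (b (d (a (c z11 z15) z15) (a (c z11 z15) z15)) (d (a (c (b z11 (d (a (c z11 (b z15 (d z15 (a z14 z15)))) z11) z11)) z15) z15) (a (c z11 z15) z15)))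 z15) z15)))) z11) (a (c z11 (b (d (a (c z11 z15) z15) z11) (d (a (c (b z11 (d (a (c z11 (b (d z15 (a (c z11 z15) z15)) (d (a (c (b (d z15 z11) (d (a z14 z15) z11)) z15) z15) (a (c z11 z15) z15)))) z11) z11)) z15) z15) (a (c z11 (b z15 (d z15 (a (c (b (d z15 (a (c z11 z15) z15)) (d (a (c z11 z15) z15) (a (c z11 z15) z15))) z15) z15)))) z11)))) z11)) _ _ (by decide +kernel)

theorem okB798 : CKB ⟨9216, 12288, 4864, 5120⟩ ⟨9216, 12288, 5632, 5888⟩ :=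
  ckB_sound (a (c (b (d (a (c (b z11 (d (a z10 z11) z11)) (b (d (a (c (b z11 (d (a z10 z11) z11)) (b (d (a z10 z11) (a z10 z11)) (d (a z10 z11) (a z10 z11)))) z11) (a (c z11 (b (d (a z10 z11) z11) (d (a z10 z11) (a z10 z11)))) z11)) (d (a z10 z11) (a z10 z11)))) z11) (a (c z11 (b (d (a (c z11 (b z11 (d (a z10 z11) (a z10 z11)))) z11) z11) (d (a z10 z11) (a z10 z11)))) z11)) (d (a (c z10 (b (d (a z10 z11) (a z10 z11)) (d (a z10 (c z11 (b z11 (d (a z10 z11) (a z10 z11))))) z10))) z11) (a z10 z11))) (b (d (a (c (b (d (a (c (b (d (a z14 z15) (a z14 z15)) (d (a z14 z15) (a z14 z15))) z15) z15) (a (c (b (d (a z14 z15) (a (c z10 z14) z15)) (d (a z14 z15) (a (c z10 z14) (c z11 z15)))) z15) z15)) (d (a z14 z15) (a (c (b (d (a z14 (c (b (d z15 (a (c z11 z15) z15)) (d (a z14 z15) (a z14 z15))) z15)) (a (c z10 z14) (c z11 z15))) (d (a z14 (c (b (d (a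 z14 z15) (a z14 z15)) (d z14 (a z14 z15))) z15)) (a (c z10 z14) (c (b z11 z10) z15)))) z14) z15))) z15) z15) (a (c (b (d (a (c (b (d (a z10 z11) (a z10 z11)) (d (a z10 z11) (a z10 z11))) z15) z15) (a (c (b (d (a z10 z11) (a z10 z11)) (d (a z10 z11) (a z10 z11))) (b (d z15 (a z14 z15)) (d (a z14 z15) (a z14 z15)))) (c z11 z15))) (d (a (c z10 z14) (c z11 z15)) (a (c z10 z14) (c z11 z15)))) z15) z15)) (d (a (c (b (d (a z14 z15) (a (c (b (d z14 (a z14 (c z10 z14))) (d z14 (a z14 (c z10 z14)))) z14) (c (b (d z15 (a (c z11 z15) z15)) (d (a (c (b z15 (d z15 (a (c z11 z15) z15))) z15) z15) (a (c z11 z15) z15))) z15))) (d (a z14 (c (b (d z15 (a (c (b z15 (d z15 (a z14 z15))) z15) z15)) (d z15 (a z14 z15))) z15)) (a (c (b (d z14 (a z14 (c z10 z14))) (d z14 (a z14 (c z10 z14)))) z14) (c (b (d (a (c (b (d (a (c z11 z15) z15) (a (c z11 z15) z15)) (d (a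 z14 z15) (a z14 z15))) z15) z15) (a (c z11 z15) z15)) (d (a (c (b (d z14 (a z14 z15)) z14) z14) z15) (a (c z10 z14) z15))) z15)))) z14) z15) (a (c (b (d (a (c z10 z14) (c z11 z15)) (a (c z10 z14) (c z11 z15))) (d (a (c z10 z14) (c (b (d (a (c z11 z15) z11) z11) (d (a z10 z11) (a z10 z11))) z15)) (a (c z10 z14) (c (b z11 (d (a z10 z11) z11)) (b z15 (d z15 (a z14 z15))))))) z14) z15)))) z11) _ _ (by decide +kernel)

theorem okB799 : CKB ⟨9216, 12288, 4864, 5120⟩ ⟨9216, 12288, 5888, 6144⟩ :=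
  ckB_sound (a (c (b (d (a (c z11 (b z11 (d (a z10 z11) (a z10 z11)))) z11) z11) (d (a z10 z11) (a z10 z11))) (b (d (a (c (b (d (a (c (b z11 (d (a z10 z11) (a z10 z11))) (b (d (a z14 z15) (a (c z10 z14) z15)) (d (a z14 z15) (a (c z10 z14) (c z11 z15))))) z11) (a (c z11 (b (d (a z10 z11) (a z10 z11)) (d (a z10 z11) (a z10 z11)))) z11)) (d (a z10 z11) (a z10 z11))) (b z15 (d z15 (a z14 z15)))) z15) (a (c (b (d (a (c z11 (b z11 (d (a z10 z11) (a z10 z11)))) z11) z11) (d (a z10 z11) (a z10 z11))) (b (d (a (c (b (d z15 (a z14 z15)) (d (a z14 z15) (a z14 z15))) z15) z15) (a (c (b (d (a z14 z15) (a (c z10 z14) z15)) (d (a z14 z15) (a z14 z15))) z15) z15)) (d (a z14 z15) (a (c (b (d z14 (a z14 (c z11 z15))) (d z14 (a z14 (c z11 z15)))) z14) z15)))) z11)) (d (a (c (b (d (a z10 z11) (a z10 z11)) (d (a z10 (c z11 (b (d (a (c (b (d z15 z11) (d (a z14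 z15) z11)) z15) z15) (a (c z11 z15) z15)) (d (a z14 z15) (a (c z10 z14) z15))))) z10)) z14) (c z11 z15)) (a (c z10 (b (d (a z14 z15) (a (c (b (d z14 (a z14 (c z10 z14))) z14) z14) (c (b z15 (d z15 (a (c z11 z15) z15))) z15))) (d z14 (a z14 (c (b (d (a (c z11 z15) z15) (a (c z11 z15) z15)) (d (a z14 z15) (a (c z10 z14) z15))) z15))))) z11)))) z11) _ _ (by decide +kernel)

theorem okB800 : CKB ⟨6144, 9216, 5120, 6144⟩ ⟨6144, 12288, 4096, 5120⟩ :=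
  ckB_sound (c (b (d (a z2 (c z2 (b (d (a (c z2 z6) (c z2 z6)) (a z2 (c z2 (b (d (b (d z6 (a z6 (c z2 z6))) (d z6 (a z6 (c z2 z6)))) z10) (d (b (d z6 (a z6 (c z2 z6))) z6) z10))))) (d (a (c z2 z6) (c z2 z6)) z2)))) z10) z2) (b (d z14 (a (b (d z14 (c (a z14 (b (d z14 (c z10 z14)) z14)) z14)) z14) (b (d z14 (c (a (b (d z14 (c z10 z14)) (d z14 (c z10 z14))) (b (d (c (b (d z14 (a z14 (c z10 z14))) (d z14 (a z14 (c z10 z14)))) z14) (c z10 z14)) (d (c (b (d z14 (a z14 (c z10 z14))) z14) z14) (c z10 z14)))) z14)) (d z14 (c (a (b (d z14 (c z10 z14)) (d z14 (c z10 z14))) (b (d z14 (c z10 z14)) (d z14 (c z10 z14)))) z14))))) (d z14 (a (b z14 (d z14 (c (a (b (d z14 (c z10 z14)) (d z14 (c z10 z14))) z14) z14))) (b (d z14 (c (a (b (d z14 (c z10 z14)) z14) (b (d z14 (c z10 z14)) (d z14 (c z10 z14)))) z14)) (d z14 (c (a z14 (b (d z14 (c z10 z14)) z14)) z14)))))))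 _ _ (by decide +kernel)

theorem okB801 : CKB ⟨9216, 12288, 5120, 5632⟩ ⟨6144, 7680, 4096, 4608⟩ :=
  ckB_sound (b (d (a (c z2 (b (d (a z2 z3) (a z2 z3)) z2)) z3) (a z2 z3)) (d (a z2 z3) (a z2 z3))) _ _ (by decide +kernel)

theorem okB802 : CKB ⟨9216, 12288, 5120, 5376⟩ ⟨7680, 9216, 4096, 4352⟩ :=
  ckB_sound (a (c (b (d (a (c z2 (b (d (a (c z2 z6) (c z2 z6)) (a z2 (c z2 (b (d (a z6 z7) (a (b (c z2 z6) (c z2 z6)) z7)) (d (a z6 (b z7 (c (d z7 z3) z7))) (a z6 (b (c z3 z7) (c z3 z7)))))))) (d (a (c z2 z6) (c z2 z6)) z2))) z3) (a z2 z3)) (d (a z2 (c (b z3 (d (a (c z3 (b z3 (d (a z2 z3) z3))) z3) z3)) (b (d (a (c z3 z7) z7) (a (c z3 (b (d z7 (a (b z7 (c z3 z7)) z7)) (d (a (b (c (d z7 z3) z7) (c (d (a z6 z7) z3) z7)) z7) (a (b (c z3 z7) (c z3 z7)) z7)))) z3)) (d (a (c (b (d (a z2 z3) (a z2 z3)) (d (a z2 z3) (a z2 z3))) (b (d z7 (a z6 z7)) (d (a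 z6 z7) (a z6 z7)))) z7) (a (c (b z3 (d (a z2 z3) (a z2 z3))) (b (d (a z6 z7) (a (b (c z2 z6) (c z2 z6)) z7)) (d (a z6 z7) (a z6 z7)))) z3))))) (a z2 (c z3 (b z3 (d (a (c (b z3 (d (a z2 z3) (a z2 z3))) (b (d (a z2 z3) (a z2 z3)) (d (a z2 z3) (a z2 z3)))) z3) (a (c (b z3 (d (a z2 z3) z3)) (b (d (a z2 z3) (a z2 z3)) (d (a z2 z3) (a z2 z3)))) z3))))))) (b (d (a z6 z7) (a (b (d z6 (c (a z6 (b (d (c (a z6 z7) z7) (c (a (b (d z6 (c z2 z6)) (d z6 (c z2 z6))) z7) z7)) (d z6 (c (a z6 (b (d z7 (c z3 z7)) (d (c z3 z7) (c z3 z7)))) z6)))) z6)) (d z6 (c (a z6 (b (d z6 (c (a z6 (b (d (c z3 z7) (c z3 z7)) (d z6 (c z2 z6)))) z6)) (d z6 (c (a z6 (b (d z6 (c z2 z6)) (d z6 (c z2 z6)))) z6)))) z6))) z7)) (d (a z6 z7) (a z6 (b (d z7 (c (a (b (d z7 (c (a (b z7 (d z7 (c z3 z7))) z7) z7)) (d (c (a (b z7 (d z7 (c (a z6 z7) z7))) z7) z7) (c (a (b (d (c z3 z7) (c z3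 z7)) (d (c z3 z7) (c z3 z7))) z7) z7))) z7) z7)) (d (c (a (b (d z7 (c (a z6 z7) z7)) (d (c (a z6 z7) z7) (c (a z6 z7) z7))) z7) z7) (c (a (b (d (c (a z6 z7) z7) (c (a (b (d z6 (c z2 z6)) (d z6 (c z2 z6))) z7) z7)) (d (c (a z6 z7) z7) (c (a z6 z7) z7))) z7) z7))))))) z7) _ _ (by decide +kernel)

theorem okB803 : CKB ⟨9216, 10752, 5120, 5376⟩ ⟨7680, 8448, 4352, 4608⟩ :=
  ckB_sound (b (d (a z2 z3) (a z2 z3)) (d (a z2 (c z3 (b z3 (d (a (c z3 (b z3 (d (a z2 z3) (a z2 z3)))) z3) (a (c z3 (b z3 (d (a z2 z3) (a z2 z3)))) z3))))) (a z2 z3))) _ _ (by decide +kernel)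

theorem okB804 : CKB ⟨9216, 10752, 5120, 5248⟩ ⟨8448, 9216, 4352, 4608⟩ :=
  ckB_sound (d (a (b (d (c (a (b (d (c z2 z6) (c z2 z6)) (d z6 (c z2 z6))) (b (d (c (a z2 z3) (a z6 z7)) (c (a z2 z3) (a z6 z7))) (d (c z2 z6) (c z2 z6)))) z6) (c (a z2 (b (d (c (a z2 z3) (a z6 z7)) (c (a z2 z3) (a (b (d z6 (c z2 z6)) (d z6 (c z2 z6))) z7))) (d (c z2 z6) (c z2 (a z6 (b (d z7 (c z3 z7)) (d (c z3 z7) (c z3 z7)))))))) z6)) (d (c (a (b (d z6 (c z2 z6)) (d z6 (c z2 z6))) (b (d (c z2 z6) (c z2 z6)) (d (c z2 z6) (c z2 z6)))) z6) (c (a z2 (b (d (c z2 z6) z2) z2)) z6))) (b (d z7 (c z3 z7)) (d (c (a (b (d z7 (c z3 z7)) (d (c z3 z7) (c z3 z7))) z7) z7) (c z3 z7)))) (a (b (d (c (a z2 (b (d (c (a z2 z3) (a z2 z3)) (c (a z2 z3) (a z10 z11))) z2)) z14) (c z10 (a z14 (b (d (c (a z14 z15) z15) (c (a (b (d z14 (c z10 z14)) (d z14 (c z10 z14))) z15) z15)) (d (c (a z14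 (b z15 (d z15 (c (a (b z15 z14) z15) z15)))) z14) (c (a z14 (b (d (c z11 z15) (c z11 z15)) (d (c z11 z15) (c z11 z15)))) z14)))))) (d (c z2 z14) (c z10 (a z14 (b (d z14 (c (a z14 (b (d (c (a z10 z11) z15) (c z11 z15)) (d (c z10 z14) (c z10 z14)))) z14)) (d z14 (c (a z14 (b (d z14 (c z10 z14)) (d z14 (c z10 z14)))) z14))))))) (b z11 (d (c z3 z15) (c z11 z15))))) _ _ (by decide +kernel)

theorem okB805 : CKB ⟨9216, 10752, 5248, 5376⟩ ⟨8448, 9216, 4352, 4608⟩ :=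
  ckB_sound (d (a (b (d (c (a z6 (b (d (c z2 z6) (c z2 z6)) (d (c z2 z6) (c z2 z6)))) z6) (c z2 z6)) (d (c (a z6 (b (d (c z2 z6) (c z2 z6)) (d z6 (c z2 z6)))) z6) (c z2 z6))) (b (d (c (a (b (d (c z3 z7) (c z3 z7)) (d (c (a (b z3 (d (c z3 z7) z3)) z3) z7) (c z3 z7))) z7) z7) (c (a (b z3 (d (c z3 (a (b z7 (d z7 (c (a z6 z7) z7))) z7)) (c z3 (a (b (d (c z3 z7) (c z3 z7)) (d (c z3 z7) (c z3 z7))) z7)))) z3) z7)) (d (c (a (b (d (c (a z2 z3) z7) (c (a z2 z3) (a z6 z7))) (d (c (a z2 z3) (a z6 z7)) (c (a z2 z3) (a z6 z7)))) z7) z7) (c (a (b (d (c (a z2 z3) (a z6 z7)) (c (a z2 z3) (a (b (d z6 (c z2 z6)) (d z6 (c z2 z6))) z7))) (d (c (a z2 z3) (a z6 z7)) (c (a z2 z3) (a z6 z7)))) z3) z7)))) (a (b (d (c z2 z14) (c z10 z14)) (d (c z2 z14) (c z10 z14))) (b (d (c (a (b z3 (d (c z3 (a (b z3 (d (c z3 z7) (c z3 (a z6 z7)))) z3)) (c z3 (a (b z11 (d (c z3 (a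 z10 z11)) z11)) z11)))) z3) z15) (c z11 (a (b (d z15 (c (a (b z15 (d z15 (c z11 z15))) z15) z15)) (d (c (a (b z15 (d z15 (c (a z14 z15) z15))) z15) z15) (c (a (b (d (c z11 z15) (c z11 z15)) (d (c (a z10 z11) z15) (c z11 z15))) z15) z15))) z15))) (d (c (a (b (d (c (a z2 z3) (a z2 z3)) (c z3 (a z10 z11))) (d (c (a z2 z3) (a z2 z3)) (c (a z2 z3) (a z10 z11)))) z3) (a (b (d z15 (c (a z14 z15) z15)) (d (c (a z6 z7) z15) (c (a z14 z15) z15))) z15)) (c (a (b (d (c z11 (a z10 z11)) (c z11 (a z10 z11))) (d (c (a z10 z11) (a z10 z11)) (c (a z10 z11) (a z10 z11)))) z11) (a (b (d (c (a z14 z15) z15) (c (a (b (d z14 (c z10 z14)) (d z14 (c z10 z14))) z15) z15)) (d (c (a z14 z15) z15) (c (a z14 z15) z15))) z15)))))) _ _ (by decide +kernel)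

theorem okB806 : CKB ⟨10752, 12288, 5120, 5376⟩ ⟨7680, 9216, 4352, 4608⟩ :=
  ckB_sound z3 _ _ (by decide +kernel)

theorem okB807 : CKB ⟨9216, 12288, 5376, 5632⟩ ⟨7680, 9216, 4096, 4352⟩ :=
  ckB_sound (a (c (b (d (a z2 (c (b (d (a z2 z3) (a z2 z3)) z2) (b (d (a (c z2 z6) (c z3 z7)) (a z2 z3)) (d (a (c z2 z6) (c z3 z7)) (a z2 z3))))) (a z2 (c (b (d (a z2 z3) (a z2 z3)) z2) (b (d (a z2 z3) (a z2 z3)) (d (a z2 z3) z2))))) (d (a z2 (c z2 (b (d (a (c z2 z6) (c (b z3 (d (a z2 z3) (a z2 z3))) (b z7 (d z7 (a z6 z7))))) z2) z2))) z2)) (b (d z6 (a z6 (b (d (c (a z6 z7) z7) (c (a (b (d z6 (c (a z6 (b (d z7 (c z3 z7)) (d (c z3 z7) (c z3 z7)))) z6)) (d z6 (c (a z6 (b (d (c z3 z7) (c z3 z7)) z6)) z6))) z7) z7)) (d z6 (c (a z6 (b z7 (d z7 (c (a (b z7 (d z7 (c z3 z7))) z7) z7)))) z6))))) (d z6 (a z6 (b (d z6 (c (a z6 (b (d (c (a (b z7 z6) z7) z7) (c (a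 (b (d (c z3 z7) (c z3 z7)) z6) z7) z7)) (d (c (a z6 z7) z7) (c (a z6 z7) z7)))) z6)) (d z6 (c (a z6 (b (d z6 (c (a z6 (b z7 (d z7 (c z3 z7)))) z6)) z6)) z6))))))) (c z3 z7)) _ _ (by decide +kernel)

theorem okB808 : CKB ⟨9216, 12288, 5376, 5632⟩ ⟨7680, 9216, 4352, 4608⟩ :=
  ckB_sound (a (c (b (d (a z2 (c (b (d (a z2 z3) (a z2 z3)) z2) (b (d (a z2 z3) (a z2 z3)) z2))) z2) z2) (b (d (a (b (d (c (a z6 (b (d z6 (c z2 z6)) (d z6 (c z2 z6)))) z6) (c z2 z6)) (d z6 (c z2 z6))) (b (d (c (a (b (d (c z2 z6) (c z2 z6)) (d (c z2 z6) (c z2 z6))) (b z7 (d z7 (c z3 z7)))) z7) (c (a (b (d (c z2 z6) z2) z2) z3) (a z6 z7))) (d (c (a (b (d (c z2 z6) (c z2 z6)) (d (c z2 z6) (c z2 z6))) (b (d (c z3 z7) (c z3 z7)) (d (c z3 z7) (c z3 z7)))) z6) (c (a z2 z3) z6)))) (a (b (d (c z2 z14) z10) z10) (b (d (c (a z2 z3) (a z14 z15)) (c (a z10 z11) (a (b (d z14 (c (a z14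 (b (d z15 (c z11 z15)) (d (c z11 z15) (c z11 z15)))) z14)) (d z14 (c (a z14 (b (d (c (a z10 z11) z15) (c z11 z15)) (d z14 (c z10 z14)))) z14))) z15))) (d (c (a z2 z3) (a z14 z15)) (c (a z10 z11) (a z14 (b z15 (d z15 (c (a (b (d z15 (c z11 z15)) (d (c z11 z15) (c z11 z15))) z15) z15))))))))) (d (a (b (d z6 (c z2 z6)) (d z6 (c z2 z6))) (b (d (c (a (b (d z6 (c z2 z6)) (d z6 (c z2 z6))) (b (d (c (a (b z3 z2) z3) z7) (c z3 z7)) (d (c (a z2 z3) z7) (c (a z2 z3) (a z6 z7))))) z6) (c (a z2 (b (d (c z3 (a (b z7 z6) z7)) (c z3 (a (b (d (c z3 z7) (c z3 z7)) z6) z7))) (d (c (a z2 z3) (a z6 z7)) (c (a z2 z3) (a z6 z7))))) z6)) (d (c (a (b (d z6 (c z2 z6)) z6) (b (d (c z2 z6) (c z2 z6)) (d (c z2 z6) (c z2 z6)))) z6) (c z2 z6)))) (a z10 (b (d (c (a z2 (b (d (c z3 (a (b z3 z2) z3)) (c z3 (a (b z11 z10) z11))) (d (c (a z2 z3) (a z2 z3)) (c z3 (a z10 z11)))))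 z14) (c z10 (a z14 (b (d (c (a (b (d z15 (c (a z14 z15) z15)) z14) z15) z15) (c (a (b (d (c z11 z15) (c z11 z15)) z14) z15) z15)) (d (c (a z14 z15) z15) (c (a z14 z15) z15)))))) (d (c z2 z14) (c z10 (a z14 (b (d z14 (c (a z14 (b z15 (d z15 (c z11 z15)))) z14)) z14))))))))) (c z3 (b z7 (d (a (b z7 (d z7 (c z3 z7))) z7) z11)))) _ _ (by decide +kernel)

theorem okB809 : CKB ⟨9216, 12288, 5120, 5632⟩ ⟨6144, 7680, 4608, 5120⟩ :=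
  ckB_sound (b (d (a z2 z3) (a z10 z11)) (d (a z2 z3) (a z10 z11))) _ _ (by decide +kernel)

end Vale.Agent.Lib.P154Q5
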