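import Vale.Agent.Lib.P154Q5.CkBDefs

namespace Vale.Agent.Lib.P154Q5

set_option maxRecDepth 100000
set_option exponentiation.threshold 1000

open Tr

theorem okB810 : CKB ⟨9216, 10752, 5120, 5376⟩ ⟨7680, 8448, 4608, 4864⟩ :=
  ckB_sound (b (d (a z10 z11) (a z10 z11)) (d (a z10 z11) z10)) _ _ (by decide +kernel)

theorem okB811 : CKB ⟨9216, 10752, 5120, 5248⟩ ⟨8448, 9216, 4608, 4864⟩ :=
  ckB_sound (d (a (b (d (c z10 (a (b (d (c z10 z14) (c z10 z14)) (d z14 (c z10 z14))) (b (d (c (a z10 z11) (a z14 z15)) (c (a z10 z11) (a z14 z15))) (d (c (a z10 z11) z14) (c z10 z14))))) (c z10 (a z10 (b (d (c (a z10 z11) (a z14 z15)) (c (a z10 z11) (a (b (d z14 (c z10 z14)) (d z14 (c z10 z14))) (b z15 (d z15 (c z11 z15)))))) (d (c z10 (a z14 (b z15 (d z15 (c (a (b z15 z14) z15) z15))))) (c z10 (a (b (d z14 (c z10 z14)) z14) (b (d (c z11 z15) (c z11 z15)) (d (c z11 z15) (c z11 z15))))))))))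 (d (c z10 (a (b (d z14 (c z10 z14)) (d z14 (c z10 z14))) (b (d (c z10 z14) (c z10 z14)) (d (c z10 z14) (c z10 z14))))) (c z10 (a z10 (b (d (c z10 z14) (c z10 (a z14 (b (d (c (a z10 z11) z15) (c (a z10 z11) z15)) (d (c z10 z14) (c z10 z14)))))) (d (c z10 z14) z10)))))) z11) (a (b (d (c z10 (a z10 (b (d (c (a z10 z11) (a z10 z11)) (c (a z10 z11) (a z10 z11))) (d (c z10 (a z10 (b z11 (d (c z11 z15) z11)))) z10)))) z10) z10) z11)) _ _ (by decide +kernel)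

theorem okB812 : CKB ⟨9216, 10752, 5248, 5376⟩ ⟨8448, 9216, 4608, 4864⟩ :=
  ckB_sound (d (a (b (d (c z10 (a z14 (b (d (c z10 z14) (c z10 z14)) (d (c z10 z14) (c z10 z14))))) z10) z10) (b (d (c z11 (a (b (d (c z11 z15) (c z11 z15)) (d (c (a (b z11 (d (c z11 (a z14 z15)) (c z11 (a z14 z15)))) z11) z15) (c (a (b z11 (d (c z11 (a z10 z11)) (c z11 (a z10 z11)))) z11) z15))) z15)) (c z11 (a (b (d (c z11 z15) z11) (d (c z11 (a (b (d z15 (c (a (b z15 z14) z15) z15)) (d (c (a z14 z15) z15) (c (a z14 z15) z15))) z15)) (c z11 (a (b (d (c z11 z15) (c z11 z15)) (d (c (a z10 z11) z15) (c (a z10 z11) z15))) z15)))) z11))) (d (c (a (b (d (c z11 (a z10 z11)) z11) (d (c (a z10 z11) (a z10 z11)) (c z11 (a z10 z11)))) z11) (a (b (d (c (a z10 z11) z15) (c (a z10 z11) (a z14 z15))) (d (c (a z10 z11) (a z14 z15)) (c (a z10 z11) (a z14 z15)))) z15)) (c (a (b z11 (d (c z11 (a z10 z11)) (c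 z11 (a z10 z11)))) z11) (a (b (d (c (a z10 z11) (a z14 z15)) (c (a z10 z11) (a (b (d (c z10 z14) (c z10 z14)) (d z14 (c z10 z14))) z15))) (d (c (a z10 z11) (a z14 z15)) (c (a z10 z11) (a (b (d z14 (c z10 z14)) z14) (b z15 (d z15 (c z11 z15))))))) z11))))) (a z10 (b (d (c z11 (a (b z11 (d (c z11 (a (b (d (c z11 z15) z11) (d (c z11 (a z14 z15)) (c z11 (a z14 z15)))) z11)) (c z11 (a (b z11 (d (c z11 (a z10 z11)) (c z11 (a z10 z11)))) z11)))) z11)) z11) (d (c (a (b z11 (d (c z11 (a z10 z11)) z11)) z11) (a (b (d (c (a z10 z11) (a z10 z11)) (c (a z10 z11) (a z10 z11))) (d (c (a z10 z11) (a z10 z11)) (c (a z10 z11) (a z10 z11)))) z11)) (c z11 (a (b (d (c z11 (a z10 z11)) (c z11 (a z10 z11))) (d (c (a z10 z11) (a z10 z11)) (c (a z10 z11) (a z10 z11)))) z11)))))) _ _ (by decide +kernel)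

theorem okB813 : CKB ⟨10752, 12288, 5120, 5376⟩ ⟨7680, 9216, 4608, 4864⟩ :=
  ckB_sound z11 _ _ (by decide +kernel)

theorem okB814 : CKB ⟨9216, 12288, 5120, 5376⟩ ⟨7680, 9216, 4864, 5120⟩ :=
  ckB_sound (a (c (b (d (a z10 z11) (a z10 z11)) z10) (b (d (a z10 z11) (a z10 z11)) (d (a z10 (b z11 (d (c z11 (a (b (d (c z11 (a z10 z11)) (c z11 (a z10 z11))) (d (c (a z10 z11) (a z10 z11)) (c z11 (a z10 z11)))) z11)) (c z11 (a (b z11 (d (c z11 (a z10 z11)) (c z11 (a z10 z11)))) z11))))) (a z10 (b z11 (d (c z11 (a (b z11 (d (c z11 (a z10 z11)) z11)) z11)) z11)))))) z11) _ _ (by decide +kernel)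

theorem okB815 : CKB ⟨9216, 12288, 5376, 5632⟩ ⟨7680, 9216, 4608, 5120⟩ :=
  ckB_sound (d (a (c z10 (b (d (a z10 (b (d (c (a z10 z11) (a (b (d (c z10 z14) (c z10 z14)) (d (c z10 z14) (c z10 z14))) (b z15 (d z15 (c z11 z15))))) (c (a z10 z11) (a (b (d (c z10 z14) (c z10 (a z14 (b (d (c z11 z15) (c z11 z15)) (d (c z11 z15) (c z11 z15)))))) z10) z11))) (d (c z10 (a (b (d (c z10 z14) (c z10 z14)) (d (c z10 z14) (c z10 z14))) (b (d (c z11 z15) (c z11 z15)) (d (c z11 z15) (c z11 z15))))) (c z10 (a z10 (b z11 (d (c z11 z15) z11))))))) (a z10 (b (d (c (a z10 z11) (a z10 z11)) (c (a z10 z11) (a z10 z11))) (d (c z10 (a z10 z11)) (c z10 (a z10 z11)))))) (d (a z10 (b (d (c z10 (a (b (d (c z10 z14) (c z10 z14)) (d z14 (c z10 z14))) (b (d (c (a (b (d (c z11 z15) z11) z10) z11) z15) (c (a (b z11 z10) z11) z15)) (d (c (a z10 z11) z15) (c (a z10 z11) (a z14 z15)))))) (c z10 (a z10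 (b (d (c z11 (a (b (d z15 (c (a z14 z15) z15)) z14) z15)) (c z11 (a (b (d (c z11 z15) (c z11 z15)) (d z14 (c z10 z14))) z15))) (d (c (a z10 z11) (a z14 z15)) (c (a z10 z11) (a z14 z15))))))) (d (c z10 (a (b (d z14 (c z10 z14)) (d z14 (c z10 z14))) (b (d (c z10 z14) (c z10 z14)) (d (c z10 z14) (c z10 z14))))) (c z10 (a z10 (b (d (c z10 z14) z10) z10)))))) (a z10 (b (d (c z10 (a z10 (b (d (c z11 (a (b (d (c z11 z15) z11) z10) z11)) (c z11 (a (b z11 z10) z11))) (d (c (a z10 z11) (a z10 z11)) (c (a z10 z11) (a z10 z11)))))) z10) z10))))) z11) (a (c z10 (b (d (a z10 (b (d (c (a z10 z11) (a z10 z11)) (c (a z10 z11) (a z10 z11))) (d (c z10 (a z10 z11)) z10))) z10) z10)) z11)) _ _ (by decide +kernel)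

theorem okB816 : CKB ⟨9216, 12288, 5632, 6144⟩ ⟨6144, 7680, 4096, 4608⟩ :=
  ckB_sound (b (d (a z2 (c z3 (b z3 (d (a (c z3 (b z3 (d (a z2 z3) (a z2 z3)))) z3) z3)))) (a z2 z3)) z2) _ _ (by decide +kernel)

theorem okB817 : CKB ⟨9216, 12288, 5632, 5888⟩ ⟨7680, 9216, 4096, 4608⟩ :=
  ckB_sound (d (a (c z2 z6) (c (b (d (a (c z3 (b z3 (d (a (c z3 z7) z7) (a (c z3 (b (d z7 (a (b (c z3 z7) (c z3 z7)) z7)) (d (a z6 z7) (a z6 z7)))) z3)))) z3) (a (c z3 (b z3 (d (a (c z3 (b z3 (d (a z2 z3) z3))) z3) z3))) z3)) (d (a (c (b (d (a z2 z3) (a z2 z3)) (d (a z2 z3) (a z2 z3))) (b (d (a (c z2 z6) z7) (a z2 z3)) (d (a (c z2 z6) (c z3 z7)) (a z2 z3)))) z3) (a (c (b z3 (d (a z2 z3) (a z2 z3))) (b (d (a z2 z3) (a z2 z3)) (d (a z2 z3) (a z2 z3)))) z3))) (b (d z7 (a (b z7 (d z7 (c (a (b (d z7 (c (a (b (d z7 (c z3 z7)) (d (c z3 z7) (c z3 z7))) z7) z7)) (d (c (a z6 z7) z7) (c (a z6 z7) z7)))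 z7) z7))) z7)) (d (a (b z7 (d z7 (c (a z6 z7) z7))) z7) (a (b (d (c (a z6 z7) z7) (c (a z6 z7) z7)) (d (c (a z6 z7) z7) (c (a z6 z7) z7))) z7))))) (a (c z2 (b (d (a z6 (b (d (c (a z6 (b (d (c z2 z6) (c z2 z6)) (d z6 (c z2 z6)))) z6) (c z2 z6)) (d (c (a z6 (b (d z6 (c z2 z6)) (d z6 (c z2 z6)))) z6) (c z2 z6)))) (a z10 (b (d (c z2 z14) (c z10 z14)) (d (c z2 z14) z10)))) (d (a z6 (b (d z6 (c z2 z6)) (d z6 (c z2 z6)))) z10))) (c (b z3 (d (a (c (b z3 (d (a z2 z3) (a z2 z3))) (b (d (a z2 z3) (a z2 z3)) (d (a z2 z3) (a z2 z3)))) z3) (a (c (b z3 (d (a z2 z3) (a z2 z3))) (b (d (a z2 z3) (a z2 z3)) (d (a z2 z3) (a z2 z3)))) z3))) (b (d (a (b (d (c (a (b (d z7 (c z3 z7)) (d (c z3 z7) (c z3 z7))) z7) z7) (c z3 z7)) (d (c (a (b (d (c z3 z7) (c z3 z7)) (d (c (a z2 z3) z7) (c (a z2 z3) z7))) z7) z7) (c (a (b (d (c z3 z7) z3) (d (c z3 (a z6 z7)) (c z3 (a z6 z7)))) z3) z7))) z7) (a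 (b (d (c z3 z15) (c z11 z15)) (d (c (a (b z3 (d (c z3 (a z2 z3)) (c z3 (a z10 z11)))) z3) z15) (c (a (b z11 (d (c z11 (a z10 z11)) z11)) z11) (a (b (d z15 (c (a (b (d z15 (c z11 z15)) (d (c z11 z15) (c z11 z15))) z15) z15)) (d (c (a z14 z15) z15) (c (a z14 z15) z15))) z15)))) z11)) (d (a (b (d (c (a (b (d (c z2 z6) (c z2 z6)) (d (c z2 z6) (c z2 z6))) z7) z7) (c (a z2 z3) z7)) (d (c (a (b (d z6 (c z2 z6)) (d z6 (c z2 z6))) (b (d z7 (c z3 z7)) (d (c z3 z7) (c z3 z7)))) z7) (c (a z2 z3) (a z6 z7)))) z7) (a (b (d (c (a z2 z3) (a z14 z15)) (c (a z10 z11) (a z14 z15))) (d (c (a z2 z3) (a z14 z15)) (c (a z10 z11) (a z14 z15)))) z11)))))) _ _ (by decide +kernel)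

theorem okB818 : CKB ⟨9216, 12288, 5888, 6144⟩ ⟨7680, 9216, 4096, 4608⟩ :=
  ckB_sound (d (a (c z2 z6) (c (b (d (a z2 z3) (a z2 z3)) (d (a z2 (c z3 (b z3 (d (a (c z3 z7) z7) z3)))) (a z2 z3))) (b (d (a z6 z7) (a z6 z7)) (d z6 (a z6 (b z7 (d z7 (c (a (b (d z7 (c (a z6 z7) z7)) (d (c (a z6 z7) z7) (c (a z6 z7) z7))) z7) z7)))))))) (a z2 (c (b (d (a z2 z3) (a z2 z3)) z2) (b (d (a (b (d (c (a (b (d z6 (c z2 z6)) z6) (b (d (c z3 z7) (c z3 z7)) (d (c z3 z7) (c z3 z7)))) z6) (c z2 z6)) (d (c (a z6 (b (d z6 (c z2 z6)) (d z6 (c z2 z6)))) z6) (c z2 z6))) (b z7 (d z7 (c z3 z7)))) (a (b (d (c z2 z14) (c z10 (a z14 (b (d z15 (c (a (b z15 z14) z15) z15)) (d (c (a z14 z15) z15) (c (a z14 z15) z15)))))) (d (c z2 z14) z10)) z11)) (d (a (b (d (c (a z6 (b (d z6 (c z2 z6)) z6)) z6) (c z2 z6)) (d z6 (c z2 z6))) (b (d (c (a (b z7 (d z7 (c z3 z7))) z7) z7) (c z3 z7)) (d (c (a (b (d (c z3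 z7) (c z3 z7)) (d (c z3 z7) (c z3 z7))) z7) z7) (c (a (b z3 (d (c z3 (a z6 z7)) (c z3 (a z6 z7)))) z3) z7)))) (a z10 (b (d (c z3 z15) z11) (d (c z3 z15) (c z11 (a (b (d z15 (c (a z14 z15) z15)) (d (c (a z14 z15) z15) (c (a z14 z15) z15))) z15)))))))))) _ _ (by decide +kernel)

theorem okB819 : CKB ⟨9216, 12288, 5632, 6144⟩ ⟨6144, 9216, 4608, 5120⟩ :=
  ckB_sound (c (b (d (a z2 z3) (a z10 z11)) z2) (b (d (a z10 (c (b z11 (d (a (c z11 (b z11 (d (a z10 z11) (a z10 z11)))) z11) (a (c z11 (b z11 (d (a z10 z11) (a z10 z11)))) z11))) (b (d (a (b (d (c z11 (a (b (d z15 (c z11 z15)) (d (c z11 z15) (c z11 z15))) z15)) z11) (d (c z11 (a (b (d (c z11 z15) (c z11 z15)) (d (c (a z10 z11) z15) (c (a z10 z11) (a z14 z15)))) z15)) (c z11 (a (b (d (c z11 (a (b z15 (d z15 (c (a z14 z15) z15))) z15)) (c z11 (a (b (d (c z11 z15) (c z11 z15)) (d (c z11 z15) (c z11 z15))) z15))) (d (c (a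 z10 z11) (a z14 z15)) (c (a z10 z11) (a z14 z15)))) z11)))) z11) (a (b z11 (d (c z11 (a (b z11 (d (c z11 (a z10 z11)) (c z11 (a z10 z11)))) z11)) (c z11 (a (b z11 (d (c z11 (a z10 z11)) (c z11 (a z10 z11)))) z11)))) z11)) (d (a (b (d (c (a z10 z11) (a (b (d (c z10 z14) (c z10 z14)) (d (c z10 z14) (c z10 z14))) z15)) (c (a z10 z11) (a z10 z11))) (d (c (a z10 z11) (a (b (d (c z10 z14) (c z10 z14)) (d z14 (c z10 z14))) (b (d z15 (c z11 z15)) (d (c z11 z15) (c z11 z15))))) (c (a z10 z11) (a z10 z11)))) z11) (a (b (d (c (a z10 z11) (a z10 z11)) (c (a z10 z11) (a z10 z11))) (d (c (a z10 z11) (a z10 z11)) (c (a z10 z11) (a z10 z11)))) z11))))) (a z10 (c (b z11 (d (a (c z11 (b z11 (d (a z10 z11) z11))) z11) z11)) (b z11 (d (a (b (d (c z11 (a z10 z11)) (c z11 (a z10 z11))) (d (c (a z10 z11) (a z10 z11)) (c (a z10 z11) (a z10 z11)))) z11) (a (b (d (c z11 (a z10 z11)) (c z11 (a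 z10 z11))) (d (c (a z10 z11) (a z10 z11)) (c (a z10 z11) (a z10 z11)))) z11)))))) (d (a z10 (c (b (d (a z10 z11) (a z10 z11)) z10) (b (d (a (b (d (c z10 (a (b (d z14 (c z10 z14)) z14) (b (d (c z11 z15) (c z11 z15)) (d (c (a z10 z11) z15) (c (a z10 z11) z15))))) z10) z10) z11) (a z10 z11)) (d (a z10 (b z11 (d (c z11 (a (b (d (c z11 z15) (c z11 z15)) (d (c (a z10 z11) z15) (c z11 z15))) z15)) (c z11 (a (b z11 (d (c z11 (a z14 z15)) (c z11 (a z14 z15)))) z11))))) (a z10 (b z11 (d (c z11 (a (b z11 (d (c z11 (a z10 z11)) z11)) z11)) z11))))))) (a z10 (c (b (d (a z10 z11) (a z10 z11)) z10) (b (d (a z10 z11) (a z10 z11)) (d (a z10 z11) z10))))))) _ _ (by decide +kernel)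

theorem okB820 : CKB ⟨9216, 12288, 5120, 5632⟩ ⟨9216, 12288, 4096, 4608⟩ :=
  ckB_sound (b (d z7 (a z14 z15)) (d z7 (a z14 z15))) _ _ (by decide +kernel)

theorem okB821 : CKB ⟨9216, 12288, 5120, 5376⟩ ⟨9216, 12288, 4608, 4864⟩ :=
  ckB_sound (a (c (b (d (a z14 z15) (a (c (b (d z14 (a z14 (c (b (d (c (a z14 z15) z15) (c (a (b (d (c z10 z14) (c z10 z14)) (d z14 (c z10 z14))) (b z15 (d z15 (c z11 z15)))) (a z14 z15))) (d (c (a z14 (b z15 (d z15 (c (a (b (d z15 (c z11 z15)) z14) z15) z15)))) z14) (c (a (b (d z14 (c z10 z14)) (d z14 (c z10 z14))) (b (d (c z11 z15) (c z11 z15)) (d (c z11 z15) (c z11 z15)))) z14))) z14))) (d z14 (a z14 (c (b (d (c (a z14 (b (d (c (a z14 z15) z15) (c (a z14 z15) z15)) z14)) z14) (c (a z14 (b (d (c (a z10 z11) z15) (c (a z10 z11) (a z14 z15))) (d (c z10 z14) (c z10 z14)))) z14)) (d z14 (c (a z14 (b (d (c z10 z14) (c z10 z14)) (d (c z10 z14)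 (c z10 z14)))) z14))) z14)))) z14) z15)) (d (a z14 z15) (a (c (b (d z14 (a z14 (c (b (d z14 (c (a z14 (b (d z14 (c z10 z14)) (d z14 (c z10 z14)))) z14)) (d z14 (c (a z14 (b (d z14 (c z10 z14)) z14)) z14))) z14))) z14) z14) (c (b (d z15 (c (a (b (d z15 (c (a (b (d z15 (c z11 z15)) (d (c z11 z15) (c z11 z15))) z15) z15)) (d (c (a (b (d z15 (c (a (b (d z15 (c z11 z15)) z14) z15) z15)) (d (c (a z14 z15) z15) (c (a z14 z15) z15))) z15) z15) (c (a (b (d (c z11 z15) (c z11 z15)) (d (c (a z10 z11) z15) (c (a z10 z11) (a z14 z15)))) z15) z15))) z15) z15)) (d (c (a (b (d z15 (c (a z14 z15) z15)) (d (c (a z14 z15) z15) (c (a z14 z15) z15))) z15) z15) (c (a (b (d (c (a z14 z15) z15) (c (a (b (d (c z10 z14) (c z10 z14)) (d (c z10 z14) (c z10 z14))) z15) z15)) (d (c (a z14 z15) z15) (c (a (b (d z14 (c z10 z14)) (d z14 (c z10 z14))) (b z15 (d z15 (c z11 z15)))) z15))) z15) z15)))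 z15)))) z14) z15) _ _ (by decide +kernel)

theorem okB822 : CKB ⟨9216, 10752, 5120, 5248⟩ ⟨9216, 10752, 4864, 5120⟩ :=
  ckB_sound (d (a (c (b (d (a (c (b (d (a z14 (c z10 z14)) (a (c z10 z14) (c z10 z14))) (d (a z14 (c z10 z14)) (a (c z10 z14) (c z10 z14)))) z14) (c (b (d (c (a z10 z11) (a z14 z15)) (c (a z10 z11) (a z14 z15))) (d (c (a z10 (b z11 (d (c z11 (a (b z15 z14) z15)) z11))) z14) (c z10 z14))) z14)) (a (c z10 z14) (c (b (d (c (a z10 z11) (a z14 z15)) (c (a z10 z11) (a (b (d (c z10 z14) z10) (d (c z10 z14) z10)) (b (d z15 z11) (d (c z11 z15) z11))))) (d (c z10 (a z14 (b (d z15 (c z11 z15)) (d (c (a (b z15 z14) z15) z15) (c z11 z15))))) (c z10 (a (b (d (c z10 z14) z10) (d z14 z10)) (b (d (c z11 z15) z11) (d (c z11 z15) (c z11 z15))))))) z14))) (d (a (c (b (d z14 (a z14 (c z10 z14))) (d z14 (a z14 (c z10 z14)))) z14) (c (b (d (c z10 z14) (c z10 z14)) (d (c z10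 z14) (c z10 z14))) z14)) (a (c z10 z14) (c (b (d (c z10 (a z14 (b (d (c (a z14 z15) z15) (c (a z10 z11) z15)) (d z14 (c z10 z14))))) (c z10 (a (b (d z14 z10) (d z14 z10)) (b (d (c (a z10 z11) z15) (c (a z10 z11) (a z14 z15))) (d (c z10 z14) z10))))) z10) z14)))) z14) (c (b (d z15 (c z11 z15)) (d (c (a (b (d z15 (c z11 z15)) (d (c z11 z15) (c z11 z15))) z15) z15) (c z11 z15))) z15)) (a (c (b (d (a (c z10 z14) (c (b (d (c (a z10 z11) (a z10 z11)) (c (a z10 z11) (a z10 z11))) (d (c z10 (a z10 z11)) z10)) (b (d (a z14 z15) (a z14 z15)) (d z14 (a z14 (c (b z15 (d z15 (c (a (b z15 z14) z15) z15))) z15)))))) (a z10 (c z10 (b (d (a (c (b (d z14 (a z14 (c z10 z14))) (d z14 (a z14 (c z10 z14)))) z14) (c (b z15 (d z15 (c z11 z15))) z15)) (a (c z10 z14) (c z11 z15))) (d (a z14 (c (b (d (c (a (b z15 (d z15 z11)) z15) z15) (c z11 z15)) (d (c (a (b (d (c z11 z15) z11) z14) z15) z15)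 (c z11 z15))) z15)) (a (c z10 z14) (c (b z11 (d (c z11 z15) z11)) z15))))))) (d (a (c z10 z14) (c z10 z14)) (a z10 (c z10 (b (d (a z14 (c (b (d (c (a z14 z15) z15) (c (a z10 z11) z15)) (d (c (a z14 z15) z14) (c z10 z14))) z15)) (a (c z10 z14) (c (b (d (c (a z10 z11) (a z14 z15)) (c z11 (a z14 z15))) z10) z15))) (d (a z14 (c (b (d z14 (c z10 z14)) (d z14 (c z10 z14))) z14)) (a (c z10 z14) (c z10 z14)))))))) z14) (c (b z11 (d (c z11 z15) (c z11 (a (b z15 (d z15 (c z11 z15))) z15)))) z15))) _ _ (by decide +kernel)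

theorem okB823 : CKB ⟨9216, 10752, 5248, 5376⟩ ⟨9216, 10752, 4864, 4992⟩ :=
  ckB_sound (a (c (b (d (a (c (b (d z14 (a z14 (c z10 z14))) z14) z14) (c (b (d (c z10 z14) (c z10 z14)) (d (c z10 z14) (c z10 z14))) z14)) (a (c z10 z14) (c z10 z14))) (d (a z14 (c (b (d (c z10 z14) (c z10 z14)) (d (c z10 z14) (c z10 z14))) z14)) (a (c z10 z14) (c z10 z14)))) z14) (c (b (d (c (a (b (d (c z11 z15) (c z11 z15)) (d (c (a (b (d (c z11 (a (b z15 z14) z15)) z11) (d (c z11 (a z14 z15)) (c z11 (a z14 z15)))) z11) z15) (c (a (b z11 (d (c z11 (a z10 z11)) (c z11 (a z10 z11)))) z11) (a (b z15 (d z15 (c (a z14 z15) z15))) z15)))) z15) z15) (c (a (b (d (c z11 (a (b z15 (d z15 (c z11 z15))) z15)) z11) (d (c z11 (a (b (d (c (a (b z15 z14) z15) z15) (c z11 z15)) (d (c (a z14 z15) z15) (c (a z10 z11) z15))) z15)) (c z11 (a (b (d (c z11 z15) (c z11 z15)) (d (c (a z10 z11) z15) (c (a z10 z11)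 (a z14 z15)))) z15)))) z11) z15)) (d (c (a (b (d (c (a z10 z11) (a z14 z15)) (c (a z10 z11) (a z14 z15))) (d (c (a z10 z11) (a z14 z15)) (c (a z10 z11) (a z14 z15)))) z15) z15) (c (a (b (d (c (a z10 z11) (a (b (d z14 (c z10 z14)) z14) z15)) (c (a z10 z11) (a (b (d (c z10 z14) z10) (d (c z10 z14) z10)) z15))) (d (c (a z10 z11) (a z14 z15)) (c (a z10 z11) (a (b (d (c z10 z14) z10) (d (c z10 z14) z10)) (b (d z15 z11) (d (c z11 z15) z11)))))) z11) (a (b z15 (d z15 (c (a z14 z15) z15))) z15)))) z15)) _ _ (by decide +kernel)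

theorem okB824 : CKB ⟨9216, 10752, 5248, 5376⟩ ⟨9216, 10752, 4992, 5120⟩ :=
  ckB_sound (a (c (b (d (a (c z10 z14) (c z10 z14)) (a z10 (c z10 (b (d (a z14 (c (b (d z14 (c z10 z14)) z14) z14)) (a z14 (c z10 z14))) (d z14 (a z14 (c z10 z14))))))) (d (a (c z10 z14) (c z10 z14)) (a z10 (c z10 (b (d z14 (a z14 (c z10 z14))) (d z14 (a z14 (c z10 z14)))))))) z14) (c (b (d (c (a (b z11 (d (c z11 (a (b z11 (d (c z11 (a z14 z15)) (c z11 (a z10 z11)))) z11)) (c z11 (a (b z11 (d (c z11 (a z10 z11)) z11)) z11)))) z11) (a (b z15 (d z15 (c (a (b (d z15 (c (a (b z15 z14) z15) z15)) (d (c (a z14 z15) z15) (c (a z14 z15) z15))) z15) z15))) z15)) (c z11 (a (b (d (c (a (b (d z15 (c z11 z15)) (d (c (a (b z15 (d z15 z11)) z15) z15) (c z11 z15))) z15) z15) (c z11 z15)) (d (c (a (b (d (c (a (b (d (c z11 z15) z11) z14) z15) z15) (c z11 z15)) (d (c (a z14 z15) z15) (c (a z10 z11) z15))) z15)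 z15) (c (a (b (d (c z11 z15) z11) (d (c (a z10 z11) (a z14 z15)) (c z11 (a z14 z15)))) z11) z15))) z15))) (d (c (a (b (d (c (a z10 z11) (a z10 z11)) (c (a z10 z11) (a z10 z11))) (d (c (a z10 z11) (a z10 z11)) (c (a z10 z11) (a z10 z11)))) z11) (a (b (d (c (a z14 z15) z15) (c (a z14 z15) z15)) (d (c (a z14 z15) z15) (c (a z14 z15) z15))) z15)) (c (a (b (d (c z11 (a z10 z11)) (c z11 (a z10 z11))) (d (c (a z10 z11) (a z10 z11)) (c (a z10 z11) (a z10 z11)))) z11) (a (b (d (c (a (b (d z14 (c z10 z14)) (d z14 (c z10 z14))) z15) z15) (c (a z10 z11) z15)) (d (c (a (b (d z14 (c z10 z14)) z14) (b z15 (d z15 (c z11 z15)))) z15) (c (a z10 z11) (a z14 z15)))) z15)))) z15)) _ _ (by decide +kernel)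

end Vale.Agent.Lib.P154Q5
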