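import Vale.Agent.Lib.P154Q5.CkBDefs

namespace Vale.Agent.Lib.P154Q5

set_option maxRecDepth 100000
set_option exponentiation.threshold 1000

open Tr

theorem okB825 : CKB ⟨9216, 10752, 5120, 5376⟩ ⟨10752, 12288, 4864, 5120⟩ :=
  ckB_sound z14 _ _ (by decide +kernel)

theorem okB826 : CKB ⟨10752, 12288, 5120, 5376⟩ ⟨9216, 12288, 4864, 5120⟩ :=
  ckB_sound z15 _ _ (by decide +kernel)

theorem okB827 : CKB ⟨9216, 12288, 5376, 5632⟩ ⟨9216, 12288, 4608, 4864⟩ :=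
  ckB_sound (a (c (b (d z14 (a z14 (c (b (d (c (a z14 z15) z15) (c (a (b (d (c (a z14 (b z15 (d z15 (c (a z14 z15) z15)))) z14) (c (a (b (d z14 (c z10 z14)) z14) (b (d (c z11 z15) (c z11 z15)) (d (c z11 z15) (c z11 z15)))) z14)) (d z14 (c (a z14 (b (d (c (a z10 z11) z15) (c (a z10 z11) (a z14 z15))) (d (c z10 z14) (c z10 z14)))) z14))) z15) z15)) (d (c (a z14 z15) z14) (c (a (b (d z14 (c (a z14 (b (d z14 (c z10 z14)) (d z14 (c z10 z14)))) z14)) z14) (b z15 (d z15 (c (a (b (d z15 (c z11 z15)) (d (c z11 z15) (c z11 z15))) z15) z15)))) z14))) z15))) (d z14 (a z14 (c (b (d z14 (c (a z14 (b (d (c (a (b (d z15 (c (a z14 z15) z15)) z14) z15) z15) (c (a (b (d (c z11 z15) (c z11 z15)) (d z14 (c z10 z14))) z15) z15)) (d (c (a z14 z15) z15) (c (a (b (d z14 (c z10 z14)) (d z14 (c z10 z14))) z15) z15)))) z14)) (d z14 (c (a z14 (b (d z14 (c (a z14 (b (d z15 (c z11 z15)) (d (c z11 z15) (c z11 z15))))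 z14)) (d z14 (c (a z14 (b (d (c z11 z15) (c z11 z15)) (d z14 (c z10 z14)))) z14)))) z14))) z14)))) z14) z15) _ _ (by decide +kernel)

theorem okB828 : CKB ⟨9216, 10752, 5376, 5504⟩ ⟨9216, 10752, 4864, 5120⟩ :=
  ckB_sound (d (a (c (b (d (a z14 (c (b (d z14 (c z10 z14)) (d z14 (c z10 z14))) z14)) (a (c z10 z14) (c z10 z14))) (d (a z14 (c (b (d z14 (c z10 z14)) z14) z14)) (a (c z10 z14) (c z10 z14)))) z14) (c (b (d (c (a (b (d (c z10 z14) (c z10 z14)) (d (c z10 z14) (c z10 z14))) (b z15 (d z15 (c z11 z15)))) z15) (c (a (b (d (c z10 (a z14 (b (d z15 (c z11 z15)) (d (c (a z14 z15) z15) (c z11 z15))))) (c z10 (a (b (d z14 z10) (d z14 z10)) (b (d (c z11 z15) z11) (d (c z11 z15) (c z11 z15)))))) z10) z11) (a z14 z15))) (d (c (a (b (d (c z10 z14) (c z10 z14)) (d (c z10 z14) (c z10 z14))) (b (d (c z11 z15) (c z11 z15)) (d (c z11 z15) (c z11 z15)))) z14) (c (a z10 (b z11 (d (c z11 (a (b z15 (d z15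 (c z11 z15))) z15)) z11))) z14))) z15)) (a (c (b (d (a (c z10 z14) (c z10 z14)) z10) z10) z14) (c (b (d (c (a z10 z11) (a z14 z15)) (c (a z10 z11) (a (b (d (c (a z14 (b (d (c (a (b z15 (d z15 z11)) z15) z15) (c z11 z15)) (d (c (a z14 z15) z15) (c z11 z15)))) z14) (c z10 z14)) (d (c (a z14 (b (d (c (a z14 z15) z15) (c (a z10 z11) z15)) (d z14 (c z10 z14)))) z14) (c z10 z14))) z15))) (d (c (a z10 z11) (a z14 z15)) (c (a z10 z11) (a (b (d (c (a z14 (b (d z14 (c z10 z14)) z14)) z14) (c z10 z14)) (d z14 (c z10 z14))) (b (d z15 (c z11 z15)) (d (c (a (b (d z15 (c z11 z15)) (d (c (a (b z15 z14) z15) z15) (c z11 z15))) z15) z15) (c z11 z15))))))) (b z15 z14)))) _ _ (by decide +kernel)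

theorem okB829 : CKB ⟨9216, 10752, 5504, 5632⟩ ⟨9216, 10752, 4864, 5120⟩ :=
  ckB_sound (d (a (c (b (d z14 (a (c z10 z14) (c z10 z14))) (d z14 (a z14 (c z10 z14)))) z14) (c (b (d (c (a (b (d (c z10 z14) (c z10 z14)) (d (c z10 z14) (c z10 z14))) (b (d (c (a (b (d (c z11 (a z14 z15)) z11) z10) z11) z15) (c (a (b z11 z10) z11) (a (b z15 z14) z15))) (d (c (a z10 z11) (a z14 z15)) (c (a z10 z11) (a z14 z15))))) z14) (c (a z10 (b (d (c (a (b z11 z10) z11) (a (b (d (c (a z14 z15) z15) (c z11 z15)) z14) z15)) (c z11 (a (b (d (c z11 z15) (c z11 z15)) (d (c z10 z14) z10)) z15))) (d (c (a z10 z11) (a z14 z15)) (c (a z10 z11) (a (b (d (c z10 z14) z10) (d z14 z10)) z15))))) z14)) (d (c (a (b (d z14 (c z10 z14)) (d z14 (c z10 z14))) (b (d (c z10 z14) (c z10 z14)) (d (c z10 z14) (c z10 z14)))) z14) (c (a z10 (b (d (c z10 (a z14 z15)) z10) z10)) z14))) z14)) (a (c z10 z14) (c (b (d (c (a z10 (b (d (c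 z11 (a (b (d (c z11 (a z14 z15)) z11) z10) z11)) (c z11 (a (b z11 z10) z11))) (d (c (a z10 z11) (a z10 z11)) (c (a z10 z11) (a z10 z11))))) (a z14 (b (d z15 (c (a (b (d z15 (c (a z14 z15) z15)) z14) z15) z15)) (d (c (a z14 z15) z15) (c (a z14 z15) z15))))) (c z10 (a (b (d z14 (c z10 z14)) z14) (b (d (c (a (b (d (c (a z14 z15) z15) (c z11 z15)) (d z14 (c z10 z14))) z15) z15) (c (a (b (d (c z11 z15) (c z11 (a z14 z15))) z10) z11) z15)) (d (c (a z14 z15) z15) (c (a z10 z11) (a z14 z15))))))) (d (c z10 z14) (c z10 (a z14 (b (d (c (a z14 (b z15 (d z15 (c z11 z15)))) z14) (c z10 z14)) (d (c (a z14 (b (d (c (a z14 z15) z15) (c z11 z15)) (d z14 (c z10 z14)))) z14) (c z10 z14))))))) z14))) _ _ (by decide +kernel)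

theorem okB830 : CKB ⟨9216, 10752, 5376, 5632⟩ ⟨10752, 12288, 4864, 5120⟩ :=
  ckB_sound z14 _ _ (by decide +kernel)

theorem okB831 : CKB ⟨10752, 12288, 5376, 5632⟩ ⟨9216, 12288, 4864, 5120⟩ :=
  ckB_sound (c (b (d z15 (c z11 z15)) (d (c (a (b z15 (d (c (a (b z15 (d z15 (c z11 z15))) z15) z15) (c z11 z15))) z15) z15) (c z11 z15))) z15) _ _ (by decide +kernel)

theorem okB832 : CKB ⟨9216, 12288, 5632, 6144⟩ ⟨9216, 12288, 4096, 4608⟩ :=
  ckB_sound (b (d z6 (a z14 z15)) z14) _ _ (by decide +kernel)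

theorem okB833 : CKB ⟨9216, 12288, 5632, 5888⟩ ⟨9216, 12288, 4608, 4864⟩ :=
  ckB_sound (a (c (b (d z14 (a z14 (c (b (d z14 (c (a z14 (b (d z14 (c (a z14 (b (d z14 (c z10 z14)) z14)) z14)) z14)) z14)) z14) z14))) z14) z14) (c (b (d z15 (c (a (b (d z15 (c (a (b z15 (d z15 (c (a (b z15 (d z15 (c z11 z15))) z15) z15))) z15) z15)) (d (c (a (b z15 (d z15 (c (a z14 z15) z15))) z15) z15) (c (a (b (d (c (a (b z15 (d z15 (c (a z14 z15) z15))) z15) z15) (c (a (b (d (c z11 z15) (c z11 z15)) (d (c z11 z15) (c z11 z15))) z15) z15)) (d (c (a z14 z15) z15) (c (a z14 z15) z15))) z15) z15))) z15) z15)) (d (c (a (b (d z15 (c (a z14 z15) z15)) (d z15 (c (a z14 z15) z15))) z15) z15) (c (a (b (d (c (a z14 z15) z15) (c (a (b (d z14 (c (a z14 (b z15 (d z15 (c z11 z15)))) z14)) z14) z15) z15)) (d (c (a z14 z15) z15) (c (a z14 z15) z15))) z15) z15))) z15)) _ _ (by decide +kernel)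

theorem okB834 : CKB ⟨9216, 12288, 5632, 5888⟩ ⟨9216, 12288, 4864, 5120⟩ :=
  ckB_sound (a (c (b (d (a (c (b (d z14 (a z14 (c z10 z14))) z14) z14) (c (b (d (c (a (b (d z14 (c z10 z14)) z14) (b (d (c z10 z14) (c z10 z14)) (d (c z10 z14) (c z10 z14)))) z14) (c z10 z14)) (d (c (a z14 (b (d (c z10 z14) (c z10 z14)) (d z14 (c z10 z14)))) z14) (c z10 z14))) z14)) (a (c z10 z14) (c (b (d (c z10 z14) (c z10 (a z14 (b (d z14 (c z10 z14)) (d z14 (c z10 z14)))))) (d (c z10 z14) z10)) z14))) (d (a z14 (c (b (d (c (a z14 (b (d z14 (c z10 z14)) (d z14 (c z10 z14)))) z14) (c z10 z14)) (d z14 (c z10 z14))) z14)) (a (c z10 z14) (c z10 z14)))) z14) (c (b (d (c (a (b (d (c (a (b (d (c z11 z15) (c z11 z15)) (d (c z11 z15) (c z11 z15))) z15) z15) (c z11 z15)) (d (c (a (b (d (c z11 z15) (c z11 z15)) (d (c (a z10 z11) z15) (c (a z10 z11) (a z14 z15)))) z15) z15) (c (a (b (d (c z11 (a (b (d z15 (c z11 z15))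 (d (c (a z14 z15) z15) (c z11 z15))) z15)) (c z11 (a (b (d (c z11 z15) z11) (d (c z11 z15) (c z11 z15))) z15))) (d (c (a z10 z11) (a z14 z15)) (c (a z10 z11) (a (b (d z14 z10) z14) z15)))) z11) z15))) z15) z15) (c (a (b (d (c z11 z15) (c z11 (a (b z15 (d (c (a (b z15 (d z15 (c z11 z15))) z15) z15) (c z11 z15))) z15))) (d (c (a (b z11 (d (c z11 (a z10 z11)) (c z11 (a z10 z11)))) z11) (a (b (d z15 (c (a (b z15 (d z15 (c (a z14 z15) z15))) z15) z15)) (d (c (a z14 z15) z15) (c (a z14 z15) z15))) z15)) (c (a (b z11 (d (c z11 (a z10 z11)) (c z11 (a z10 z11)))) z11) (a (b (d (c (a (b (d (c (a z14 z15) z15) (c z11 z15)) (d (c (a z14 z15) z15) (c z11 z15))) z15) z15) (c (a (b z11 (d (c z11 z15) z11)) z11) z15)) (d (c (a z14 z15) z15) (c (a z10 z11) z15))) z15)))) z11) z15)) (d (c (a (b (d (c (a (b (d (c z10 z14) (c z10 z14)) (d (c z10 z14) (c z10 z14))) z15) z15) (c (a z10 z11) (a z14 z15))) (d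 (c (a (b (d (c z10 z14) (c z10 z14)) (d (c z10 z14) (c z10 z14))) (b (d z15 (c z11 z15)) (d (c z11 z15) (c z11 z15)))) (a z14 z15)) (c (a z10 z11) (a z14 z15)))) z15) z15) (c (a (b (d (c (a z10 z11) (a z14 z15)) (c (a z10 z11) (a (b (d (c (a z14 z15) z14) (c z10 z14)) (d z14 (c z10 z14))) z15))) (d (c (a z10 z11) (a z14 z15)) (c (a z10 z11) (a (b (d z14 (c z10 z14)) z14) (b z15 (d z15 (c z11 z15))))))) z11) z15))) z15)) _ _ (by decide +kernel)

theorem okB835 : CKB ⟨9216, 12288, 5888, 6144⟩ ⟨9216, 12288, 4608, 5120⟩ :=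
  ckB_sound (d (a z14 (c (b (d (c (a z14 z15) z15) (c (a (b (d z14 (c (a z14 (b (d z15 (c (a (b (d z15 (c z11 z15)) z14) z15) z15)) (d (c (a z14 z15) z15) (c (a z14 z15) z15)))) z14)) z14) z15) z15)) (d z14 (c (a z14 (b z15 (d z15 (c (a (b (d z15 (c (a z14 z15) z15)) (d (c (a z14 z15) z15) (c (a z14 z15) z15))) z15) z15)))) z14))) z15)) (a (c (b (d (a z14 (c (b (d z14 (c z10 z14)) (d z14 (c z10 z14))) z14)) (a (c z10 z14) (c z10 z14))) (d z14 (a (c z10 z14) (c z10 z14)))) z14) (c (b (d (c (a (b (d (c (a (b (d z14 (c z10 z14)) (d z14 (c z10 z14))) (b (d (c z11 z15) (c z11 z15)) (d (c (a z10 z11) z15) (c (a z10 z11) (a z14 z15))))) z14) (c z10 z14)) (d (c (a z14 (b (d (c z10 z14) (c z10 z14)) (d (c z10 z14) (c z10 z14)))) z14) (c z10 z14))) (b z15 (d z15 (c z11 z15)))) z15) (c (a (b (d (c z10 z14) (c z10 (a z14 (b (d (c (a (b (d z15 (c z11 z15)) z14) z15) z15) (c z11 z15)) (d (c (a z14 z15)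 z15) (c (a z10 z11) z15)))))) (d (c z10 z14) z10)) z11) (a z14 z15))) (d (c (a (b (d (c (a z14 (b (d z14 (c z10 z14)) (d z14 (c z10 z14)))) z14) (c z10 z14)) (d z14 (c z10 z14))) (b (d (c (a (b (d z15 (c z11 z15)) (d (c z11 z15) (c z11 z15))) z15) z15) (c z11 z15)) (d (c (a (b (d (c z11 z15) (c z11 z15)) (d (c (a z10 z11) z15) (c z11 z15))) z15) z15) (c (a (b z11 (d (c z11 (a z14 z15)) (c z11 (a z14 z15)))) z11) z15)))) z14) (c (a z10 (b (d (c z11 z15) z11) (d (c (a (b z11 (d (c z11 (a z10 z11)) z11)) z11) (a (b z15 (d z15 (c (a z14 z15) z15))) z15)) (c z11 (a (b (d (c (a z14 z15) z15) (c z11 z15)) (d (c (a z14 z15) z15) (c (a z10 z11) z15))) z15))))) z14))) z15))) _ _ (by decide +kernel)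

theorem okB836 : CKB ⟨6144, 9216, 5120, 6144⟩ ⟨6144, 12288, 5120, 6144⟩ :=
  ckB_sound (c z10 (b (d (a (b (d (c z10 z14) (c z10 z14)) (d (c z10 z14) (c z10 z14))) (b (d (c (a z10 (b (d (c z10 z14) (c z10 z14)) (d (c z10 z14) z10))) z14) (c z10 z14)) (d (c (a z10 (b (d (c z10 z14) z10) z10)) z14) (c z10 z14)))) (a (b (d (c z10 z14) z10) (d (c z10 z14) z10)) (b (d (c z10 (a z14 (b (d z14 (c (b (d z14 (a (c z10 z14) (c z10 z14))) (d z14 (a z14 (c z10 z14)))) z14)) (d z14 (c (b (d z14 (a z14 (c z10 z14))) (d z14 (a z14 (c z10 z14)))) z14))))) (c z10 (a (b (d (c z10 z14) z10) (d (c z10 z14) z10)) (b (d (c z10 z14) z10) (d (c z10 z14) z10))))) (d (c z10 (a z14 (b (d z14 (c (b (d z14 (a z14 (c z10 z14))) z14) z14)) z14))) z10)))) (d (a (b (d (c z10 z14) (c z10 z14)) (d (c z10 z14) (c z10 z14))) (b (d (c z10 z14) (c z10 z14)) (d (c z10 z14) (c z10 z14)))) (a (b (d (c z10 z14) z10) (d (c z10 z14)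 z10)) (b (d (c z10 z14) z10) (d (c z10 z14) z10)))))) _ _ (by decide +kernel)

theorem okB837 : CKB ⟨9216, 12288, 5120, 6144⟩ ⟨6144, 9216, 5120, 6144⟩ :=
  ckB_sound (b (d (c (b (d (a z10 z11) (a z10 z11)) (d (a z10 z11) (a z10 z11))) (b (d (a (c z10 (b (d (a z10 z11) (a z10 z11)) (d (a z10 z11) z10))) z11) (a (c z10 (b (d (a z10 z11) (a z10 z11)) z10)) z11)) (d (a z10 z11) (a z10 z11)))) (c (b (d (a z10 z11) (a z10 z11)) (d (a z10 z11) (a z10 z11))) (b (d (a z10 z11) (a z10 z11)) (d (a z10 z11) (a z10 z11))))) (d (c (b (d (a z10 z11) (a z10 z11)) z10) (b (d (a z10 (c z11 (b z11 (d (a (b z11 (d (c (a z10 z11) (a z10 z11)) (c z11 (a z10 z11)))) z11) (a (b z11 (d (c z11 (a z10 z11)) (c z11 (a z10 z11)))) z11))))) (a z10 (c z11 (b z11 (d (a (b z11 (d (c z11 (a z10 z11)) z11)) z11) z11))))) (d (a z10 (c (b (d (a z10 z11) (a z10 z11)) z10) (b (d (a z10 z11) (a z10 z11)) z10))) z10))) (c (b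 (d (a z10 z11) (a z10 z11)) z10) (b (d (a z10 z11) (a z10 z11)) z10)))) _ _ (by decide +kernel)

theorem okB838 : CKB ⟨9216, 10752, 5120, 5248⟩ ⟨9216, 10752, 5120, 5376⟩ :=
  ckB_sound (d (a (c (b (d (a z10 (c z10 (b (d (a (c z10 z14) (c z11 z15)) (a z10 z11)) (d (a (c z10 z14) (c z11 z15)) (a z10 (c z11 (b z15 (d z15 (a (c (b (d z15 z11) z14) z15) z15))))))))) (a z10 (c z10 (b (d (a z10 z11) (a z10 z11)) (d (a z10 (c z11 (b (d (a (c z11 z15) z15) z11) (d (a (c z11 z15) z15) (a (c z11 z15) z11))))) z10))))) (d (a z10 (c z10 (b (d (a (c z10 z14) (c (b (d (c z11 (a z10 z11)) (c z11 (a z10 z11))) z10) (b z15 z14))) (a z10 (c (b z11 z10) (b (d (a z14 z15) (a z14 z15)) (d z14 (a z14 z15)))))) (d (a (c z10 z14) (c z10 z14)) z10)))) z10)) z14) (c z11 z15)) (a (c z10 (b (d (a z14 (c (b (d (a z14 z15) (a (c (b (d z14 (a z14 (c z10 z14))) (d z14 (a z14 (c z10 z14)))) z14) z15)) (d (a z14 z15) (a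 z14 (c (b (d z15 (a (c z11 z15) z15)) (d (a (c (b (d z15 z11) z14) z15) z15) (a (c z11 z15) z15))) z15)))) z14)) (a (c (b (d (a z14 (c z10 z14)) (a (c z10 z14) (c z10 z14))) (d z14 (a z14 (c z10 z14)))) z14) (c (b (d (a (c z10 z14) (c z11 z15)) (a (c z10 z14) (c z11 z15))) (d (a (c z10 z14) (c z11 z15)) (a (c z10 z14) (c z11 z15)))) z14))) (d (a z14 (c (b (d z14 (a z14 (c (b (d (a z14 z15) (a (c z10 z14) z15)) (d (a z14 z15) (a z14 (c z11 z15)))) z15))) (d z14 (a z14 (c (b (d z14 (a z14 (c z11 z15))) (d z14 (a z14 (c z10 z14)))) z14)))) z14)) (a (c (b (d z14 (a z14 (c z10 z14))) (d z14 (a z14 (c z10 z14)))) z14) (c (b (d (a (c z10 z14) (c (b (d (a z10 z11) (a z10 z11)) z10) z15)) (a (c z10 z14) (c (b (d (a z10 z11) z11) z10) (b (d z15 (a z14 z15)) z14)))) (d (a (c z10 z14) (c z10 z14)) (a (c z10 z14) (c z10 z14)))) z14))))) (c z11 (b z15 (d z15 (a (c (b (d z15 (a (c z11 z15) z15)) (d (a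 (c z11 z15) z15) (a (c z11 z15) z15))) z15) z15)))))) _ _ (by decide +kernel)

theorem okB839 : CKB ⟨9216, 10752, 5248, 5376⟩ ⟨9216, 10752, 5120, 5248⟩ :=
  ckB_sound (a (c z10 z14) (c (b (d (c z11 (a (b (d (c z11 z15) (c z11 z15)) (d (c (a (b z11 (d (c z11 (a z10 z11)) (c z11 (a z10 z11)))) z11) z15) (c z11 (a (b (d z15 (c (a (b (d z15 z11) z14) z15) z15)) (d (c (a z14 z15) z15) (c (a z14 z15) z15))) z15)))) z11)) (c z11 (a (b z11 (d (c z11 (a (b (d (c z11 z15) (c z11 z15)) (d (c (a z10 z11) z15) (c z11 (a z14 z15)))) z15)) (c z11 (a (b z11 (d (c z11 (a z14 z15)) (c z11 (a z10 z11)))) z11)))) z11))) (d (c (a (b (d (c z11 (a z10 z11)) z11) (d (c (a z10 z11) (a z10 z11)) (c z11 (a z10 z11)))) z11) (a (b (d (c (a z10 z11) (a z14 z15)) (c (a z10 z11) (a z14 z15))) (d (c (a z10 z11) (a z14 z15)) (c (a z10 z11) (a z14 z15)))) z11)) (c (a (b z11 (d (c z11 (a z10 z11)) (c z11 (a z10 z11)))) z11)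 (a (b (d (c (a z10 z11) (a (b (d (c z10 z14) z10) (d (c z10 z14) z10)) z15)) (c (a z10 z11) (a z10 z11))) (d (c (a z10 z11) (a (b (d (c z10 z14) z10) (d z14 z10)) (b z15 (d (c z11 z15) z11)))) (c (a z10 z11) (a z10 z11)))) z11)))) (b z15 (d z15 (a (c (b (d z15 (a z14 z15)) (d (a z14 z15) (a z14 z15))) z15) z15))))) _ _ (by decide +kernel)

end Vale.Agent.Lib.P154Q5
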