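import Vale.Agent.Lib.P154Q5.CkBDefs

namespace Vale.Agent.Lib.P154Q5

set_option maxRecDepth 100000
set_option exponentiation.threshold 1000

open Tr

theorem okB840 : CKB ⟨9216, 10752, 5248, 5376⟩ ⟨9216, 10752, 5248, 5376⟩ :=
  ckB_sound (a (c z10 (b (d (a z14 (c (b (d z14 (a z14 (c (b (d z14 (a z14 (c z10 z14))) z14) z14))) z14) z14)) (a z14 (c (b (d (a z14 (c z10 z14)) (a (c z10 z14) (c z10 z14))) (d (a z14 (c z10 z14)) (a (c z10 z14) (c z10 z14)))) z14))) (d z14 (a z14 (c (b (d (a z14 (c z10 z14)) (a (c z10 z14) (c z10 z14))) (d (a z14 (c z10 z14)) (a (c z10 z14) (c z10 z14)))) z14))))) (c (b (d (c z11 (a (b z11 (d (c z11 (a (b z11 (d (c z11 (a z10 z11)) z11)) z11)) z11)) z11)) z11) (d (c z11 (a (b (d (c z11 (a z10 z11)) (c z11 (a z10 z11))) (d (c (a z10 z11) (a z10 z11)) (c (a z10 z11) (a z10 z11)))) z11)) (c z11 (a (b (d (c z11 (a z10 z11)) (c z11 (a z10 z11))) (d (c (a z10 z11) (a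 z10 z11)) (c (a z10 z11) (a z10 z11)))) z11)))) (b (d (a (c (b (d z15 (a (c (b z15 (d z15 (a (c z11 z15) z15))) z15) z15)) (d (a (c (b z15 (d z15 (a z14 z15))) z15) z15) (a (c (b (d (a (c (b (d z15 z11) z14) z15) z15) (a (c z11 z15) z15)) (d (a z14 z15) (a (c z10 z14) z15))) z15) z15))) z15) z15) (a (c (b (d (a (c z11 z15) z15) (a (c z11 z15) z15)) (d (a (c (b z11 (d (a z10 z11) (a z10 z11))) z15) z15) (a (c (b z11 (d (a z10 z11) z11)) (b z15 (d z15 (a z14 z15)))) z15))) z15) z15)) (d (a (c (b (d (a z14 z15) (a (c (b (d z14 (a z14 (c z11 z15))) (d z14 (a z14 (c z11 z15)))) z14) z15)) (d (a z14 z15) (a (c (b (d z14 (a z14 (c z10 z14))) z14) z14) (c (b z15 (d z15 (c z11 z15))) z15)))) z15) z15) (a (c (b (d (a (c z10 z14) z15) (a (c z10 z14) (c z11 z15))) (d (a (c z10 z14) (c z11 z15)) (a (c z10 z14) (c z11 z15)))) z15) z15))))) _ _ (by decide +kernel)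

theorem okB841 : CKB ⟨9216, 10752, 5120, 5376⟩ ⟨10752, 12288, 5120, 5376⟩ :=
  ckB_sound z14 _ _ (by decide +kernel)

theorem okB842 : CKB ⟨10752, 12288, 5120, 5376⟩ ⟨9216, 12288, 5120, 5376⟩ :=
  ckB_sound (c z11 z15) _ _ (by decide +kernel)

theorem okB843 : CKB ⟨9216, 10752, 5120, 5248⟩ ⟨9216, 10752, 5376, 5632⟩ :=
  ckB_sound (d (a (c z10 (b (d (a (c z10 z14) (c (b (d (a z10 z11) (a z10 z11)) (d (a z10 (c z11 (b (d z15 (a (c z11 z15) z15)) (d (a (c (b z15 z14) z15) z15) (a (c z11 z15) z15))))) z10)) z14)) (a z10 (c z10 (b (d (a z14 z15) (a z14 z15)) (d z14 (a z14 (c (b z15 (d z15 (a (c (b z15 z14) z15) z15))) z15))))))) (d (a (c z10 z14) (c (b (d (a z10 (c (b z11 z10) (b (d (a z14 z15) (a z14 z15)) (d z14 (a z14 z15))))) z10) z10) z14)) (a z10 (c z10 z14))))) (c z11 (b (d (a (c z11 z15) z15) z11) (d (a (c z11 z15) z15) (a (c z11 z15) z11))))) (a (c z10 (b (d (a z10 (c z10 (b (d (a (c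 (b (d z14 z10) (d z14 z10)) z14) (c (b z15 (d z15 z11)) z15)) (a (c z10 z14) (c z11 z15))) (d (a (c (b (d z14 z10) z14) z14) (c (b (d (a (c z11 z15) z15) z11) (d (a (c z11 z15) z15) z11)) z15)) (a (c z10 z14) (c z11 z15)))))) (a z10 (c z10 (b (d (a z10 z11) (a z10 z11)) (d (a z10 (c z11 z15)) z10))))) (d (a z10 (c z10 (b (d (a z14 (c (b (d (a z14 z15) (a z10 z11)) (d (a z14 z15) z10)) z15)) (a (c z10 z14) (c (b z11 z10) z15))) (d (a z14 (c (b (d (a z14 (c z11 z15)) z10) (d z14 z10)) z14)) (a (c z10 z14) (c z10 z14)))))) z10))) z11)) _ _ (by decide +kernel)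

theorem okB844 : CKB ⟨9216, 10752, 5248, 5376⟩ ⟨9216, 10752, 5376, 5632⟩ :=
  ckB_sound (d (a (c z10 (b (d (a (c z10 z14) (c z10 z14)) (a z10 (c z10 z14))) (d (a (c z10 z14) (c z10 z14)) (a z10 (c z10 z14))))) (c (b z11 (d (c z11 (a (b z11 (d (c z11 (a z10 z11)) (c z11 (a z10 z11)))) z11)) (c z11 (a (b z11 (d (c z11 (a z10 z11)) z11)) z11)))) (b (d (a (c (b z11 (d (a (c z11 (b (d (a (c (b z15 z14) z15) z15) (a (c z11 z15) z15)) (d (a z14 z15) (a z14 z15)))) z11) (a (c z11 (b z11 (d (a (c z10 z14) z15) (a z10 z11)))) z11))) z15) z15) (a (c (b z11 (d (a (c z11 (b z11 (d (a z10 z11) z11))) z11) z11)) (b z15 (d z15 (a (c (b (d z15 (a (c (b z15 z14) z15) z15)) (d (a z14 z15) (a z14 z15))) z15) z15)))) z11)) (d (a (c (b (d (a z10 z11) (a z10 z11)) (d (a z10 z11) (a z10 z11))) (b z15 (d z15 (a z14 z15)))) (c z11 z15)) (a (c (b (d (a z10 z11) (a z10 z11)) (d (a z10 z11) (a z10 z11))) (b (d (a z14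 z15) (a z14 z15)) (d (a z14 z15) (a z14 z15)))) z11))))) (a z10 (c z11 (b (d (a (c z11 (b (d (a (c (b (d z15 z11) (d (a (c z11 z15) z15) z11)) z15) z15) (a (c z11 z15) z15)) (d (a (c (b (d (a (c z11 z15) z15) z11) (d (a z14 z15) (a z10 z11))) z15) z15) (a (c z11 z15) z15)))) z11) (a (c z11 (b z11 (d (a (c z11 (b z15 (d z15 (a z14 z15)))) z11) (a (c z11 (b (d (a (c z11 z15) z15) z11) (d (a z14 z15) z11))) z11)))) z11)) (d (a (c (b (d (a z10 z11) z11) (d (a z10 z11) (a z10 z11))) (b (d (a (c (b (d (a z14 z15) z10) (d z14 z10)) z14) z15) (a (c z10 z14) (c z11 z15))) (d (a (c (b (d z14 z10) (d z14 z10)) z14) (c (b z15 (d z15 z11)) z15)) (a (c z10 z14) (c z11 z15))))) z11) (a (c (b z11 (d (a z10 z11) (a z10 z11))) (b (d (a z10 z11) (a z10 z11)) (d (a z10 z11) (a z10 z11)))) z11)))))) _ _ (by decide +kernel)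

theorem okB845 : CKB ⟨9216, 10752, 5120, 5376⟩ ⟨10752, 12288, 5376, 5632⟩ :=
  ckB_sound (b (d (a z14 z15) (a z14 z15)) (d z14 (a z14 z15))) _ _ (by decide +kernel)

theorem okB846 : CKB ⟨10752, 12288, 5120, 5376⟩ ⟨9216, 12288, 5376, 5632⟩ :=
  ckB_sound (c z11 z15) _ _ (by decide +kernel)

theorem okB847 : CKB ⟨9216, 10752, 5376, 5504⟩ ⟨9216, 10752, 5120, 5376⟩ :=
  ckB_sound (d (a (c z10 z14) (c (b (d (c (a z10 z11) (a (b (d (c z10 z14) (c z10 (a z14 (b (d z15 (c (a (b z15 (d z15 z11)) z15) z15)) (d (c (a z14 z15) z15) (c (a z14 z15) z15)))))) (d (c z10 z14) z10)) z11)) (c (a z10 z11) (a (b (d (c z10 (a (b (d z14 z10) (d z14 z10)) (b (d (c z11 z15) z11) (d (c z11 z15) (c z11 z15))))) z10) z10) z11))) (d (c z10 (a z10 (b z11 (d (c z11 z15) (c z11 (a (b z15 (d z15 (c (a (b z15 z14) z15) z15))) z15)))))) (c z10 (a z10 z11)))) (b (d (a z14 z15) (a z14 z15)) (d z14 (a z14 z15))))) (a (c z10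 (b (d z14 (a z14 (c (b (d z14 (a z14 (c z10 z14))) (d z14 (a z14 (c z10 z14)))) z14))) (d z14 (a z14 (c (b (d z14 (a z14 (c z10 z14))) z14) z14))))) (c (b (d (c (a z10 z11) (a z10 z11)) (c (a z10 z11) (a z10 z11))) (d (c z10 (a z10 z11)) (c z10 (a z10 z11)))) (b (d (a (c (b (d z14 (a z14 (c (b (d (c (a (b z15 (d z15 z11)) z15) z15) (c z11 z15)) (d (c (a z14 z15) z15) (c z11 z15))) z15))) (d z14 (a z14 (c (b (d (c (a z14 z15) z15) (c (a z10 z11) z15)) (d z14 (c z10 z14))) z14)))) z14) z15) (a (c (b (d (a (c z10 z14) (c z11 z15)) (a (c z10 z14) (c z11 z15))) (d (a (c z10 z14) (c z10 z14)) (a (c z10 z14) (c z10 z14)))) z14) (c (b z15 (d z15 (c z11 z15))) z15))) (d (a (c (b (d z14 (a z14 (c (b (d z14 (c z10 z14)) z14) z14))) z14) z14) (c (b z15 (d z15 (c (a (b (d z15 (c z11 z15)) (d (c (a (b z15 z14) z15) z15) (c z11 z15))) z15) z15))) z15)) (a (c (b (d (a z14 (c z10 z14)) (a (c z10 z14) (c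 z10 z14))) (d (a z14 (c z10 z14)) (a (c z10 z14) (c z10 z14)))) z14) (c (b (d (c z11 z15) (c z11 z15)) (d (c z11 z15) (c z11 z15))) z15))))))) _ _ (by decide +kernel)

theorem okB848 : CKB ⟨9216, 10752, 5504, 5632⟩ ⟨9216, 10752, 5120, 5376⟩ :=
  ckB_sound (d (a (c z10 z14) (c (b (d (c z10 (a z10 (b (d (c (a (b z11 z10) z11) (a (b z15 z14) z15)) (c (a (b z11 z10) z11) (a (b (d (c (a z14 z15) z15) (c (a z14 z15) z15)) z14) z15))) (d (c (a z10 z11) (a z14 z15)) (c (a z10 z11) (a z14 z15)))))) (c z10 (a z10 (b (d (c z11 (a (b (d (c z11 z15) (c z11 z15)) (d (c z10 z14) z10)) z15)) (c z11 (a (b (d (c z11 (a z14 z15)) z11) z10) z11))) (d (c (a z10 z11) (a (b (d z14 z10) (d z14 z10)) z15)) (c (a z10 z11) (a z10 z11))))))) (d (c z10 (a z10 (b (d (c z10 z14) (c z10 (a z14 z15))) (d (c z10 z14) z10)))) z10)) z14)) (a (c z10 z14) (c z10 (b (d (a z14 (c (b (d (c (a (b (d z15 (c (a z14 z15) z15)) z14)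 z15) z15) (c (a (b (d (c (a z14 z15) z15) (c z11 z15)) (d z14 (c z10 z14))) z15) z15)) (d (c (a z14 z15) z15) (c (a z14 z15) z15))) z15)) (a (c (b (d (a z14 (c z10 z14)) (a (c z10 z14) (c z10 z14))) (d z14 (a z14 (c z10 z14)))) z14) (c (b (d (c (a (b (d (c z11 z15) z11) z10) z11) z15) (c (a (b z11 z10) z11) (a (b z15 z14) z15))) (d (c (a z10 z11) (a z14 z15)) (c (a z10 z11) (a z14 z15)))) z15))) (d (a z14 (c (b (d z14 (c (a z14 (b z15 (d z15 (c z11 z15)))) z14)) (d z14 (c (a z14 (b (d (c (a z14 z15) z15) (c z11 z15)) z14)) z14))) z14)) (a (c (b (d z14 (a z14 (c z10 z14))) (d z14 (a z14 (c z10 z14)))) z14) (c (b (d (c z10 z14) (c z10 z14)) (d (c z10 z14) (c z10 z14))) z14))))))) _ _ (by decide +kernel)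

theorem okB849 : CKB ⟨9216, 10752, 5376, 5632⟩ ⟨10752, 12288, 5120, 5376⟩ :=
  ckB_sound z14 _ _ (by decide +kernel)

theorem okB850 : CKB ⟨10752, 12288, 5376, 5632⟩ ⟨9216, 12288, 5120, 5376⟩ :=
  ckB_sound (c (b z11 (d (c z11 z15) (c z11 z15))) z15) _ _ (by decide +kernel)

theorem okB851 : CKB ⟨9216, 12288, 5376, 5632⟩ ⟨9216, 12288, 5376, 5632⟩ :=
  ckB_sound (a (c (b (d (a (c z10 (b (d (a (c z10 z14) (c z10 z14)) z10) (d (a (c z10 z14) (c z10 z14)) z10))) (c (b (d (c (a z10 z11) (a z10 z11)) (c (a z10 z11) (a z10 z11))) z10) (b (d (a (c (b (d (a z10 (c z11 (b (d z15 (a (c z11 z15) z15)) (d (a z14 z15) (a z14 z15))))) z10) z10) z14) (c z11 z15)) (a (c z10 z14) z11)) (d (a (c z10 z14) (c z11 z15)) (a (c z10 z14) (c z11 z15)))))) (a z10 (c (b (d (c z11 (a z10 z11)) (c z11 (a z10 z11))) z10) (b (d (a (c z10 (b (d (a z14 (c (b (d (a (c z11 z15) z15) z11) (d (a z14 z15) z11)) z15)) (a (c z10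 z14) (c z11 z15))) (d (a z14 (c (b (d (a z14 z15) (a z10 z11)) (d z14 z10)) z14)) (a (c z10 z14) (c z10 z14))))) z11) (a z10 z11)) (d (a z10 (c z11 (b (d z15 (a (c z11 z15) z15)) (d (a (c (b (d z15 z11) (d (a (c z11 z15) z15) z11)) z15) z15) (a (c z11 z15) z15))))) (a z10 z11)))))) (d (a z10 (c z10 (b (d (a (c z10 z14) (c (b (d (c z11 (a (b (d (c (a z14 z15) z15) (c z11 z15)) z14) z15)) (c z11 (a (b (d (c z11 z15) z11) z10) z11))) (d (c (a z10 z11) (a z14 z15)) (c (a z10 z11) (a z10 z11)))) z15)) (a (c z10 z14) (c (b (d (c z11 (a (b z11 z10) z11)) z11) (d (c (a z10 z11) (a z10 z11)) (c z11 (a z10 z11)))) (b (d z15 (a (c (b (d z15 (a z14 z15)) z14) z15) z15)) (d (a z14 z15) (a z14 z15)))))) (d (a (c z10 z14) (c z10 z14)) (a z10 (c z10 z14)))))) (a z10 (c z10 (b (d (a z10 (c (b z11 (d (c z11 (a z10 z11)) (c z11 (a z10 z11)))) (b (d (a (c (b (d (a z14 z15) z11) (d z14 z10)) z15) z15) (a (c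 (b z11 z10) z15) z15)) (d (a (c (b (d z14 z10) z14) z14) z15) (a (c z10 z14) (c z11 z15)))))) (a z10 (c z11 (b (d (a (c z11 (b (d z15 (a z14 z15)) z14)) z11) (a (c z11 (b (d (a z14 z15) z11) (d z14 z10))) z11)) (d (a z10 z11) (a z10 z11)))))) (d (a z10 (c z10 (b (d (a z14 (c (b (d z15 z11) (d (c z11 z15) z11)) z15)) (a (c z10 z14) (c z11 z15))) (d (a z14 (c (b (d (c z11 z15) z11) (d z14 z10)) z15)) (a (c z10 z14) (c z11 z15)))))) z10)))))) z14) (c z11 z15)) _ _ (by decide +kernel)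

theorem okB852 : CKB ⟨9216, 12288, 5120, 5376⟩ ⟨9216, 12288, 5632, 5888⟩ :=
  ckB_sound (a (c (b (d (a z10 z11) (a z10 z11)) (d (a z10 (c z11 (b z11 (d (a (c z11 (b (d (a z10 z11) (a z10 z11)) (d (a z10 z11) (a z10 z11)))) z11) (a (c z11 (b (d (a z10 z11) z11) (d (a z10 z11) (a z10 z11)))) z11))))) (a z10 (c z11 (b z11 (d (a (c z11 (b z11 (d (a z10 z11) z11))) z11) z11)))))) (b (d (a (c (b (d z14 (a z14 (c (b (d (a z14 z15) (a (c z10 z14) (c z11 z15))) (d (a z14 (c (b (d z15 (a (c z11 z15) z15)) (d (a (c z11 z15) z15) (a (c z11 z15) z15))) z15)) (a (c z10 z14) (c z11 z15)))) z14))) (d z14 (a z14 (c (b (d (a z14 (c (b (d (a z14 z15) (a z14 z15)) (d z14 (a z14 z15))) z15)) (a (c z10 z14) (c (b z11 z10) z15))) (d z14 (a z14 (c z10 z14)))) z14)))) z14) (c (b z15 (d z15 (a (c (b z15 (d z15 (a (c z11 z15) z15))) z15) z15))) z15)) (a (c (b (d (a (c z10 z14) (c (b (d (a z10 z11) (a z10 z11)) z10)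 z14)) (a (c z10 z14) (c z10 z14))) (d (a (c z10 z14) (c z10 z14)) (a (c z10 z14) (c z10 z14)))) z14) (c (b (d z15 (a (c z11 z15) z15)) (d (a (c z11 z15) z15) (a (c z11 z15) z15))) z15))) (d (a (c (b (d z14 (a z14 (c (b (d z14 (a z14 (c z10 z14))) (d z14 (a z14 (c z10 z14)))) z14))) z14) z14) (c (b (d (a (c (b z15 (d z15 (a (c (b z15 (d z15 (a z14 z15))) z15) z15))) z15) z15) (a (c (b (d (a (c (b z15 (d z15 (a (c z11 z15) z15))) z15) z15) (a (c z11 z15) z15)) (d (a (c (b (d (a (c z11 z15) z15) (a (c z11 z15) z15)) (d (a z14 z15) (a z14 z15))) z15) z15) (a (c z11 z15) z15))) z15) z15)) (d (a (c (b (d z15 (a z14 z15)) (d (a z14 z15) (a z14 z15))) z15) z15) (a (c (b (d (a z14 z15) (a (c z10 z14) z15)) (d (a z14 z15) (a (c z10 z14) (c z11 z15)))) z15) z15))) z15)) (a (c (b (d (a (c z10 z14) (c z10 z14)) (a (c z10 z14) (c z10 z14))) (d (a (c z10 z14) (c z10 z14)) (a (c z10 z14) (c z10 z14))))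 z14) (c (b (d (a (c (b z11 (d (a (c z11 z15) z11) z11)) z15) z15) (a (c z11 z15) z15)) (d (a (c (b (d (a z10 z11) (a z10 z11)) (d (a z10 z11) (a z10 z11))) z15) z15) (a (c (b (d (a z10 z11) z11) (d (a z10 z11) (a z10 z11))) (b (d z15 (a z14 z15)) (d (a z14 z15) (a z14 z15)))) (c z11 z15)))) z15))))) z11) _ _ (by decide +kernel)

theorem okB853 : CKB ⟨9216, 12288, 5120, 5376⟩ ⟨9216, 12288, 5888, 6144⟩ :=
  ckB_sound (a (c (b (d (a z10 z11) (a z10 z11)) z10) (b (d (a (c (b (d (a z10 (c z10 (b (d (a z14 z15) (a (c z10 z14) (c z11 z15))) (d (a z14 (c (b z15 (d z15 z11)) z15)) (a (c z10 z14) (c z11 z15)))))) z10) z10) z14) (c z11 z15)) (a (c z10 (b (d z14 (a z14 (c (b (d (a z14 z15) (a (c z10 z14) z15)) (d z14 (a z14 (c z11 z15)))) z14))) (d z14 (a z14 (c (b (d z14 (a z14 (c z11 z15))) (d z14 (a z14 (c z10 z14)))) z14))))) (c z11 z15))) (d (a (c z10 z14) (c (b (d (a (c z11 (b (d z15 (a (c z11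 z15) z15)) (d (a (c (b (d z15 z11) (d (a z14 z15) z11)) z15) z15) (a (c z11 z15) z15)))) z11) z11) (d (a (c (b z11 (d (a z10 z11) (a z10 z11))) (b (d (a z14 z15) (a (c z10 z14) z15)) (d (a z14 z15) (a (c z10 z14) (c z11 z15))))) z11) (a (c z11 (b (d (a z10 z11) (a z10 z11)) (d (a z10 z11) (a z10 z11)))) z11))) z15)) (a (c z10 z14) (c (b z11 (d (a (c z11 (b z11 (d (a z10 z11) (a z10 z11)))) z11) z11)) (b (d z15 (a (c (b (d z15 (a (c z11 z15) z15)) (d (a (c z11 z15) z15) (a (c z11 z15) z15))) z15) z15)) (d (a (c (b (d z15 (a z14 z15)) (d (a z14 z15) (a z14 z15))) z15) z15) (a (c (b (d (a z14 z15) (a (c z10 z14) z15)) (d (a z14 z15) (a z14 (c z11 z15)))) z15) z15)))))))) z11) _ _ (by decide +kernel)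

theorem okB854 : CKB ⟨9216, 12288, 5376, 5632⟩ ⟨9216, 12288, 5632, 6144⟩ :=
  ckB_sound (d (a (c (b (d (a z10 (c (b (d (c z11 (a z10 z11)) z11) z10) (b (d (a z10 z11) (a z10 z11)) (d (a z10 z11) z10)))) z10) z10) (b (d (a z14 (c (b (d (a z14 z15) (a (c (b (d (a z14 (c (b (d z15 (a (c z11 z15) z15)) (d (a z14 z15) (a z14 z15))) z15)) (a (c z10 z14) (c z11 z15))) (d z14 (a z14 (c z10 z14)))) z14) z15)) (d (a z14 z15) (a (c (b (d z14 (a z14 (c z10 z14))) (d z14 (a z14 (c z10 z14)))) z14) (c (b (d z15 (a (c z11 z15) z15)) (d (a (c (b z15 (d z15 (a (c z11 z15) z15))) z15) z15) (a (c z11 z15) z15))) z15)))) z15)) (a (c (b (d (a z14 (c z10 z14)) (a (c z10 z14) (c z10 z14))) (d (a z14 (c z10 z14)) (a (c z10 z14) (c z10 z14)))) z14) (c (b (d (a (c z10 z14) (c z11 z15)) (a (c z10 z14) (c z11 z15))) (d (a (c z10 z14) (c z11 z15)) (a (c z10 z14) (c z11 z15)))) z15))) (d (a z14 (c (b (d z14 (a z14 (c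 (b (d (a (c (b (d (a z14 z15) (a z14 z15)) z14) z15) z15) (a (c z11 z15) z15)) (d (a z14 z15) (a (c z10 z14) z15))) z15))) (d z14 (a z14 (c (b (d (a z14 z15) (a (c z10 z14) (c z11 z15))) (d z14 (a z14 (c z11 z15)))) z14)))) z14)) (a (c (b (d (a z14 (c z10 z14)) (a (c z10 z14) (c z10 z14))) (d z14 (a (c z10 z14) (c z10 z14)))) z14) (c (b (d (a (c z10 z14) (c (b (d (a (c z11 (b z15 z14)) z11) (a (c z11 (b (d (a z14 z15) (a z14 z15)) z14)) z11)) (d (a z10 z11) (a z10 z11))) z15)) (a (c z10 z14) (c (b z11 (d (a z10 z11) (a z10 z11))) (b z15 (d z15 (a z14 z15)))))) (d (a (c z10 z14) (c z10 z14)) (a (c z10 z14) (c z10 z14)))) z14))))) (c z11 (b z15 (d z15 (a (c (b z15 (d (a (c z11 z15) z15) (a (c z11 z15) z15))) z15) z15))))) (a (c z10 (b (d (a (c z10 z14) (c (b (d (a z10 z11) (a z10 z11)) (d (a z10 z11) (a z10 z11))) (b (d z15 (a z14 z15)) z14))) (a (c z10 z14) (c (b (d (a z10 z11) (a z10 z11))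 z10) (b (d (a z14 z15) (a (c (b (d z14 (a z14 (c z11 z15))) (d z14 (a z14 (c z10 z14)))) z14) z15)) (d (a z14 z15) (a z14 (c (b z15 (d z15 (a (c z11 z15) z15))) z15))))))) (d (a (c z10 z14) (c (b (d (a z10 (c z11 (b (d (a (c (b (d z15 z11) z14) z15) z15) (a (c z11 z15) z15)) (d (a z14 z15) (a (c z10 z14) z15))))) z10) z10) z14)) (a z10 (c z10 (b (d z14 (a z14 (c (b (d (a (c z11 z15) z15) (a (c z11 z15) z15)) (d (a z14 z15) (a z14 z15))) z15))) (d z14 (a z14 (c (b (d z14 (a z14 (c z11 z15))) (d z14 (a z14 (c z11 z15)))) z14))))))))) (c z11 (b (d (a (c z11 z15) z15) z11) (d (a (c z11 z15) z15) z11))))) _ _ (by decide +kernel)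

end Vale.Agent.Lib.P154Q5
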