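import Vale.Agent.Lib.P154Q5.CkBDefs

namespace Vale.Agent.Lib.P154Q5

set_option maxRecDepth 100000
set_option exponentiation.threshold 1000

open Tr

theorem okB855 : CKB ⟨9216, 12288, 5632, 5888⟩ ⟨9216, 12288, 5120, 5376⟩ :=
  ckB_sound (a (c (b (d (a (c z10 z14) (c z10 z14)) (a z10 (c z10 (b (d z14 (a z14 (c (b (d (c z10 z14) (c z10 z14)) (d (c z10 z14) (c z10 z14))) z14))) (d z14 (a z14 (c (b (d (c z10 z14) (c z10 z14)) (d z14 (c z10 z14))) z14))))))) (d (a (c z10 z14) (c z10 z14)) (a z10 (c z10 (b (d z14 (a z14 (c (b (d z14 (c z10 z14)) z14) z14))) z14))))) z14) (c (b (d (c (a (b z11 (d (c z11 (a (b (d (c z11 z15) (c z11 (a (b (d z15 (c (a z14 z15) z15)) (d (c (a z14 z15) z15) (c (a z14 z15) z15))) z15))) (d (c (a z10 z11) (a z14 z15)) (c (a z10 z11) (a z14 z15)))) z11)) (c z11 (a (b (d (c z11 (a (b (d (c z11 z15) z11) (d (c z11 z15) (c z11 z15))) z15)) z11) (d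 (c (a z10 z11) (a (b (d z14 z10) z14) z15)) (c z11 (a z10 z11)))) z11)))) z11) (a (b z15 (d z15 (c (a (b z15 (d z15 (c (a z14 z15) z15))) z15) z15))) z15)) (c (a (b z11 (d (c z11 (a (b z11 (d (c z11 (a z10 z11)) (c z11 (a z10 z11)))) z11)) z11)) z11) (a (b (d (c (a (b z15 (d z15 (c (a (b z15 (d z15 (c z11 z15))) z15) z15))) z15) z15) (c (a (b (d z15 (c z11 z15)) (d (c z11 z15) (c z11 z15))) z15) z15)) (d (c (a (b (d (c (a (b z15 (d z15 (c (a z14 z15) z15))) z15) z15) (c (a (b (d (c (a z14 z15) z15) (c z11 z15)) (d (c (a z14 z15) z15) (c z11 z15))) z15) z15)) (d (c (a z14 z15) z15) (c (a z14 z15) z15))) z15) z15) (c (a (b (d (c z11 z15) (c z11 z15)) (d (c (a z10 z11) z15) (c (a z10 z11) (a z14 z15)))) z15) z15))) z15))) (d (c (a (b (d (c (a z10 z11) (a (b (d (c z10 z14) z10) z10) z11)) (c (a z10 z11) (a z10 z11))) (d (c (a z10 z11) (a z10 z11)) (c (a z10 z11) (a z10 z11))))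 z11) (a (b (d z15 (c (a z14 z15) z15)) (d (c (a z14 z15) z15) (c (a z14 z15) z15))) z15)) (c (a (b (d (c (a z10 z11) (a z10 z11)) (c (a z10 z11) (a z10 z11))) (d (c (a z10 z11) (a z10 z11)) (c (a z10 z11) (a z10 z11)))) z11) (a (b (d (c (a (b (d z14 (c (a z14 z15) z14)) z14) z15) z15) (c (a (b (d (c z10 z14) (c z10 z14)) (d (c z10 z14) (c z10 z14))) z15) z15)) (d (c (a z14 z15) z15) (c (a (b (d (c z10 z14) (c z10 z14)) (d z14 (c z10 z14))) (b (d z15 (c z11 z15)) (d (c z11 z15) (c z11 z15)))) (a z14 z15)))) z15)))) z15)) _ _ (by decide +kernel)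

theorem okB856 : CKB ⟨9216, 12288, 5632, 5888⟩ ⟨9216, 12288, 5376, 5632⟩ :=
  ckB_sound (a (c (b (d (a z10 (c z10 (b (d (a (c z10 z14) (c z10 z14)) (a z10 (c z10 z14))) (d (a (c z10 z14) (c z10 z14)) z10)))) z10) z10) z14) (c (b (d (c z11 (a (b (d (c z11 z15) (c z11 z15)) (d (c (a (b (d (c z11 (a (b (d z15 (c z11 z15)) (d (c (a z14 z15) z15) (c z11 z15))) z15)) z11) (d (c (a z10 z11) (a z14 z15)) (c z11 (a z10 z11)))) z11) z15) (c (a (b z11 (d (c z11 (a z10 z11)) (c z11 (a z10 z11)))) z11) (a (b (d z15 (c (a (b z15 (d z15 (c (a z14 z15) z15))) z15) z15)) (d (c (a z14 z15) z15) (c (a z14 z15) z15))) z15)))) z15)) (c z11 (a (b z11 (d (c z11 (a (b (d (c (a (b (d (c z11 z15) z11) (d (c z11 z15) z11)) z15) z15) (c z11 z15)) (d (c (a z14 z15) z15) (c (a z10 z11) z15))) z15)) (c z11 (a (b (d (c z11 z15) z11) (d (c (a z10 z11) (a z14 z15)) (c z11 (a z14 z15)))) z11)))) z11)))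 (d (c (a (b (d (c z11 (a z10 z11)) (c z11 (a z10 z11))) (d (c (a z10 z11) (a z10 z11)) (c (a z10 z11) (a z10 z11)))) z11) (a (b (d (c (a z10 z11) (a z14 z15)) (c (a z10 z11) (a z14 z15))) (d (c (a z10 z11) (a z14 z15)) (c (a z10 z11) (a z14 z15)))) z15)) (c (a (b (d (c z11 (a z10 z11)) z11) (d (c (a z10 z11) (a z10 z11)) (c (a z10 z11) (a z10 z11)))) z11) (a (b (d (c (a z10 z11) (a (b (d (c (a z14 (b z15 (d z15 z11))) z14) (c z10 z14)) (d (c (a z14 (b (d (c z11 z15) z11) (d (c z11 z15) z11))) z14) (c z10 z14))) z15)) (c (a z10 z11) (a z10 z11))) (d (c (a z10 z11) (a (b (d z14 (c z10 z14)) (d z14 (c z10 z14))) (b z15 (d z15 (c z11 z15))))) (c (a z10 z11) (a z10 z11)))) z11)))) (b z15 (d z15 (a (c (b (d z15 (a z14 z15)) (d z15 (a z14 z15))) z15) z15))))) _ _ (by decide +kernel)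

theorem okB857 : CKB ⟨9216, 12288, 5888, 6144⟩ ⟨9216, 12288, 5120, 5632⟩ :=
  ckB_sound (d (a (c (b (d (a (c z10 z14) (c z10 z14)) z10) (d (a (c z10 z14) (c z10 z14)) z10)) z14) (c (b (d (c (a (b (d (c z10 (a z10 (b (d (c z11 z15) (c z11 (a (b z15 z14) z15))) (d (c (a z10 z11) (a z14 z15)) (c (a z10 z11) (a z14 z15)))))) z10) z10) z11) (a z14 z15)) (c (a z10 z11) (a (b (d (c (a z14 (b (d z15 (c (a (b (d z15 (c z11 z15)) z14) z15) z15)) (d (c (a z14 z15) z15) (c (a z14 z15) z15)))) z14) (c (a (b (d z14 (c z10 z14)) (d z14 (c z10 z14))) (b (d (c z11 z15) (c z11 z15)) (d (c (a z10 z11) z15) (c (a z10 z11) (a z14 z15))))) z14)) (d z14 (c (a z14 (b (d (c z10 z14) (c z10 z14)) (d (c z10 z14) (c z10 z14)))) z14))) z15))) (d (c (a z10 (b z11 (d (c z11 (a (b (d (c z11 z15) z11) (d (c (a z10 z11) z15) (c z11 (a z14 z15)))) z11)) (c z11 (a (b z11 (d (c z11 (a z14 z15)) (c z11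 (a z10 z11)))) z11))))) (a z14 z15)) (c (a z10 z11) (a (b (d z14 (c (a z14 (b (d z14 (c z10 z14)) (d z14 (c z10 z14)))) z14)) z14) (b (d z15 (c (a (b (d z15 (c z11 z15)) (d (c z11 z15) (c z11 z15))) z15) z15)) (d (c (a (b (d z15 (c (a z14 z15) z15)) (d (c (a z14 z15) z15) (c (a z14 z15) z15))) z15) z15) (c (a (b (d (c z11 z15) (c z11 z15)) (d (c (a z10 z11) z15) (c z11 (a z14 z15)))) z15) z15))))))) z15)) (a (c z10 z14) (c (b (d (c (a z10 z11) (a (b (d (c z10 z14) (c z10 z14)) (d (c z10 z14) (c z10 z14))) (b (d z15 z11) (d (c z11 z15) z11)))) (c (a z10 z11) (a (b (d (c z10 (a z14 (b (d (c (a (b (d z15 z11) z14) z15) z15) (c z11 z15)) (d (c (a z14 z15) z15) (c (a z10 z11) z15))))) z10) z10) z11))) (d (c (a z10 z11) (a (b (d (c z10 z14) z10) (d (c z10 z14) z10)) (b (d (c z11 z15) (c z11 z15)) (d (c (a (b z11 (d (c z11 (a z14 z15)) (c z11 (a z10 z11)))) z11) z15) (c z11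 (a (b z15 (d z15 (c (a z14 z15) z15))) z15)))))) (c z10 (a z10 (b z11 (d (c z11 (a (b (d (c (a z14 z15) z15) (c z11 z15)) (d (c (a z14 z15) z15) (c z11 z15))) z15)) (c z11 (a (b z11 (d (c z11 (a z14 z15)) (c z11 (a z14 z15)))) z11)))))))) (b (d (a z14 z15) (a z14 z15)) z14)))) _ _ (by decide +kernel)

theorem okB858 : CKB ⟨9216, 12288, 5632, 5888⟩ ⟨9216, 12288, 5632, 5888⟩ :=
  ckB_sound (a (c z10 (b (d (a z14 (c (b (d z14 (a z14 (c (b (d z14 (a z14 (c z10 z14))) (d z14 (a z14 (c z10 z14)))) z14))) z14) z14)) (a (c (b (d z14 (a z14 (c z10 z14))) (d z14 (a z14 (c z10 z14)))) z14) (c (b (d (a (c z10 z14) (c z10 z14)) (a (c z10 z14) (c z10 z14))) (d (a z14 (c z10 z14)) (a (c z10 z14) (c z10 z14)))) z14))) (d z14 (a z14 (c (b (d (a z14 (c z10 z14)) (a (c z10 z14) (c z10 z14))) (d (a z14 (c z10 z14)) (a (c z10 z14) (c z10 z14)))) z14))))) (c (b (d (c z11 (a (b z11 (d (c z11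 (a (b z11 (d (c z11 (a z10 z11)) (c z11 (a z10 z11)))) z11)) z11)) z11)) z11) (d (c (a (b z11 (d (c z11 (a z10 z11)) (c z11 (a z10 z11)))) z11) (a (b (d (c (a z10 z11) (a z10 z11)) (c z11 (a z10 z11))) (d (c (a z10 z11) (a z10 z11)) (c (a z10 z11) (a z10 z11)))) z11)) (c z11 (a (b (d (c z11 (a z10 z11)) (c z11 (a z10 z11))) (d (c (a z10 z11) (a z10 z11)) (c (a z10 z11) (a z10 z11)))) z11)))) (b (d (a (c (b (d z15 (a (c (b z15 (d z15 (a (c z11 z15) z15))) z15) z15)) (d (a (c (b z15 (d z15 (a z14 z15))) z15) z15) (a (c (b (d (a (c (b (d z15 (a z14 z15)) (d (a z14 z15) (a z14 z15))) z15) z15) (a (c z11 z15) z15)) (d (a z14 z15) (a (c z10 z14) z15))) z15) z15))) z15) z15) (a (c (b (d (a (c z11 z15) z15) (a (c z11 z15) z15)) (d (a (c (b z11 (d (a z10 z11) (a z10 z11))) z15) z15) (a (c (b z11 (d (a z10 z11) z11)) (b z15 (d z15 (a z14 z15)))) z15))) z15) z15)) (d (a (c (b (d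 (a z14 z15) (a (c (b (d z14 (a z14 (c z11 z15))) (d z14 (a z14 (c z11 z15)))) z14) z15)) (d (a z14 z15) (a (c (b (d z14 (a z14 (c z10 z14))) z14) z14) (c (b z15 (d z15 (c z11 z15))) z15)))) z15) z15) (a (c (b (d (a (c z10 z14) (c z11 z15)) (a (c z10 z14) (c z11 z15))) (d (a (c z10 z14) (c z11 z15)) (a (c z10 z14) (c z11 z15)))) z15) z15))))) _ _ (by decide +kernel)

theorem okB859 : CKB ⟨9216, 12288, 5632, 5888⟩ ⟨9216, 12288, 5888, 6144⟩ :=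
  ckB_sound (a (c z10 (b (d (a (c z10 z14) (c z10 z14)) (a z10 (c z10 z14))) (d (a (c z10 z14) (c z10 z14)) z10))) (c (b z11 (d (c z11 (a (b z11 (d (c (a z10 z11) (a z10 z11)) (c z11 (a z10 z11)))) z11)) (c z11 (a (b z11 (d (c z11 (a z10 z11)) z11)) z11)))) (b (d (a (c (b z11 (d (a (c z11 (b (d (a (c (b z15 (d z15 z11)) z15) z15) (a (c z11 z15) z15)) (d (a z14 z15) (a z14 z15)))) z11) (a (c z11 (b z11 (d (a z10 z11) z11))) z11))) z15) z15) (a (c z11 (b (d z15 (a (c (b z15 (d z15 (a (c z11 z15) z15))) z15) z15)) (d (a (c (b z15 (d z15 (a z14 z15))) z15) z15) (a (c (b (d (a (c z11 z15) z15) (a (c z11 z15) z15)) (d (a z14 z15) (a z14 z15))) z15) z15)))) z11)) (d (a (c (b (d (a z10 z11) (a z10 z11)) (d (a z10 z11) (a z10 z11))) (b z15 (d z15 (a z14 z15)))) (c z11 z15)) (a (c (b (d (a z10 z11) (a z10 z11)) (d (a z10 z11) (a z10 z11))) (b (d (a z14 z15) (a (c (b (d z14 (a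 z14 z15)) z14) z14) z15)) (d (a z14 z15) (a z14 z15)))) z11))))) _ _ (by decide +kernel)

theorem okB860 : CKB ⟨9216, 12288, 5888, 6144⟩ ⟨9216, 12288, 5632, 6144⟩ :=
  ckB_sound (d (a (c z10 (b (d z14 (a z14 (c (b (d z14 (a (c z10 z14) (c z10 z14))) (d z14 (a z14 (c z10 z14)))) z14))) (d z14 (a z14 (c (b (d z14 (a z14 (c z10 z14))) z14) z14))))) (c (b (d (c (a z10 z11) (a z10 z11)) (c (a z10 z11) (a z10 z11))) (d (c z10 (a z10 z11)) z10)) (b (d (a (c (b (d z14 (a z14 (c (b (d (c (a (b z15 z14) z15) z15) (c z11 z15)) (d (c (a z14 z15) z15) (c z11 z15))) z15))) (d z14 (a z14 (c (b (d z14 (c z10 z14)) z14) z14)))) z14) z15) (a (c (b (d (a (c z10 z14) (c (b z11 (d (c z11 (a z14 z15)) (c z11 (a z14 z15)))) z15)) (a (c z10 z14) (c z11 (b z15 (d z15 (a z14 z15)))))) (d (a (c z10 z14) (c z10 z14)) (a (c z10 z14) (c z10 z14)))) z14) (c (b z15 (d z15 (c z11 z15))) z15))) (d (a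 z14 (c (b (d z15 (c (a (b z15 (d z15 (c z11 z15))) z15) z15)) (d (c (a (b z15 (d z15 (c (a z14 z15) z15))) z15) z15) (c (a (b (d (c (a z14 z15) z15) (c z11 z15)) (d (c (a z14 z15) z15) (c z11 z15))) z15) z15))) z15)) (a (c (b (d (a z14 (c z10 z14)) (a (c z10 z14) (c z10 z14))) (d (a z14 (c z10 z14)) (a (c z10 z14) (c z10 z14)))) z14) (c (b (d (c z11 z15) (c z11 z15)) (d (c (a (b z11 (d (c z11 z15) z11)) z11) z15) (c z11 z15))) z15)))))) (a (c z10 (b (d (a (c z10 z14) (c z10 z14)) z10) (d (a (c z10 z14) (c z10 z14)) z10))) (c (b (d (c (a z10 z11) (a z10 z11)) (c (a z10 z11) (a z10 z11))) z10) (b (d (a (c z10 z14) (c z11 z15)) (a (c z10 (b (d z14 (a z14 (c (b (d z15 (a (c z11 z15) z15)) (d (a z14 z15) (a z14 z15))) z15))) z14)) z11)) (d (a (c z10 z14) (c (b z11 (d (c z11 (a (b (d z15 (c z11 z15)) (d (c (a z14 z15) z15) (c z11 z15))) z15)) z11)) z15)) (a (c z10 z14) (c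 z11 (b z15 (d z15 (a (c (b (d z15 (a z14 z15)) (d (a z14 z15) (a z14 z15))) z15) z15)))))))))) _ _ (by decide +kernel)

theorem okB861 : CKB ⟨6144, 12288, 4096, 5120⟩ ⟨6144, 12288, 6144, 7168⟩ :=
  ckB_sound (a (c (b (d (a z8 (c (b (d (c (a z8 z9) (a z8 z9)) (c (a z8 z9) (a z8 z9))) z8) z8)) (a z8 (c (b (d (c (a z0 z1) (a z8 z9)) (c (a z0 z1) (a z0 z1))) (d z0 (c (a z0 (b (d (c (b z1 (d z1 (a z0 z1))) z1) (b (d z1 z1) (d (a z0 z1) (a z0 z1)))) z2)) z0))) z8))) z10) (b (d (a z8 (b (d (c (a z8 z9) (a z8 z9)) (c (a z8 z9) (a z8 z9))) (d (c z8 (a z8 (b (d (c (b z9 (d (a z8 z9) z9)) (b (d (a (c (b z9 (d (a z8 z9) z9)) z13) z13) (a (c z9 (b z13 (d z13 (a z12 z13)))) z9)) (d (a (c z8 z12) z13) (a z8 z9)))) (c z9 (b z9 (d (a z8 z9) (a z8 z9))))) (d (c z10 (b (d (a (c z8 z12) (c z11 z15)) (a z8 z11)) (d (a (c z10 z14) (c z11 z15)) z10))) z10)))) z8))) z8) (d (a z8 (b (d (c z10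 (a z10 (b (d (c z10 (b (d (a (c z10 z14) (c (b z11 (d (a z10 z11) z11)) z15)) z10) (d (a (c z10 z14) (c z10 z14)) z10))) z10) z10))) z10) z10)) z10))) (c (b z11 (d (c (b z11 (d (a (c (b z11 (d (a z10 z11) (a z10 z11))) (b z11 (d z11 (a z10 z11)))) z11) (a (c (b z11 (d (a z10 z11) (a z10 z11))) (b z11 (d (a z10 z11) (a z10 z11)))) z11))) z11) (c (b z3 (d (a (c (b z3 (d (a z2 z3) (a z2 z3))) (b z11 (d (a z10 z11) (a z10 z11)))) z3) (a (c (b (d (a (c (b z3 (d z3 (a z2 z3))) z3) z3) (a (b (d z3 z3) (d (a z2 z3) (a z2 z3))) z3)) (d (a z2 z3) (a z2 z3))) (b z3 (d (a z2 z3) (a z2 z3)))) z3))) (b z11 (d z11 (a (c (b z11 (d (a z10 z11) (a z10 z11))) z11) z11)))))) (b z11 (d (b (d (a (c z11 (b z11 (d (a (c z11 (b (d (a (c z11 z15) z15) z11) (d (a (c z11 z15) z15) z11))) z11) z11))) z11) z11) (d (a (c (b z11 (d (a z10 z11) (a z10 z11))) (b (d (a (c (b z11 (d (a z10 z11) (a z10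 z11))) (b (d (a (c (b z11 (d (a z10 z11) (a z10 z11))) z15) z15) (a (c z11 (b (d z15 (a z14 z15)) (d (a z14 z15) (a z14 z15)))) z11)) (d (a (c z10 z14) (c z11 z15)) (a z10 z11)))) z11) (a (c z11 (b (d (a (c z11 (b z11 (d (a z14 z15) (a z10 z11)))) z11) z11) (d (a z10 z11) (a z10 z11)))) z11)) (d (a (c z10 (b (d (a (c z10 z14) (c z11 z15)) (a z10 z11)) (d (a (c z10 z14) (c z11 z15)) z10))) z11) (a z10 z11)))) z11) (a (c z11 (b (d (a (c z11 (b z11 (d (a z10 z11) z11))) z11) z11) (d (a z10 z11) (a z10 z11)))) z11))) (b z11 (d (a (c z11 (b z11 (d (a z10 z11) z11))) z11) z11)))))) _ _ (by decide +kernel)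

theorem okB862 : CKB ⟨6144, 12288, 4096, 5120⟩ ⟨6144, 12288, 7168, 8192⟩ :=
  ckB_sound (a (b (d (c (a (b (d z0 z0) (d z0 z0)) (b (d (c (a z0 (b z1 (d z1 z1))) (a z8 z9)) (a z0 z1)) (d (c (a z0 (b (d (c (b z1 (d (a z0 z1) z1)) z1) (c (b z1 (d z1 z1)) z1)) (d z2 z2))) z8) (a z0 (b (d (c (b z1 (d z1 z1)) z1) z1) z2))))) z8) (a (b (d z0 z0) (d z0 z0)) (b (d (c (a z0 z1) (a z8 z9)) (a z0 z1)) (d z0 z0)))) (d z10 (a (b (d z0 z0) (d z2 z2)) (b (d z2 z2) (d z2 z2))))) (b (d z11 z3) (d (c (b (d (c (a (b z3 (d z3 z3)) z3) z11) z3) (d (c (a (b (d (c (a (b z3 (d (c (a z2 z3) z3) z3)) z3) z3) (a (c (b z3 (d z3 z3)) z3) z3)) (d (c (a z2 z3) (a z2 z3)) (a z2 z3))) z3) z11) (a (b (d (c (a (b z3 (d z3 z3)) z3) z3) z3) (d (c (a z2 z3) z3) (a z2 z3))) z3))) z11) (b (d z3 z3) (d (a (c (b (d z3 z3) (d (a z2 z3) (a z2 z3))) z11) z3) (a (b (d z3 z3) (d (a z2 z3) z3)) z3)))))) _ _ (by decide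 +kernel)

theorem okB863 : CKB ⟨6144, 9216, 5120, 6144⟩ ⟨6144, 12288, 6144, 7168⟩ :=
  ckB_sound z10 _ _ (by decide +kernel)

theorem okB864 : CKB ⟨9216, 12288, 5120, 6144⟩ ⟨6144, 9216, 6144, 7168⟩ :=
  ckB_sound (b (d (c (b (d (a z10 z11) (a z10 z11)) (d (a z10 z11) (a z10 z11))) (b (d (a z10 z11) (a z10 z11)) (d (a z10 z11) (a z10 z11)))) (c (b (d (a (c (b (d (a z2 z3) (a z2 z3)) z2) z10) z3) (a (c (b (d (a z2 z3) (a z2 z3)) (d z2 (a z2 (b z3 (d z3 z3))))) z2) z3)) (d (a z2 z3) (a (c (b (d z2 z2) z2) z2) z3))) (b (d (a z10 z11) (a z10 z11)) (d (a z10 z11) (a z10 z11))))) (d (c (b (d (a z10 z11) (a z10 z11)) z10) z10) (c (b (d (a z2 (c (b z3 (d (a (c (b z3 (d z3 (a z2 z3))) z3) z3) (a (c (b z3 (d (a z2 z3) (a z2 z3))) z3) z3))) z11)) (a z2 (c (b (d z3 (a (b z3 (d z3 z3)) z3)) (d (a (c (b (d z3 (a z2 z3)) (d (a z2 z3) (a z2 z3))) (b z3 (d z3 (a z2 z3)))) z3) (a (b (d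 (c (a z2 z3) z3) (a z2 z3)) (d (c (a z2 z3) (a z2 z3)) (a z2 z3))) z3))) z3))) (d (a z2 (c (b (d (a z2 z3) (a z2 z3)) z2) (b (d (a z10 z11) (a z10 z11)) z10))) (a z2 (c (b (d (a z2 z3) (a z2 z3)) (d z2 (a z2 (b z3 (d z3 z3))))) (b (d (a z2 z3) (a z2 z3)) z2))))) z10))) _ _ (by decide +kernel)

theorem okB865 : CKB ⟨9216, 12288, 5120, 6144⟩ ⟨9216, 12288, 6144, 7168⟩ :=
  ckB_sound (b (d (b (d (a (c z10 (b (d (a (c z10 (b (d (a (c z10 z14) (c z10 z14)) z10) (d (a (c z10 z14) (c z10 z14)) z10))) z11) (a z10 z11)) (d (a z10 (c z11 (b (d (a (c z11 z15) z15) z11) (d (a (c (b z11 (d (a z10 z11) (a z10 z11))) z15) z15) (a (c z11 (b (d z15 (a z14 z15)) (d (a z14 z15) (a z14 z15)))) z11))))) (a z10 (c z11 (b z11 (d (a (c z11 (b z11 (d (a z14 z15) (a z10 z11)))) z11) z11))))))) z11) (a (c z10 (b (d (a z10 z11) (a z10 z11)) z10)) z11)) (d (a (c z10 (b (d (a z10 (c (b (d (a z10 z11)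 (a z10 z11)) z10) (b (d (a (c z10 z14) (c z11 z15)) (a z10 z11)) (d (a (c z10 z14) (c z11 z15)) (a z10 z11))))) z10) (d (a z10 (c z10 (b (d (a (c z10 z14) (c z11 z15)) z10) (d (a (c z10 z14) (c z10 z14)) z10)))) z10))) z11) (a z10 z11))) (b (d (a z10 z11) (a z10 z11)) (d (a z10 z11) (a z10 z11)))) (d (b (d (a z10 (c z11 (b (d (a (c z11 (b (d (a (c z11 z15) z15) z11) (d (a (c z11 z15) z15) (a (c z11 (b z15 (d z15 (a z14 z15)))) z11)))) z11) z11) (d (a (c (b z11 (d (a z10 z11) (a z10 z11))) (b (d (a (c z10 z14) z15) (a z10 z11)) (d (a (c z10 z14) (c z11 z15)) (a z10 z11)))) z11) (a (c (b z11 (d (a z10 z11) z11)) (b (d (a z10 z11) (a z10 z11)) (d (a z10 z11) (a z10 z11)))) z11))))) (a z10 (c z11 (b z11 (d (a (c z11 (b z11 (d (a z10 z11) (a z10 z11)))) z11) z11))))) (d (a z10 (c (b (d (c (a z10 z11) (a z10 z11)) (c (a z10 z11) (a z10 z11))) z10) (b (d (a z10 z11) (a z10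 z11)) (d (a z10 (c z11 (b (d (a (c z11 z15) z15) z11) (d (a (c z11 z15) z15) z11)))) z10)))) z10)) z10)) _ _ (by decide +kernel)

theorem okB866 : CKB ⟨6144, 12288, 5120, 6144⟩ ⟨6144, 12288, 7168, 8192⟩ :=
  ckB_sound (a (b (d z10 (a (b (d z2 z2) (d z2 z2)) (b (d z2 z2) (d z2 z2)))) (d z10 (a (b (d z2 z2) (d (c (a (b z2 (d z2 z2)) z2) z10) (a (b z2 (d z2 z2)) z2))) (b (d z2 z2) (d z2 z2))))) (b (d (c (b (d (c (a (b (d (c (a z2 z3) (a z2 z3)) (a z2 z3)) (d z2 z2)) z3) (a z10 z11)) (a (b (d (c (a z2 z3) (a z2 z3)) (a z2 z3)) (d z2 z2)) z3)) (d (c (a (b (d z2 z2) (d z2 z2)) z3) (a z10 z11)) (a z2 z3))) (b (d (a z10 z11) (a z10 z11)) (d (a z10 z11) (a z10 z11)))) (b (d (a z2 z3) (a z2 z3)) (d (a z2 z3) (a z2 z3)))) (d (c (b (d (c (a z2 (b (d z3 z3) (d (c (a (b (d z3 z3) (d (c (a z2 z3) z3) (a z2 z3))) z3) z3) (a (c (b (d z3 z3) (d (a z2 z3) z3)) z3) z3)))) z10) (a z2 (b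 (d z3 z3) (d (c (a (b z3 (d z3 z3)) z3) z3) (a (c (b z3 (d z3 z3)) z3) z3))))) (d (c (a z2 (b (d (c (a z2 z3) (a z2 z3)) (a z2 z3)) (d z2 z2))) z10) (a z2 (b (d (c (a z2 z3) z3) (a z2 z3)) (d z2 z2))))) z10) (b (d (a z2 (c (b z3 (d z3 z3)) z11)) z2) (d z2 z2))))) _ _ (by decide +kernel)

theorem okB867 : CKB ⟨6144, 12288, 6144, 7168⟩ ⟨6144, 12288, 4096, 5120⟩ :=
  ckB_sound (a (c (b (d (a (c z2 (b z2 (d (a (c z2 z6) (c z2 z6)) z2))) z2) z10) (d (a (c z0 (b (d (a (c z0 z4) (c z2 z6)) z0) (d (a (c z0 z4) (c z0 z4)) (a (c z0 (b (d (a (b z4 (d z4 (c z0 z4))) z4) z8) (d (b (d z4 (c z0 z4)) (d z4 (c z0 z4))) z8))) z0)))) z2) z10)) (b (d z14 (a (b (d z14 (c (a (b (d z14 (c z10 z14)) (d z14 (c z10 z14))) (b z14 (d z14 (c z10 z14)))) z14)) (d z14 (c (a (b (d z14 (c z10 z14)) (d z14 (c z10 z14))) (b (d z14 (c z10 z14)) (d z14 (c z10 z14)))) z14))) z14)) (d z14 (a (b (d z12 (c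 (a (b (d z12 (c z8 z12)) (d z12 (c z8 z12))) (b (d z14 (c z10 z14)) (d z14 (c z10 z14)))) z12)) (d z12 (c (a (b (d (c (a (b z12 (d z12 (c z8 z12))) z12) z12) (c z8 z12)) (d (c (b (d z12 (c z8 z12)) (d z12 (c z8 z12))) z12) (c z8 z12))) (b (d z12 (c z8 z12)) (d z12 (c z8 z12)))) z12))) (b z14 (d z14 (c (a (b (d z14 (c z10 z14)) (d z14 (c z10 z14))) z14) z14))))))) (c (b (d (c z2 (b (d (a (c z2 z6) (c z2 z6)) (a z2 (c z2 (b (d (a (b (d z6 (c z2 z6)) z6) (b (d (c (a (b (d z6 (c z2 z6)) z6) z7) z7) (c (a z2 z3) z7)) (d (c (a z6 (b z7 (d z7 (c z3 z7)))) z6) (c z2 z6)))) (a z10 (b (d (c (a z2 z3) (a z14 z15)) (c (a z10 z11) (a z14 z15))) (d (c z2 z14) z10)))) (d (a z6 (b (d z6 (c z2 z6)) (d z6 (c z2 z6)))) z10))))) z2)) (c z2 (b (d (a z10 (c z10 (b (d (a z10 (b (d (c (a z10 z11) (a (b (d z14 (c z10 z14)) z14) z15)) (c (a z10 z11) (a z10 z11))) z10)) z10) z10))) z10) z10)))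 z2) (b (d z14 (b (d (a z14 (c (b (d z14 (c (a z14 (b (d (c (a z14 z15) z15) (c (a z14 z15) z15)) z14)) z14)) z14) z14)) (a (c (b (d z14 (a (c z10 z14) (c z10 z14))) (d z14 (a z14 (c z10 z14)))) z14) (c (b (d (c (a (b (d z14 (c z10 z14)) (d z14 (c z10 z14))) (b (d (c (a (b (d z14 (c z10 z14)) (d z14 (c z10 z14))) z15) z15) (c (a z10 z11) (a z14 z15))) (d (c (a z14 (b (d z15 (c z11 z15)) (d (c z11 z15) (c z11 z15)))) z14) (c z10 z14)))) z14) (c (a z10 (b (d (c (a z10 z11) (a z14 z15)) (c (a z10 z11) (a z14 z15))) (d (c z10 z14) z10))) z14)) (d (c (a z14 (b (d (c (a z14 (b (d (c z11 z15) (c z11 z15)) (d z14 (c z10 z14)))) z14) (c z10 z14)) (d z14 (c z10 z14)))) z14) (c z10 z14))) z14))) (d z14 (a z14 (c (b (d (c (a z14 (b (d z14 (c z10 z14)) z14)) z14) (c z10 z14)) (d z14 (c z10 z14))) z14))))) (d z14 (b (d z14 (a z14 (c (b (d z14 (c z10 z14)) z14) z14))) z14))))) _ _ (by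 decide +kernel)

theorem okB868 : CKB ⟨6144, 9216, 6144, 7168⟩ ⟨6144, 12288, 5120, 6144⟩ :=
  ckB_sound (c z10 (b (d (a (b (d (c z10 z14) (c z10 z14)) (d (c z10 z14) (c z10 z14))) (b (d (c z10 z14) (c z10 z14)) (d (c z10 z14) (c z10 z14)))) (a (b (d (c z10 z14) z10) (d (c z10 z14) z10)) z10)) (d (a (b (d (c (a (b z8 (d (c z8 z12) z8)) z10) z12) (c z8 z12)) (d (c (a (b (d (c z8 z12) z8) (d (c z8 z12) (c z8 (b z12 z12)))) z8) z12) (c (a (b z8 z8) z8) z12))) (b (d (c z10 z14) (c z10 z14)) (d (c z10 z14) (c z10 z14)))) (a (b (d (c z8 (a (b (d z12 (c (a (b z12 (d z12 (c z8 z12))) z12) z12)) (d z12 (c (a (b (d z12 (c z8 z12)) (d z12 (c z8 z12))) z12) z12))) z14)) (c z8 (a (b (d (c z8 z12) z8) (d (c z8 z12) z8)) (b (d (c z10 z14) z10) (d (c z10 z14) z10))))) (d (c z8 (a (b (d z12 (c (a (b (d z12 (c z8 z12)) (d (c z8 z12) (c z8 z12))) (b z12 (d z12 (c z8 z12)))) z12)) (d (c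 (b z12 z12) z12) (c (b (d (a (c z8 z12) z12) (a (c z8 z12) (c z8 z12))) (d (c z8 z12) (c z8 z12))) z12))) z12)) (c z8 (a (b (d (c z8 z12) z8) (d (c z8 z12) (c z8 (b z12 z12)))) (b (d (c z8 z12) z8) (d (c z8 z12) z8)))))) z10)))) _ _ (by decide +kernel)

theorem okB869 : CKB ⟨9216, 12288, 6144, 7168⟩ ⟨6144, 12288, 5120, 6144⟩ :=
  ckB_sound (c z10 (b (d (b (d (a (c z10 z14) (c (b (d (c (a z10 (b (d (c (a z10 z11) (a z10 z11)) (c (a z10 z11) (a z10 z11))) z10)) z14) (c z10 (a z14 (b (d (c (a z14 z15) z15) (c (a (b (d z14 (c z10 z14)) (d z14 (c z10 z14))) z15) z15)) (d z14 (c (a z14 (b (d z15 (c z11 z15)) (d (c z11 z15) (c z11 z15)))) z14)))))) (d (c z10 z14) (c z10 (a z14 (b (d z14 (c (a z14 (b (d (c z11 z15) (c z11 z15)) (d z14 (c z10 z14)))) z14)) z14))))) z14)) (a (c z10 z14) (c (b (d (c z10 (a (b (d (c z10 z14) z10) (d (c z10 z14) z10)) (b (d (c (a z10 z11) (a z14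 z15)) (c (a z10 z11) (a z14 z15))) (d (c z10 z14) (c z10 z14))))) (c z10 (a z10 (b (d (c (a z10 z11) (a z14 z15)) (c (a z10 z11) (a z10 z11))) z10)))) z10) z14))) (d (a (c z10 z14) (c (b (d (c z10 z14) z10) z10) z14)) (a (c z10 z14) (c z10 z14)))) (b (d (a (c z10 z14) (c z10 (b (d (a z14 (c (b (d (c (a z14 z15) z15) (c (a z14 z15) z15)) (d z14 (c (a z14 (b z15 (d z15 (c z11 z15)))) z14))) z15)) (a (c (b (d z14 (a (c z10 z14) (c z10 z14))) (d z14 (a z14 (c z10 z14)))) z14) (c (b (d (c (a z10 z11) z15) (c (a z10 z11) (a z14 z15))) (d (c z10 z14) (c z10 z14))) z15))) (d z14 (a (c (b (d z14 (a z14 (c z10 z14))) z14) z14) (c (b (d (c z10 z14) (c z10 z14)) (d (c z10 z14) (c z10 z14))) z14)))))) (a z10 (c z10 (b (d (a (c z10 z14) (c (b (d (c (a z10 z11) (a z14 z15)) (c z11 (a z10 z11))) z10) (b z15 z14))) (a z10 (c (b (d (c z11 (a z10 z11)) (c z11 (a z10 z11))) z10) (b (d (a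 z14 z15) (a z14 z15)) z14)))) (d (a (c z10 z14) (c z10 z14)) z10))))) (d (a z10 (c z10 (b (d z14 (a z14 (c (b (d z14 (c z10 z14)) (d z14 (c z10 z14))) z14))) z14))) z10))) (d (b (d (a (c z10 z14) (c z10 z14)) (a (c z10 z14) (c z10 z14))) (d (a (c z10 z14) (c z10 z14)) (a (c z10 z14) (c z10 z14)))) z10))) _ _ (by decide +kernel)

end Vale.Agent.Lib.P154Q5
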