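import Vale.Agent.Lib.P154Q5.CkBDefs

namespace Vale.Agent.Lib.P154Q5

set_option maxRecDepth 100000
set_option exponentiation.threshold 1000

open Tr

theorem okB870 : CKB ⟨6144, 12288, 7168, 8192⟩ ⟨6144, 12288, 4096, 6144⟩ :=
  ckB_sound (d (c (b (d (a (c (b z0 z0) (b (d (a (c z0 (b z4 z4)) (c z2 z6)) (a (c z0 (b (d (a (b (d z4 (c z0 z4)) z4) z4) z8) (d (a (b z4 z4) z4) z8))) z2)) (d (c z0 z4) (c z0 (b (d (a (b z4 z4) z4) z8) (d z4 z8)))))) z2) z10) (d (c (b z0 z0) (b (d (a (c z0 z4) (c z2 z6)) z0) z0)) (c (b z0 z0) (b z8 z8)))) (b (d z14 (a (b (d (a (c (b z12 z12) z12) z14) (a (c (b (d (a (c (b (d z12 (a (c z8 z12) z12)) z12) z12) z12) (a (c z8 z12) (c z8 z12))) (d (c (a (b z12 z12) z12) z12) (c z8 z12))) z12) z14)) (d z12 (c (b (d (a (c (b z12 z12) z12) z12) (a (c z8 z12) z12)) (d z12 (c z8 z12)))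 z12))) z14)) (d z12 (b (d z12 (c (a (b (d z12 (c z8 z12)) (d z12 (c z8 z12))) z14) z12)) (d z12 (c (b (d z12 (c z8 z12)) z12) z12)))))) (c (b z10 (d (c (b z8 z8) (b z8 z8)) (c (b (d z8 (a (c (b z8 z8) z8) z10)) (d z8 (c (b z8 z8) z8))) (b z8 z8)))) (b (d (a (b (d (a (c (b (d (a (c z8 z12) (c z8 z12)) z8) z8) z12) (c z10 z14)) (a (c (b z8 z8) z12) (c z10 z14))) (d (c (b z8 z8) z12) (c z8 z12))) (b (d (c z10 z14) (c z10 z14)) (d (c z10 z14) (c z10 z14)))) (a (b (d (a (c z8 (b (d z12 (a (c (b (d z12 (a (c z8 z12) z12)) (d z12 (c z8 z12))) z12) z12)) (d z12 (c (a (b (d z12 (c z8 z12)) z12) z12) z12)))) z10) (a (c z8 (b (d (a (c z8 z12) (c z8 z12)) z8) (d (c z8 z12) z8))) z10)) (d (c z8 (b (d z12 (a (c (b z12 z12) z12) z12)) (d z12 (c (a (b z12 z12) z12) z12)))) (c z8 (b (d (a (c z8 z12) z12) z8) (d (c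 z8 z12) z8))))) z10)) (d (b (d (c z8 z12) (c z8 z12)) (d (c z8 z12) (c z8 z12))) (b (d (c z8 (a (b z12 z12) z14)) z8) z8))))) _ _ (by decide +kernel)

theorem okB871 : CKB ⟨6144, 9216, 6144, 6656⟩ ⟨6144, 9216, 6144, 7168⟩ :=
  ckB_sound z10 _ _ (by decide +kernel)

theorem okB872 : CKB ⟨6144, 9216, 6656, 7168⟩ ⟨6144, 9216, 6144, 6656⟩ :=
  ckB_sound z10 _ _ (by decide +kernel)

theorem okB873 : CKB ⟨6144, 7680, 6656, 6912⟩ ⟨6144, 7680, 6656, 7168⟩ :=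
  ckB_sound (d z0 (a (c (b (d z0 (a (b z0 (d z0 z0)) z0)) (d z0 (a (b (d z0 z0) (d z0 z0)) (b (d z0 z0) (d z0 z0))))) z0) (c (b (d z2 z2) (d z2 (a (b z2 (d z0 z0)) z2))) z2))) _ _ (by decide +kernel)

theorem okB874 : CKB ⟨6144, 7680, 6912, 7168⟩ ⟨6144, 7680, 6656, 6912⟩ :=
  ckB_sound (a (c (b z0 (d (c (b z0 z0) z0) (c (b z0 z0) (b z0 z0)))) (b z8 (d z8 (c (b z0 z0) z8)))) z0) _ _ (by decide +kernel)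

theorem okB875 : CKB ⟨6144, 7680, 6912, 7168⟩ ⟨6144, 7680, 6912, 7168⟩ :=
  ckB_sound (a (c (b (d (a (c (b z0 (d z0 (a (c (b (d z0 z0) (d z0 (b z0 z0))) (b z0 z0)) (c (b z0 (d z0 z0)) z0)))) z0) z0) (a (b (d (c (a (b z0 (d z0 z0)) z0) z0) (a (b (d z0 z0) (d z0 z0)) (b z0 (d z0 z0)))) (d (c (a (b (d z0 z0) (d (c (b z0 z0) z0) (b (d z0 z0) (d z0 z0)))) (b (d z0 z0) (d z0 z0))) z0) (a (b (d (c (a (b z0 (d z0 z0)) z0) z0) (a (b z0 (d z0 z0)) z0)) (d (c (b (d z0 z0) (d z0 z0)) z0) (b (d z0 z0) (d z0 z0)))) (b (d z0 z0) (d z0 z0))))) (b (d z0 z0) (d (c (a (b z0 (d z0 z0)) z0) z0) (a (b z0 (d z0 z0)) z0))))) (d (c (b (d (a (c (b z0 z0) z0) z0) (a (c (b (d z0 (a (b z0 z0) z0)) (d z0 (b (d z0 z0) (d z0 z0)))) (b z0 z0)) z0)) (d (c (b z0 z0) (b z0 z0)) (c (b (d (a (c (b z0 z0) z0) z0) (a (b (d z0 z0) (d z0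 z0)) z0)) (d (c (b z0 z0) z0) (b (d z0 z0) (d z0 z0)))) (b z0 z0)))) (b (d z0 (a (c (b z0 z0) z0) z0)) (d z0 (c (b z0 z0) z0)))) (b (d (a (c (b (d (a (c (b (d z0 z0) (d z0 z0)) z0) z0) (a (b (d z0 z0) (d z0 z0)) z0)) (d (c (b (d z0 z0) (d z0 z0)) z0) (b (d z0 z0) (d z0 z0)))) (b z0 z0)) (c (b (d z0 z0) (d z0 z0)) z0)) (a (b (d (a (c (b (d z0 z0) (d z0 z0)) z0) z0) (a (b (d z0 z0) (d z0 z0)) z0)) (d (c (b (d z0 z0) (d z0 z0)) z0) (b (d z0 z0) (d z0 z0)))) (b (d z0 z0) (d z0 z0)))) (d (c (b (d (c (a (b (d z0 z0) (d z0 z0)) z0) z0) (a (b (d z0 z0) (d z0 z0)) z0)) (d (c (b (d z0 z0) (d z0 z0)) z0) (b (d z0 z0) (d z0 z0)))) (b z0 z0)) (b (d (a (c (b (d z0 z0) (d z0 z0)) z0) z0) (a (b (d z0 z0) (d z0 z0)) z0)) (d (c (b (d z0 z0) (d z0 z0)) z0) (b (d z0 z0) (d z0 z0)))))))) (b (d z0 (a (c (b z0 (d z0 (a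 (c (b z0 z0) z0) z0))) z0) z0)) (d (c (b z0 z0) (b z0 z0)) (c (b (d (a (c (b z0 z0) z0) z0) (a (c (b z0 z0) (b z0 z0)) z0)) (d (c (b z0 z0) z0) (c (b z0 z0) (b z0 z0)))) (b z0 z0))))) (c (b (d z0 (a (b (d z0 z0) (d z0 z0)) (b (d z2 z2) (d z0 z0)))) (d (c (a (b z0 (d z0 (c (a (b z0 (d z0 z0)) z0) z0))) z0) z0) (a (b (d (c (a (b z0 (d z0 z0)) z0) z0) (a (b z0 (d z0 z0)) z0)) (d (c (a (b (d z0 z0) (d z0 z0)) (b z0 (d z0 z0))) z0) (a (b (d z0 z0) (d z0 z0)) (b (d z0 z0) (d z0 z0))))) (b (d z0 z0) (d z0 z0))))) z0)) _ _ (by decide +kernel)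

theorem okB876 : CKB ⟨6144, 7680, 6656, 7168⟩ ⟨7680, 9216, 6656, 7168⟩ :=
  ckB_sound (b z8 (d (a (c (b z8 z8) z8) z8) (a (c (b z8 (d (c (b z8 z8) z8) (c (b z0 z0) (b z8 z8)))) (b z8 z8)) z8))) _ _ (by decide +kernel)

theorem okB877 : CKB ⟨7680, 9216, 6656, 7168⟩ ⟨6144, 9216, 6656, 7168⟩ :=
  ckB_sound z10 _ _ (by decide +kernel)

theorem okB878 : CKB ⟨6144, 9216, 6144, 7168⟩ ⟨9216, 12288, 6144, 7168⟩ :=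
  ckB_sound z10 _ _ (by decide +kernel)

theorem okB879 : CKB ⟨9216, 12288, 6144, 7168⟩ ⟨6144, 12288, 6144, 7168⟩ :=
  ckB_sound z10 _ _ (by decide +kernel)

theorem okB880 : CKB ⟨6144, 9216, 6144, 6656⟩ ⟨6144, 12288, 7168, 8192⟩ :=
  ckB_sound (d (c (a (b (d (c (a (b (d z2 z2) (d z2 z2)) (b z2 (d z2 z2))) z10) (a (b (d z2 z2) (d z2 z2)) (b z2 (d z2 z2)))) (d (c (a (b (d z2 z2) (d z2 z2)) (b (d z2 z2) (d z2 z2))) z10) (a (b (d z2 z2) (d z2 z2)) (b (d z2 z2) (d z2 z2))))) (b (d z2 z2) (d (c (a (b (d z2 z2) (d z2 z2)) (b z2 (d z2 z2))) z10) (a (b (d z2 z2) (d z2 z2)) (b z2 (d z2 z2)))))) z10) (a (b (d (c (a (b (d z2 z2) (d z2 z2)) (b (d z2 z2) (d z2 z2))) z10) (a (b (d z2 z2) (d z2 z2)) (b (d z2 z2) (d z2 z2)))) (d (c (a (b (d z2 z2) (d z2 z2)) (b (d z2 z2) (d z2 z2))) z10) (a (b (d z2 z2) (d z2 z2))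 (b (d z2 z2) (d z2 z2))))) (b (d z2 z2) (d (c (a (b (d z2 z2) (d z2 z2)) (b z2 (d z2 z2))) z10) (a (b (d z2 z2) (d z2 z2)) (b z2 (d z2 z2))))))) _ _ (by decide +kernel)

theorem okB881 : CKB ⟨6144, 7680, 6656, 6912⟩ ⟨6144, 9600, 7168, 7680⟩ :=
  ckB_sound (d (c (a (b (d (c (a (b (d z0 z0) (d z0 z0)) (b z0 (d z0 z0))) z0) (a (c (b (d z0 z0) (d z0 z0)) z0) (c (b z0 (d z0 z0)) z0))) (d (c (a (b (d z0 z0) (d z0 z0)) (b (d z0 z0) (d z0 z0))) z0) (a (c (b (d z0 z0) (d z0 z0)) z0) (c (b (d z0 z0) (d z0 z0)) z0)))) (b (d z2 z2) (d (c (a (b z2 (d z0 z0)) z2) z2) (a (c (b (d z2 z2) (d z0 z0)) z0) (c (b z2 (d z2 z2)) z2))))) z8) (a (b (d (c (a (b (d z0 z0) (d z0 z0)) (b z0 (d z0 z0))) z0) (a (c (b (d z0 z0) (d z0 z0)) z0) (c (b z0 (d z0 z0)) z0))) (d (c (a (b (d z0 z0) (d z0 z0)) (b (d z0 z0) (d z0 z0))) z0)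 (a (c (b (d z0 z0) (d z0 z0)) z0) (c (b (d z0 z0) (d z0 z0)) z0)))) (b (d z2 z2) (d (c (a (b (d z2 z2) (d z0 z0)) (b z2 (d z2 z2))) z2) (a (c (b (d z2 z2) (d z0 z0)) z0) (c (b z2 (d z2 z2)) z2)))))) _ _ (by decide +kernel)

theorem okB882 : CKB ⟨6144, 6912, 6912, 7040⟩ ⟨6144, 8256, 7168, 7424⟩ :=
  ckB_sound (d (c (a (b (d (c (a (b (d z0 z0) (d z0 z0)) (b z0 (d z0 z0))) z0) (a (c (b (d z0 z0) (d z0 z0)) z0) (c (b z0 (d z0 z0)) z0))) (d (c (a (b (d (c (a (b z0 (d z0 z0)) z0) z0) (a (c (b z0 (d z0 z0)) z0) z0)) (d (c (b (d z0 z0) (d z0 z0)) z0) (c (b (d z0 z0) (d z0 z0)) z0))) (b (d z0 z0) (d z0 z0))) z0) (a (c (b (d (a (c (b z0 (d z0 z0)) z0) z0) (a (b z0 (d z0 z0)) z0)) (d (c (b (d z0 z0) (d z0 z0)) z0) (b (d z0 z0) (d z0 z0)))) (b z0 (d z0 (c (b z0 z0) z0)))) (c (b (d z0 z0) (d z0 z0)) z0)))) (b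 (d z0 z0) (d (c (a (b (d z0 z0) (d z0 z0)) z0) z0) (a (c (b (d z0 z0) (d z0 z0)) z0) (c (b z0 (d z0 z0)) z0))))) z0) (a (c (b (d (a (c (b (d z0 z0) (d z0 z0)) z0) (c (b z0 (d z0 z0)) z0)) (a (b (d z0 z0) (d z0 z0)) (b z0 (d z0 z0)))) (d (a (c (b (d (a (c (b z0 (d z0 z0)) z0) z0) (a (b z0 (d z0 z0)) z0)) (d (c (b (d z0 z0) (d z0 z0)) z0) (b (d z0 z0) (d z0 z0)))) (b z0 (d z0 (c (b z0 z0) z0)))) (c (b (d z0 z0) (d z0 z0)) z0)) (a (b (d (a (b z0 (d z0 z0)) z0) z0) (d (b (d z0 z0) (d z0 z0)) z0)) (b (d z0 z0) (d z0 z0))))) (b (d z0 (a (c (b z0 (d z0 z0)) z0) z0)) (d z0 (a (c (b (d z0 (a (b z0 (d z0 z0)) z0)) (d (c (b z0 z0) z0) (b (d z0 z0) (d z0 z0)))) (b z0 z0)) (c (b z0 (d z0 z0)) z0))))) (c (b (d z0 z0) (d (a (c (b (d z0 z0) (d z0 z0)) z0) (c (b z0 (d z0 z0)) z0)) (a (b (d z0 z0) (d z0 z0)) (b z0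 (d z0 z0))))) z0))) _ _ (by decide +kernel)

theorem okB883 : CKB ⟨6144, 6912, 7040, 7168⟩ ⟨6144, 8256, 7168, 7424⟩ :=
  ckB_sound (d (c (b (d (c (a (b (d (c (a (b (d z0 z0) (d z0 z0)) z0) z0) (a (c (b (d z0 z0) (d z0 z0)) (b z0 z0)) z0)) (d (c (b (d z0 z0) (d z0 z0)) z0) (c (b (d z0 z0) (d z0 z0)) (b z0 z0)))) (b (d z0 z0) (d z0 z0))) (a (b z0 z0) z0)) (a (c (b (d (a (c (b (d z0 z0) (d z0 z0)) (b z0 z0)) z0) (a (b (d z0 z0) (d z0 z0)) z0)) (d (c (b (d z0 z0) (d z0 z0)) (b z0 z0)) (b (d z0 z0) (d z0 z0)))) (b (d z0 (a (c (b z0 z0) z0) z0)) (d z0 (c (b z0 z0) z0)))) (c (b (d z0 z0) (d z0 z0)) z0))) (d (c (b (d (c (a (b (d z0 z0) (d z0 z0)) z0) z0) (a (c (b (d z0 z0) (d z0 z0)) (b z0 z0)) z0)) (d (c (b (d z0 z0) (d z0 z0)) z0) (c (b (d z0 z0) (d z0 z0)) (b z0 z0)))) (b z0 z0)) (c (b (d (a (c (b (d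 z0 z0) (d z0 z0)) (b z0 z0)) z0) (a (b (d z0 z0) (d z0 z0)) z0)) (d (c (b (d z0 z0) (d z0 z0)) (b z0 z0)) (b (d z0 z0) (d z0 z0)))) (b (d z0 (a (c (b z0 (d z0 z0)) z0) z0)) (d z0 (c (b (d z0 z0) (d z0 z0)) z0)))))) (b (d z0 (c (a (b z0 z0) z0) z0)) (d (c (b z0 z0) z0) (c (b z0 z0) z0)))) (c (b (d (a (c (b (d (a (c (b (d z0 z0) (d z0 z0)) (b z0 z0)) z0) (a (b (d z0 z0) (d z0 z0)) z0)) (d (c (b (d z0 z0) (d z0 z0)) (b z0 z0)) (b (d z0 z0) (d z0 z0)))) (b (d z0 (a (c (b z0 z0) z0) z0)) (d z0 (c (b z0 (d z0 z0)) z0)))) (c (b (d z0 z0) (d z0 z0)) z0)) (a (b (d (a (b (d z0 z0) (d z0 z0)) z0) z0) (d (b (d z0 z0) (d z0 z0)) z0)) (b (d z0 z0) (d z0 z0)))) (d (c (b (d (a (c (b (d z0 z0) (d z0 z0)) (b z0 z0)) z0) (a (b (d z0 z0) (d z0 z0)) z0)) (d (c (b (d z0 z0) (d z0 z0)) (b z0 z0)) (b (d z0 z0) (d z0 z0))))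 (b (d z0 (a (c (b (d z0 z0) (d z0 z0)) z0) z0)) (d z0 (c (b (d z0 z0) (d z0 z0)) z0)))) (b (d (a (b (d z0 z0) (d z0 z0)) z0) z0) (d (b (d z0 z0) (d z0 z0)) z0)))) (b (d (a (c (b z0 z0) (b z0 z0)) z0) (a (c (b (d (a (c (b z0 z0) z0) z0) (a (b (d z0 z0) (d z0 z0)) z0)) (d (c (b z0 z0) z0) (b (d z0 z0) (d z0 z0)))) (b z0 z0)) (c (b (d z0 z0) (d z0 z0)) z0))) (d (c (b z0 z0) (b z0 z0)) (c (b (d (a (c (b z0 z0) z0) z0) (a (b (d z0 z0) (d z0 z0)) z0)) (d (c (b z0 z0) z0) (b (d z0 z0) (d z0 z0)))) (b z0 (d z0 (b z0 z0)))))))) _ _ (by decide +kernel)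

theorem okB884 : CKB ⟨6912, 7680, 6912, 7168⟩ ⟨6144, 8256, 7168, 7424⟩ :=
  ckB_sound (b (d (c (a (b (d z0 z0) (d z0 z0)) (b (d z2 z2) (d z0 z0))) z0) (a (c (b (d z0 z0) (d z0 z0)) z0) (c (b (d z2 z2) (d z0 z0)) z0))) (d (c (a (b (d (c (a (b z0 (d z0 z0)) z0) z0) (a (c (b z0 (d z0 z0)) z0) z0)) (d (c (a (b (d z0 z0) (d z0 z0)) (b (d z0 z0) (d z0 z0))) z0) (a (c (b (d z0 z0) (d z0 z0)) z0) (c (b (d z0 z0) (d z0 z0)) z0)))) (b (d z0 z0) (d (c (a (b z0 (d z0 z0)) z0) z0) (c (a (b z0 (d z0 z0)) z0) z0)))) z0) (a (c (b (d (a (c (b (d z0 z0) (d z0 z0)) z0) z0) (a (b (d z0 z0) (d z0 z0)) z0)) (d (a (c (b (d z0 z0) (d z0 z0)) z0) (c (b (d z0 z0) (d z0 z0)) z0)) (a (b (d z0 z0) (d z0 z0)) (b (d z0 z0) (d z0 z0))))) (b z0 (d z0 (a (c (b (d z0 z0) (d z0 z0)) z0) (c (b z0 (d z0 z0)) z0))))) (c (b (d z0 z0)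 (d (a (c (b z0 (d z0 z0)) z0) z0) (a (b z0 (d z0 z0)) z0))) z0)))) _ _ (by decide +kernel)

end Vale.Agent.Lib.P154Q5
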