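import Vale.Agent.Lib.P154Q5.CkBDefs

namespace Vale.Agent.Lib.P154Q5

set_option maxRecDepth 100000
set_option exponentiation.threshold 1000

open Tr

theorem okB885 : CKB ⟨6144, 7680, 6912, 7168⟩ ⟨8256, 9600, 7168, 7424⟩ :=
  ckB_sound (a (b z8 (d (c (b z8 z8) z8) (c (b (d z0 (c (a (b z0 z0) z0) z0)) (d z0 (c (b z0 z0) z0))) (b z8 z8)))) z8) _ _ (by decide +kernel)

theorem okB886 : CKB ⟨6144, 6912, 6912, 7040⟩ ⟨6144, 9600, 7424, 7680⟩ :=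
  ckB_sound (d (c (a (b (d (c (a (b (d z0 z0) (d z0 z0)) (b z0 (d z0 z0))) z0) (a (c (b (d z0 z0) (d z0 z0)) z0) (c (b z0 (d z0 z0)) z0))) (d (c (a (b (d (c (a (b z0 (d z0 z0)) z0) z0) (a (c (b z0 (d z0 z0)) z0) z0)) (d (c (b (d z0 z0) (d z0 z0)) z0) (c (b (d z0 z0) (d z0 z0)) z0))) (b (d z0 z0) (d z0 z0))) z0) (a (c (b (d (a (c (b z0 (d z0 z0)) z0) z0) (a (b z0 (d z0 z0)) z0)) (d (c (b (d z0 z0) (d z0 z0)) z0) (b (d z0 z0) (d z0 z0)))) (b z0 (d z0 (c (b z0 z0) z0)))) (c (b (d z0 z0) (d z0 z0)) z0)))) (b (d z0 z0) (d (c (a (b (d z0 z0) (d z0 z0)) (b z0 (d z0 z0))) z0) (a (c (b (d z0 z0) (d z0 z0)) z0) (c (b z0 (d z0 z0)) z0))))) z0) (a (c (b (d (a (c (b (d z0 z0) (d z0 z0)) z0) (c (b z0 (d z0 z0)) z0)) (a (b (d z0 z0) (d z0 z0)) (b z0 (d z0 z0)))) (d (a (c (b (d z0 z0) (d (c (b (d z0 z0) (d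 z0 z0)) z0) (b z0 (d z0 z0)))) (b z0 (d z0 (c (b z0 z0) z0)))) (c (b (d z0 z0) (d z0 z0)) z0)) (a (b (d z0 z0) (d (b z0 z0) z0)) (b (d z0 z0) (d z0 z0))))) (b z0 (d z0 (a (c (b (d z0 z0) (d z0 (b z0 z0))) z0) (c (b z0 (d z0 z0)) z0))))) (c (b (d z0 z0) (d (a (c (b (d z0 z0) (d z0 z0)) z0) (c (b z0 (d z0 z0)) z0)) (a (b (d z0 z0) (d z0 z0)) z0))) z0))) _ _ (by decide +kernel)

theorem okB887 : CKB ⟨6144, 6912, 7040, 7168⟩ ⟨6144, 9600, 7424, 7680⟩ :=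
  ckB_sound (d (c (b (d (c (a (b (d (c (a (b (d z0 z0) (d z0 z0)) z0) z0) (a (c (b (d z0 z0) (d z0 z0)) z0) z0)) (d (c (b (d z0 z0) (d z0 z0)) z0) (c (b (d z0 z0) (d z0 z0)) z0))) (b (d z0 z0) (d z0 z0))) (a (b z0 z0) z0)) (a (c (b (d (a (c (b (d z0 z0) (d z0 z0)) z0) z0) (a (b (d z0 z0) (d z0 z0)) z0)) (d (c (b (d z0 z0) (d z0 z0)) z0) (b (d z0 z0) (d z0 z0)))) (b (d z0 (a (c (b z0 z0) z0) z0)) (d z0 (c (b z0 z0) z0)))) (c (b (d z0 z0) (d z0 z0)) z0))) (d (c (b (d (c (a (b (d z0 z0) (d z0 z0)) z0) z0) (a (c (b (d z0 z0) (d z0 z0)) z0) z0)) (d (c (b (d z0 z0) (d z0 z0)) z0) (c (b (d z0 z0) (d z0 z0)) (b z0 z0)))) (b z0 z0)) (c (b (d (a (c (b (d z0 z0) (d z0 z0)) z0) z0) (a (b (d z0 z0) (d z0 z0)) z0)) (d (c (b (d z0 z0) (d z0 z0)) z0) (b (d z0 z0) (d z0 z0)))) (b (d z0 (a (c (b z0 z0) z0)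 z0)) (d z0 (c (b z0 z0) z0)))))) (b (d z0 (c (a (b z0 z0) z0) z0)) (d z0 (c (b z0 z0) z0)))) (c (b (d (a (c (b (d (a (c (b (d z0 z0) (d z0 z0)) z0) z0) (a (b (d z0 z0) (d z0 z0)) z0)) (d (c (b (d z0 z0) (d z0 z0)) z0) (b (d z0 z0) (d z0 z0)))) (b (d z0 (a (c (b z0 z0) z0) z0)) (d z0 (c (b z0 z0) z0)))) (c (b (d z0 z0) (d z0 z0)) z0)) (a (b (d (a (b z0 (d z0 z0)) z0) z0) (d (b (d z0 z0) (d z0 z0)) z0)) (b (d z0 z0) (d z0 z0)))) (d (c (b (d (a (c (b (d z0 z0) (d z0 z0)) z0) z0) (a (b (d z0 z0) (d z0 z0)) z0)) (d (c (b (d z0 z0) (d z0 z0)) z0) (b (d z0 z0) (d z0 z0)))) (b (d z0 (a (c (b z0 z0) z0) z0)) (d z0 (c (b z0 z0) z0)))) (b (d (a (b (d z0 z0) (d z0 z0)) z0) z0) (d (b (d z0 z0) (d z0 z0)) z0)))) (b (d (a (c (b z0 z0) z0) z0) (a (c (b (d z0 (a (b z0 z0) z0)) (d z0 (b z0 (d z0 z0)))) (b z0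 z0)) z0)) (d (c (b z0 z0) z0) (c (b (d z0 (a (b (d z0 z0) (d z0 z0)) z0)) (d z0 (b (d z0 z0) (d z0 z0)))) (b z0 z0)))))) _ _ (by decide +kernel)

theorem okB888 : CKB ⟨6912, 7680, 6912, 7168⟩ ⟨6144, 9600, 7424, 7680⟩ :=
  ckB_sound (b (d (c (a (b (d z0 z0) (d z0 z0)) (b (d z2 z2) (d z0 z0))) z0) (a (c (b (d z0 z0) (d z0 z0)) z0) (c (b (d z2 z2) (d z0 z0)) z0))) (d (c (a (b (d (c (a (b (d z0 z0) (d z0 z0)) z0) z0) (a (c (b (d z0 z0) (d z0 z0)) z0) z0)) (d (c (a (b (d z0 z0) (d z0 z0)) (b (d z0 z0) (d z0 z0))) z0) (a (c (b (d z0 z0) (d z0 z0)) z0) (c (b (d z0 z0) (d z0 z0)) z0)))) (b (d z0 z0) (d (c (a (b z0 (d z0 z0)) z0) z0) (c (a (b z0 (d z0 z0)) z0) z0)))) z0) (a (c (b (d (a (c (b z0 (d z0 z0)) z0) z0) (a (b z0 (d z0 z0)) z0)) (d (a (c (b (d z0 z0) (d z0 z0)) z0) (c (b (d z0 z0) (d z0 z0))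 z0)) (a (b (d z0 z0) (d z0 z0)) (b (d z0 z0) (d z0 z0))))) (b z0 (d z0 (a (c (b z0 (d z0 z0)) z0) z0)))) (c (b (d z0 z0) (d (a (c (b z0 (d z0 z0)) z0) z0) (a (b z0 (d z0 z0)) z0))) z0)))) _ _ (by decide +kernel)

theorem okB889 : CKB ⟨7680, 9216, 6656, 7168⟩ ⟨6144, 9600, 7168, 7680⟩ :=
  ckB_sound (b (d (c (a (b (d z2 z2) (d z2 z2)) (b (d z2 z2) (d z2 z2))) z10) (a (b (d z2 z2) (d z2 z2)) (b (d z2 z2) (d z2 z2)))) (d (c (a (b (d (c (a (b z2 (d z2 z2)) z2) z2) (a (c (b z2 (d z2 z2)) z2) z2)) (d (c (a (b (d z2 z2) (d z0 z0)) (b (d z2 z2) (d z2 z2))) z2) (a (c (b (d z2 z2) (d z0 z0)) z0) (c (b (d z2 z2) (d z2 z2)) z2)))) (b (d z2 z2) (d (c (b z2 (d z2 z2)) z2) (c (b z2 (d z2 z2)) z2)))) z10) (a (b (d (c (a (b z2 (d z2 z2)) z2) z2) (c (a (b z2 (d z2 z2)) z2) z2)) (d (c (a (b (d z2 z2) (d z0 z0))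 (b (d z2 z2) (d z2 z2))) z2) (c (a (b (d z2 z2) (d z0 z0)) (b (d z2 z2) (d z2 z2))) z2))) (b (d z2 z2) (d (c (b z2 (d z2 z2)) z2) (c (b z2 (d z2 z2)) z2)))))) _ _ (by decide +kernel)

theorem okB890 : CKB ⟨6144, 9216, 6656, 7168⟩ ⟨9600, 12288, 7168, 7680⟩ :=
  ckB_sound z10 _ _ (by decide +kernel)

theorem okB891 : CKB ⟨6144, 7680, 6656, 6912⟩ ⟨6144, 12288, 7680, 8192⟩ :=
  ckB_sound (d (c (a (b (d (c (a (b (d z0 z0) (d z0 z0)) (b z0 (d z0 z0))) z0) (a (b (d z0 z0) (d z0 z0)) (b z0 (d z0 z0)))) (d (c (a (b (d z0 z0) (d z0 z0)) (b (d z0 z0) (d z0 z0))) z0) (a (b (d z0 z0) (d z0 z0)) (b (d z0 z0) (d z0 z0))))) (b (d z2 z2) (d (c (a (b (d z2 z2) (d z0 z0)) z2) z2) (a (b z2 (d z0 z0)) z2)))) z8) (a (b (d (c (a (b z0 (d z0 z0)) z0) z8) (a (b z0 (d z0 z0)) z0)) (d (c (a (b (d z0 z0) (d z0 z0)) (b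 (d z0 z0) (d z0 z0))) z8) (a (b (d z0 z0) (d z0 z0)) (b z0 (d z0 z0))))) (b (d z2 z2) (d (c (a (b z2 (d z0 z0)) z2) z10) z2)))) _ _ (by decide +kernel)

theorem okB892 : CKB ⟨6144, 7680, 6912, 7168⟩ ⟨6144, 12288, 7680, 7936⟩ :=
  ckB_sound (c (a (b (d (c (a (b (d (c (a (b (d z0 z0) (d z0 z0)) z0) z0) (a (b z0 (d z0 z0)) z0)) (d (c (a (b (d z0 z0) (d (c (b z0 z0) z0) (b z0 z0))) (b (d z0 z0) (d z0 z0))) z0) (a (b (d z0 z0) (d (c (b z0 z0) z0) (b z0 z0))) (b (d z0 z0) (d z0 z0))))) (b (d z0 z0) (d (c (a (b z0 (d z0 z0)) z0) z0) (a (b z0 (d z0 z0)) z0)))) z0) (a (b (d (c (a (b z0 (d z0 z0)) z0) z0) z0) (d (c (a (b (d z0 z0) (d z0 z0)) (b z0 (d z0 z0))) z0) (a (b (d z0 z0) (d z0 z0)) (b z0 (d z0 z0))))) (b (d z0 z0) (d z0 z0)))) (d (c (b (d (a (c (b (d (a (c (b z0 z0) z0) z0) (a (b z0 z0) z0))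 (d (c (b z0 z0) z0) (b z0 z0))) z0) (c (b (d z0 z0) (d z0 z0)) z0)) (a (b (d (c (a (b z0 z0) z0) z0) (a (b z0 z0) z0)) (d (c (b z0 z0) z0) (b z0 z0))) (b (d z0 z0) (d z0 z0)))) (d (c (b (d (c (a (b z0 z0) z0) z0) (a (b z0 z0) z0)) (d (c (b z0 (d z0 z0)) z0) (b z0 z0))) (b z0 z0)) (b (d (c (a (b z0 z0) z0) z0) (a (b z0 z0) z0)) (d (c (b z0 z0) z0) (b z0 z0))))) (b z0 z0)) (b (d (a (c (b (d (a (c (b z0 z0) z0) z0) z0) (d (c (b z0 z0) z0) (b z0 z0))) z0) (c (b (d z0 z0) (d z0 z0)) z0)) (a (b (d z0 z0) (d z0 z0)) (b z0 (d z0 z0)))) (d (c (b (d (c (a (b z0 z0) z0) z0) (a (b z0 z0) z0)) (d (c (b z0 z0) z0) (b z0 z0))) z0) (b (d z0 z0) (d (c (b z0 z0) z0) z0)))))) (b (d (c (a (b (d z0 z0) (d z0 z0)) (b (d z2 z2) (d z0 z0))) z0) (a (b (d z0 z0) (d z0 z0)) (b (d z2 z2) (d z0 z0)))) (d (c (a (b (d (c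 (a (b z0 (d z0 z0)) z0) z0) z0) (d (c (a (b (d z0 z0) (d z0 z0)) (b (d z0 z0) (d z0 z0))) z0) (a (b (d z0 z0) (d z0 z0)) (b z0 (d z0 z0))))) (b (d z0 z0) (d z0 z0))) z0) (a (b (d z0 z0) (d (c (a (b (d z0 z0) (d z0 z0)) (b z0 (d z0 z0))) z0) (a (b z0 (d z0 z0)) z0))) (b (d z0 z0) (d z0 z0)))))) (a (b z8 (d (c (b z8 z8) z8) (c (b z8 z8) z8))) z8)) _ _ (by decide +kernel)

theorem okB893 : CKB ⟨6144, 7680, 6912, 7168⟩ ⟨6144, 12288, 7936, 8192⟩ :=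
  ckB_sound (a (b (d (c (a (b (d z0 z0) (d (c (a (b (d z0 z0) (d z0 z0)) z0) z0) (a (b (d z0 z0) (d z0 z0)) z0))) (b (d z0 z0) (d z0 z0))) z8) (a (b (d z0 z0) (d (c (a (b z0 (d z0 z0)) z0) z0) (a (b z0 (d z0 z0)) z0))) (b (d z0 z0) (d z0 z0)))) (d (c (b (d (a (c (b (d z0 z0) (d z0 z0)) z0) z0) (a (b (d z0 z0) (d z0 z0)) z0)) (d (c (b (d z0 z0) (d z0 z0)) z0) (b (d z0 z0) (d z0 z0)))) (b z8 z8)) (b (d (a (c (b (d z0 z0) (d z0 z0)) z0) z0) (a (b (d z0 z0) (d z0 z0)) z0)) (d (c (b (d z0 z0) (d z0 z0)) z0) (b (d z0 z0) (d z0 z0)))))) (b (d (c (a (b (d z0 z0) (d z0 z0)) (b (d z2 z2) (d z0 z0))) z8) (a (b (d z0 z0) (d z0 z0)) (b z2 (d z0 z0)))) (d (c (a (b (d z0 z0) (d (c (a (b z0 (d z0 z0)) z0) z0) z0)) (b (d z0 z0) (d z0 z0))) z8) (a (b (d z0 z0) (d z0 z0)) (b (d z0 z0) (d z0 z0)))))) _ _ (by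 decide +kernel)

theorem okB894 : CKB ⟨7680, 9216, 6656, 7168⟩ ⟨6144, 12288, 7680, 8192⟩ :=
  ckB_sound (b (d (c (a (b (d z2 z2) (d z2 z2)) (b (d z2 z2) (d z2 z2))) z10) (a (b (d z2 z2) (d z2 z2)) (b (d z2 z2) (d z2 z2)))) (d (c (a (b (d (c (a (b z2 (d z2 z2)) z2) z2) (a (b z2 (d z2 z2)) z2)) (d (c (a (b (d z2 z2) (d z0 z0)) (b (d z2 z2) (d z2 z2))) z2) (a (b (d z2 z2) (d z0 z0)) (b (d z2 z2) (d z2 z2))))) (b (d z2 z2) (d (c (b z2 (d z2 z2)) z2) z2))) z10) (a (b (d z2 z2) (d (c (a (b (d z2 z2) (d z0 z0)) (b z2 (d z2 z2))) z10) (a (b (d z2 z2) (d z0 z0)) z2))) (b (d z2 z2) (d z2 z2))))) _ _ (by decide +kernel)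

theorem okB895 : CKB ⟨9216, 12288, 6144, 7168⟩ ⟨6144, 12288, 7168, 8192⟩ :=
  ckB_sound (b (d z10 (b (d z2 z2) (d z2 z2))) (d z10 (b (d (a (c (b (d z2 z2) (d z2 z2)) z10) z2) (a (b (d z2 z2) (d z2 z2)) z2)) (d (a (c (b (d z2 z2) (d z2 z2)) z10) (c (b (d z2 z2) (d z2 z2)) z10)) (a (b (d z2 z2) (d z2 z2)) (b z2 (d z2 z2))))))) _ _ (by decide +kernel)

theorem okB896 : CKB ⟨6144, 12288, 7168, 7680⟩ ⟨6144, 9216, 6144, 6656⟩ :=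
  ckB_sound (a (c (b (d (a (c (b z8 z8) (b z8 z8)) z10) (a (c (b z8 z8) (b z8 z8)) z10)) (d (c (b z8 z8) (b z8 z8)) (c (b z8 z8) (b z8 z8)))) (b (d z8 (a (c (b z8 z8) (b z8 z8)) z10)) (d z8 (c (b z8 z8) (b z8 z8))))) z10) _ _ (by decide +kernel)

theorem okB897 : CKB ⟨6144, 9600, 7168, 7424⟩ ⟨6144, 7680, 6656, 6912⟩ :=
  ckB_sound (a (c (b (d (a (c (b z0 z0) (b z0 z0)) z0) (a (c (b z0 z0) (b z0 z0)) z0)) (d (c (a (b z0 z0) z0) (a (b z0 z0) z0)) (c (a (b z0 z0) z0) (a (b z0 z0) z0)))) (b (d z8 (a (c (b z0 z0) z8) z8)) (d z8 (c (a (b z0 z0) z0) (a (b z8 z8) z8))))) z2) _ _ (by decide +kernel)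

theorem okB898 : CKB ⟨6144, 8256, 7168, 7296⟩ ⟨6144, 6912, 6912, 7168⟩ :=
  ckB_sound (d (a (c (b (d (a (c (b z0 z0) (b z0 z0)) z0) (a (c (b (d (a (c (b z0 z0) z0) z0) (a (b (d z0 z0) (d z0 z0)) z0)) (d (c (a (b z0 z0) z0) z0) (a (b (d z0 z0) (d z0 z0)) z0))) (b z0 z0)) z0)) (d (c (a (b z0 z0) z0) (a (b z0 z0) z0)) (c (a (b (d (c (a (b z0 z0) z0) z0) (a (b (d z0 z0) (d z0 z0)) z0)) (d (c (b z0 z0) z0) (b (d z0 z0) z0))) (b z0 (d z0 (a (b z0 (d z0 z0)) z0)))) (a (b z0 z0) z0)))) (b (d z0 (a (c (b z0 z0) z0) z0)) (d z0 (c (a (b z0 z0) z0) (a (b z0 z0) z0))))) z0) (a (b (d (a (c (b (d (a (c (b (d z0 z0) (d z0 z0)) z0) z0) (a (b (d z0 z0) (d z0 z0)) z0)) (d (c (a (b (d z0 z0) (d z0 z0)) (b z0 (d z0 z0))) z0) (a (b (d z0 z0) (d z0 z0)) (b z0 (d z0 z0))))) (b z0 z0)) (c (b (d z0 z0) (d z0 z0))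 z0)) (a (b (d (a (c (b (d z0 z0) (d z0 z0)) z0) z0) (a (b (d z0 z0) (d z0 z0)) z0)) (d (c (a (b (d z0 z0) (d z0 z0)) (b z0 (d z0 z0))) z0) (a (b (d z0 z0) (d z0 z0)) (b z0 (d z0 z0))))) (b (d z0 z0) (d z0 z0)))) (d (c (a (b (d (c (a (b (d z0 z0) (d z0 z0)) (b z0 (d z0 z0))) z0) (a (b (d z0 z0) (d z0 z0)) (b z0 (d z0 z0)))) (d (c (b (d z0 z0) z0) z0) (b (d z0 z0) z0))) (b (d z0 z0) (d (c (a (b z0 (d z0 z0)) z0) z0) (a (b z0 (d z0 z0)) z0)))) (a (b z0 z0) z0)) (a (b (d (c (a (b (d z0 z0) (d z0 z0)) (b z0 (d z0 z0))) z0) (a (b (d z0 z0) (d z0 z0)) (b z0 (d z0 z0)))) (d (c (b (d z0 z0) z0) z0) (b (d z0 z0) z0))) (b (d z0 z0) (d (c (a (b z0 (d z0 z0)) z0) z0) (a (b z0 (d z0 z0)) z0)))))) (b (d z0 (a (b z0 (d z0 z0)) z0)) (d (a (c (b (d z0 z0) (d z0 z0)) z0) z0) (a (b (d z0 z0) (d z0 z0)) z0)))))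 _ _ (by decide +kernel)

theorem okB899 : CKB ⟨6144, 8256, 7296, 7424⟩ ⟨6144, 6912, 6912, 7168⟩ :=
  ckB_sound (d (c (a (b (d (c (a (b z0 z0) z0) (a (b z0 z0) z0)) (c (a (b (d (c (a (b z0 z0) z0) z0) (a (b (d z0 z0) (d z0 z0)) z0)) (d (c (b z0 z0) z0) (b (d z0 z0) z0))) (b z0 (d z0 (a (b z0 (d z0 z0)) z0)))) (a (b z0 z0) z0))) (d (c (b z0 z0) (b z0 z0)) (c (b (d (c (b z0 z0) z0) (b (d z0 z0) z0)) z0) (b z0 z0)))) (b z0 (d (c (a (b z0 z0) z0) z0) (c (a (b (d z0 (a (b z0 (d z0 z0)) z0)) (d (c (b z0 z0) z0) (b (d z0 z0) (d z0 z0)))) (b z0 (d z0 z0))) (a (b z0 z0) z0))))) (a (b (d z0 (c (a (b z0 z0) z0) (a (b z0 z0) z0))) (d z0 (c (b z0 z0) (b z0 z0)))) z0)) (a (b (d (c (a (b (d (c (a (b (d z0 z0) (d z0 z0)) (b z0 (d z0 z0))) z0) (a (b (d z0 z0) (d z0 z0)) (b z0 (d z0 z0)))) (d (c (b (d z0 z0)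 z0) z0) (b (d z0 z0) z0))) (b (d z0 z0) (d (c (a (b z0 (d z0 z0)) z0) z0) (a (b z0 (d z0 z0)) z0)))) (a (b z0 z0) z0)) (a (b (d (c (a (b (d z0 z0) (d z0 z0)) (b z0 (d z0 z0))) z0) (a (b (d z0 z0) (d z0 z0)) (b z0 (d z0 z0)))) (d (c (b (d z0 z0) z0) z0) (b (d z0 z0) z0))) (b (d z0 z0) (d (c (a (b z0 (d z0 z0)) z0) z0) (a (b (d z0 z0) (d z0 z0)) z0))))) (d (c (b (d (c (b (d z0 z0) z0) z0) (b (d z0 z0) z0)) z0) (b z0 z0)) (b (d (c (b (d z0 z0) z0) z0) (b (d z0 z0) z0)) z0))) (b (d (c (a (b (d z0 z0) (d z0 z0)) (b z0 (d z0 z0))) z0) (a (b (d z0 z0) (d z0 z0)) (b z0 (d z0 z0)))) (d (c (a (b (d (c (a (b z0 (d z0 z0)) z0) z0) (a (b z0 (d z0 z0)) z0)) (d (c (b (d z0 z0) (d z0 z0)) z0) (b (d z0 z0) (d z0 z0)))) (b (d z0 z0) (d z0 z0))) (a (b z0 z0) z0)) (a (b (d (c (a (b z0 (d z0 z0)) z0) z0) (a (b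 z0 (d z0 z0)) z0)) (d (c (b (d z0 z0) (d z0 z0)) z0) (b (d z0 z0) (d z0 z0)))) (b (d z0 z0) (d z0 (b z0 (d z0 z0))))))))) _ _ (by decide +kernel)

end Vale.Agent.Lib.P154Q5
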