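import Vale.Agent.Lib.P154Q5.CkBDefs

namespace Vale.Agent.Lib.P154Q5

set_option maxRecDepth 100000
set_option exponentiation.threshold 1000

open Tr

theorem okB90 : CKB ⟨4097, 6145, 1280, 1536⟩ ⟨8256, 9600, 7168, 7424⟩ :=
  ckB_sound (a (b (d (c (b z0 z8) z8) (c (b z0 z0) (b z0 z8))) z8) (b (d (c (a (b z0 z9) z0) (a (b z0 z9) z0)) (c (a (b z0 (d z1 (c (a z1 z0) z1))) z0) (a (b z0 z9) z0))) (d (c (a (b z9 (d (c (a z8 z9) (a z8 z9)) (c (a z0 z1) (a z8 z9)))) z0) (a (b z9 (d (c (a z8 z9) z9) (c (a z8 z9) (a z8 z9)))) z0)) (c (a (b (d (c (a (b z1 (d z1 (c (a z0 z1) z1))) z0) z1) (c (a (b z1 (d (c (a z0 z1) (a z0 z1)) (c (a z0 z1) (a z0 z1)))) z0) (a (b z1 (d z1 (c (a z0 z1) z1))) z0))) (d (c (a z0 z1) (a z0 z1)) (c (a z0 z1) (a z0 z1)))) z0) (a (b z9 (d (c (a z8 z9) (a z8 z9)) (c (a z8 z9)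 (a z8 z9)))) z0))))) _ _ (by decide +kernel)

theorem okB91 : CKB ⟨4097, 5473, 1280, 1536⟩ ⟨6144, 9600, 7424, 7680⟩ :=
  ckB_sound (b (d (c (b z0 (d (c (b (d z0 z0) z0) z0) (c (b (d z0 z0) z0) z0))) (b z0 z0)) (c (b z0 (d (c (b (d z0 (b z0 z0)) z0) z0) (b (d (b z0 z0) z0) (d z0 z0)))) (b z0 (d z0 (c (b (d z0 (b z0 z0)) z0) z0))))) (d (c (a z0 (b (d z0 z0) (d z0 z0))) z0) (a z0 (c (b (d z0 z0) (d z0 z0)) z0)))) _ _ (by decide +kernel)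

theorem okB92 : CKB ⟨5473, 6145, 1280, 1408⟩ ⟨6144, 9600, 7424, 7680⟩ :=
  ckB_sound (d (c (a (b z0 (d (c (a (b (d (c (a (b z0 z1) z0) z1) (a (c (b z0 z1) z1) z0)) (d z1 z1)) z0) (a z1 z0)) (a (c (b (d (a (c (b z0 z1) z1) z0) (a (b z0 z1) z0)) (d z1 z1)) (b (d z1 (a z1 z0)) z1)) z0))) z0) (a (b z0 (d z1 (c (a z1 z0) z1))) z0)) (a (c (b z0 (d (a (c (b (d (a (c (b z0 z1) z1) z0) (a (b z0 z1) z0)) (d z1 z1)) (b (d z1 (a z1 z0)) z1)) z0) (a (b (d (a (b z0 z1) z0) z0) (d z1 z0)) z0))) (b z0 (d (a z1 z0) (a (c (b (d z1 (a (b z0 z1) z0)) (d z1 z1)) z1) z0)))) z0)) _ _ (by decide +kernel)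

theorem okB93 : CKB ⟨5473, 6145, 1408, 1536⟩ ⟨6144, 9600, 7424, 7680⟩ :=
  ckB_sound (d (c (a (b (d (c (a (b (d (c (a (b (d z1 z1) (d (c (a z0 z1) z1) (a z0 z1))) z1) z1) (a (c (b (d z1 z1) (d (a z0 z1) (a z0 z1))) (b z1 (d z1 (a z0 z1)))) z1)) (d (c (a z0 z1) (a z0 z1)) (a z0 z1))) z0) (a (b z1 (d (c (a z0 z1) (a z0 z1)) (c (a z0 z1) (a z0 z1)))) z0)) (a (c (b (d (a (c (b (d z1 z1) (d (a z0 z1) (a z0 z1))) (b z1 (d z1 (a z0 z1)))) z1) (a (b (d z1 z0) (d (a z0 z1) z0)) z1)) (d (a z0 z1) (a z0 z1))) (b (d z1 (a (c (b (d z1 z1) (d (a z0 z1) (a z0 z1))) z1) z1)) (d (a z0 z1) (a z0 z1)))) z0)) (d (c (a (b (d (c (a z0 z1) (a z0 z1)) (a z0 z1)) z0) z1) (a z0 z1)) (a (c (b (d (a z0 z1) (a z0 z1)) z0) z0) z1))) z0) (a (b (d (c (a (b z1 (d (c (a z0 z1) z1) (c (a z0 z1) (a z0 z1)))) z0) z9) (c (a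 (b z1 (d (c (a z0 z1) (a z0 z1)) (c (a z0 z1) (a z0 z1)))) z0) (a (b z1 (d (c (a z0 z1) z9) (c (a z0 z1) z1))) z0))) (d (c (a z0 z1) (a z8 z9)) (c (a z0 z1) (a z0 z1)))) z0)) (a (c (b (d (a (c (b (d (a (c (b (d z1 z1) (d (a z0 z1) (a z0 z1))) (b z1 (d z1 (a z0 z1)))) z1) (a (b (d z1 z0) (d (a z0 z1) z0)) z1)) (d (a z0 z1) (a z0 z1))) (b (d z1 (a (c (b (d z1 z1) (d (a z0 z1) (a z0 z1))) z1) z1)) (d (a z0 z1) (a z0 z1)))) z0) (a (b (d (a (b (d z1 z1) (d (a z0 z1) (a z0 z1))) z1) z0) (d (a z0 z1) z0)) z0)) (d (a (c (b (d (a z0 z1) (a z0 z1)) z0) z0) z1) (a (b (d (a z0 z1) z0) z0) z1))) (b (d (a (c (b z1 (d (a z0 z1) (a z0 z1))) (b z1 (d (a z0 z1) (a z0 z1)))) z0) (a (c (b (d (a (c (b z1 (d z1 (a z0 z1))) z1) z1) (a (b (d z1 z1) (d (c (a z0 z1) (a z0 z1)) (a z0 z1))) z1)) (d (a z0 z1) (a z0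 z1))) (b (d z1 (a (c (b z1 (d z1 (a z0 z1))) z1) z1)) (d (a z0 z1) (a z0 z1)))) z0)) (d (a z0 z1) (a z0 z1)))) z0)) _ _ (by decide +kernel)

theorem okB94 : CKB ⟨4097, 6145, 1024, 1536⟩ ⟨9600, 12288, 7168, 7680⟩ :=
  ckB_sound (b z0 (d (c (a z8 (b (d (c (a z9 z0) z9) (c (a (b z0 z9) z0) (a z9 z0))) (d z9 (c (a (b z9 (d (c (a z8 z9) z9) (c (a z8 z9) (a z8 z9)))) z0) z9)))) (a z8 z9)) (c (a (b (d (c (b z0 z8) z8) (c (b z0 z0) (b z0 z8))) z8) (b (d (c (a (b z0 z9) z0) (a (b z0 z9) z0)) (c (a (b z0 z1) z0) (a (b z0 z9) z0))) (d (c (a (b z9 (d (c (a z8 z9) (a z8 z9)) (c (a z8 z9) (a z8 z9)))) z0) (a (b z9 (d (c (a z8 z9) z9) (c (a z8 z9) (a z8 z9)))) z0)) (c (a (b (d (c (a (b z1 (d z1 (c (a z0 z1) z1))) z0) z9) (c (a (b z1 (d (c (a z0 z1) (a z0 z1)) (c (a z0 z1) (a z0 z1)))) z0) (a (b z1 (d z9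 (c (a z0 z1) z1))) z0))) (d (c (a z0 z1) (a z8 z9)) (c (a z0 z1) (a z0 z1)))) z0) (a (b z9 (d (c (a z8 z9) (a z8 z9)) (c (a z8 z9) (a z8 z9)))) z0))))) (a z8 (b (d z9 (c (a z9 z0) z9)) (d z9 (c (a (b z9 (d z9 (c (a z8 z9) z9))) z0) z9))))))) _ _ (by decide +kernel)

theorem okB95 : CKB ⟨4097, 6145, 1024, 1280⟩ ⟨6144, 12288, 7680, 8192⟩ :=
  ckB_sound z0 _ _ (by decide +kernel)

theorem okB96 : CKB ⟨4097, 5473, 1280, 1536⟩ ⟨6144, 10848, 7680, 7936⟩ :=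
  ckB_sound (b (d (c (b z0 (d (c (b (d (c (b z0 z0) z0) (b z0 z0)) (d z0 z0)) z0) (b (d (c (b z0 z0) z0) (b z0 z0)) (d z0 z0)))) (b z0 z0)) (b z0 (d (c (b (d (c (b z0 z0) z0) (b z0 z0)) (d z0 z0)) z0) (b (d (c (b z0 z0) z0) (b z0 z0)) (d z0 z0))))) (d (c (a (b (d z0 z0) z0) (b (d z0 z0) (d z0 z0))) z0) (a (b (d z0 z0) z0) (b (d (c (a z0 (b (d z0 z0) z0)) z0) (a z0 (b (d z0 z0) z0))) (d z0 z0))))) _ _ (by decide +kernel)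

theorem okB97 : CKB ⟨5473, 6145, 1280, 1536⟩ ⟨6144, 10848, 7680, 7936⟩ :=
  ckB_sound (b (d (c (a (b z0 (d (c (a (b (d (c (a (b z0 z1) z0) z1) (a (b z0 z1) z0)) (d (c (a (b z1 (d z1 z1)) z0) z1) (a (b z1 (d z1 z1)) z0))) z0) z1) (a (b (d (c (a (b z0 z1) z0) z1) (a (b z0 z1) z0)) (d (c (a (b z1 (d z1 z1)) z0) z1) (a (b z1 (d z1 z1)) z0))) z0))) z0) (a (b z0 z1) z0)) (a (b z0 (d (c (a (b (d (c (a (b z0 z1) z0) z1) (a (b z0 z1) z0)) (d (c (a (b z1 (d z1 z1)) z0) z1) (a (b z1 (d z1 z1)) z0))) z0) z1) (a (b (d (c (a (b z0 z1) z0) z1) (a (b z0 z1) z0)) (d (c (a (b z1 (d z1 z1)) z0) z1) (a (b z1 (d z1 z1)) z0))) z0))) z0)) (d (c (a (b (d (c (a (b (d (c (a (b (d (c (a z0 z1) z1) (a z0 z1)) (d (c (a z0 z1) z1) (a z0 z1))) z1) z1) (a (b (d (c (a z0 z1) z1) (a z0 z1)) (d (c (a z0 z1) z1) (a z0 z1)))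 z1)) (d (c (a z0 z1) (a z0 z1)) (a z0 z1))) z0) (a (b z1 (d (c (a z0 z1) (a z0 z1)) (c (a z0 z1) (a z0 z1)))) z0)) (a (b (d (c (a (b (d (c (a z0 z1) z1) (a z0 z1)) (d (c (a z0 z1) z1) (a z0 z1))) z1) z1) (a (b (d (c (a z0 z1) z1) (a z0 z1)) (d (c (a z0 z1) z1) (a z0 z1))) z1)) (d (c (a z0 z1) (a z0 z1)) (a z0 z1))) z0)) (d (c (a (b (d (c (a z0 z1) (a z0 z1)) (a z0 z1)) (d z0 z0)) z1) (a z0 z1)) (a (b (d (c (a z0 z1) (a z0 z1)) (a z0 z1)) (d z0 z0)) z1))) z0) (a (b (d (c (a (b z1 (d (c (a z0 z1) z9) (c (a z0 z1) (a z0 z1)))) z0) z9) (c (a (b z1 (d (c (a z0 z1) (a z0 z1)) (c (a z0 z1) (a z0 z1)))) z0) (a (b z1 (d (c (a z0 z1) z9) (c (a z0 z1) (a z0 z1)))) z0))) (d (c (a z0 z1) (a z8 z9)) (c (a z0 z1) (a z0 z1)))) z0)) (a (b (d (c (a (b (d (c (a (b (d (c (a z0 z1) z1) (a z0 z1)) (d (c (a z0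 z1) z1) (a z0 z1))) z1) z1) (a (b (d (c (a z0 z1) z1) (a z0 z1)) (d (c (a z0 z1) z1) (a z0 z1))) z1)) (d (c (a z0 z1) (a z0 z1)) (a z0 z1))) z0) (a (b z1 (d (c (a z0 z1) (a z0 z1)) (c (a z0 z1) (a z0 z1)))) z0)) (a (b (d (c (a (b (d (c (a z0 z1) z1) (a z0 z1)) (d (c (a z0 z1) z1) (a z0 z1))) z1) z1) (a (b (d (c (a z0 z1) z1) (c (a z0 z1) z1)) (d (c (a z0 z1) z1) (c (a z0 z1) (a z0 z1)))) z1)) (d (c (a z0 z1) (a z0 z1)) (a z0 z1))) z0)) (d (c (a (b (d (c (a z0 z1) (a z0 z1)) (a z0 z1)) (d z0 z0)) z1) (a z0 z1)) (a (b (d (c (a z0 z1) (a z0 z1)) (a z0 z1)) (d z0 z0)) z1))) z0))) _ _ (by decide +kernel)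

theorem okB98 : CKB ⟨4097, 6145, 1280, 1536⟩ ⟨10848, 12288, 7680, 7936⟩ :=
  ckB_sound (a (b (d (c (b z0 z8) z8) (c (b z0 z8) (b z0 z8))) z8) (b (d (c (a (b z0 z9) z0) z9) (c (a (b z0 z9) z0) (a (b z0 z9) z0))) (d (c (a (b z9 (d (c (a z8 z9) (a z8 z9)) (c (a z8 z9) (a z8 z9)))) z0) (a (b z9 (d z9 (c (a z8 z9) z9))) z0)) (c (a (b (d (c (a (b z1 (d (c (a z0 z1) z9) (c (a z0 z1) (a z8 z9)))) z0) z9) (c (a (b z1 (d (c (a z0 z1) (a z0 z1)) (c (a z0 z1) (a z0 z1)))) z0) (a (b z9 (d z9 (c (a z0 z1) z9))) z0))) (d (c (a z0 z1) (a z8 z9)) (c (a z0 z1) (a z8 z9)))) z0) (a (b z9 (d (c (a z8 z9) (a z8 z9)) (c (a z8 z9) (a z8 z9)))) z0))))) _ _ (by decide +kernel)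

theorem okB99 : CKB ⟨4097, 5473, 1280, 1536⟩ ⟨6144, 12288, 7936, 8192⟩ :=
  ckB_sound (b (d (c (b z0 (d (c (b (d (c (b z0 z0) z0) (b z0 z0)) (d z0 z0)) z0) (b (d (c (b z0 z0) z0) (b z0 z0)) (d z0 z0)))) (b z0 z8)) (b z0 (d (c (b (d (c (b z0 z0) z0) (b z0 z0)) (d z0 z0)) z0) (b (d (c (b z0 z0) z0) (b z0 z0)) (d z0 z0))))) (d (c (a (b (d z0 z0) (d z0 z0)) (b (d (c (a z0 (b (d z0 z0) z0)) z0) (a z0 (b (d z0 z0) (d z0 z0)))) (d z0 z0))) z8) (a (b (d z0 (b z0 z0)) (d z0 z0)) (b (d (c (a z0 (b (d z0 z0) (d z0 z0))) z0) (a z0 (b (d z0 z0) (d z0 z0)))) (d z0 z0))))) _ _ (by decide +kernel)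

theorem okB100 : CKB ⟨5473, 6145, 1280, 1536⟩ ⟨6144, 12288, 7936, 8192⟩ :=
  ckB_sound (b (d (c (a (b z0 (d (c (a (b (d (c (a (b z0 z1) z0) z1) (a (b z0 z1) z0)) (d (c (a (b z1 (d z1 z1)) z0) z1) (a (b z1 (d z1 z1)) z0))) z0) z1) (a (b (d (c (a (b z0 z1) z0) z1) (a (b z0 z1) z0)) (d (c (a (b z1 (d z1 z1)) z0) z1) (a (b z1 (d z1 z1)) z0))) z0))) z0) (a (b z0 z9) z0)) (a (b z0 (d (c (a (b (d (c (a (b z0 z1) z0) z1) (a (b z0 z1) z0)) (d (c (a (b z1 (d z1 z1)) z0) z1) (a (b z1 (d z1 z1)) z0))) z0) z1) (a (b (d (c (a (b z0 z1) z0) z1) (a (b z0 z1) z0)) (d (c (a (b z1 (d z1 z1)) z0) z1) (a (b z1 (d z1 z1)) z0))) z0))) z0)) (d (c (a (b (d (c (a (b (d (c (a (b (d (c (a z0 z1) z1) (a z0 z1)) (d (c (a z0 z1) z1) (a z0 z1))) z1) z1) (a (b (d (c (a z0 z1) z1) (a z0 z1)) (d (c (a z0 z1) z1) (a z0 z1)))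 z1)) (d (c (a z0 z1) (a z0 z1)) (a z0 z1))) z0) (a (b z1 (d (c (a z0 z1) (a z0 z1)) (c (a z0 z1) (a z0 z1)))) z0)) (a (b (d (c (a (b (d (c (a z0 z1) z1) (a z0 z1)) (d (c (a z0 z1) z1) (a z0 z1))) z1) z1) (a (b (d (c (a z0 z1) z1) (a z0 z1)) (d (c (a z0 z1) z1) (a z0 z1))) z1)) (d (c (a z0 z1) (a z0 z1)) (a z0 z1))) z0)) (d (c (a (b (d (c (a z0 z1) (a z0 z1)) (a z0 z1)) (d z0 z0)) z1) (a z0 z1)) (a (b (d (c (a z0 z1) (a z0 z1)) (a z0 z1)) (d z0 z0)) z1))) z0) (a (b (d (c (a (b z9 (d z9 (c (a z0 z1) z9))) z0) z9) (c (a (b z1 (d (c (a z0 z1) (a z0 z1)) (c (a z0 z1) (a z0 z1)))) z0) (a (b z9 (d z9 (c (a z0 z1) z9))) z0))) (d (c (a z8 z9) (a z8 z9)) (c (a z0 z1) (a z8 z9)))) z0)) (a (b (d (c (a (b (d (c (a (b (d (c (a z0 z1) z1) (a z0 z1)) (d (c (a z0 z1) z1) (a z0 z1))) z1) z1) (a (b (d (c (a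 z0 z1) z1) (a z0 z1)) (d (c (a z0 z1) z1) (a z0 z1))) z1)) (d (c (a z0 z1) (a z0 z1)) (a z0 z1))) z0) (a (b z1 (d (c (a z0 z1) (a z0 z1)) (c (a z0 z1) (a z0 z1)))) z0)) (a (b (d (c (a (b (d (c (a z0 z1) z1) (a z0 z1)) (d (c (a z0 z1) z1) (a z0 z1))) z1) z1) (a (b (d (c (a z0 z1) z1) (a z0 z1)) (d (c (a z0 z1) z1) (a z0 z1))) z1)) (d (c (a z0 z1) (a z0 z1)) (a z0 z1))) z0)) (d (c (a (b (d (c (a z0 z1) (a z0 z1)) (a z0 z1)) (d z0 z0)) z1) (a z0 z1)) (a (b (d (c (a z0 z1) (a z0 z1)) (a z0 z1)) (d z0 z0)) z1))) z0))) _ _ (by decide +kernel)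

theorem okB101 : CKB ⟨4097, 5121, 1536, 2048⟩ ⟨6144, 9600, 7168, 7680⟩ :=
  ckB_sound (b (d z0 z0) (d z0 z0)) _ _ (by decide +kernel)

theorem okB102 : CKB ⟨5121, 6145, 1536, 1792⟩ ⟨6144, 9600, 7168, 7424⟩ :=
  ckB_sound (c (b (d (c (a (b (d z0 z0) z0) (b z1 (d (c (a (b z1 (d z1 z1)) z0) z1) (a (c (b z1 (d z1 z1)) z1) z0)))) (a z0 z1)) (a (c (b (d z0 z0) z0) z0) (c (b (d z1 z1) (d (a (c (b z1 (d z1 z1)) z1) z0) (a (b z1 (d z1 z0)) z0))) (b z1 (d z1 (a (c (b z1 (d z1 (a (b z1 (d z1 z1)) z1))) z1) z0)))))) (d (c (a z0 (b (d (c (a (b (d (c (a z0 z1) (a z0 z1)) (a z0 z1)) (d (c (a z0 z1) (a z0 z1)) (a z0 z1))) z1) (a (b (d z1 (c (a z0 z1) z1)) (d (c (a z0 z1) (a z0 z1)) (c (a z0 z1) (a z0 z1)))) z1)) (a (c (b (d (a z0 z1) (a z0 z1)) (d (a z0 z1) (a z0 z1))) (b (d (a z0 z1) (a z0 z1)) (d (a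 z0 z1) (a z0 z1)))) z1)) (d (c (a z0 z1) (a z0 z1)) (a z0 z1)))) (a z0 (b (d (c (a (b z1 (d (c (a z0 z1) (a z0 z1)) (c (a z0 z1) (a z0 z1)))) z1) (a (b z1 (d (c (a z0 z1) z1) (c (a z0 z1) z1))) z1)) (c (a (b (d z1 (c (a z0 z1) z1)) (d (c (a z0 z1) (a z0 z1)) (c (a z0 z1) (a z0 z1)))) z1) (a (b z1 (d (c (a z0 z1) (a z0 z1)) (c (a z0 z1) (a z0 z1)))) z1))) (d (c (a z0 z1) (a z0 z1)) (c (a z0 z1) (a z0 z1)))))) (a z0 (c (b (d (a (c (b (d (a z0 z1) (a z0 z1)) (d (a z0 z1) (a z0 z1))) (b (d (a z0 z1) (a z0 z1)) (d (a z0 z1) (a z0 z1)))) z1) (a (b (d (a z0 z1) z0) (d (a z0 z1) z0)) z1)) (d (a z0 z1) (a z0 z1))) (b (d (a (c (b (d z1 (a z0 z1)) (d (a z0 z1) (a z0 z1))) (b z1 (d (a z0 z1) (a z0 z1)))) z1) (a (c (b (d (a z0 z1) (a z0 z1)) (d (a z0 z1) (a z0 z1))) (b (d (a z0 z1) (a z0 z1)) (d (a z0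 z1) (a z0 z1)))) z1)) (d (a z0 z1) (a z0 z1))))))) (b (d (a z8 z9) (a z8 z9)) (d (a z8 (c (b (d z9 (c (a (b z1 (d z1 (c (a z0 z1) z1))) z1) z9)) (d (c (a z8 z9) (a z8 z9)) (c (a z0 z1) (a z8 z9)))) (b z9 (d (a z8 z9) (a z8 z9))))) (a z8 (c (b (d (c (a (b z1 (d (c (a z0 z1) (a z0 z1)) (c (a z0 z1) (a z0 z1)))) z1) (a (b z1 (d z9 (c (a z0 z1) z1))) z1)) (c (a (b (d z1 (c (a z0 z1) z1)) (d (c (a z0 z1) (a z0 z1)) (c (a z0 z1) (a z0 z1)))) z1) (a (b z1 (d (c (a z0 z1) (a z0 z1)) (c (a z0 z1) (a z0 z1)))) z1))) (d (c (a z0 z1) (a z0 z1)) (c (a z0 z1) (a z0 z1)))) (b (d z9 (a (c (b z9 (d z9 (a z0 z1))) z9) z9)) (d (a z8 z9) (a z8 z9)))))))) _ _ (by decide +kernel)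

theorem okB103 : CKB ⟨5121, 6145, 1536, 1792⟩ ⟨6144, 9600, 7424, 7680⟩ :=
  ckB_sound (b (d (c (a (b (d z0 z0) (d z0 z0)) (b (d z1 z1) (d (c (a (b z1 (d (c (a (b z1 (d z1 z1)) z1) z1) (a (c (b z1 (d z1 z1)) z1) z1))) z0) z1) (a (c (b z1 (d (a (c (b z1 (d z1 z1)) z1) z1) (a (b z1 (d z1 z0)) z1))) z1) z0)))) (a z0 z1)) (a (c (b (d z0 z0) (d z0 z0)) z0) (c (b (d z1 z1) (d (a (c (b (d z1 z1) (d (a (c (b z1 (d z1 z1)) z1) z1) (a (b z1 (d z1 z0)) z1))) z1) z0) (a (b (d z1 z0) (d (a (b z1 (d z1 z1)) z1) z0)) z0))) (b z1 (d z1 (a (c (b z1 (d z1 (a (b z1 (d z1 z1)) z1))) z1) z0)))))) (d (c (a z0 (b (d (c (a (b (d (c (a z0 z1) (a z0 z1)) (a z0 z1)) (d (c (a z0 z1) (a z0 z1)) (a z0 z1))) z1) (a (b (d z1 (c (a z0 z1) z1)) (d (c (a z0 z1) (a z0 z1)) (c (a z0 z1) (a z0 z1)))) z1)) (a (c (b (d (a z0 z1)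 (a z0 z1)) (d (a z0 z1) (a z0 z1))) (b (d (a z0 z1) (a z0 z1)) (d (a z0 z1) (a z0 z1)))) z1)) (d (c (a z0 z1) (a z0 z1)) (a z0 z1)))) (a z0 (b (d (c (a (b z1 (d (c (a z0 z1) (a z0 z1)) (c (a z0 z1) (a z0 z1)))) z1) (a (b z9 (d z9 (c (a z0 z1) z9))) z9)) (c (a (b (d z1 (c (a z0 z1) z1)) (d (c (a z0 z1) (a z0 z1)) (c (a z0 z1) (a z0 z1)))) z1) (a (b z1 (d (c (a z0 z1) z9) (c (a z0 z1) (a z0 z1)))) z1))) (d (c (a z0 z1) (a z8 z9)) (c (a z0 z1) (a z0 z1)))))) (a z0 (c (b (d (a (c (b (d (a z0 z1) (a z0 z1)) (d (a z0 z1) (a z0 z1))) (b (d (a z0 z1) (a z0 z1)) (d (a z0 z1) (a z0 z1)))) z1) (a (b (d (a z0 z1) z0) (d (a z0 z1) z0)) z1)) (d (a z0 z1) (a z0 z1))) (b (d (a (c (b (d z1 (a z0 z1)) (d (a z0 z1) (a z0 z1))) (b z1 (d (a z0 z1) (a z0 z1)))) z1) (a (c (b (d (a z0 z1) (a z0 z1)) (d (a z0 z1)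 (a z0 z1))) (b (d z1 (a z0 z1)) (d (a z0 z1) (a z0 z1)))) z1)) (d (a z0 z1) (a z0 z1))))))) _ _ (by decide +kernel)

theorem okB104 : CKB ⟨5121, 6145, 1792, 2048⟩ ⟨6144, 9600, 7168, 7680⟩ :=
  ckB_sound (d (c (b (d (c (a z0 (b (d (c (a z0 z1) (a z0 z1)) (a z0 z1)) (d (c (a z0 z1) (a z0 z1)) (a z0 z1)))) z0) (a z0 (c (b (d (a z0 z1) (a z0 z1)) (d (a z0 z1) (a z0 z1))) (b (d (a z0 z1) (a z0 z1)) (d (a z0 z1) (a z0 z1)))))) (d (c (a z0 (b (d z0 z0) z0)) z0) (a z0 (c (b (d z0 z0) z0) z0)))) z8) (b (d (c (a z0 (b (d (c (a z0 z1) (a z0 z1)) (a z0 z1)) (d (c (a z0 z1) (a z0 z1)) (a z0 z1)))) z0) (a z0 (c (b (d (a z0 z1) (a z0 z1)) (d (a z0 z1) (a z0 z1))) (b (d (a z0 z1) (a z0 z1)) (d (a z0 z1) (a z0 z1)))))) (d (c (a z0 (b (d z0 z0) (d z0 z0))) z0) (a z0 (c (b (d z0 z0) (d z0 z0)) z0))))) _ _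 (by decide +kernel)

end Vale.Agent.Lib.P154Q5
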