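import Vale.Agent.Lib.P154Q5.CkBDefs

namespace Vale.Agent.Lib.P154Q5

set_option maxRecDepth 100000
set_option exponentiation.threshold 1000

open Tr

theorem okB900 : CKB ⟨6144, 8256, 7168, 7424⟩ ⟨6912, 7680, 6912, 7168⟩ :=
  ckB_sound (b (d (a (c (b z0 z0) (b z0 z0)) z0) (a (c (b (d (a (c (b z0 z0) z0) z0) (a (c (b z0 z0) (b z0 z0)) z0)) (d (c (a (b z0 z0) z0) z0) (c (a (b z0 z0) z0) (a (b z0 z0) z0)))) (b (d z0 (a (c (b z0 z0) z0) z0)) (d z0 (a (c (b z0 z0) z0) z0)))) z0)) (d (c (a (b z0 z0) z0) (a (b z0 z0) z0)) (c (a (b (d (c (a (b z0 z0) z0) z0) (c (a (b z0 z0) z0) (a (b z0 z0) z0))) (d (c (b z0 z0) z0) (c (b z0 z0) (b z0 z0)))) (b z0 (d z0 (c (a (b z0 z0) z0) (a (b z0 z0) z0))))) (a (b (d z0 (c (a (b z0 z0) z0) z0)) (d z0 (c (b z0 z0) z0))) z0)))) _ _ (by decide +kernel)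

theorem okB901 : CKB ⟨8256, 9600, 7168, 7424⟩ ⟨6144, 7680, 6912, 7168⟩ :=
  ckB_sound (c (b (d z2 (a (b (d z2 z2) (d z2 z2)) z2)) (d z2 (a (b (d z0 z0) (d (a (c (b (d z0 z0) (d z0 z0)) z0) z0) (a (b (d z0 z0) (d z0 z0)) z0))) (b (d z2 z2) (d z2 z2))))) z2) _ _ (by decide +kernel)

theorem okB902 : CKB ⟨6144, 9600, 7424, 7680⟩ ⟨6144, 7680, 6656, 6912⟩ :=
  ckB_sound (c (b (d (a (c (b z0 z0) (b z0 z0)) z0) (a (c (b z0 z0) (b z0 z0)) z0)) (d (c (a (b z0 z0) z0) (a (b z0 z0) z0)) (c (a (b z0 z0) z0) (a (b z0 z0) z0)))) (b (d z8 (a (c (b z0 z0) (b z8 z8)) z8)) (d z8 (c (a (b z0 z0) z0) (a (b z8 z8) z8))))) _ _ (by decide +kernel)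

theorem okB903 : CKB ⟨6144, 9600, 7424, 7552⟩ ⟨6144, 6912, 6912, 7168⟩ :=
  ckB_sound (d (a (c (b (d (a (c (b z0 z0) (b z0 z0)) z0) (a (c (b (d (a (c (b z0 z0) z0) z0) (a (b (d z0 z0) (d z0 z0)) z0)) (d (c (a (b z0 z0) z0) z0) (a (b (d z0 z0) (d z0 z0)) z0))) (b z0 z0)) z0)) (d (c (a (b z0 z0) z0) (a (b z0 z0) z0)) (c (a (b (d (c (a (b z0 z0) z0) z0) (a (b (d z0 z0) (d z0 z0)) z0)) (d (c (b z0 z0) z0) (b (d z0 z0) z0))) (b z0 (d z0 (a (b z0 z0) z0)))) (a (b z0 z0) z0)))) (b (d z0 (a (c (b z0 z0) (b z0 z0)) z0)) (d z0 (c (a (b z0 z0) z0) (a (b z0 z0) z0))))) z0) (a (b (d (a (c (b (d (a (c (b (d z0 z0) (d z0 z0)) z0) z0) (a (b (d z0 z0) (d z0 z0)) z0)) (d (c (a (b (d z0 z0) (d z0 z0)) z0) z0) (a (b (d z0 z0) (d z0 z0)) z0))) (b z0 z0)) (c (b (d z0 z0) (d z0 z0)) z0)) (a (b (d (a (c (b (d z0 z0)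 (d z0 z0)) z0) z0) (a (b (d z0 z0) (d z0 z0)) z0)) (d (c (a (b (d z0 z0) (d z0 z0)) z0) z0) (a (b (d z0 z0) (d z0 z0)) (b z0 (d z0 z0))))) (b (d z0 z0) (d z0 z0)))) (d (c (a (b (d (c (a (b (d z0 z0) (d z0 z0)) z0) z0) (a (b (d z0 z0) (d z0 z0)) z0)) (d (c (b (d z0 z0) z0) z0) (b (d z0 z0) z0))) (b (d z0 z0) (d (c (a (b z0 (d z0 z0)) z0) z0) (a (b z0 (d z0 z0)) z0)))) (a (b z0 z0) z0)) (a (b (d (c (a (b (d z0 z0) (d z0 z0)) z0) z0) (a (b (d z0 z0) (d z0 z0)) z0)) (d (c (b (d z0 z0) z0) z0) (b (d z0 z0) z0))) (b (d z0 z0) (d (c (a (b z0 (d z0 z0)) z0) z0) (a (b z0 (d z0 z0)) z0)))))) (b (d z0 z0) (d (a (c (b z0 (d z0 z0)) z0) z0) (a (b (d z0 z0) (d z0 z0)) z0))))) _ _ (by decide +kernel)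

theorem okB904 : CKB ⟨6144, 9600, 7552, 7680⟩ ⟨6144, 6912, 6912, 7168⟩ :=
  ckB_sound (d (c (a (b (d (c (a (b z0 z0) z0) (a (b z0 z0) z0)) (c (a (b (d z0 (a (b z0 z0) z0)) (d z0 (b z0 z0))) (b z0 (d z0 (a (b z0 z0) z0)))) (a (b z0 z0) z0))) (d (c (b z0 z0) (b z0 z0)) (c (b (d z0 (b z0 z0)) z0) (b z0 z0)))) (b z0 (d z0 (c (a (b (d z0 z0) (d z0 (b z0 z0))) z0) (a (b z0 z0) z0))))) (a (b (d z0 (c (a (b z0 z0) z0) (a (b z0 z0) z0))) (d z0 (c (b z0 z0) z0))) z0)) (a (b (d (c (a (b (d (c (a (b (d z0 z0) z0) z0) z0) (a (b (d z0 z0) (d z0 z0)) z0)) (d (c (b z0 z0) z0) (b (d z0 z0) z0))) (b (d z0 z0) (d (c (a (b z0 z0) z0) z0) (a (b z0 z0) z0)))) (a (b z0 z0) z0)) (a (b (d (c (a (b (d z0 z0) (d z0 z0)) z0) z0) (a (b (d z0 z0) (d z0 z0)) z0)) (d (c (b (d z0 z0) z0) z0) (b (d z0 z0) z0))) (b (d z0 z0)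 (d (c (a (b z0 (d z0 z0)) z0) z0) (a (b z0 (d z0 z0)) z0))))) (d (c (b (d (c (b z0 z0) z0) (b z0 z0)) z0) (b z0 z0)) (b (d (c (b z0 z0) z0) (b (d z0 z0) (d z0 z0))) z0))) (b (d (c (a (b z0 (d z0 z0)) z0) z0) (a (b z0 (d z0 z0)) z0)) (d (c (a (b (d z0 z0) (d (c (b z0 z0) z0) (b z0 z0))) (b z0 (d z0 z0))) z0) (a (b (d z0 z0) (d (c (b z0 z0) z0) (b z0 z0))) (b (d z0 z0) (d z0 z0))))))) _ _ (by decide +kernel)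

theorem okB905 : CKB ⟨6144, 9600, 7424, 7680⟩ ⟨6912, 7680, 6912, 7168⟩ :=
  ckB_sound (b (d (a (c (b z0 z0) (b z0 z0)) z0) (a (c (b (d (a (c (b z0 z0) z0) z0) (a (c (b z0 z0) (b z0 z0)) z0)) (d (c (a (b z0 z0) z0) z0) (c (a (b z0 z0) z0) (a (b z0 z0) z0)))) (b (d z0 (a (c (b z0 z0) z0) z0)) (d z0 (a (c (b z0 z0) z0) z0)))) z0)) (d (c (a (b z0 z0) z0) (a (b z0 z0) z0)) (c (a (b (d (c (a (b z0 z0) z0) z0) (c (a (b z0 z0) z0) (a (b z0 z0) z0))) (d (c (b z0 z0) z0) (c (b z0 z0) (b z0 z0)))) (b z0 (d z0 (c (a (b z0 z0) z0) z0)))) (a (b (d z0 (c (a (b z0 z0) z0) z0)) (d z0 (c (b z0 z0) z0))) z0)))) _ _ (by decide +kernel)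

theorem okB906 : CKB ⟨6144, 9600, 7168, 7680⟩ ⟨7680, 9216, 6656, 7168⟩ :=
  ckB_sound (b (d (a (c (b z8 z8) (b z8 z8)) z10) (a (c (b (d (a (c (b z8 z8) z8) z8) (a (c (b z0 z0) (b z8 z8)) z8)) (d (c (a (b z8 z8) z8) z8) (c (a (b z0 z0) z0) (a (b z8 z8) z8)))) (b (d z8 (a (b z8 z8) z8)) (d z8 (a (b z8 z8) z8)))) z10)) (d (c (b z8 z8) (b z8 z8)) (c (b (d (a (c (b z8 z8) z8) z8) (a (c (b z0 z0) (b z8 z8)) z8)) (d (a (c (b z8 z8) z8) z8) (a (c (b z0 z0) (b z8 z8)) z8))) (b (d z8 (a (b z8 z8) z8)) (d z8 (a (b z8 z8) z8)))))) _ _ (by decide +kernel)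

theorem okB907 : CKB ⟨9600, 12288, 7168, 7680⟩ ⟨6144, 9216, 6656, 7168⟩ :=
  ckB_sound z10 _ _ (by decide +kernel)

theorem okB908 : CKB ⟨6144, 12288, 7680, 8192⟩ ⟨6144, 9216, 6144, 6656⟩ :=
  ckB_sound (c (b (d (a (c (b z8 z8) (b z8 z8)) z10) (a (c (b z8 z8) (b z8 z8)) z10)) (d (c (b z8 z8) (b z8 z8)) (c (b z8 z8) (b z8 z8)))) (b (d z8 (a (c (b z8 z8) (b z8 z8)) z10)) (d z8 (c (b z8 z8) (b z8 z8))))) _ _ (by decide +kernel)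

theorem okB909 : CKB ⟨6144, 12288, 7680, 7936⟩ ⟨6144, 7680, 6656, 7168⟩ :=
  ckB_sound (d (a (c (b (d (a (c (b z0 z0) (b z0 z0)) z0) (a (c (b z0 z0) (b z0 z0)) z0)) (d (c (b z0 z0) (b z0 z0)) (c (b z0 z0) (b z0 z0)))) (b (d z8 (a (c (b z0 z0) z8) z8)) (d z8 (c (b z0 z0) z8)))) z2) (a (c (b (d (a (c (b (d (a (c (b z0 z0) z0) z0) (a (c (b (d z0 (a (b z0 z0) z0)) (d z0 (b z0 z0))) (b z0 z0)) z0)) (d (c (b z0 z0) z0) (c (b (d z0 (a (b z0 z0) z0)) (d z0 (b z0 z0))) (b z0 z0)))) (b (d z0 (a (c (b z0 z0) z0) z0)) (d z0 (c (b z0 z0) z0)))) z0) (a (b (d (c (a (b (d (c (a (b z0 z0) z0) z0) (a (b z0 z0) z0)) (d (c (b z0 z0) z0) (b z0 z0))) z0) (a (b z0 z0) z0)) (a (b (d (a (c (b z0 z0) z0) z0) (a (b z0 z0) z0)) (d (c (b z0 z0) z0) (b z0 z0))) (b z0 (d z0 z0)))) (d (c (b (d (a (c (b z0 z0) z0) z0) (a (b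 z0 z0) z0)) (d (c (b z0 z0) z0) (b z0 z0))) (b z0 z0)) (b (d (a (c (b z0 z0) z0) z0) (a (b z0 z0) z0)) (d (c (b z0 z0) z0) (b z0 z0))))) (b (d z2 z2) (d z0 z0)))) (d (c (b (d (a (c (b z0 z0) z0) z0) (a (c (b (d z0 z0) (d z0 z0)) (b z0 z0)) z0)) (d z0 (c (b (d z0 z0) (d z0 z0)) (b z0 z0)))) (b z0 z0)) (b (d (c (a (b (d (c (a (b z0 z0) z0) z0) (a (b z0 z0) z0)) (d z0 (b z0 z0))) z0) (a (b z0 z0) z0)) (a (b (d (a (c (b z0 z0) z0) z0) (a (b z0 z0) z0)) (d (c (b z0 z0) z0) (b z0 z0))) z0)) (d (c (b (d z0 z0) (d z0 z0)) (b z0 z0)) (b (d z0 (a (b z0 z0) z0)) (d z0 z0)))))) (b (d (a (c (b z0 z0) (b z0 z0)) z0) (a (c (b (d (a (c (b z0 z0) z0) z0) (a (c (b z0 z0) (b z0 z0)) z0)) (d z0 (c (b z0 z0) (b z0 z0)))) (b z0 z0)) z0)) (d (c (b z0 z0) (b z0 z0)) (c (b (d z0 (a (c (b z0 z0) (b z0 z0)) z0)) (d z0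 (c (b z0 z0) z0))) (b z0 z0))))) (c (b (d z2 (a (b z2 (d z2 z2)) z2)) (d z2 (a (b (d z2 z2) (d z0 z0)) z2))) z2))) _ _ (by decide +kernel)

theorem okB910 : CKB ⟨6144, 12288, 7936, 8192⟩ ⟨6144, 7680, 6656, 7168⟩ :=
  ckB_sound (d (c (b (d (a (c (b z0 z0) z0) z2) (a (c (b z0 z0) (b z0 z0)) z2)) (d (c (b z0 z0) z0) (c (b z0 z0) (b z0 z0)))) (b (d z8 (a (c (b z0 z0) z8) z10)) z8)) (c (b (d (a (c (b (d z0 (a (c (b (d z0 z0) z0) z0) z0)) (d z0 (c (b z0 z0) z0))) (b z0 z0)) z2) (a (b (d (c (a (b (d z0 z0) (d z0 z0)) z0) z0) (a (b (d z0 z0) (d z0 z0)) z0)) (d (c (b (d z0 z0) (d z0 z0)) z0) (b (d z0 z0) (d z0 z0)))) (b (d z2 z2) (d z0 z0)))) (d (c (b (d z0 (a (c (b z0 z0) z0) z0)) (d z0 (c (b z0 z0) z0))) (b z0 z0)) (b (d (c (a (b (d z0 z0) z0) z0) z0) (a (b (d z0 z0) (d z0 z0)) z0)) (d (c (b z0 z0)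 z0) (b z0 z0))))) (b (d (a (c (b z0 z0) (b z0 z0)) z2) (a (c (b (d z0 (a (c (b z0 z0) z0) z0)) z0) (b z0 z0)) z2)) (d (c (b z0 z0) (b z0 z0)) (c (b z0 z0) (b z0 z0)))))) _ _ (by decide +kernel)

theorem okB911 : CKB ⟨6144, 12288, 7680, 8192⟩ ⟨7680, 9216, 6656, 7168⟩ :=
  ckB_sound (b (d (a (c (b z8 z8) (b z8 z8)) z10) (a (c (b (d (a (c (b z8 z8) z8) z8) (a (c (b z0 z0) (b z8 z8)) z8)) (d (c (b z8 z8) z8) (c (b z0 z0) (b z8 z8)))) (b (d z8 (a (b z8 z8) z8)) z8)) z10)) (d (c (b z8 z8) (b z8 z8)) (c (b (d z8 (a (c (b z0 z0) (b z8 z8)) z10)) (d z8 (c (b z0 z0) z8))) (b z8 z8)))) _ _ (by decide +kernel)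

theorem okB912 : CKB ⟨6144, 12288, 7168, 8192⟩ ⟨9216, 12288, 6144, 7168⟩ :=
  ckB_sound (b z10 (d (b z8 z8) (b (d (c (a (b z8 z8) z10) z8) (c (a (b z8 z8) z10) (a (b z8 z8) z10))) (d (c (b z8 z8) z8) (c (b z8 z8) (b z8 z8)))))) _ _ (by decide +kernel)

theorem okB913 : CKB ⟨6144, 8256, 7168, 7296⟩ ⟨6144, 8256, 7168, 7296⟩ :=
  ckB_sound (a (c (b (d (a (c (b (d (a (c (b (d z0 z0) (d z0 z0)) z0) z0) (a (c (b (d z0 z0) (d z0 z0)) (b z0 z0)) z0)) (d (c (a (b (d z0 z0) (d z0 z0)) (b z0 (d z0 z0))) z0) (a (c (b (d z0 z0) (d z0 z0)) (b z0 z0)) (c (b z0 (d z0 z0)) z0)))) (b z0 z0)) (c (b (d z0 z0) (d z0 z0)) z0)) (a (c (b (d (a (c (b (d z0 z0) (d z0 z0)) (b z0 z0)) z0) (a (b (d z0 z0) (d z0 z0)) z0)) (d (a (c (b (d z0 z0) (d z0 z0)) (b z0 z0)) (c (b z0 (d z0 z0)) z0)) (a (b (d z0 z0) (d z0 z0)) (b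 z0 (d z0 z0))))) (b (d z0 (a (c (b (d z0 z0) (d z0 z0)) z0) z0)) (d z0 (a (c (b (d z0 z0) (d z0 z0)) z0) z0)))) (c (b (d z0 z0) (d z0 z0)) z0))) (d (c (a (b (d (c (a (b (d z0 z0) (d z0 z0)) (b z0 (d z0 z0))) z0) (c (a (b (d z0 z0) (d z0 z0)) (b z0 (d z0 z0))) (a (b z0 z0) z0))) (d (c (b (d z0 z0) z0) z0) (c (b (d z0 z0) z0) (b z0 z0)))) (b (d z0 z0) (d (c (a (b (d z0 z0) (d z0 z0)) z0) z0) (c (a (b (d z0 z0) (d z0 z0)) z0) z0)))) (a (b z0 z0) z0)) (a (c (b (d (a (c (b (d z0 z0) (d z0 z0)) (b z0 z0)) (c (b z0 (d z0 z0)) z0)) (a (b (d z0 z0) (d z0 z0)) (b z0 (d z0 z0)))) (d (c (b (d z0 z0) z0) (b z0 z0)) (b (d z0 z0) z0))) (b (d z0 (a (c (b (d z0 z0) (d z0 z0)) z0) z0)) (d z0 (c (b (d z0 z0) z0) z0)))) (c (b (d z0 z0) (d (c (a (b (d z0 z0) (d z0 z0)) z0) z0) (a (b (d z0 z0) (d z0 z0)) z0))) (b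 z0 (d z0 (a (c (b z0 (d z0 z0)) z0) z0))))))) (b (d (a (c (b z0 z0) z0) z0) (a (c (b z0 z0) (b z0 z0)) z0)) (d (c (a (b z0 z0) z0) z0) (c (a (b z0 z0) z0) (a (b z0 z0) z0))))) (c (b (d (c (a (b z0 (d z0 z0)) z0) z0) (a (c (b z0 (d z0 z0)) z0) z0)) (d (c (a (b (d z0 z0) (d z0 z0)) (b z0 (d z0 z0))) z0) (a (c (b (d z0 z0) (d z0 z0)) z0) (c (b z0 (d z0 z0)) z0)))) z0)) _ _ (by decide +kernel)

theorem okB914 : CKB ⟨6144, 8256, 7168, 7296⟩ ⟨6144, 8256, 7296, 7424⟩ :=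
  ckB_sound (a (c (b (d (a (c (b (d (a (c (b (d z0 z0) (d z0 z0)) (b z0 z0)) z0) (a (b (d z0 z0) (d z0 z0)) z0)) (d (a (c (b (d z0 z0) (d z0 z0)) (b z0 z0)) (c (b z0 (d z0 z0)) z0)) (a (b (d z0 z0) (d z0 z0)) (b z0 (d z0 z0))))) (b (d z0 (a (c (b (d z0 z0) (d z0 z0)) z0) z0)) (d z0 (a (c (b (d z0 z0) (d z0 z0)) z0) z0)))) (c (b (d z0 z0) (d z0 z0)) z0)) (a (b (d (a (b (d z0 z0) (d z0 z0)) z0) z0) (d (a (b (d z0 z0) (d z0 z0)) (b z0 (d z0 z0))) z0)) (b (d z0 z0) (d z0 z0)))) (d (a (c (b (d (a (c (b (d z0 z0) (d z0 z0)) (b z0 z0)) (c (b z0 (d z0 z0)) z0)) (a (b (d z0 z0) (d z0 z0)) (b z0 (d z0 z0)))) (d (c (b (d z0 z0) z0) (b z0 z0)) (b (d z0 z0) z0))) (b (d z0 (a (c (b (d z0 z0) (d z0 z0)) z0) z0)) (d z0 (c (b (d z0 z0) z0) z0)))) (c (b (d z0 z0) (d (a (c (b (d z0 z0) (d z0 z0)) z0) z0) (a (b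 (d z0 z0) (d z0 z0)) z0))) (b z0 (d z0 (a (c (b z0 (d z0 z0)) z0) z0))))) (a (b (d (a (b (d z0 z0) (d z0 z0)) (b z0 (d z0 z0))) z0) (d (b (d z0 z0) z0) z0)) (b (d z0 z0) (d (a (b (d z0 z0) (d z0 z0)) z0) z0))))) (b (d (a (c (b z0 z0) (b z0 z0)) z0) (a (c (b (d (a (c (b z0 z0) z0) z0) (a (b (d z0 z0) (d z0 z0)) z0)) (d (a (c (b z0 z0) z0) z0) (a (b (d z0 z0) (d z0 z0)) (b z0 (d z0 z0))))) (b (d z0 (a (b z0 z0) z0)) (d z0 (a (b z0 z0) z0)))) (c (b (d z0 z0) (d z0 z0)) z0))) (d (a (c (b z0 z0) (b z0 z0)) z0) (a (c (b (d (a (c (b z0 z0) z0) z0) (a (b (d z0 z0) (d z0 z0)) (b z0 (d z0 z0)))) (d (c (b z0 z0) z0) (b (d z0 z0) z0))) (b (d z0 (a (b z0 z0) z0)) (d z0 (b z0 z0)))) (c (b (d z0 z0) (d (a (c (b z0 z0) z0) z0) (a (b (d z0 z0) (d z0 z0)) z0))) z0))))) (c (b (d (a (c (b z0 (d z0 z0)) z0) z0)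 (a (b z0 (d z0 z0)) z0)) (d (a (c (b (d z0 z0) (d z0 z0)) z0) (c (b z0 (d z0 z0)) z0)) (a (b (d z0 z0) (d z0 z0)) (b z0 (d z0 z0))))) (b z0 (d z0 (a (c (b z0 (d z0 z0)) z0) z0))))) _ _ (by decide +kernel)

end Vale.Agent.Lib.P154Q5
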