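import Vale.Agent.Lib.P154Q5.CkBDefs

namespace Vale.Agent.Lib.P154Q5

set_option maxRecDepth 100000
set_option exponentiation.threshold 1000

open Tr

theorem okB930 : CKB ⟨6144, 9600, 7424, 7552⟩ ⟨6144, 9600, 7552, 7680⟩ :=
  ckB_sound (a (c (b (d (a (c (b (d (a (c (b (d z0 z0) (d z0 z0)) (b z0 z0)) z0) (a (b (d z0 z0) (d z0 z0)) z0)) (d (a (c (b (d z0 z0) (d z0 z0)) (b z0 z0)) (c (b z0 (d z0 z0)) z0)) (a (b (d z0 z0) (d z0 z0)) (b z0 (d z0 z0))))) (b (d z0 (a (c (b z0 z0) z0) z0)) (d z0 (a (c (b z0 z0) z0) z0)))) (c (b (d z0 z0) (d z0 z0)) z0)) (a (b (d (a (b (d z0 z0) (d z0 z0)) z0) z0) (d (a (b (d z0 z0) (d z0 z0)) (b z0 (d z0 z0))) z0)) (b (d z0 z0) (d z0 z0)))) (d (a (c (b (d (a (c (b (d z0 z0) (d z0 z0)) (b z0 z0)) (c (b z0 (d z0 z0)) z0)) (a (b (d z0 z0) (d z0 z0)) (b z0 (d z0 z0))))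 (d (c (b (d z0 z0) z0) (b z0 z0)) (b (d z0 z0) z0))) (b (d z0 (a (c (b z0 z0) z0) z0)) (d z0 (c (b z0 z0) z0)))) (c (b (d z0 z0) (d (a (c (b z0 (d z0 z0)) z0) z0) (a (b z0 (d z0 z0)) z0))) (b z0 (d z0 (a (c (b z0 z0) z0) z0))))) (a (b (d (a (b (d z0 z0) (d z0 z0)) (b z0 (d z0 z0))) z0) (d (b (d z0 z0) z0) z0)) (b (d z0 z0) (d (a (b z0 (d z0 z0)) z0) z0))))) (b (d (a (c (b z0 z0) (b z0 z0)) z0) (a (c (b (d (a (c (b z0 z0) z0) z0) (a (b (d z0 z0) (d z0 z0)) z0)) (d (a (c (b z0 z0) z0) z0) (a (b (d z0 z0) (d z0 z0)) z0))) (b z0 z0)) z0)) (d (a (c (b z0 z0) (b z0 z0)) z0) (a (c (b (d (a (c (b z0 z0) z0) z0) (a (b (d z0 z0) (d z0 z0)) z0)) (d (c (b z0 z0) z0) (b (d z0 z0) z0))) (b z0 z0)) (c (b z0 (d z0 (a (b z0 (d z0 z0)) z0))) z0))))) (c (b (d z0 z0) (d (a (c (b (d z0 z0) (d z0 z0)) z0) z0) (a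 (b (d z0 z0) (d z0 z0)) z0))) z0)) _ _ (by decide +kernel)

theorem okB931 : CKB ⟨6144, 9600, 7552, 7680⟩ ⟨6144, 9600, 7424, 7552⟩ :=
  ckB_sound (c (a (b (d (c (a (b (d (c (a (b (d z0 z0) (d z0 z0)) (b z0 (d z0 z0))) z0) (c (a (b (d z0 z0) (d z0 z0)) (b z0 (d z0 z0))) (a (b z0 z0) z0))) (d (c (b (d z0 z0) z0) z0) (c (b (d z0 z0) z0) (b z0 z0)))) (b (d z0 z0) (d (c (a (b z0 (d z0 z0)) z0) z0) (c (a (b z0 (d z0 z0)) z0) z0)))) (a (b z0 z0) z0)) (c (a (b (d (c (a (b (d z0 z0) (d z0 z0)) (b z0 (d z0 z0))) (a (b z0 z0) z0)) (a (b (d z0 z0) (d z0 z0)) (b z0 (d z0 z0)))) (d (c (b (d z0 z0) z0) (b z0 z0)) (b (d z0 z0) z0))) (b (d z0 z0) (d (c (a (b z0 (d z0 z0)) z0) z0) (a (b z0 (d z0 z0)) z0)))) (a (b (d z0 (c (a (b z0 z0) z0) z0)) (d z0 (c (b z0 z0) z0))) (b z0 (d z0 (c (a (b z0 z0) z0) z0))))))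 (d (c (b (d (c (b (d z0 z0) (d z0 z0)) z0) (c (b (d z0 z0) (d z0 z0)) (b z0 z0))) z0) (b z0 z0)) (c (b (d (c (b (d z0 z0) (d z0 z0)) (b z0 z0)) (b (d z0 z0) (d z0 z0))) z0) (b (d z0 (c (b z0 z0) z0)) z0)))) (b (d (c (a (b (d z0 z0) (d z0 z0)) (b z0 (d z0 z0))) z0) (c (a (b (d z0 z0) (d z0 z0)) (b z0 (d z0 z0))) z0)) (d (c (a (b (d (c (a (b z0 (d z0 z0)) z0) z0) (c (a (b z0 (d z0 z0)) z0) z0)) (d (c (b (d z0 z0) (d z0 z0)) z0) (c (b (d z0 z0) (d z0 z0)) z0))) (b (d z0 z0) (d z0 z0))) z0) (c (a (b (d (c (a (b z0 (d z0 z0)) z0) z0) (a (b z0 (d z0 z0)) z0)) (d (c (b (d z0 z0) (d z0 z0)) z0) (b (d z0 z0) (d z0 z0)))) (b (d z0 z0) (d z0 z0))) (a (b z0 (d z0 (c (b z0 z0) z0))) z0))))) (a (b (d z0 (c (a (b z0 z0) z0) z0)) (d z0 (c (b z0 z0) z0))) z0)) _ _ (by decide +kernel)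

theorem okB932 : CKB ⟨6144, 9600, 7552, 7680⟩ ⟨6144, 9600, 7552, 7680⟩ :=
  ckB_sound (a (c (b (d (a (c (b (d (a (c (b (d z0 z0) (d z0 z0)) (b z0 z0)) (c (b z0 (d z0 z0)) z0)) (a (b (d z0 z0) (d z0 z0)) (b z0 (d z0 z0)))) (d (c (b (d z0 z0) z0) (b z0 z0)) (b (d z0 z0) z0))) (b (d z0 (a (c (b z0 z0) z0) z0)) (d z0 (c (b z0 z0) z0)))) (c (b (d z0 z0) (d (c (a (b z0 (d z0 z0)) z0) z0) (a (b z0 (d z0 z0)) z0))) (b z0 (d z0 (a (c (b z0 z0) z0) z0))))) (a (b (d (a (b (d z0 z0) (d z0 z0)) z0) z0) (d (b (d z0 z0) z0) z0)) (b (d z0 z0) (d (a (b z0 (d z0 z0)) z0) z0)))) (d (c (b (d (c (b (d z0 z0) (d z0 z0)) z0) (b (d z0 z0) (d z0 z0))) z0) (b (d z0 (c (b z0 z0) z0)) z0)) (b (d (b (d z0 z0) (d z0 z0)) z0) z0))) (b (d (a (c (b z0 z0) (b z0 z0)) z0) (a (c (b (d (a (c (b z0 z0) z0) z0) (a (b (d z0 z0)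 (d z0 z0)) z0)) (d (c (b z0 z0) z0) (b (d z0 z0) z0))) (b z0 z0)) (c (b z0 (d z0 (a (b z0 (d z0 z0)) z0))) z0))) (d (c (b z0 z0) (b z0 z0)) (c (b (d z0 (b (d z0 z0) (d z0 z0))) z0) (b z0 z0))))) (c (b (d (c (a (b (d z0 z0) (d z0 z0)) (b z0 (d z0 z0))) z0) (a (b (d z0 z0) (d z0 z0)) (b z0 (d z0 z0)))) (d (c (a (b (d (c (a (b z0 (d z0 z0)) z0) z0) (a (b z0 (d z0 z0)) z0)) (d (c (b (d z0 z0) (d z0 z0)) z0) (b (d z0 z0) (d z0 z0)))) (b (d z0 z0) (d z0 z0))) (a (b z0 (d z0 (c (b z0 z0) z0))) z0)) (a (b (d z0 z0) (d (b (d z0 z0) (d z0 z0)) z0)) (b (d z0 z0) (d z0 z0))))) (b z0 (d z0 (a (c (b (d z0 z0) (d z0 (b (d z0 z0) (d z0 z0)))) (b z0 z0)) (c (b z0 (d z0 z0)) z0)))))) _ _ (by decide +kernel)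

theorem okB933 : CKB ⟨6144, 9600, 7168, 7680⟩ ⟨9600, 12288, 7168, 7680⟩ :=
  ckB_sound (b (d (a (c (b (d z8 (a (c (b z8 z8) z8) z8)) (d z8 (c (a (b z8 z8) z8) z8))) (b z8 z8)) z10) (a (c (b (d (a (c (b z8 z8) z8) z8) (a (c (b z0 (d z8 (c (a (b z0 z0) z0) z0))) (b z8 z8)) z8)) (d (c (a (b z8 z8) z8) z8) (c (a (b (d z8 (c (a (b z0 z0) z0) z0)) (d z8 (c (b z0 z0) z0))) z0) (a (b z8 z8) z8)))) (b z8 z8)) z10)) (d (c (b (d z8 (a (c (b z8 z8) z8) z8)) (d z8 (c (a (b z8 z8) z8) z8))) (b z8 z8)) (c (b (d (a (c (b z8 z8) (b z8 z8)) z8) (a (c (b (d z8 (a (c (b z0 z0) z0) z0)) (d z8 (c (a (b z0 z0) z0) z0))) (b z8 z8)) z8)) (d (c (a (b z8 z8) z8) (a (b z8 z8) z8)) (c (a (b (d z8 (c (a (b z0 z0) z0) z0)) (d z8 (c (b z0 z0) z0))) z0) (a (b z8 z8) z8)))) (b z8 z8)))) _ _ (by decide +kernel)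

theorem okB934 : CKB ⟨9600, 12288, 7168, 7680⟩ ⟨6144, 12288, 7168, 7680⟩ :=
  ckB_sound (c (b (d (c (a (b (d z2 z2) (d (c (a (b z2 (d z2 z2)) z2) z2) (a (c (b z2 (d z2 z2)) z2) z2))) (b (d z2 z2) (d z2 z2))) z10) (a (b (d z2 z2) (d (c (a (b z2 (d z2 z2)) z2) z2) (a (c (b z2 (d z2 z2)) z2) z2))) (b (d z2 z2) (d z2 z2)))) (d (c (a (b (d (c (a (b (d z2 z2) (d z2 z2)) z2) z2) (a (c (b (d z2 z2) (d z2 z2)) z2) z2)) (d (c (a (b (d z2 z2) (d z0 (a (c (b z0 (d z0 z0)) z0) z0))) (b (d z2 z2) (d z2 z2))) z2) (a (c (b (d z2 z2) (d (a (c (b z0 (d z0 z0)) z0) z0) (a (b z0 (d z0 z0)) z0))) z0) (c (b (d z2 z2) (d z2 z2)) z2)))) (b (d z2 z2) (d z2 z2))) z10) (a (b (d (c (a (b (d z2 z2) (d z2 z2)) (b z2 (d z2 z2))) z2) (a (c (b (d z2 z2) (d z2 z2)) z2) (c (b z2 (d z2 z2)) z2))) (d (c (a (b (d z2 z2) (d (c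 (a (b z0 (d z0 z0)) z0) z0) (a (c (b z0 (d z0 z0)) z0) z0))) (b (d z2 z2) (d z2 z2))) z2) (a (c (b (d z2 z2) (d (a (c (b z0 (d z0 z0)) z0) z0) (a (b z0 (d z0 z0)) z0))) z0) (c (b (d z2 z2) (d z2 z2)) z2)))) (b (d z2 z2) (d z2 z2))))) z10) _ _ (by decide +kernel)

theorem okB935 : CKB ⟨6144, 8256, 7168, 7296⟩ ⟨6144, 10848, 7680, 7936⟩ :=
  ckB_sound (d (a (c (b (d (a (c (b (d (a (c (b (d z0 z0) (d z0 z0)) z0) z0) (a (b z0 z0) z0)) (d (c (a (b (d z0 z0) (d z0 z0)) z0) z0) (a (b (d z0 z0) (d z0 z0)) z0))) (b z0 z0)) (c (b (d z0 z0) (d z0 z0)) z0)) (a (b (d (a (c (b z0 z0) z0) z0) (a (b z0 z0) z0)) (d (c (a (b z0 z0) z0) z0) (a (b z0 z0) z0))) (b (d z0 z0) (d z0 z0)))) (d (c (a (b (d (c (a (b (d z0 z0) (d z0 z0)) z0) z0) (a (b (d z0 z0) (d z0 z0)) z0)) (d (c (b (d z0 z0) z0) z0) (b (d z0 z0) z0)))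 (b (d z0 z0) (d (c (a (b z0 (d z0 z0)) z0) z0) (a (b z0 (d z0 z0)) z0)))) (a (b z0 z0) z0)) (a (b (d (c (a (b z0 z0) z0) z0) (a (b z0 z0) z0)) (d (c (b z0 z0) z0) (b z0 z0))) (b (d z0 z0) (d (c (a (b z0 z0) z0) z0) (a (b z0 z0) z0)))))) (b z0 (d z8 (c (a (b z0 z0) z0) z0)))) (c (b (d z0 z0) (d (a (c (b (d z0 z0) (d z0 z0)) z0) z0) (a (b (d z0 z0) (d z0 z0)) z0))) z0)) (a (b (d (a (c (b (d (a (c (b z0 z0) z0) z0) (a (b z0 z0) z0)) (d (c (a (b z0 z0) z0) z0) (a (b z0 z0) z0))) z0) (c (b (d z0 z0) (d z0 z0)) z0)) (a (b (d (a (c (b z0 z0) z0) z0) z0) (d (c (a (b z0 z0) z0) z0) z0)) (b z0 (d z0 z0)))) (d (c (a (b (d (c (a (b z0 z0) z0) z0) (a (b z0 z0) z0)) (d (c (b z0 z0) z0) (b z0 z0))) (b (d z0 z0) (d (c (a (b z0 z0) z0) z0) z0))) z0) (a (b (d (c (a (b z0 z0) z0) z0) (a (b z0 z0) z0)) (d (c (b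 z0 z0) z0) (b z0 z0))) (b (d z0 z0) (d z0 z0))))) (b (d z0 z0) (d (a (c (b (d z0 z0) (d z0 z0)) z0) z0) (a (b z0 (d z0 z0)) z0))))) _ _ (by decide +kernel)

theorem okB936 : CKB ⟨6144, 8256, 7296, 7424⟩ ⟨6144, 10848, 7680, 7936⟩ :=
  ckB_sound (d (c (a (b (d (c (a (b (d (c (a (b (d z0 z0) (d z0 z0)) z0) z0) (a (b (d z0 z0) (d z0 z0)) z0)) (d (c (b (d z0 z0) z0) z0) (b (d z0 z0) z0))) (b (d z0 z0) (d (c (a (b z0 (d z0 z0)) z0) z0) (a (b z0 (d z0 z0)) z0)))) (a (b z0 z0) z0)) (a (b (d (c (a (b z0 (d z0 z0)) z0) z0) (a (b z0 z0) z0)) (d (c (b (d z0 z0) z0) z0) (b z0 z0))) (b (d z0 z0) (d (c (a (b z0 (d z0 z0)) z0) z0) (a (b z0 z0) z0))))) (d (c (b (d (c (b (d z0 z0) z0) z0) (b (d z0 z0) z0)) z0) (b z0 z0)) (b (d (c (b (d z0 z0) z0) z0) (b z0 z0)) z0))) (b (d (c (a (b (d z0 z0) (d z0 z0)) (b z0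 (d z0 z0))) z0) (a (b (d z0 z0) (d z0 z0)) (b z0 (d z0 z0)))) (d (c (a (b (d (c (a (b z0 (d z0 z0)) z0) z0) (a (b z0 (d z0 z0)) z0)) (d (c (b (d z0 z0) (d z0 z0)) z0) (b (d z0 z0) (d z0 z0)))) (b (d z0 z0) (d z0 z0))) z0) (a (b (d (c (a (b z0 (d z0 z0)) z0) z0) z0) (d (c (b (d z0 z0) (d z0 z0)) z0) (b z0 z0))) (b (d z0 z0) (d z0 z0)))))) (a (b (d z8 (c (a (b z0 z0) z0) z0)) (d z8 (c (b z0 z0) z0))) z0)) (a (b (d (c (a (b (d (c (a (b z0 z0) z0) z0) (a (b z0 z0) z0)) (d (c (b z0 z0) z0) (b z0 z0))) (b (d z0 z0) (d (c (a (b z0 z0) z0) z0) (a (b z0 z0) z0)))) z0) (a (b (d (c (a (b z0 z0) z0) z0) (a (b z0 z0) z0)) (d (c (b z0 z0) z0) (b z0 z0))) (b (d z0 z0) (d z0 z0)))) (d (c (b (d (c (b z0 z0) z0) (b z0 z0)) z0) (b z0 z0)) (b (d (c (b z0 z0) z0) (b z0 z0)) z0))) (b (d (c (a (b (d z0 z0) (d z0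 z0)) (b z0 (d z0 z0))) z0) (a (b z0 (d z0 z0)) z0)) (d (c (a (b (d z0 z0) (d (c (b z0 z0) z0) (b z0 z0))) (b (d z0 z0) (d z0 z0))) z0) (a (b (d z0 z0) (d (c (b z0 z0) z0) (b z0 z0))) (b (d z0 z0) (d z0 z0))))))) _ _ (by decide +kernel)

theorem okB937 : CKB ⟨6144, 8256, 7168, 7424⟩ ⟨10848, 12288, 7680, 7936⟩ :=
  ckB_sound (b (d (a (c (b z8 z8) z8) z8) (a (c (b z8 z8) (b z8 z8)) z8)) (d (c (a (b z8 z8) z8) z8) (c (a (b z8 z8) z8) (a (b z8 z8) z8)))) _ _ (by decide +kernel)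

theorem okB938 : CKB ⟨8256, 9600, 7168, 7424⟩ ⟨6144, 12288, 7680, 7936⟩ :=
  ckB_sound (c (b (d (a (c (b (d z2 z2) (d z2 z2)) z2) (c (b z2 (d z2 z2)) z2)) (a (b (d z2 z2) (d z2 z2)) (b z2 (d z2 z2)))) (d (a (c (b (d z0 z0) (d (a (c (b (d z0 z0) (d z0 z0)) z0) z0) (a (b (d z0 z0) (d z0 z0)) z0))) z0) (c (b (d z2 z2) (d z2 z2)) z2)) (a (b (d z0 z0) (d (a (c (b z0 (d z0 z0)) z0) z0) (a (b z0 (d z0 z0)) z0))) (b (d z2 z2) (d z2 z2))))) z10) _ _ (by decide +kernel)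

theorem okB939 : CKB ⟨6144, 9600, 7168, 7424⟩ ⟨6144, 12288, 7936, 8192⟩ :=
  ckB_sound (a (b (d (a (c (b (d (a (c (b (d z0 z0) (d z0 z0)) z0) (c (b z0 (d z0 z0)) z0)) (a (b (d z0 z0) (d z0 z0)) z0)) (d (c (a (b (d z0 z0) (d z0 z0)) (b (d z0 z0) (d z0 z0))) z0) (a (b (d z0 z0) (d z0 z0)) (b z0 (d z0 z0))))) (b z8 z8)) (c (b (d z0 z0) (d z0 z0)) z8)) (a (b (d (a (c (b (d z0 z0) (d z0 z0)) z0) z0) (a (b (d z0 z0) (d z0 z0)) z0)) (d (c (a (b (d z0 z0) (d z0 z0)) (b z0 (d z0 z0))) z0) (a (b (d z0 z0) (d z0 z0)) (b z0 (d z0 z0))))) (b (d z0 z0) (d z0 z0)))) (d (c (a (b (d (c (a (b (d z0 z0) (d (c (b z0 z0) z0) z0)) (b (d z0 z0) (d z0 z0))) z0) (a (b (d z0 z0) (d z0 z0)) (b z0 (d z0 z0)))) (d (c (b (d (c (b z0 z0) z0) z0) z0) z0) (b (d z0 z0) z0))) (b (d (c (a (b z0 (d z0 z0)) z0) z0) z0) (d (c (a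 (b (d z0 z0) (d (c (b z0 z0) z0) z0)) (b z0 (d z0 z0))) z0) (a (b (d z0 z0) (d z0 z0)) (b z0 (d z0 z0)))))) (a (b z8 z8) z8)) (a (b (d (c (a (b (d z0 z0) (d z0 z0)) (b z0 (d z0 z0))) z0) (a (b (d z0 z0) (d z0 z0)) (b z0 (d z0 z0)))) (d (c (b (d z0 z0) z0) z0) (b (d z0 z0) z0))) (b (d z0 z0) (d (c (a (b (d z0 z0) (d z0 z0)) (b z0 (d z0 z0))) z0) (a (b (d z0 z0) (d z0 z0)) z0)))))) (b (d (a (c (b (d z2 z2) (d z2 z2)) z10) z2) (a (b (d z2 z2) (d z2 z2)) z2)) (d (a (c (b (d z0 z0) (d z0 z0)) z8) (c (b (d z2 z2) (d z2 z2)) z10)) (a (b (d z0 z0) (d z0 z0)) (b (d z2 z2) (d z2 z2)))))) _ _ (by decide +kernel)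

theorem okB940 : CKB ⟨6144, 9600, 7424, 7552⟩ ⟨6144, 10848, 7680, 7936⟩ :=
  ckB_sound (d (a (c (b (d (a (c (b (d (a (c (b (d z0 z0) (d z0 z0)) z0) z0) (a (b (d z0 z0) (d z0 z0)) z0)) (d (c (a (b (d z0 z0) (d z0 z0)) z0) z0) (a (b (d z0 z0) (d z0 z0)) z0))) (b z0 z0)) (c (b (d z0 z0) (d z0 z0)) z0)) (a (b (d (a (c (b (d z0 z0) (d z0 z0)) z0) z0) (a (b z0 z0) z0)) (d (c (a (b (d z0 z0) (d z0 z0)) z0) z0) (a (b z0 z0) z0))) (b (d z0 z0) (d z0 z0)))) (d (c (a (b (d (c (a (b (d z0 z0) (d z0 z0)) z0) z0) (a (b (d z0 z0) (d z0 z0)) z0)) (d (c (b (d z0 z0) z0) z0) (b (d z0 z0) z0))) (b (d z0 z0) (d (c (a (b z0 (d z0 z0)) z0) z0) (a (b z0 (d z0 z0)) z0)))) (a (b z0 z0) z0)) (a (b (d (c (a (b (d z0 z0) (d z0 z0)) z0) z0) (a (b z0 z0) z0)) (d (c (b (d z0 z0) z0) z0) (b z0 z0))) (b (d z0 z0) (d (c (a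 (b z0 (d z0 z0)) z0) z0) (a (b z0 z0) z0)))))) (b (d z8 (a (c (b z0 z0) z0) z0)) (d z8 (c (a (b z0 z0) z0) z0)))) (c (b (d z0 z0) (d (a (c (b (d z0 z0) (d z0 z0)) z0) z0) (a (b (d z0 z0) (d z0 z0)) z0))) z0)) (a (b (d (a (c (b (d (a (c (b z0 z0) z0) z0) (a (b z0 z0) z0)) (d (c (a (b z0 z0) z0) z0) (a (b z0 z0) z0))) (b z0 z0)) (c (b (d z0 z0) (d z0 z0)) z0)) (a (b (d (a (c (b z0 z0) z0) z0) (a (b z0 z0) z0)) (d (c (a (b z0 z0) z0) z0) (a (b z0 z0) z0))) (b z0 (d z0 z0)))) (d (c (a (b (d (c (a (b z0 z0) z0) z0) (a (b z0 z0) z0)) (d (c (b z0 z0) z0) (b z0 z0))) (b (d z0 z0) (d (c (a (b z0 z0) z0) z0) z0))) (a (b z0 z0) z0)) (a (b (d (c (a (b z0 z0) z0) z0) (a (b z0 z0) z0)) (d (c (b z0 z0) z0) (b z0 z0))) (b (d z0 z0) (d z0 z0))))) (b (d z0 z0) (d (a (c (b z0 (d z0 z0)) z0) z0) (a (b z0 (d z0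 z0)) z0))))) _ _ (by decide +kernel)

theorem okB941 : CKB ⟨6144, 9600, 7552, 7680⟩ ⟨6144, 10848, 7680, 7936⟩ :=
  ckB_sound (d (c (a (b (d (c (a (b (d (c (a (b (d z0 z0) (d z0 z0)) z0) z0) (a (b (d z0 z0) (d z0 z0)) z0)) (d (c (b (d z0 z0) z0) z0) (b (d z0 z0) z0))) (b (d z0 z0) (d (c (a (b z0 (d z0 z0)) z0) z0) (a (b z0 (d z0 z0)) z0)))) (a (b z0 z0) z0)) (a (b (d (c (a (b z0 z0) z0) z0) (a (b z0 z0) z0)) (d (c (b z0 z0) z0) (b z0 z0))) (b (d z0 z0) (d (c (a (b z0 z0) z0) z0) (a (b z0 z0) z0))))) (d (c (b (d (c (b (d z0 z0) (d z0 z0)) z0) (b (d z0 z0) z0)) z0) (b z0 z0)) (b (d (c (b z0 z0) z0) (b z0 z0)) z0))) (b (d (c (a (b (d z0 z0) (d z0 z0)) z0) z0) (a (b (d z0 z0) (d z0 z0)) z0)) (d (c (a (b (d z0 z0) (d (c (b (d z0 z0) z0) z0) (b z0 z0))) (b (d z0 z0) (d z0 z0))) z0) (a (b (d z0 z0)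 (d (c (b z0 z0) z0) (b z0 z0))) (b (d z0 z0) (d z0 z0)))))) (a (b (d z8 (c (a (b z0 z0) z0) z0)) (d z8 (c (b z0 z0) z0))) z0)) (a (b (d (c (a (b (d (c (a (b z0 z0) z0) z0) (a (b z0 z0) z0)) (d (c (b z0 z0) z0) (b z0 z0))) (b (d z0 z0) (d (c (a (b z0 z0) z0) z0) z0))) (a (b z0 z0) z0)) (a (b (d (c (a (b z0 z0) z0) z0) (a (b z0 z0) z0)) (d (c (b z0 z0) z0) (b z0 z0))) (b (d z0 z0) (d z0 z0)))) (d (c (b (d (c (b z0 z0) z0) (b z0 z0)) z0) (b z0 z0)) (b (d (c (b z0 z0) z0) (b z0 z0)) z0))) (b (d (c (a (b z0 (d z0 z0)) z0) z0) (a (b z0 (d z0 z0)) z0)) (d (c (a (b (d z0 z0) (d (c (b z0 z0) z0) (b z0 z0))) (b (d z0 z0) (d z0 z0))) z0) (a (b (d z0 z0) (d (c (b z0 z0) z0) (b z0 z0))) (b z0 (d z0 z0))))))) _ _ (by decide +kernel)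

theorem okB942 : CKB ⟨6144, 9600, 7424, 7680⟩ ⟨10848, 12288, 7680, 7936⟩ :=
  ckB_sound (b (d (a (c (b z8 z8) z8) z8) (a (c (b z8 z8) (b z8 z8)) z8)) (d (c (a (b z8 z8) z8) z8) (c (a (b z8 z8) z8) (a (b z8 z8) z8)))) _ _ (by decide +kernel)

theorem okB943 : CKB ⟨6144, 9600, 7424, 7680⟩ ⟨6144, 12288, 7936, 8192⟩ :=
  ckB_sound (b (d (a (c (b (d (a (c (b (d (a (c (b z0 z0) z0) z0) z0) (d (c (a (b z0 z0) z0) z0) z0)) z0) (c (b z0 (d z0 z0)) z0)) (a (b (d z0 z0) (d z0 z0)) z0)) (d (c (a (b (d (c (a (b z0 z0) z0) z0) z0) (d (c (b z0 z0) z0) (b z0 z0))) (b (d z0 z0) (d z0 z0))) z0) (a (b (d z0 z0) (d z0 z0)) (b z0 (d z0 z0))))) (b z8 z8)) (c (b (d z0 z0) (d z0 z0)) z8)) (a (b (d (a (c (b (d z0 z0) (d z0 z0)) z0) z0) (a (b (d z0 z0) (d z0 z0)) z0)) (d (c (a (b (d z0 z0) (d z0 z0)) (b z0 (d z0 z0)))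 z0) (a (b (d z0 z0) (d z0 z0)) (b z0 (d z0 z0))))) (b (d z0 z0) (d z0 z0)))) (d (c (a (b (d (c (a (b (d (c (a (b z0 z0) z0) z0) (a (b z0 z0) z0)) (d (c (b z0 z0) z0) (b z0 z0))) (b (d z0 z0) (d z0 z0))) z0) (a (b (d z0 z0) (d z0 z0)) (b z0 (d z0 z0)))) (d (c (b (d (c (b z0 z0) z0) z0) z0) z0) (b (d z0 z0) z0))) (b (d z0 z0) (d (c (a (b (d z0 z0) (d (c (b z0 z0) z0) z0)) (b z0 (d z0 z0))) z0) (a (b (d z0 z0) (d z0 z0)) (b z0 (d z0 z0)))))) (a (b z8 z8) z8)) (a (b (d (c (a (b (d z0 z0) (d z0 z0)) (b z0 (d z0 z0))) z0) (a (b (d z0 z0) (d z0 z0)) (b z0 (d z0 z0)))) (d (c (b (d z0 z0) z0) z0) (b (d z0 z0) z0))) (b (d z0 z0) (d (c (a (b (d z0 z0) (d z0 z0)) z0) z0) (a (b (d z0 z0) (d z0 z0)) z0)))))) _ _ (by decide +kernel)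

theorem okB944 : CKB ⟨9600, 12288, 7168, 7680⟩ ⟨6144, 12288, 7680, 8192⟩ :=
  ckB_sound (b (d (c (a (b (d z2 z2) (d (c (a (b z2 (d z2 z2)) z2) z2) z2)) (b (d z2 z2) (d z2 z2))) z10) (a (b (d z2 z2) (d z2 z2)) (b (d z2 z2) (d z2 z2)))) (d (c (a (b (d (c (a (b (d z2 z2) (d z2 z2)) z2) z2) (a (b (d z2 z2) (d z2 z2)) z2)) (d (c (a (b (d z2 z2) (d (c (a (b z0 (d z0 z0)) z0) z0) (a (b z0 (d z0 z0)) z0))) (b (d z2 z2) (d z2 z2))) z2) (a (b (d z2 z2) (d z0 z0)) (b (d z2 z2) (d z2 z2))))) (b (d z2 z2) (d z2 z2))) z10) (a (b (d (c (a (b (d z2 z2) (d z2 z2)) z2) z10) (a (b z2 (d z2 z2)) z2)) (d (c (a (b (d z2 z2) (d z0 z0)) (b (d z2 z2) (d z2 z2))) z10) (a (b (d z2 z2) (d z0 z0)) (b z2 (d z2 z2))))) (b (d z2 z2) (d z2 z2))))) _ _ (by decide +kernel)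

end Vale.Agent.Lib.P154Q5
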