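import Vale.Agent.Lib.P154Q5.CkBDefs

namespace Vale.Agent.Lib.P154Q5

set_option maxRecDepth 100000
set_option exponentiation.threshold 1000

open Tr

theorem okB945 : CKB ⟨6144, 10848, 7680, 7808⟩ ⟨6144, 8256, 7168, 7424⟩ :=
  ckB_sound (d (c (a (b (d (c (a (b (d (c (a (b z0 z0) z0) z0) (a (c (b z0 z0) z0) z0)) (d (c (b z0 z0) z0) (c (b z0 z0) z0))) (b z0 (d z0 z0))) (a (b z0 z0) z0)) (a (c (b (d (a (c (b (d z0 z0) z0) z0) z0) (a (b (d z0 z0) (d z0 z0)) z0)) (d (c (b z0 z0) z0) (b z0 z0))) (b (d z0 (a (c (b z0 z0) z0) z0)) (d z0 (c (b z0 z0) z0)))) (c (b z0 (d z0 z0)) z0))) (d (c (b (d (c (a (b z0 z0) z0) z0) (a (c (b z0 z0) z0) z0)) (d (c (b z0 z0) z0) (c (b z0 z0) z0))) (b z0 z0)) (c (b (d (a (c (b z0 z0) z0) z0) (a (b z0 z0) z0)) (d (c (b z0 z0) z0) (b z0 z0))) (b (d z0 (a (c (b z0 z0)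 z0) z0)) (d z0 (c (b z0 z0) z0)))))) (b (d z2 z2) (d z0 (a (c (b z0 (d z0 z0)) z0) z0)))) (a (b (d z0 (c (a (b z0 z0) z0) z0)) (d z0 (c (b z0 z0) z0))) z0)) (a (c (b (d (a (c (b (d (a (c (b (d z0 z0) (d z0 z0)) z0) z0) (a (b (d z0 z0) (d z0 z0)) z0)) (d (c (b (d z0 z0) z0) z0) (b (d z0 z0) z0))) (b (d z0 (a (c (b z0 z0) z0) z0)) (d z0 (c (b z0 z0) z0)))) (c (b (d z0 z0) (d z0 z0)) z0)) (a (b (d (a (b (d z0 z0) (d z0 z0)) z0) z0) (d (b (d z0 z0) (d z0 z0)) z0)) (b (d z0 z0) (d z0 z0)))) (d (c (b (d (a (c (b z0 z0) z0) z0) (a (b z0 z0) z0)) (d (c (b z0 z0) z0) (b z0 z0))) (b (d z0 (a (c (b z0 z0) z0) z0)) (d z0 (c (b z0 z0) z0)))) (b (d (a (b z0 z0) z0) z0) (d (b z0 z0) z0)))) (b (d (a (c (b z0 z0) (b z0 z0)) z0) (a (c (b (d (a (c (b z0 z0) z0) z0) (a (b (d z0 z0) (d z0 z0)) z0)) (d (c (b z0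 z0) z0) (b (d z0 z0) (d z0 z0)))) (b z0 z0)) z0)) (d (c (b z0 z0) (b z0 z0)) (c (b (d (a (c (b z0 z0) z0) z0) (a (b z0 z0) z0)) (d z0 (b z0 z0))) (b z0 z0))))) (c (b (d z2 z2) (d (a (c (b z0 (d z0 z0)) z0) z0) (a (b z0 (d z0 z0)) z0))) z0))) _ _ (by decide +kernel)

theorem okB946 : CKB ⟨6144, 10848, 7808, 7936⟩ ⟨6144, 8256, 7168, 7424⟩ :=
  ckB_sound (d (c (b (d (c (a (b (d (c (a (b z0 z0) z0) z0) (a (c (b z0 z0) z0) z0)) (d (c (b z0 z0) z0) (c (b z0 z0) z0))) z0) (a (b z0 z0) z0)) (a (c (b (d (a (c (b z0 z0) z0) z0) (a (b z0 z0) z0)) (d (c (b z0 z0) z0) (b z0 z0))) (b (d z0 (a (c (b z0 z0) z0) z0)) z0)) z0)) (d (c (b (d (c (a (b z0 z0) z0) z0) (a (c (b z0 z0) z0) z0)) (d z0 z0)) (b z0 z0)) (c (b (d (a (c (b z0 z0) z0) z0) (a (b z0 z0) z0)) (d (c (b z0 z0) z0) (b z0 z0))) (b z0 z0)))) (b (d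 z0 (c (a (b z0 z0) z0) z0)) (d z0 (c (b z0 z0) z0)))) (c (b (d (a (c (b (d (a (c (b z0 z0) z0) z0) (a (b z0 z0) z0)) (d (c (b z0 z0) z0) (b z0 z0))) (b (d z0 (a (c (b z0 z0) z0) z0)) (d z0 (c (b z0 z0) z0)))) z0) (a (b (d (a (b z0 z0) z0) z0) (d (b z0 z0) z0)) (b z0 (d z0 z0)))) (d (c (b (d (a (c (b z0 z0) z0) z0) (a (b z0 z0) z0)) (d (c (b z0 z0) z0) (b z0 z0))) (b z0 z0)) (b (d (a (b z0 z0) z0) z0) (d (b z0 z0) z0)))) (b (d (a (c (b z0 z0) (b z0 z0)) z0) (a (c (b (d z0 (a (b z0 z0) z0)) (d z0 (b z0 z0))) (b z0 z0)) z0)) (d (c (b z0 z0) z0) (c (b (d z0 (a (b z0 z0) z0)) (d z0 (b z0 z0))) (b z0 z0)))))) _ _ (by decide +kernel)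

theorem okB947 : CKB ⟨10848, 12288, 7680, 7936⟩ ⟨6144, 8256, 7168, 7424⟩ :=
  ckB_sound (b (d (c (a (b (d z2 z2) (d z2 z2)) z2) z2) (a (c (b (d z2 z2) (d z2 z2)) z2) z2)) (d (c (a (b (d z2 z2) (d z0 z0)) (b z2 (d z2 z2))) z2) (a (c (b (d z2 z2) (d z0 z0)) z2) (c (b z2 (d z2 z2)) z2)))) _ _ (by decide +kernel)

theorem okB948 : CKB ⟨6144, 12288, 7680, 7936⟩ ⟨8256, 9600, 7168, 7424⟩ :=
  ckB_sound (a (b (d (c (a (b z8 z8) z8) (a (b z8 z8) z8)) (c (a (b (d z0 (c (a (b z0 z0) z0) z0)) (d z0 (c (b z0 z0) z0))) z0) (a (b z8 z8) z8))) (d (c (b z8 z8) (b z8 z8)) (c (b (d z0 (c (a (b z0 z0) z0) z0)) (d z0 (c (b z0 z0) z0))) (b z8 z8)))) z10) _ _ (by decide +kernel)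

theorem okB949 : CKB ⟨6144, 10848, 7680, 7808⟩ ⟨6144, 9600, 7424, 7680⟩ :=
  ckB_sound (d (c (a (b (d (c (a (b (d (c (a (b (d z0 z0) (d z0 z0)) z0) z0) (a (c (b (d z0 z0) (d z0 z0)) z0) z0)) (d (c (b (d z0 z0) (d z0 z0)) z0) (c (b (d z0 z0) (d z0 z0)) z0))) (b (d z0 z0) (d z0 z0))) (a (b z0 z0) z0)) (a (c (b (d (a (c (b (d z0 z0) (d z0 z0)) z0) z0) (a (b (d z0 z0) (d z0 z0)) z0)) (d (c (b (d z0 z0) (d z0 z0)) z0) (b (d z0 z0) (d z0 z0)))) (b (d z0 (a (c (b z0 z0) z0) z0)) (d z0 (c (b z0 z0) z0)))) (c (b (d z0 z0) (d z0 z0)) z0))) (d (c (b (d (c (a (b z0 z0) z0) z0) (a (c (b z0 z0) z0) z0)) (d (c (b z0 z0) z0) (c (b z0 z0) z0))) (b z0 z0)) (c (b (d (a (c (b z0 z0) z0) z0) (a (b z0 z0) z0)) (d (c (b z0 z0) z0) (b z0 z0))) (b (d z0 (a (c (b z0 z0) z0) z0)) (d z0 (c (b z0 z0) z0)))))) (b (d z2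 z2) (d (c (a (b z0 (d z0 z0)) z0) z0) (a (c (b z0 (d z0 z0)) z0) z0)))) (a (b (d z0 (c (a (b z0 z0) z0) z0)) (d z0 (c (b z0 z0) z0))) z0)) (a (c (b (d (a (c (b (d (a (c (b (d z0 z0) (d z0 z0)) z0) z0) (a (b (d z0 z0) (d z0 z0)) z0)) (d (c (b (d z0 z0) z0) z0) (b (d z0 z0) z0))) (b (d z0 (a (c (b z0 z0) z0) z0)) (d z0 (c (b z0 z0) z0)))) (c (b (d z0 z0) (d z0 z0)) z0)) (a (b (d (a (b (d z0 z0) (d z0 z0)) z0) z0) (d (b z0 z0) z0)) (b (d z0 z0) (d z0 z0)))) (d (c (b (d (a (c (b z0 z0) z0) z0) (a (b z0 z0) z0)) (d (c (b z0 z0) z0) (b z0 z0))) (b (d z0 (a (c (b z0 z0) z0) z0)) (d z0 (c (b z0 z0) z0)))) (b (d (a (b z0 z0) z0) z0) (d (b z0 z0) z0)))) (b (d (a (c (b z0 z0) z0) z0) (a (c (b (d z0 (a (b (d z0 z0) z0) z0)) (d z0 (b z0 z0))) (b z0 z0)) z0)) (d (c (b z0 z0) z0) (c (b (d z0 (a (b z0 z0)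 z0)) (d z0 (b z0 z0))) (b z0 z0))))) (c (b (d z2 z2) (d (a (c (b z0 (d z0 z0)) z0) z0) (a (b z0 (d z0 z0)) z0))) z0))) _ _ (by decide +kernel)

theorem okB950 : CKB ⟨6144, 10848, 7808, 7936⟩ ⟨6144, 9600, 7424, 7680⟩ :=
  ckB_sound (d (c (b (d (c (a (b (d (c (a (b z0 z0) z0) z0) (a (c (b z0 z0) z0) z0)) (d (c (b z0 z0) z0) (c (b z0 z0) z0))) (b z0 (d z0 z0))) (a (b z0 z0) z0)) (a (c (b (d (a (c (b z0 z0) z0) z0) (a (b z0 z0) z0)) (d (c (b z0 z0) z0) (b z0 z0))) (b (d z0 (a (c (b z0 z0) z0) z0)) z0)) (c (b z0 (d z0 z0)) z0))) (d (c (b (d (c (a (b z0 z0) z0) z0) (a (c (b z0 z0) z0) z0)) (d (c (b z0 z0) z0) (c (b z0 z0) z0))) (b z0 z0)) (c (b (d (a (c (b z0 z0) z0) z0) (a (b z0 z0) z0)) (d (c (b z0 z0) z0) (b z0 z0))) (b z0 z0)))) (b (d z0 (c (a (b z0 z0) z0) z0)) (d z0 (c (b z0 z0) z0)))) (c (b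 (d (a (c (b (d (a (c (b z0 z0) z0) z0) (a (b z0 z0) z0)) (d (c (b z0 z0) z0) (b z0 z0))) (b (d z0 (a (c (b z0 z0) z0) z0)) z0)) (c (b z0 (d z0 z0)) z0)) (a (b (d (a (b z0 z0) z0) z0) (d (b z0 z0) z0)) (b z0 (d z0 z0)))) (d (c (b (d (a (c (b z0 z0) z0) z0) (a (b z0 z0) z0)) (d (c (b z0 z0) z0) (b z0 z0))) (b z0 z0)) (b (d (a (b z0 z0) z0) z0) (d (b z0 z0) z0)))) (b (d (a (c (b z0 z0) z0) z0) (a (c (b (d z0 (a (b z0 z0) z0)) (d z0 (b z0 z0))) (b z0 z0)) z0)) (d (c (b z0 z0) z0) (c (b (d z0 (a (b z0 z0) z0)) (d z0 (b z0 z0))) (b z0 z0)))))) _ _ (by decide +kernel)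

theorem okB951 : CKB ⟨10848, 12288, 7680, 7936⟩ ⟨6144, 9600, 7424, 7680⟩ :=
  ckB_sound (b (d (c (a (b (d z2 z2) (d z2 z2)) z2) z2) (a (c (b (d z2 z2) (d z2 z2)) z2) z2)) (d (c (a (b (d z2 z2) (d z0 z0)) (b (d z2 z2) (d z2 z2))) z2) (a (c (b (d z2 z2) (d z0 z0)) z2) (c (b (d z2 z2) (d z2 z2)) z2)))) _ _ (by decide +kernel)

theorem okB952 : CKB ⟨6144, 12288, 7936, 8192⟩ ⟨6144, 9600, 7168, 7424⟩ :=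
  ckB_sound (c (b (d (c (a (b (d (c (a (b (d z0 z0) (d z0 z0)) z0) (a (b z0 z0) z0)) (a (c (b (d z0 z0) (d z0 z0)) (b z0 z0)) z0)) (d (c (b (d z0 z0) (d z0 z0)) z0) (c (b (d z0 z0) (d z0 z0)) (b z0 z0)))) (b (d z2 z2) (d z0 z0))) (a (b z0 z0) z2)) (a (c (b (d (a (c (b (d z0 (a (b z0 z0) z0)) (d z0 z0)) (b z0 z0)) z0) (a (b (d (a (b z0 z0) z0) z0) (d z0 z0)) z0)) (d (c (b (d z0 z0) (d z0 z0)) (b z0 z0)) (b (d z0 z0) (d z0 z0)))) (b (d (a (c (b z0 z0) z0) z0) (a (c (b (d z0 (a (b z0 z0) z0)) (d z0 z0)) (b z0 z0)) z0)) (d z0 (c (b (d z0 z0) (d z0 z0)) (b z0 z0))))) (c (b (d z2 z2) (d z0 z0)) z2))) (d (c (b (d (c (a (b (d z0 z0) (d z0 z0)) z0) z0) (a (c (b (d z0 z0) (d z0 z0)) (b z0 z0)) z0)) (d (c (b (d z0 z0) z0) z0) (c (b (d z0 z0) (d z0 z0)) (b z0 z0)))) (b z0 z0)) (c (b (d (a (c (b (d z0 z0)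 (d z0 z0)) (b z0 z0)) z0) (a (b (d z0 z0) (d z0 z0)) z0)) (d (c (b (d z0 z0) (d z0 z0)) (b z0 z0)) (b (d z0 z0) (d z0 z0)))) (b (d z0 (a (c (b (d z0 z0) z0) (b z0 z0)) z0)) (d z0 (c (b z0 z0) z0)))))) (b (d (c (a (b z8 z8) z10) z8) (c (a (b z0 z0) z2) (a (b z8 z8) z10))) (d (c (b z8 z8) z8) (c (b z0 z0) (b z8 z8))))) _ _ (by decide +kernel)

theorem okB953 : CKB ⟨6144, 12288, 7936, 8192⟩ ⟨6144, 9600, 7424, 7680⟩ :=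
  ckB_sound (b (d (c (a (b (d (c (a (b (d (c (a (b z0 z0) z0) z0) (a (c (b z0 z0) z0) z0)) (d z0 z0)) z0) (a (b z0 z0) z0)) (a (c (b (d (a (c (b z0 z0) z0) z0) (a (b z0 z0) z0)) (d z0 (b z0 z0))) (b z0 z0)) z0)) (d (c (b (d z0 z0) (d z0 z0)) z0) (c (b (d z0 z0) (d z0 z0)) (b z0 z0)))) (b (d z2 z2) (d z0 z0))) (a (b z0 z0) z2)) (a (c (b (d (a (c (b (d (a (c (b z0 z0) z0) z0) (a (b z0 z0) z0)) (d (c (b z0 z0) z0) (b z0 z0))) (b z0 z0)) z0) (a (b (d (a (b z0 z0) z0) z0) (d z0 z0)) z0)) (d (c (b (d z0 z0) (d z0 z0)) (b z0 z0)) (b (d z0 z0) (d z0 z0)))) (b (d z0 (a (c (b (d z0 (a (b z0 z0) z0)) (d z0 z0)) (b z0 z0)) z0)) (d z0 (c (b (d z0 z0) (d z0 z0)) (b z0 z0))))) (c (b (d z2 z2) (d z0 z0)) z2))) (d (c (b (d (c (a (b (d z0 z0) (d z0 z0)) z0) z0) (a (c (b (d z0 z0) (d z0 z0)) (b z0 z0)) z0)) (d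 (c (b (d z0 z0) (d z0 z0)) z0) (c (b (d z0 z0) (d z0 z0)) (b z0 z0)))) (b z0 z0)) (c (b (d (a (c (b (d z0 z0) (d z0 z0)) (b z0 z0)) z0) (a (b (d z0 z0) (d z0 z0)) z0)) (d (c (b (d z0 z0) (d z0 z0)) (b z0 z0)) (b (d z0 z0) (d z0 z0)))) (b (d z0 (a (c (b (d z0 z0) (d z0 z0)) z0) z0)) (d z0 (c (b z0 z0) z0)))))) _ _ (by decide +kernel)

theorem okB954 : CKB ⟨6144, 12288, 7680, 8192⟩ ⟨9600, 12288, 7168, 7680⟩ :=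
  ckB_sound (b (d (a (c (b (d z8 (a (c (b z8 z8) z8) z8)) z8) (b z8 z8)) z10) (a (c (b (d (a (c (b z8 z8) z8) z8) (a (c (b (d z8 (a (c (b z0 z0) z0) z0)) (d z8 (c (b z0 z0) z0))) (b z8 z8)) z8)) (d (c (b z8 z8) z8) (c (b z0 z0) (b z8 z8)))) (b z8 z8)) z10)) (d (c (b z8 z8) (b z8 z8)) (c (b (d (a (c (b z8 z8) z8) z10) (a (c (b z0 z0) (b z8 z8)) z10)) (d (c (b z8 z8) z8) (c (b z0 z0) (b z8 z8)))) (b z8 z8)))) _ _ (by decide +kernel)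

theorem okB955 : CKB ⟨6144, 12288, 7680, 7936⟩ ⟨6144, 12288, 7680, 7936⟩ :=
  ckB_sound (a (c (b (d (a (c (b (d (a (c (b (d (a (c (b z0 z0) z0) z0) (a (b z0 z0) z0)) (d (c (b z0 z0) z0) (b z0 z0))) (b z0 z0)) (c (b (d z0 z0) (d z0 z0)) z0)) (a (b (d (c (a (b z0 z0) z0) z0) (a (b z0 z0) z0)) (d (c (b z0 z0) z0) (b z0 z0))) (b (d z0 z0) (d z0 z0)))) (d (c (b (d (a (c (b z0 z0) z0) z0) (a (b z0 z0) z0)) (d (c (b z0 z0) z0) (b z0 z0))) (b z0 z0)) (b (d (a (c (b z0 z0) z0) z0) (a (b z0 z0) z0)) (d (c (b z0 z0) z0) (b z0 z0))))) (b (d z8 (a (c (b z0 z0) z0) z0)) (d z8 (c (b z0 z0) z0)))) (c (b (d z2 z2) (d (c (a (b z0 (d z0 z0)) z0) z0) (a (b z0 (d z0 z0)) z0))) z0)) (a (b (d (a (c (b (d (a (c (b z0 z0) z0) z0) (a (b z0 z0) z0)) (d (c (b z0 z0) z0) (b z0 z0))) (b z0 z0)) (c (b z0 (d z0 z0)) z0))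 (a (b (d (c (a (b z0 z0) z0) z0) (a (b z0 z0) z0)) (d (c (b z0 z0) z0) (b z0 z0))) (b z0 (d z0 z0)))) (d (c (b (d (a (c (b z0 z0) z0) z0) (a (b z0 z0) z0)) (d (c (b z0 z0) z0) (b z0 z0))) (b z0 z0)) (b (d (c (a (b z0 z0) z0) z0) (a (b z0 z0) z0)) (d (c (b z0 z0) z0) (b z0 z0))))) (b (d z2 z2) (d (c (a (b z0 (d z0 z0)) z0) z0) z0)))) (d (c (b (d (c (a (b (d (c (a (b z0 z0) z0) z0) (a (b z0 z0) z0)) (d (c (b z0 z0) z0) (b z0 z0))) (b z0 (d z0 z0))) (a (b z0 z0) z0)) (a (b (d (c (a (b z0 z0) z0) z0) (a (b z0 z0) z0)) (d (c (b z0 z0) z0) (b z0 z0))) (b z0 (d z0 z0)))) (d (c (b (d (a (c (b z0 z0) z0) z0) (a (b z0 z0) z0)) (d (c (b z0 z0) z0) (b z0 z0))) (b z0 z0)) (b (d (a (c (b z0 z0) z0) z0) (a (b z0 z0) z0)) (d (c (b z0 z0) z0) (b z0 z0))))) (b (d z8 (a (c (b z0 z0) z0) z0)) z0)) (b (d (a (c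 (b (d (a (c (b z0 z0) z0) z0) (a (b z0 z0) z0)) (d (c (b z0 z0) z0) (b z0 z0))) z0) z0) (a (b (d (c (a (b z0 z0) z0) z0) (a (b z0 z0) z0)) (d (c (b z0 z0) z0) z0)) z0)) (d (c (b (d (a (c (b z0 z0) z0) z0) (a (b z0 z0) z0)) (d (c (b z0 z0) z0) z0)) z0) (b (d z0 z0) (d z0 z0)))))) (b (d (a (c (b z8 z8) z8) z8) (a (c (b z8 z8) (b z8 z8)) z8)) (d (c (b z8 z8) z8) (c (b z8 z8) (b z8 z8))))) (c (b (d (c (a (b (d z2 z2) (d z2 z2)) z2) z2) (a (b (d z2 z2) (d z2 z2)) z2)) (d (c (a (b (d z2 z2) (d z0 z0)) (b (d z2 z2) (d z2 z2))) z2) (a (b (d z2 z2) (d z0 z0)) (b z2 (d z2 z2))))) z10)) _ _ (by decide +kernel)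

theorem okB956 : CKB ⟨6144, 12288, 7680, 7936⟩ ⟨6144, 12288, 7936, 8192⟩ :=
  ckB_sound (a (b (d (a (c (b (d (a (c (b (d (a (c (b z0 z0) z0) z0) z0) (d (c (b z0 z0) z0) z0)) z0) z0) (a (b (d z0 z0) (d z0 z0)) z0)) (d (c (b (d (a (c (b z0 z0) z0) z0) z0) (d z0 z0)) z0) (b (d z0 z0) (d z0 z0)))) (b z8 z8)) (c (b (d z2 z2) (d z0 z0)) z8)) (a (b (d (a (c (b (d z0 z0) (d z0 z0)) z0) z0) (a (b (d z0 z0) (d z0 z0)) z0)) (d (c (b (d z0 z0) (d z0 z0)) z0) (b (d z0 z0) (d z0 z0)))) (b (d z2 z2) (d z0 z0)))) (d (c (b (d (a (c (b (d z0 z0) (d z0 z0)) z0) z0) (a (b (d z0 z0) (d z0 z0)) z0)) (d (c (b (d z0 z0) (d z0 z0)) z0) (b (d z0 z0) (d z0 z0)))) (b z8 z8)) (b (d (a (c (b (d z0 z0) (d z0 z0)) z0) z0) (a (b (d z0 z0) (d z0 z0)) z0)) (d (c (b (d z0 z0) (d z0 z0)) z0) (b (d z0 z0) (d z0 z0)))))) (b (d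 (c (a (b (d z2 z2) (d z2 z2)) z2) z10) (a (b z2 (d z2 z2)) z2)) (d (c (a (b (d z2 z2) (d z0 z0)) (b z2 (d z2 z2))) z10) (a (b (d z2 z2) (d z0 z0)) (b z2 (d z2 z2)))))) _ _ (by decide +kernel)

theorem okB957 : CKB ⟨6144, 12288, 7936, 8192⟩ ⟨6144, 12288, 7680, 8192⟩ :=
  ckB_sound (d (c (b (d (c (a (b (d (c (a (b (d (c (a (b z0 z0) z0) z0) (a (b z0 z0) z0)) (d z0 z0)) z0) z0) (a (b (d (c (a (b z0 z0) z0) z0) z0) (d z0 z0)) z0)) (d (c (b (d z0 z0) (d z0 z0)) z0) (b (d z0 z0) (d z0 z0)))) (b (d z2 z2) (d z0 z0))) (a (b z0 z0) z2)) (a (b (d (c (a (b (d z0 z0) (d z0 z0)) z0) z0) (a (b (d z0 z0) (d z0 z0)) z0)) (d (c (b (d z0 z0) (d z0 z0)) z0) (b (d z0 z0) (d z0 z0)))) (b (d z2 z2) (d z0 z0)))) (d (c (b (d (c (a (b (d z0 z0) (d z0 z0)) z0) z0) (a (b (d z0 z0) (d z0 z0)) z0)) (d (c (b (d z0 z0) (d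 z0 z0)) z0) (b (d z0 z0) (d z0 z0)))) (b z0 z0)) (b (d (c (a (b (d z0 z0) (d z0 z0)) z0) z0) (a (b (d z0 z0) (d z0 z0)) z0)) (d (c (b (d z0 z0) (d z0 z0)) z0) (b (d z0 z0) (d z0 z0)))))) (b (d (a (c (b z8 z8) z8) z10) (a (c (b z8 z8) (b z8 z8)) z10)) (d (c (b z8 z8) z8) (c (b z8 z8) (b z8 z8))))) (b (d (a (c (b (d (a (c (b (d z0 z0) (d z0 z0)) z0) z0) (a (b (d z0 z0) (d z0 z0)) z0)) (d (c (b (d z0 z0) (d z0 z0)) z0) (b (d z0 z0) (d z0 z0)))) (b z8 z8)) (c (b (d z2 z2) (d z0 z0)) z10)) (a (b (d (a (c (b (d z0 z0) (d z0 z0)) z0) z0) (a (b (d z0 z0) (d z0 z0)) z0)) (d (c (b (d z0 z0) (d z0 z0)) z0) (b (d z0 z0) (d z0 z0)))) (b (d z2 z2) (d z0 z0)))) (d (c (b (d (c (a (b (d z0 z0) (d z0 z0)) z0) z0) (a (b (d z0 z0) (d z0 z0)) z0)) (d (c (b (d z0 z0) (d z0 z0)) z0) (b (d z0 z0) (d z0 z0)))) (b z8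 z8)) (b (d (a (c (b (d z0 z0) (d z0 z0)) z0) z0) (a (b (d z0 z0) (d z0 z0)) z0)) (d (c (b (d z0 z0) (d z0 z0)) z0) (b (d z0 z0) (d z0 z0))))))) _ _ (by decide +kernel)

theorem okB958 : CKB ⟨0, 6144, 4096, 6144⟩ ⟨0, 12288, 8192, 12288⟩ :=
  ckB_sound (d (a (b (d (a (b (d (a (b (d (a (b z0 (d z0 z0)) z0) z0) (d (a (b (d z0 z0) (d z0 z0)) (b z0 (d z0 z0))) z0)) (b (d z0 z0) (d z0 z0))) z0) (d (a (b (d (a (b (d z0 z0) (d z0 z0)) (b (d z0 z0) (d z0 z0))) z0) (d (b (d z0 z0) (d z0 z0)) z0)) (b (d (a (b (d z0 z0) (d z0 z0)) (b z0 (d z0 z0))) z0) (d (a (b (d z0 z0) (d z0 z0)) (b (d z0 z0) (d z0 z0))) z0))) z0)) (b (d (a (b (d z0 z0) (d z0 z0)) (b (d z0 z0) (d z0 z0))) z0) (d (a (b (d z0 z0) (d (a (b (d z0 z0) (d z0 z0)) (b z0 (d z0 z0))) z0)) (b (d z0 z0) (d z0 z0))) z0))) z0) (d (b (d (a (b (d (a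 (b (d z0 z0) (d z0 z0)) (b (d z0 z0) (d z0 z0))) z0) (d (a (b (d z0 z0) (d z0 z0)) (b (d z0 z0) (d z0 z0))) z0)) (b (d (a (b (d z0 z0) (d z0 z0)) (b (d z0 z0) (d z0 z0))) z0) (d (a (b (d z0 z0) (d z0 z0)) (b (d z0 z0) (d z0 z0))) z0))) z0) (d (b (d (a (b (d (a (b z0 z0) z0) z0) (d (b z0 z0) z0)) (b (d z0 z0) (d z0 z0))) z0) (d (b (d (a (b z0 (d z0 z0)) z0) z0) (d (b (d z0 z0) (d z0 z0)) z0)) z0)) z0)) z0)) (b (d (b (d (a (b (d z0 z0) (d z0 z0)) (b (d z0 z0) (d z0 z0))) z0) (d (a (b (d z0 z0) (d z0 z0)) (b (d z0 z0) (d z0 z0))) z0)) z0) (d (b (d (a (b (d (a (b z0 (d z0 z0)) z0) z0) (d (a (b (d z0 z0) (d z0 z0)) (b z0 (d z0 z0))) z0)) (b (d z0 z0) (d z0 z0))) z0) (d (a (b (d (a (b (d z0 z0) (d z0 z0)) (b (d z0 z0) (d z0 z0))) z0) (d (a (b (d z0 z0) (d z0 z0)) (b (d z0 z0) (d z0 z0))) z0)) (b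 (d (a (b (d z0 z0) (d z0 z0)) z2) z0) (d (a (b (d z0 z0) (d z0 z0)) (b (d z2 z0) (d z2 z0))) z0))) z0)) z0))) z0) _ _ (by decide +kernel)

theorem okB959 : CKB ⟨0, 6144, 6144, 8192⟩ ⟨0, 12288, 8192, 12288⟩ :=
  ckB_sound (d (b (d (b (d (a (b (d (a (b (d (a (b (d z0 z0) (d z0 z0)) z0) z0) (d (b (d z0 z0) (d z0 z0)) z0)) (b (d z0 z0) (d (a (b z0 (d z0 z0)) z0) z0))) z0) (d (b (d (a (b (d z0 z0) (d z0 z0)) (b (d z0 z0) (d z0 z0))) z0) (d (b (d z0 z0) (d z0 z0)) z0)) z0)) (b (d (a (b (d z0 z0) (d z0 z0)) (b (d z0 z0) (d z0 z0))) z0) (d (a (b (d z0 z0) (d (a (b (d z0 z0) (d z0 z0)) (b z0 (d z0 z0))) z0)) (b (d z0 z0) (d z0 z0))) z0))) z0) (d (b (d (a (b (d (a (b (d z0 z0) (d z0 z0)) (b (d z0 z0) (d z0 z0))) z0) (d (b (d (b z0 z0) z0) z0) z0)) (b (d (a (b (d z0 z0) (d z0 z0)) (b z0 (d z0 z0))) z0)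 (d (a (b (d z0 z0) (d (b z0 z0) z0)) (b (d z0 z0) (d z0 z0))) z0))) z0) (d (b (d (b (d (a (b z0 z0) z0) z0) (d (b z0 z0) z0)) z0) z0) z0)) z0)) z0) z0) z0) _ _ (by decide +kernel)

end Vale.Agent.Lib.P154Q5
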