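import Vale.Agent.Lib.P154Q5.CkBDefs

namespace Vale.Agent.Lib.P154Q5

set_option maxRecDepth 100000
set_option exponentiation.threshold 1000

open Tr

theorem okB960 : CKB ⟨6144, 12288, 4096, 6144⟩ ⟨0, 12288, 8192, 12288⟩ :=
  ckB_sound (d (b (d (a (b (d (a (b (d z0 z0) (d z0 z0)) (b (d (a z0 z1) z0) (d z0 z0))) z0) (d (a (b (d z0 z0) (d z2 z0)) (b (d z2 z0) (d z2 z0))) z0)) (b (d z3 z0) (d (b (d z3 z0) (d (a (b (d z3 z0) (d z3 z0)) z3) z0)) z0))) z0) (d (a (b (d (a (b (d z2 z0) (d z2 z0)) (b (d z2 z0) (d z2 z0))) z0) (d (a (b (d z2 z0) (d (a (b z2 (d z2 z0)) z2) z0)) (b (d z2 z0) (d z2 z0))) z0)) (b (d (b (d (a z2 z3) z0) (d (a z2 z3) z0)) z0) (d (b (d z2 z0) (d z2 z0)) z0))) z0)) z0) _ _ (by decide +kernel)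

theorem okB961 : CKB ⟨6144, 12288, 6144, 8192⟩ ⟨0, 12288, 8192, 12288⟩ :=
  ckB_sound (d (b (d (a (b (d (a (b (d (a (b (d z2 z0) (d z2 z0)) (b z2 (d z2 z0))) z0) (d (a (b (d z2 z0) (d z2 z0)) (b (d z2 z0) (d z2 z0))) z0)) (b (d z2 z0) (d (a (b (d z2 z0) (d z2 z0)) z2) z0))) z0) (d (a (b (d (a (b (d z0 z0) (d (a (b (d z0 z0) (d z0 z0)) z0) z0)) (b (d z2 z0) (d z2 z0))) z0) (d (a (b (d (a (b (d z0 z0) (d (a (b z0 z0) z0) z0)) (b (d z0 z0) (d z0 z0))) z0) (d (b (d (a (b z0 z0) z0) z0) (d (b z0 z0) z0)) z0)) (b (d (a (b z0 (d z0 z0)) z0) z0) (d (a (b (d z0 z0) (d z0 z0)) (b (d z0 z0) (d z0 z0))) z0))) z0)) (b (d (a (b (d z2 z0) (d z2 z0)) (b (d z2 z0) (d z2 z0))) z0) (d (a (b (d z2 z0) (d (a (b z2 (d z0 z0)) z2) z0)) (b (d z2 z0) (d z2 z0))) z0))) z0)) (b (d (b (d z2 z0) (d z2 z0)) z0) (d (b (d (a (b z2 (d z2 z0)) z2) z0) (d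 (a (b (d z2 z0) (d z2 z0)) z2) z0)) z0))) z0) (d (b (d (a (b (d (a (b (d (a (b (d (a (b (d z0 z0) (d z0 z0)) z0) z0) (d (a (b (d z0 z0) (d z0 z0)) z0) z0)) (b (d z0 z0) (d z0 z0))) z0) (d (a (b (d (a (b (d z0 z0) (d z0 z0)) z0) z0) (d (b (d z0 z0) z0) z0)) (b (d z0 z0) (d (a (b z0 (d z0 z0)) z0) z0))) z0)) (b (d (a (b z2 (d z2 z0)) z2) z0) (d (a (b (d z0 z0) (d z0 z0)) (b z2 (d z2 z0))) z0))) z0) (d (b (d (a (b (d (a (b (d z0 z0) (d z0 z0)) z0) z0) (d (a (b (d z0 z0) (d z0 z0)) (b z0 (d z0 z0))) z0)) (b (d z0 z0) (d z0 z0))) z0) (d (a (b (d (a (b (d z0 z0) (d z0 z0)) (b z0 (d z0 z0))) z0) (d (b (d z0 z0) z0) z0)) (b (d z0 z0) (d (a (b z0 (d z0 z0)) z0) z0))) z0)) z0)) (b (d (a (b (d z2 z0) (d z2 z0)) (b (d z2 z0) (d z2 z0))) z0) (d (a (b (d (a (b z2 (d z2 z0)) z2) z0) (d (a (b (d z2 z0) (d z0 z0)) z2) z0)) (b (d z2 z0) (d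 z2 z0))) z0))) z0) (d (b (d (a (b (d (a (b (d (a (b (d z0 z0) (d z0 z0)) z0) z0) (d (b (d z0 z0) (d z0 z0)) z0)) (b (d z2 z0) (d z0 z0))) z0) (d (b (d (a (b (d z0 z0) (d z0 z0)) z0) z0) (d (b (d z0 z0) (d z0 z0)) z0)) z0)) (b (d (a (b z2 (d z2 z0)) z2) z0) (d (a (b (d z2 z0) (d z0 z0)) z2) z0))) z0) (d (b (d (a (b (d (a (b (d z0 z0) (d z0 z0)) z0) z0) (d (b (d z0 z0) (d z0 z0)) z0)) (b (d z2 z0) (d z0 z0))) z0) (d (b (d (a (b (d z0 z0) (d z0 z0)) z0) z0) (d (b z0 z0) z0)) z0)) z0)) z0)) z0)) z0) _ _ (by decide +kernel)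

theorem okB962 : CKB ⟨0, 12288, 8192, 12288⟩ ⟨0, 6144, 4096, 8192⟩ :=
  ckB_sound (b (d (c (b (d (c (b (d (c (b (d (c (b z0 z0) z0) (c (b z0 z0) (b z0 z0))) z0) (b z0 z0)) (c (b (d (c (b z0 z0) (b z0 z0)) (b z0 z0)) z0) (b (d (c (b z0 z0) (b z0 z0)) (c (b z0 z0) (b z0 z0))) z0))) z0) (b (d (c (b z0 z0) (b z0 z0)) (c (b (d z0 (c (b z0 z0) (b z0 z0))) z0) (b z0 z0))) z0)) (b (d (c (b (d (c (b z0 z0) (b z0 z0)) (c (b (d z0 z0) z0) (b z0 z0))) z0) (b (d (c (b z0 z0) (b z0 z0)) (c (b z0 z0) (b z0 z0))) z0)) (b (d (c (b (d (c (b z0 z0) z0) (b z0 z0)) z0) (b z0 z0)) (b (d (c (b z0 z0) z0) (b z0 z0)) z0)) z0)) z0)) z0) (b (d (b (d (c (b z0 z0) (b z0 z0)) (c (b z0 z0) (b z0 z0))) z0) (b (d (c (b (d (c (b z0 z0) z0) (c (b z0 z0) (b z0 z0))) z0) (b z0 z0)) (c (b (d (c (b z0 z0) (b z0 z0)) (c (b z0 z0) (b z0 z0))) z0) (b (d (c (b z0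 z0) z8) (c (b z0 z0) (b z8 z0))) z0))) z0)) z0)) (b (d (b (d (c (b (d (c (b (d (c (b z0 z0) z0) (b (d z0 z0) z0)) z0) (b (d z0 (c (b z0 z0) z0)) z0)) (b (d (c (b (d z0 z0) z0) (b z0 z0)) (b (d z0 z0) z0)) z0)) z0) (b (d (c (b z0 z0) (b z0 z0)) (c (b (d z0 (c (b z0 z0) (b z0 z0))) z0) (b z0 z0))) z0)) (b (d (c (b (d (c (b (d z0 z0) z0) (b z0 z0)) (b (d (b z0 z0) z0) z0)) z0) (b (d (c (b z0 z0) (b z0 z0)) (c (b (d z0 (b z0 z0)) z0) (b z0 z0))) z0)) (b (d (b (d (c (b z0 z0) z0) (b z0 z0)) z0) z0) z0)) z0)) z0) z0) z0)) z0) _ _ (by decide +kernel)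

theorem okB963 : CKB ⟨0, 12288, 8192, 12288⟩ ⟨6144, 12288, 4096, 8192⟩ :=
  ckB_sound (b (d (b (d (c (b (d (c (b z0 z0) (b z0 z0)) (c (b z0 z0) (b z8 z0))) z0) (b (d z12 (b (d z12 (c (b z12 z0) z12)) z0)) z0)) (c (b (d (c (b z8 z0) (b z8 z0)) (c (b (d z8 (c (b z8 z0) z8)) z0) (b z8 z0))) z0) (b (d (b (d (c z8 z12) (c z8 z12)) z0) (b z8 z0)) z0))) z0) (b (d (c (b (d (c (b (d (c (b z8 z0) (b z8 z0)) (c (b z8 z0) (b z8 z0))) z0) (b (d z8 (c (b z8 z0) z8)) z0)) (c (b (d (c (b (d z0 (c (b z0 z0) z0)) z0) (b z8 z0)) (c (b (d (c (b (d z0 (c (b z0 z0) z0)) z0) (b z0 z0)) (b (d (c (b z0 z0) z0) (b z0 z0)) z0)) z0) (b (d (c (b z0 z0) z0) (c (b z0 z0) (b z0 z0))) z0))) z0) (b (d (c (b z8 z0) (b z8 z0)) (c (b (d z8 (c (b z0 z0) z8)) z0) (b z8 z0))) z0))) z0) (b (d (b z8 z0) (b (d (c (b z8 z0) z8) (c (b z8 z0) z8)) z0)) z0)) (b (d (c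 (b (d (c (b (d (c (b (d (c (b z0 z0) z0) (c (b z0 z0) z0)) z0) (b z0 z0)) (c (b (d (c (b z0 z0) z0) (b (d z0 z0) z0)) z0) (b (d z0 (c (b z0 z0) z0)) z0))) z0) (b (d (c (b z8 z0) z8) (c (b z0 z0) (b z8 z0))) z0)) (b (d (c (b (d (c (b (d z0 z0) z0) z0) (c (b (d z0 z0) z0) (b z0 z0))) z0) (b z0 z0)) (c (b (d (c (b (d z0 z0) z0) (b z0 z0)) (b (d z0 z0) z0)) z0) (b (d z0 (c (b z0 z0) z0)) z0))) z0)) z0) (b (d (c (b z8 z0) (b z8 z0)) (c (b (d (c (b z8 z0) z8) (c (b z0 z0) z8)) z0) (b z8 z0))) z0)) (b (d (c (b (d (c (b (d (c (b (d z0 z0) z0) z0) (b (d z0 z0) z0)) z0) (b z0 z0)) (b (d (c (b (d z0 z0) z0) z0) (b (d z0 z0) z0)) z0)) z0) (b (d (c (b z8 z0) z8) (c (b z8 z0) z8)) z0)) (b (d (c (b (d (c (b (d z0 z0) z0) z0) (b (d z0 z0) z0)) z0) (b z8 z0)) (b (d (c (b (d z0 z0) z0) z0) (b z0 z0)) z0)) z0)) z0)) z0)) z0)) z0) _ _ (by decide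 +kernel)

theorem okB964 : CKB ⟨0, 12288, 8192, 12288⟩ ⟨0, 12288, 8192, 12288⟩ :=
  ckB_sound (b (d (b (d (b (d (b (d (b (d (b (d (b z0 z0) z0) z0) z0) z0) z0) z0) z0) z0) z0) z0) z0) z0) _ _ (by decide +kernel)

theorem okB965 : CKB ⟨0, 6144, 4096, 6144⟩ ⟨12288, 24576, 4096, 6144⟩ :=
  ckB_sound (a (b z12 (d z12 (b z12 (d z12 z12)))) (b (d z12 z12) (d (b z12 (d z12 z12)) (b (d z12 z12) (d z12 z12))))) _ _ (by decide +kernel)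

theorem okB966 : CKB ⟨0, 1536, 4096, 4608⟩ ⟨12288, 17067, 6144, 7168⟩ :=
  ckB_sound (d (a (c (b (d z12 (a (c (b (d z12 (a (c z8 z12) (c z8 z12))) (d z12 (a (c z8 z12) (c z8 z12)))) z12) (c (b (d z12 (a (c z8 z12) (c z8 z12))) (d z12 (a (c z8 z12) (c z8 z12)))) z12))) (d z12 (a (c (b (d z12 (a (c z8 z12) (c z8 z12))) (d (c (a (b (d z12 (c z8 z12)) (d z12 (c z8 z12))) (b z12 (d z12 (c z8 z12)))) z12) (c z8 z12))) z12) (c (b (d z12 (a (c z8 z12) (c z8 z12))) (d z12 (a (c z8 z12) (c z8 z12)))) z12)))) z12) (c (b (d z12 (a (c (b (d z12 (a (c z8 z12) (c z8 z12))) (d z12 (a (c z8 z12) (c z8 z12)))) z12) (c (b (d z12 (a (c z8 z12) z12)) (d z12 (a (c z8 z12) (c z8 z12)))) z12))) (d z12 (a (c (b (d z12 (a (c z8 z12) (c z8 z12))) (d z12 (a (c z8 z12) (c z8 z12)))) z12) (c (b (d z12 (a (c z8 z12) (c z8 z12))) (d z12 (a (c z8 z12) (c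 z8 z12)))) z12)))) z12)) (a (c (b (d (a (c z8 z12) (c z8 z12)) (a (c z8 (b (d (a (c z8 z12) (c z8 z12)) (a (c z8 z12) z8)) (d (a (c z8 z12) (c z8 z12)) (a (c z8 z12) (c z8 z12))))) (c z8 (b (d (a (c z8 z12) z12) z8) (d (a (c z8 z12) (c z8 z12)) z8))))) (d (a (c (b z8 (d (c z8 (a (b (d z12 z8) (d z12 z8)) (b (d z12 z8) (d z12 z8)))) z8)) z12) (c z8 z12)) (a (c z8 (b (d (a (c z8 z12) (c z8 z12)) (a (c z8 z12) (c z8 z12))) (d (a (c (b z8 (d (c z8 z12) z8)) z12) (c z8 z12)) (a (c z8 (b (d z12 (a (c z8 z12) z12)) (d z12 (c z8 z12)))) (c z8 z12))))) (c z8 (b (d (a (c z8 z12) (c z8 z12)) (a (c z8 z12) z8)) (d (a (c z8 z12) (c z8 z12)) (a (c z8 z12) (c z8 z12)))))))) z12) (c (b (d (a (c z8 z12) (c z8 z12)) (a (c z8 (b (d z12 z8) (d z12 z8))) (c z8 (b (d z12 z8) (d z12 z8))))) (d (a (c z8 z12) (c z8 z12)) (a (c z8 (b (d (a (c z8 z12)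 z12) z8) (d (a (c z8 z12) (c z8 z12)) (a (c z8 z12) z8)))) (c z8 (b (d z12 z8) (d (a (c z8 z12) z12) z8)))))) z12))) _ _ (by decide +kernel)

theorem okB967 : CKB ⟨0, 1536, 4608, 5120⟩ ⟨12288, 17067, 6144, 6656⟩ :=
  ckB_sound (a (c (b (d z12 (a (c (b (d (a (c (b (d z12 (a (c z8 z12) (c z8 z12))) (d z12 (c z8 z12))) z12) (c (b (d z12 (a (c z8 z12) (c z8 z12))) (d z12 (a (c z8 z12) (c z8 z12)))) z12)) (a (c z8 z12) (c z8 z12))) (d (c (b (d z12 (a (c z8 z12) (c z8 z12))) (d z12 (a (c z8 z12) (c z8 z12)))) z12) (c z8 z12))) z12) (c (b (d (c (a (b z12 (d z12 (c z8 z12))) z12) z12) (c z8 z12)) (d (c (a (b (d z12 (c z8 z12)) (d z12 (c z8 z12))) (b (d z12 (c z8 z12)) (d z12 (c z8 z12)))) z12) (c z8 z12))) z12))) (d z12 (c (b (d (a (c (b (d z12 (a (c z8 z12) (c z8 z12))) (d (c (b z12 (d z12 z8)) z12) (c z8 z12))) z12) (c (b (d z12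 (a (c z8 z12) (c z8 z12))) (d z12 (a (c z8 z12) (c z8 z12)))) z12)) (a (c (b z8 z8) z12) (c z8 z12))) (d (c (b (d (a (c (b (d z12 z8) (d z12 z8)) z12) z12) (a (c z8 z12) (c z8 z12))) (d (a (c (b (d z12 z8) (d z12 z8)) z12) (c (b (d z12 z8) (d z12 z8)) z12)) (a (c z8 z12) (c z8 z12)))) z12) (c (b z8 (d (a (c z8 (b (d z12 z8) (d z12 z8))) z8) z8)) z12))) z12))) z12) (c (b (d z12 (c (a (b (d z12 (c z8 z12)) (d (c (a (b z12 (d z12 (c z8 z12))) z12) z12) (c z8 z12))) (b (d z12 (c z8 z12)) (d z12 (c z8 z12)))) z12)) (d z12 (c (a (b (d (c (a (b (d z12 (c z8 z12)) (d z12 (c z8 z12))) (b (d z12 (c z8 z12)) (d z12 (c z8 z12)))) z12) (c z8 z12)) (d (c (a (b (d z12 (c z8 z12)) (d (c (a (b z12 (d z12 z8)) z12) z12) (c z8 z12))) (b (d z12 (c z8 z12)) (d z12 (c z8 z12)))) z12) (c z8 z12))) (b (d (c (a (b z12 (d z12 (c z8 z12))) z12) z12)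 (c z8 z12)) (d (c (a (b (d z12 (c z8 z12)) (d z12 (c z8 z12))) (b (d z12 (c z8 z12)) (d z12 (c z8 z12)))) z12) (c z8 z12)))) z12))) z12)) _ _ (by decide +kernel)

theorem okB968 : CKB ⟨0, 864, 4608, 4864⟩ ⟨12288, 14678, 6656, 7168⟩ :=
  ckB_sound (d (a (c (b (d (a (c z8 (b (d z12 z8) (d z12 z8))) (c z8 (b (d z12 z8) (d z12 z8)))) z8) (d (c z8 (b (d (a (c z8 z12) z12) (a (c z8 z12) z8)) (d (a (c z8 z12) (c z8 z12)) (a (c z8 z12) z8)))) z8)) (b z12 (d z12 (c (b z12 z12) z12)))) (c (b z8 (d (c z8 (a (b (d z12 z8) (d z12 z8)) (b (d z12 z8) (d z12 z8)))) z8)) z12)) (a (c z8 (b (d (a (c (b (d (a (c z8 z12) (c z8 z12)) z8) (d (c z8 z12) z8)) z12) (c (b z8 (d (a (c z8 z12) (c z8 z12)) z8)) z12)) (a (c z8 (b (d z12 (a (c z8 z12) (c z8 z12))) (d z12 (c z8 z12)))) (c z8 (b z12 (d z12 (a (c z8 z12) (c z8 z12))))))) (d (c (b (d (a (c z8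 z12) (c z8 z12)) z8) (d (a (c z8 z12) (c z8 z12)) z8)) z12) (c z8 (b (d z12 (a (c z8 z12) (c z8 z12))) (d z12 (a (c z8 z12) (c z8 z12)))))))) (c z8 (b (d (a (c z8 z12) (c z8 z12)) (a (c z8 z12) (c z8 z12))) (d (a (c (b (d (a (c z8 z12) (c z8 z12)) z8) (d (a (c z8 z12) (c z8 z12)) z8)) z12) (c (b z8 (d (a (c z8 z12) (c z8 z12)) z8)) z12)) (a (c z8 (b (d z12 (a (c z8 z12) (c z8 z12))) (d z12 (a (c z8 z12) (c z8 z12))))) (c z8 (b z12 (d z12 (a (c z8 z12) z12)))))))))) _ _ (by decide +kernel)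

theorem okB969 : CKB ⟨0, 864, 4864, 5120⟩ ⟨12288, 14678, 6656, 7168⟩ :=
  ckB_sound (d (c (b (d (a (c z8 (b (d (a (c z8 z12) (c z8 z12)) (a (c z8 z12) (c z8 z12))) (d (c z8 z12) (c z8 z12)))) (c z8 (b (d (a (c z8 z12) z12) z8) (d (a (c z8 z12) (c z8 z12)) (a (c z8 z12) z8))))) (a (c z8 (b z8 z8)) z8)) (d (c z8 (b (d (a (c z8 z12) (c z8 z12)) (a (c z8 z12) (c z8 z12))) (d (a (c (b z8 (d (c z8 z12) z8)) z12) (c z8 z12)) (a (c z8 (b z12 z12)) (c z8 z12))))) (c z8 (b z8 (d (a (c z8 (b z8 z8)) z8) z8))))) (b (d z12 (a (c (b (d z12 (a (c (b z12 z12) z12) z12)) (d z12 (c (b z12 (d z12 (a (c z8 z12) z12))) z12))) z12) z12)) (d z12 (c (b (d z12 (a (c (b (d z12 (a (c z8 z12) z12)) (d z12 (a (c z8 z12) z12))) z12) z12)) (d z12 (a (c (b (d z12 (a (c z8 z12) (c z8 z12))) (d z12 (c z8 z12))) z12) (c (b z12 (d z12 (a (c z8 z12) (c z8 z12))))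 z12)))) z12)))) (c z8 (b (d (a (c (b (d (a (c z8 z12) (c z8 z12)) (a (c z8 (b (d z12 z8) (d z12 z8))) z8)) (d (c z8 z12) (c z8 (b (d z12 z8) (d z12 z8))))) z12) (c (b (d (a (c z8 z12) (c z8 z12)) z8) (d (a (c z8 z12) (c z8 z12)) z8)) z12)) (a (c z8 (b (d z12 (a (c z8 z12) (c z8 z12))) (d z12 (c (b z8 z8) z12)))) (c z8 (b (d z12 (a (c z8 z12) (c z8 z12))) (d z12 (a (c z8 z12) (c z8 z12))))))) (d (c (b (d (a (c z8 z12) (c z8 z12)) (a (c z8 (b (d z12 z8) (d z12 z8))) (c z8 (b (d z12 z8) (d z12 z8))))) (d (a (c z8 z12) (c z8 z12)) (a (c z8 (b (d (a (c z8 z12) z12) z8) (d (c z8 z12) (c z8 z12)))) (c z8 (b (d z12 z8) (d z12 z8)))))) z12) (c (b z8 z8) (b (d z12 (a (c (b z8 (d (a (c z8 z12) (c z8 z12)) z8)) z12) (c z8 z12))) (d (a (c (b z12 z12) z12) z12) (a (c (b (d (a (c z8 z12) (c z8 z12)) z8) (d (c z8 z12) z8)) z12) (c z8 z12)))))))))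 _ _ (by decide +kernel)

theorem okB970 : CKB ⟨0, 864, 4608, 5120⟩ ⟨14678, 17067, 6656, 7168⟩ :=
  ckB_sound z12 _ _ (by decide +kernel)

theorem okB971 : CKB ⟨864, 1536, 4608, 5120⟩ ⟨12288, 17067, 6656, 7168⟩ :=
  ckB_sound (c (b (d (c z8 z12) (c z8 (a (b (d (c z8 z12) (c z8 z12)) (d (c z8 z12) (c z8 z12))) (b (d (c z8 z12) z8) (d (c z8 z12) (c z8 z12)))))) (d (c (a (b (d (c z8 (a (b (d z12 z8) (d z12 z8)) (b (d z12 z8) (d z12 z8)))) z8) (d (c z8 (a (b (d (c z8 z12) (c z8 z12)) (d (c z8 z12) (c z8 z12))) (b (d z12 z8) (d (c z8 z12) (c z8 z12))))) z8)) (b z8 (d (c z8 (a (b (d z12 z8) (d z12 z8)) (b (d z12 z8) (d z12 z8)))) z8))) z12) (c z8 (a (b (d (c (a (b (d (c z8 z12) z8) (d (c z8 z12) z8)) z8) z12) (c z8 (a (b (d z12 (a (c z8 z12) z12)) (d z12 (a (c z8 z12) (c z8 z12)))) (b z12 (d z12 (a (c z8 z12) z12)))))) (d (c (a (b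 (d (c z8 z12) z8) (d (c z8 z12) (c z8 (a (b (d z12 z8) (d z12 z8)) (b (d z12 z8) (d z12 z8)))))) (b (d (c z8 z12) z8) (d (c z8 z12) z8))) z12) (c z8 (a (b (d z12 (a (c z8 z12) (c z8 z12))) (d z12 (a (c z8 z12) (c z8 z12)))) (b (d z12 (a (c z8 z12) (c z8 z12))) (d z12 (a (c z8 z12) (c z8 z12)))))))) (b (d (c z8 z12) (c z8 z12)) (d (c (a (b z8 (d (c z8 z12) z8)) z8) z12) (c z8 (a (b z12 (d z12 (c z8 z12))) z12)))))))) z12) _ _ (by decide +kernel)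

theorem okB972 : CKB ⟨0, 1536, 4096, 5120⟩ ⟨17067, 24576, 6144, 7168⟩ :=
  ckB_sound z12 _ _ (by decide +kernel)

theorem okB973 : CKB ⟨1536, 3072, 4096, 5120⟩ ⟨12288, 24576, 6144, 7168⟩ :=
  ckB_sound (c (b (d (c (a (b (d z12 (c (a (b z12 (d z12 (c z8 z12))) z12) z12)) (d z12 (c (a (b (d z12 (c z8 z12)) (d z12 (c z8 z12))) (b z12 (d z12 (c z8 z12)))) z12))) z12) z12) (c (a (b (d (c z8 z12) z8) (d (c z8 z12) (c z8 (a (b (d z12 z8) (d z12 z8)) (b (d z12 z8) (d z12 z8)))))) (b (d (c z8 z12) z8) (d (c z8 z12) z8))) z12)) (d (c (a (b (d z12 (c (a (b (d z12 (c z8 z12)) (d z12 (c z8 z12))) (b (d z12 (c z8 z12)) (d z12 (c z8 z12)))) z12)) (d z12 (c (a (b (d z12 (c z8 z12)) (d (c (a (b z12 (d z12 (c z8 z12))) z12) z12) (c z8 z12))) (b (d z12 (c z8 z12)) (d z12 (c z8 z12)))) z12))) (b (d z12 (c (b (d z12 (a (c z8 z12) z12)) (d z12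 (a (c z8 z12) (c z8 z12)))) z12)) (d z12 (c (b (d z12 (a (c z8 z12) (c z8 z12))) (d z12 (a (c z8 z12) (c z8 z12)))) z12)))) z12) (c (a (b (d (c z8 z12) (c z8 (a (b (d z12 z8) (d (a (c z8 z12) (c z8 z12)) z8)) (b (d z12 z8) (d z12 z8))))) (d (c z8 z12) (c z8 (a (b (d (a (c z8 z12) (c z8 z12)) (a (c z8 z12) z8)) (d (a (c z8 z12) (c z8 z12)) (a (c z8 z12) (c z8 z12)))) (b (d (c z8 z12) z8) (d (c z8 z12) z8)))))) (b (d (c z8 z12) z8) (d (c z8 z12) (c z8 (b (d z12 z8) (d (a (c z8 z12) z12) z8)))))) z12))) z12) _ _ (by decide +kernel)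

theorem okB974 : CKB ⟨0, 1536, 4096, 4608⟩ ⟨12288, 18432, 7168, 7680⟩ :=
  ckB_sound (a (c (b (d (a (c z8 (b (d (a (c z8 z12) (c z8 z12)) z8) (d (a (c z8 z12) (c z8 z12)) (a (c z8 (b (d z12 z8) (d z12 z8))) z8)))) (c z8 (b (d (a (c z8 z12) (c z8 z12)) z8) (d (a (c z8 z12) (c z8 z12)) z8)))) z8) (d (c z8 (a (b (d (a (c z8 z12) (c z8 z12)) (a (c z8 (b (d (a (c z8 z12) z12) z8) (d (c z8 z12) z8))) (c z8 (b (d z12 z8) (d z12 z8))))) (d (c z8 z12) (c z8 (a (b (d (c z8 z12) (c z8 z12)) (d (c z8 z12) (c z8 z12))) (b (d (c z8 z12) z8) (d (c z8 z12) z8)))))) (b (d (c z8 z12) (c z8 (a (b (d z12 z8) (d z12 z8)) (b (d z12 z8) (d z12 z8))))) (d (c z8 z12) (c z8 (a (b (d z12 z8) (d (c z8 z12) z8)) (b (d z12 z8) (d z12 z8)))))))) z8)) (b (d z12 (a (c (b (d z12 (a (c z8 z12) (c z8 z12))) (d z12 (a (c (b (d (a (c z8 z12) z12) z8) (d (a (c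 z8 z12) (c z8 z12)) z8)) z12) (c z8 z12)))) z12) (c (b (d z12 (a (c z8 z12) (c z8 z12))) (d z12 (a (c z8 z12) (c z8 z12)))) z12))) (d z12 (a (c (b (d z12 (a (c (b (d (a (c z8 z12) (c z8 z12)) z8) (d (c z8 z12) z8)) z12) (c (b z8 (d (a (c z8 z12) (c z8 z12)) z8)) z12))) (d z12 (c (a (b (d (c z8 z12) z8) (d (c z8 z12) z8)) (b (d (c z8 z12) z8) (d (c z8 z12) z8))) z12))) z12) (c (b (d z12 (a (c z8 z12) (c z8 z12))) (d z12 (a (c (b (d (a (c z8 z12) z12) z8) (d (a (c z8 z12) (c z8 z12)) z8)) z12) (c z8 z12)))) z12))))) (c (b (d (c z8 (a (b (d (c z8 z12) z8) (d (c z8 z12) z8)) z8)) z8) (d (c z8 (a (b (d (c z8 z12) z8) (d (c z8 z12) z8)) (b (d (c z8 z12) z8) (d (c z8 z12) z8)))) z8)) (b (d z12 (a (c (b (d z12 (a (c z8 z12) z12)) (d z12 (a (c z8 z12) z12))) z12) z12)) (d z12 (a (c (b (d z12 (a (c z8 z12) (c z8 z12))) (d z12 (a (c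 z8 z12) (c z8 z12)))) z12) (c (b z12 (d z12 (c z8 z12))) z12)))))) _ _ (by decide +kernel)

end Vale.Agent.Lib.P154Q5
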