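import Vale.Agent.Lib.P154Q5.CkBDefs

namespace Vale.Agent.Lib.P154Q5

set_option maxRecDepth 100000
set_option exponentiation.threshold 1000

open Tr

theorem okB975 : CKB ⟨0, 1536, 4096, 4608⟩ ⟨12288, 18432, 7680, 8192⟩ :=
  ckB_sound (a (c z8 (b (d (a (c (b (d (a (c z8 z12) (c z8 z12)) z8) (d (a (c z8 z12) (c z8 z12)) z8)) z12) (c (b (d (a (c z8 z12) (c z8 z12)) z8) (d (a (c z8 z12) (c z8 z12)) z8)) z12)) (a (c z8 (b (d z12 (a (c z8 z12) (c z8 z12))) (d (a (c (b (d z12 (a (c z8 z12) z12)) (d z12 (a (c z8 z12) z12))) z12) z12) (a (c z8 z12) (c z8 z12))))) (c z8 (b (d z12 (a (c z8 z12) (c z8 z12))) (d z12 (a (c z8 z12) (c z8 z12))))))) (d (a (c (b (d (a (c z8 z12) (c z8 z12)) (a (c z8 (b z8 z8)) z8)) (d (c z8 (a (b z12 z12) z12)) (c z8 (a (b (d (c z8 z12) z8) (d (c z8 z12) z8)) z8)))) z12) (c (b (d (a (c z8 z12) (c z8 z12)) z8) (d (a (c z8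 z12) (c z8 z12)) z8)) z12)) (a (c z8 (b (d (a (c (b (d z12 (a (c z8 z12) z12)) (d z12 (a (c z8 z12) (c z8 z12)))) z12) z12) (a (c z8 z12) (c z8 z12))) (d (c (a (b (d z12 (c z8 z12)) (d z12 (c z8 z12))) (b z12 (d z12 (c z8 z12)))) z12) (c z8 z12)))) (c z8 (b (d z12 (a (c z8 z12) (c z8 z12))) (d z12 (a (c z8 z12) (c z8 z12))))))))) (c z8 (b (d (a (c (b z8 (d (a (c z8 z12) z8) z8)) z12) (c z8 z12)) (a (c z8 (b (d z12 (a (c z8 z12) (c z8 z12))) (d z12 (a (c z8 z12) (c z8 z12))))) (c z8 (b (d z12 (a (c z8 z12) (c z8 z12))) (d z12 (a (c z8 z12) (c z8 z12))))))) (d (a (c (b (d (a (c z8 z12) (c z8 z12)) z8) (d (a (c z8 z12) (c z8 z12)) z8)) z12) (c (b z8 (d (c z8 z12) z8)) z12)) (a (c z8 (b (d z12 (a (c z8 z12) (c z8 z12))) (d z12 (a (c z8 z12) (c z8 z12))))) (c z8 (b (d z12 (a (c z8 z12) (c z8 z12))) (d z12 (a (c z8 z12) (c z8 z12)))))))))) _ _ (by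 decide +kernel)

theorem okB976 : CKB ⟨0, 864, 4608, 5120⟩ ⟨12288, 15360, 7168, 7680⟩ :=
  ckB_sound (b (d (c z8 (a (b (d (c z8 z12) (c z8 (a (b (d (c z8 z12) (c z8 z12)) (d (c z8 z12) (c z8 z12))) (b (d (c z8 z12) z8) (d (c z8 z12) (c z8 z12)))))) (d (c (b z8 z8) (b z12 z12)) (c z8 (b (d (a (c z8 z12) (c z8 z12)) (a (c z8 z12) (c z8 z12))) (d (c z8 z12) (c z8 (a (b z12 z12) z12))))))) (b (d (c z8 z12) (c z8 (a (b (d (c z8 z12) z8) (d (c z8 z12) z8)) (b (d z12 z8) (d (c z8 z12) z8))))) (d (c z8 z12) (c z8 (a (b (d (c z8 z12) (c z8 z12)) (d (c z8 z12) (c z8 z12))) (b (d (c z8 z12) z8) (d (c z8 z12) z8)))))))) (c z8 (a (b z8 (d (c z8 (b z8 z8)) z8)) z8))) (d (c z8 (b (d (a (c (b (d (a (c z8 (b z8 z8)) z8) z8) (d (c z8 (b z8 (d (a (c z8 z12) z8) z8))) z8)) (b (d z12 (a (c (b z12 z12) z12) z12)) (d z12 (c (b (d z12 (a (c z8 z12) z12)) (d z12 (a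 (c z8 z12) z12))) z12)))) (c z8 z12)) (a (c z8 (b (d (a (c (b z8 z8) z12) (c z8 z12)) (a (c z8 (b z12 z12)) (c z8 z12))) (d (c (b z8 (d (a (c z8 z12) z8) z8)) z12) (c z8 (b (d z12 (a (c z8 z12) z12)) (d z12 (a (c z8 z12) z12))))))) (c z8 (b (d (a (c z8 z12) (c z8 z12)) (a (c z8 z12) (c z8 z12))) (d (a (c z8 z12) (c z8 z12)) (a (c z8 z12) (c z8 z12))))))) (d (c (b (d (a (c z8 (b (d (a (c z8 z12) z8) z8) (d (c z8 z12) z8))) z8) z8) (d (c z8 (a (b (d (c z8 z12) z8) (d (c z8 z12) z8)) (b z8 (d (c z8 z12) z8)))) z8)) (b (d z12 (a (c (b (d z12 (a (c z8 z12) z12)) (d z12 (c z8 z12))) z12) z12)) (d z12 (c (a (b (d z12 (c z8 z12)) (d z12 (c z8 z12))) (b z12 (d z12 (c z8 z12)))) z12)))) (c z8 (b (d (a (c (b (d (a (c z8 z12) z8) z8) (d (c z8 z12) z8)) z12) (c z8 z12)) (a (c z8 (b (d z12 (a (c z8 z12) z12)) (d z12 (a (c z8 z12) (c z8 z12))))) (c z8 z12)))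 (d (c (a (b (d (c z8 z12) z8) (d (c z8 z12) z8)) (b z8 (d (c z8 z12) z8))) z12) (c z8 (a (b (d z12 (c z8 z12)) (d z12 (c z8 z12))) (b z12 (d z12 (c z8 z12))))))))))) (c z8 (b (d (a (c z8 (b z8 (d (c z8 (b z8 z8)) z8))) z8) z8) (d (c z8 (b (d (a (c z8 (b z8 (d (a (c z8 z12) z8) z8))) z8) z8) (d (c z8 (a (b (d (c z8 z12) z8) (d (c z8 z12) z8)) z8)) z8))) z8))))) _ _ (by decide +kernel)

theorem okB977 : CKB ⟨864, 1536, 4608, 5120⟩ ⟨12288, 15360, 7168, 7680⟩ :=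
  ckB_sound (b (d (c z8 (a (b (d (c z8 z12) (c z8 (a (b (d z12 z8) (d z12 z8)) (b (d z12 z8) (d z12 z8))))) (d (c z8 z12) (c z8 (a (b (d z12 z8) (d (c z8 z12) z8)) (b (d z12 z8) (d z12 z8)))))) (b (d (c z8 z12) z8) (d (c z8 z12) z8)))) z8) (d (c z8 (a (b (d (c z8 z12) (c z8 (a (b (d (c z8 z12) z8) (d (c z8 z12) (c z8 z12))) (b (d (c z8 z12) z8) (d (c z8 z12) z8))))) (d (c z8 z12) (c z8 (a (b (d (c z8 z12) (c z8 z12)) (d (c z8 z12) (c z8 z12))) (b (d (c z8 z12) (c z8 z12)) (d (c z8 z12) (c z8 z12))))))) (b (d (c z8 z12) (c z8 (a (b (d z12 z8) (d (c z8 z12) z8)) (b (d z12 z8) (d z12 z8))))) (d (c z8 z12) (c z8 (a (b (d (c z8 z12) z8) (d (c z8 z12) z8)) (b (d z12 z8) (d (c z8 z12) z8)))))))) z8)) _ _ (by decide +kernel)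

theorem okB978 : CKB ⟨0, 1536, 4608, 5120⟩ ⟨15360, 18432, 7168, 7680⟩ :=
  ckB_sound (a (b (d z12 (c (a (b (d (c (a (b z12 z12) z12) z12) (c (a (b (d (c z8 z12) (c z8 z12)) (d (c z8 z12) (c z8 (b z12 z12)))) (b (d (c z8 z12) z8) (d (c z8 z12) z8))) z12)) (d (c (b z12 (d z12 (c (a (b z12 z12) z12) z12))) z12) (c (b (d (a (c z8 z12) (c z8 z12)) (a (c z8 (b z12 (d z12 (c z8 z12)))) z8)) (d (c z8 z12) (c z8 (a (b (d z12 (c z8 z12)) (d z12 (c z8 z12))) z12)))) z12))) (b (d z12 (c (a (b (d (c z8 z12) z8) (d (c z8 z12) z8)) (b z8 (d (c z8 z12) z8))) z12)) (d z12 (c (a (b (d (c z8 z12) z8) (d (c z8 z12) z8)) (b (d (c z8 z12) z8) (d (c z8 z12) z8))) z12)))) z12)) (d z12 (c (b (d (a (c (b (d z12 (a (c (b (d z12 (a (c z8 z12) z12)) (d z12 (c z8 z12))) z12) z12)) (d z12 (c (b (d z12 (a (c z8 z12) z12)) (d z12 (a (c z8 z12) z12))) z12))) z12) z12) (a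 (c (b (d (a (c z8 z12) (c z8 z12)) (a (c z8 (b (d z12 (a (c z8 z12) z12)) (d z12 (c z8 z12)))) (c z8 z12))) (d (c z8 z12) (c z8 (b (d z12 (a (c z8 z12) z12)) (d z12 (a (c z8 z12) (c z8 z12))))))) z12) (c (b (d (a (c z8 z12) (c z8 z12)) z8) (d (a (c z8 z12) (c z8 z12)) (a (c z8 z12) z8))) z12))) (d (c (b (d z12 (a (c (b (d z12 (a (c z8 z12) z12)) (d z12 (a (c z8 z12) (c z8 z12)))) z12) z12)) (d z12 (a (c (b (d z12 (a (c z8 z12) (c z8 z12))) (d z12 (c z8 z12))) z12) (c (b z12 (d z12 (c z8 z12))) z12)))) z12) (c (b (d (a (c z8 z12) (c z8 z12)) (a (c z8 (b (d z12 (a (c z8 z12) (c z8 z12))) (d z12 (a (c z8 z12) (c z8 z12))))) (c z8 (b z12 (d z12 (a (c z8 z12) z12)))))) (d (a (c (b z8 z8) z12) (c z8 z12)) (a (c z8 (b (d z12 (a (c z8 z12) (c z8 z12))) (d z12 (c z8 z12)))) (c z8 (b (d z12 (a (c z8 z12) z12)) (d z12 (a (c z8 z12) (c z8 z12))))))))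 z12))) z12))) (b (d z12 (c (a (b (d z12 (c z8 z12)) (d z12 (c (a (b z8 (d (c z8 z12) z8)) z8) z12))) (b (d z12 (c z8 z12)) (d z12 (c z8 z12)))) z12)) (d z12 (c (a (b (d z12 (c (a (b (d (c z8 z12) z8) (d (c z8 z12) z8)) (b (d (c z8 z12) z8) (d (c z8 z12) z8))) z12)) (d z12 (c (a (b (d (c z8 z12) z8) (d (c z8 z12) (c z8 z12))) (b (d (c z8 z12) z8) (d (c z8 z12) z8))) z12))) (b (d z12 (c z8 z12)) (d z12 (c (a (b (d (c z8 z12) z8) (d (c z8 z12) z8)) (b z8 (d (c z8 z12) z8))) z12)))) z12)))) _ _ (by decide +kernel)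

theorem okB979 : CKB ⟨0, 1536, 4608, 5120⟩ ⟨12288, 18432, 7680, 8192⟩ :=
  ckB_sound (c z8 (a (b (d (c (a (b (d (c z8 (a (b (d z12 (a (c z8 z12) z12)) (d z12 (c z8 z12))) z12)) (c z8 (a (b (d (a (c z8 z12) (c z8 z12)) z8) (d (c z8 z12) z8)) (b z8 (d (c z8 z12) z8))))) (d (c z8 (b (d z12 (a (c z8 z12) z12)) (d z12 (c z8 z12)))) (c z8 (b (d (a (c z8 z12) (c z8 z12)) z8) (d (c z8 z12) z8))))) (b (d (c z8 z12) z8) (d (c z8 z12) (c z8 (a (b z8 (d (c z8 z12) z8)) z8))))) z12) (c z8 (a (b (d (a (c (b (d z12 (a (c z8 z12) (c z8 z12))) (d z12 (c z8 z12))) z12) (c (b (d z12 (a (c z8 z12) z12)) (d z12 (a (c z8 z12) (c z8 z12)))) z12)) (a (c z8 z12) (c z8 z12))) (d (c (b (d z12 (a (c z8 z12) (c z8 z12))) (d z12 (a (c z8 z12) (c z8 z12)))) z12) (c z8 z12))) (b (d z12 (c z8 z12)) (d (c (a (b (d z12 (c z8 z12)) (d z12 (c z8 z12))) z12) z12) (c z8 z12))))))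 (d (c (b (d (a (c z8 (b (d z12 (a (c (b z8 z8) z12) (c z8 z12))) (d z12 (c (b z8 z8) z12)))) (c z8 (b z12 (d z12 (a (c z8 z12) z12))))) (a (c z8 (b (d (a (c z8 z12) (c z8 z12)) z8) (d (c z8 z12) z8))) (c z8 (b (d (a (c z8 z12) z8) z8) (d (a (c z8 z12) (c z8 z12)) z8))))) (d (c (b z8 z8) (b (d z12 (a (c (b (d z12 z8) (d z12 z8)) z12) (c z8 z12))) (d z12 (a (c (b (d z12 z8) (d z12 z8)) z12) (c z8 z12))))) (c z8 (b (d (a (c z8 z12) (c z8 z12)) z8) (d (a (c z8 z12) (c z8 z12)) z8))))) z12) (c z8 (b (d (a (c (b (d z12 (a (c z8 z12) (c z8 z12))) (d z12 (c z8 z12))) z12) (c (b (d z12 (a (c z8 z12) z12)) (d z12 (a (c z8 z12) (c z8 z12)))) z12)) (a (c z8 z12) (c z8 z12))) (d (c (b (d z12 (a (c z8 z12) (c z8 z12))) (d z12 (a (c z8 z12) (c z8 z12)))) z12) (c z8 z12)))))) (b (d (c (a (b (d (c z8 z12) z8) (d (c z8 z12) z8)) (b (d (c z8 z12) z8) (d (c z8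 z12) z8))) z12) (c z8 (a (b (d z12 (c z8 z12)) (d z12 (c z8 z12))) (b (d z12 (c z8 z12)) (d z12 (c z8 z12)))))) (d (c (a (b (d (c z8 z12) z8) (d (c z8 (a (b z12 (d z12 (c z8 z12))) z12)) (c z8 (a (b (d (c z8 z12) z8) (d (c z8 z12) z8)) z8)))) (b (d (c z8 z12) z8) (d (c z8 z12) z8))) z12) (c z8 (a (b (d z12 (c z8 z12)) (d (c (a (b (d z12 (c z8 z12)) (d z12 (c z8 z12))) z12) z12) (c z8 z12))) (b (d z12 (c z8 z12)) (d z12 (c z8 z12))))))))) _ _ (by decide +kernel)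

theorem okB980 : CKB ⟨0, 1536, 4096, 5120⟩ ⟨18432, 24576, 7168, 8192⟩ :=
  ckB_sound (b z12 (d z12 (a (c z12 (b z12 (d z12 z12))) z12))) _ _ (by decide +kernel)

theorem okB981 : CKB ⟨1536, 3072, 4096, 5120⟩ ⟨12288, 24576, 7168, 8192⟩ :=
  ckB_sound (c (b (d (c (a (b z8 (d (c z8 (a (b z8 (d (c z8 z12) z8)) z8)) z8)) z8) z12) (c z8 (a (b (d (c z8 z12) (c z8 z12)) (d (c z8 z12) (c z8 (a (b (d z12 (c z8 z12)) (d z12 (c z8 z12))) z12)))) (b (d (c z8 z12) z8) (d (c z8 z12) z8))))) (d (c (a (b (d (c z8 (a (b (d (c z8 z12) z8) (d (c z8 z12) z8)) (b z8 (d (c z8 z12) z8)))) z8) (d (c z8 (a (b (d (c z8 z12) z8) (d (c z8 z12) (c z8 (a (b (d z12 z8) (d z12 z8)) (b (d z12 z8) (d z12 z8)))))) (b (d (c z8 z12) z8) (d (c z8 z12) z8)))) z8)) (b z8 (d (c z8 (b (d (a (c z8 z12) z8) z8) (d (a (c z8 z12) z8) z8))) z8))) (a (b (d z12 (c (a (b z12 (d z12 (c z8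 z12))) z12) z12)) (d z12 (c (a (b (d z12 (c z8 z12)) (d z12 (c z8 z12))) (b z12 (d z12 (c z8 z12)))) z12))) z12)) (c z8 (a (b (d (c (a (b z8 (d (c z8 z12) z8)) z8) z12) (c z8 (a (b (d z12 (c z8 z12)) (d z12 (c z8 z12))) z12))) (d (c (a (b (d (c z8 z12) z8) (d (c z8 z12) z8)) (b z8 (d (c z8 z12) z8))) z12) (c z8 (a (b (d z12 (c z8 z12)) (d z12 (c z8 z12))) (b (d z12 (c z8 z12)) (d z12 (c z8 z12))))))) (b (d (c z8 z12) (c z8 z12)) (d (c z8 z12) (c z8 z12))))))) (b z12 (d z12 z12))) _ _ (by decide +kernel)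

theorem okB982 : CKB ⟨0, 1920, 5120, 5376⟩ ⟨12288, 14678, 6144, 6656⟩ :=
  ckB_sound (d (a (c (b z12 (d z12 (a (c (b z12 z12) z12) z12))) z12) z12) (a (c (b (d (a (c (b (d (a (c (b (d z12 z8) (d z12 z8)) z12) (c (b (d z12 z8) (d z12 z8)) z12)) (a (c z8 z12) (c z8 z12))) (d (a (c (b (d z12 z8) (d z12 z8)) z12) (c (b (d z12 z8) (d z12 z8)) z12)) (a (c z8 z12) (c z8 z12)))) z12) (c (b (d (a (c (b z12 (d z12 z8)) z12) z12) (a (c z8 z12) (c z8 z12))) (d (a (c (b (d z12 z8) (d z12 z8)) z12) (c (b z12 (d z12 z8)) z12)) (a (c z8 z12) (c z8 z12)))) z12)) (a (c (b (d (a (c z8 (b (d z12 z8) (d (a (c z8 z12) z12) z8))) z8) z8) (d (a (c z8 (b (d (a (c z8 z12) z12) z8) (d (c z8 z12) z8))) (c z8 (b (d z12 z8) (d (a (c z8 z12) z12) z8)))) z8)) (b z12 z12)) (c z8 z12))) (d (a (c (b (d (a (c (b (d (a (c z8 z12) z12) z8) (d (c z8 z12) z8)) z12) (c (b (d z12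 z8) (d z12 z8)) z12)) (a (c z8 z12) (c z8 z12))) (d (c (b (d (c z8 z12) (c z8 z12)) (d (c z8 z12) (c z8 z12))) z12) (c z8 z12))) z12) (c (b (d (c (a (b (d z12 z8) (d z12 z8)) (b (d z12 z8) (d z12 z8))) z12) (c z8 z12)) (d (c (a (b (d z12 z8) (d (c z8 z12) (c z8 z12))) (b (d z12 z8) (d z12 z8))) z12) (c z8 z12))) z12)) (a (c (b (d (a (c z8 (b (d (a (c z8 z12) (c z8 z12)) z8) (d (c z8 z12) (c z8 z12)))) (c z8 (b (d z12 z8) (d (a (c z8 z12) (c z8 z12)) z8)))) z8) (d (c z8 (b (d (c z8 z12) (c z8 z12)) (d (c z8 z12) (c z8 z12)))) z8)) (b (d z12 (a (c (b z12 z12) z12) z12)) (d z12 (c (b z12 (d z12 (c (b z12 z0) z12))) z12)))) (c (b (d (c z8 (a (b (d z12 z8) (d z12 z8)) (b (d z12 z8) (d z12 z8)))) z8) (d (c z8 (a (b (d (c z8 z12) z8) (d (c z8 z12) (c z8 z12))) (b (d z12 z8) (d (c z8 z12) z8)))) z8)) z12)))) z12) (c (b (d (a (c (b (d z12 (a (c z8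 z12) (c z8 z12))) (d z12 (a (c z8 z12) (c z8 z12)))) z12) (c (b (d z12 (a (c z8 z12) (c z8 z12))) (d z12 (a (c z8 z12) (c z8 z12)))) z12)) (a (c z8 z12) (c z8 z12))) (d (a (c (b (d (a (c (b z12 (d z12 z8)) z12) z12) (a (c z8 z12) (c z8 z12))) (d (a (c (b (d z12 z8) (d z12 z8)) z12) (c (b (d z12 z8) (d z12 z8)) z12)) (a (c z8 z12) (c z8 z12)))) z12) (c (b (d z12 (a (c z8 z12) (c z8 z12))) (d z12 (a (c z8 z12) (c z8 z12)))) z12)) (a (c (b z8 (d (a (c z8 (b (d z12 z8) (d z12 z8))) z8) z8)) z12) (c z8 z12)))) z12))) _ _ (by decide +kernel)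

theorem okB983 : CKB ⟨0, 1920, 5376, 5632⟩ ⟨12288, 14678, 6144, 6400⟩ :=
  ckB_sound (c (a (b (d z12 (c (a (b z12 z12) z12) z12)) (d z12 (c (b (d z12 (c (b z12 z12) z12)) z0) z12))) (b z12 (d z12 (c (a (b z12 (d z12 (c (b z12 z12) z12))) z12) z12)))) z12) _ _ (by decide +kernel)

theorem okB984 : CKB ⟨0, 1560, 5376, 5632⟩ ⟨12288, 13483, 6400, 6656⟩ :=
  ckB_sound (b (d (c (a (b (d (c (a (b (d (c z8 z12) (c z8 z12)) (d (c z8 z12) (c z8 z12))) (b (d z12 z8) (d (c z8 z12) (c z8 z12)))) z12) (c (a (b z8 z8) z8) (a (b z12 z12) z12))) (d (c (b (d (c z8 z12) (c z8 z12)) z0) z12) (c (b z8 z0) (b z12 z0)))) (b (d (c (a (b (d z12 z8) (d z12 z8)) (b (d z12 z8) (d z12 z8))) z12) (c z8 z12)) (d (c (a (b (d (c z8 z12) (c z8 z12)) (d (c z8 z12) (c z8 z12))) (b (d z12 z8) (d (c z8 z12) (c z8 z12)))) z12) (c z8 z12)))) z12) (c (a (b (d (c z8 (a (b (d (c z8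 z12) (c z8 z12)) (d (c z8 z12) (c z8 z12))) (b (d (c z8 z12) z8) (d (c z8 z12) (c z8 z12))))) (c z8 (a (b z8 z8) z8))) (d (c z8 (b (d (c z8 z12) (c z8 (b z12 z12))) z0)) (c z8 (b z8 z0)))) (b (d (c z8 (a (b (d (c z8 z12) z8) (d (c z8 z12) z8)) (b (d z12 z8) (d (c z8 z12) z8)))) z8) (d (c z8 (a (b (d (c z8 z12) (c z8 z12)) (d (c z8 z12) (c z8 (b z12 z12)))) (b (d (c z8 z12) z8) (d (c z8 z12) (c z8 z12))))) z8))) (a (b (d z12 (c (a (b (d z12 (c (a (b z12 z12) z12) z12)) (d z12 (c (b z12 z0) z12))) (b z12 (d z12 (c (a (b z12 z12) z12) z12)))) z12)) (d z12 (c (b (d z12 (c (b (d z12 (a (c z8 z12) z12)) (d z12 (c z8 z12))) z12)) z0) z12))) (b z12 (d z12 (c (a (b z12 (d z12 (c (b (d z12 (a (c z8 z12) z12)) (d z12 (a (c z8 z12) z12))) z12))) z12) z12)))))) (d (c (b (d (c (b (d (a (c z8 z12) (c z8 z12)) (a (c z8 z12) (c z8 z12))) (d (c z8 z12) (c z8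 z12))) z12) (c (b z8 (d (c z8 (b z8 z8)) z8)) (b z12 (d z12 (c (b z12 z12) z12))))) z0) z12) (c (b (d (c z8 (b (d (a (c z8 z12) (c z8 z12)) (a (c z8 (b z12 z12)) (c z8 z12))) (d (c (b z8 z8) z12) (c z8 (b z12 (d z12 (c z8 z12))))))) (c z8 (b (d (a (c z8 (b z8 z8)) z8) z8) (d (c z8 (b z8 z8)) z8)))) z0) (b (d z12 (c (b (d z12 (a (c (b (d z12 (a (c z8 z12) z12)) (d z12 (c z8 z12))) z12) (c (b z12 (d z12 (a (c z8 z12) z12))) z12))) (d z12 (c (b (d z12 (c z8 z12)) (d z12 (c z8 z12))) z12))) z12)) z0)))) _ _ (by decide +kernel)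

theorem okB985 : CKB ⟨1560, 1920, 5376, 5632⟩ ⟨12288, 13483, 6400, 6656⟩ :=
  ckB_sound (b (d (c (a (b (d (c (a (b (d z12 z8) (d z12 z8)) (b (d z12 z8) (d z12 z8))) z12) (c z8 z12)) (d (c (a (b (d z12 z8) (d z12 z8)) (b (d z12 z8) (d z12 z8))) z12) (c z8 z12))) (b (d (c (b z12 (d z12 z8)) z12) (c z8 z12)) (d (c (b (d z12 z8) (d z12 z8)) z12) (c z8 z12)))) z12) (c (a (b z8 (d (c z8 (a (b (d (c z8 z12) z8) (d (c z8 z12) z8)) (b (d z12 z8) (d (c z8 z12) z8)))) z8)) z8) z12)) (d (c (a (b (d (c (a (b (d (c z8 z12) z8) (d (c z8 z12) (c z8 z12))) (b (d z12 z8) (d (c z8 z12) z8))) z12) (c z8 z12)) (d (c (b (d (a (c (b z8 z8) z12) (c z8 z12)) (a (c z8 z12) (c z8 z12))) (d (c (b z8 z8) z12) (c z8 z12))) z12) (c (b (d (a (c z8 (b z8 z8)) z8) z8) (d (c z8 (b z8 z8)) z8)) (b (d z12 (a (c (b z12 z12) z12) z12)) (d z12 (c (b z12 z12) z12)))))) (b (d (c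 (b (d z12 z8) (d z12 z8)) z12) (c z8 z12)) (d (c (b (d (a (c z8 z12) z12) z8) (d (a (c z8 z12) (c z8 z12)) (a (c z8 z12) z8))) z12) (c z8 z12)))) z12) (c (a (b (d (c z8 (a (b (d (c z8 z12) (c z8 z12)) (d (c z8 z12) (c z8 z12))) (b (d (c z8 z12) z8) (d (c z8 z12) (c z8 z12))))) z8) (d (c z8 (b (d (a (c (b z8 z8) z12) (c z8 z12)) (a (c z8 (b (d z12 (a (c z8 z12) z12)) (d z12 (c z8 z12)))) (c z8 z12))) (d (c (b z8 z8) z12) (c z8 (b (d z12 (a (c z8 z12) z12)) (d z12 (c z8 z12))))))) (c z8 (b (d (a (c z8 (b z8 z8)) z8) z8) (d (c z8 (b z8 z8)) z8))))) (b (d (c z8 (b (d z12 z8) (d (a (c z8 z12) z12) z8))) z8) (d (c z8 (b (d (a (c z8 z12) (c z8 z12)) z8) (d (a (c z8 z12) (c z8 z12)) (a (c z8 z12) z8)))) z8))) (a (b (d z12 (c (a (b z12 (d z12 (c (a (b z12 (d z12 (c z8 z12))) z12) z12))) z12) z12)) (d z12 (c (b (d z12 (a (c (b (d z12 (a (c z8 z12) (c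 z8 z12))) (d z12 (c z8 z12))) z12) (c (b z12 (d z12 (a (c z8 z12) z12))) z12))) (d z12 (c (b (d z12 (a (c z8 z12) (c z8 z12))) (d z12 (c z8 z12))) z12))) z12))) (b z12 (d z12 (c (b z12 (d z12 (a (c (b z12 (d z12 (a (c z8 z12) z12))) z12) z12))) z12))))))) _ _ (by decide +kernel)

theorem okB986 : CKB ⟨0, 1920, 5376, 5632⟩ ⟨13483, 14678, 6400, 6656⟩ :=
  ckB_sound z12 _ _ (by decide +kernel)

theorem okB987 : CKB ⟨0, 1920, 5120, 5632⟩ ⟨14678, 17067, 6144, 6656⟩ :=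
  ckB_sound z12 _ _ (by decide +kernel)

theorem okB988 : CKB ⟨1920, 3072, 5120, 5632⟩ ⟨12288, 17067, 6144, 6656⟩ :=
  ckB_sound (c (b (d z12 (a (c (b (d (a (c (b z12 (d z12 (a (c z8 z12) z12))) z12) z12) (a (c z8 z12) (c z8 z12))) (d (a (c (b (d z12 (a (c z8 z12) (c z8 z12))) (d z12 (a (c z8 z12) (c z8 z12)))) z12) (c (b (d z12 (a (c z8 z12) z12)) (d z12 (a (c z8 z12) (c z8 z12)))) z12)) (a (c z8 z12) (c z8 z12)))) z12) (c (b (d z12 (a (c z8 z12) (c z8 z12))) (d z12 (a (c z8 z12) (c z8 z12)))) z12))) (d z12 (a (c (b (d (a (c (b (d z12 (a (c z8 z12) (c z8 z12))) (d (a (c (b z12 (d z12 z8)) z12) z12) (a (c z8 z12) (c z8 z12)))) z12) (c (b (d z12 (a (c z8 z12) (c z8 z12))) (d z12 (a (c z8 z12) (c z8 z12)))) z12)) (a (c z8 z12) (c z8 z12))) (d (a (c (b (d (a (c (b (d z12 z8) (d z12 z8)) z12) (c (b z12 (d z12 z8)) z12)) (a (c z8 z12) (c z8 z12)))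 (d (a (c (b (d z12 z8) (d z12 z8)) z12) (c (b (d z12 z8) (d z12 z8)) z12)) (a (c z8 z12) (c z8 z12)))) z12) (c (b (d z12 (a (c z8 z12) (c z8 z12))) (d (a (c (b z12 (d z12 z8)) z12) z12) (a (c z8 z12) (c z8 z12)))) z12)) (a (c (b z8 (d (a (c z8 (b (d z12 z8) (d (a (c z8 z12) z12) z8))) z8) z8)) z12) (c z8 z12)))) z12) (c (b (d (a (c (b (d z12 (a (c z8 z12) z12)) (d z12 (a (c z8 z12) (c z8 z12)))) z12) z12) (a (c z8 z12) (c z8 z12))) (d (a (c (b (d z12 (a (c z8 z12) (c z8 z12))) (d z12 (a (c z8 z12) (c z8 z12)))) z12) (c (b (d z12 (a (c z8 z12) z12)) (d z12 (a (c z8 z12) (c z8 z12)))) z12)) (a (c z8 z12) (c z8 z12)))) z12)))) z12) _ _ (by decide +kernel)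

theorem okB989 : CKB ⟨0, 1344, 5120, 5376⟩ ⟨12288, 13483, 6656, 6912⟩ :=
  ckB_sound (b (d (a (c z8 (b (d (a (c (b (d (a (c z8 z12) (c z8 z12)) z8) (d (a (c z8 z12) (c z8 z12)) z8)) z12) (c z8 z12)) (a (c z8 (b z12 (d z12 (a (c (b z12 z12) z12) z12)))) (c z8 z12))) (d (a (c (b (d (a (c z8 z12) (c z8 z12)) z8) (d (c z8 z12) z8)) z12) (c (b z8 (d (a (c z8 z12) (c z8 z12)) z8)) z12)) (a (c z8 (b (d z12 (a (c (b z12 z12) z12) z12)) (d z12 (c (b (d z12 z8) (d z12 z8)) z12)))) (c z8 z12))))) (c z8 (b (d (a (c z8 z12) (c z8 z12)) (a (c z8 z12) (c z8 z12))) (d (a (c z8 z12) (c z8 z12)) (a (c z8 z12) (c z8 z12)))))) (a (c z8 (b (d (a (c z8 (b (d (a (c z8 z12) z8) z8) (d (a (c z8 z12) z8) z8))) z8) z8) (d (a (c z8 (b (d (a (c z8 z12) z8) z8) (d (c z8 z12) z8))) (c z8 (b z8 (d (a (c z8 z12) z8) z8)))) z8))) z8)) (d (a (c z8 (b (d (a (c (b (d (a (c z8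 z12) (c z8 z12)) z8) (d (c z8 z12) (c z8 (b z12 z12)))) z12) (c (b (d (a (c z8 z12) (c z8 z12)) z8) (d (a (c z8 z12) (c z8 z12)) z8)) z12)) (a (c z8 (b (d z12 (a (c (b (d z12 z8) (d z12 z8)) z12) (c (b z12 (d z12 z8)) z12))) (d z12 (c (b (d z12 z8) (d z12 z8)) z12)))) (c z8 (b z12 (d z12 (a (c (b z12 (d z12 z8)) z12) z12)))))) (d (c (b (d (c z8 z12) (c z8 (b z12 (d z12 (a (c z8 z12) z12))))) (d (c z8 z12) (c z8 (b (d z12 (c z8 z12)) z0)))) z12) (c z8 (b (d z12 (c (b (d z12 z8) (d z12 z8)) z12)) (d z12 (c (b (d z12 z8) z0) z12))))))) (c z8 (b (d (a (c (b z8 (d (a (c z8 z12) (c z8 z12)) z8)) z12) (c z8 z12)) (a (c z8 z12) (c z8 z12))) (d (a (c (b (d (a (c z8 z12) (c z8 z12)) z8) (d (a (c z8 z12) (c z8 z12)) (a (c z8 (b z12 (d z12 (c z8 z12)))) z8))) z12) (c (b (d (c z8 z12) z8) (d (c z8 z12) z8)) z12)) (a (c z8 (b (d z12 (a (c (b z12 (d z12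 z8)) z12) z12)) (d z12 (a (c (b (d z12 z8) (d z12 z8)) z12) (c (b (d z12 z8) (d z12 z8)) z12))))) (c z8 (b z12 (d z12 (a (c (b z12 (d z12 z8)) z12) z12))))))))) (a (c z8 (b (d (a (c z8 (b (d (a (c z8 z12) (c z8 z12)) z8) (d (c z8 z12) z8))) (c z8 (b z8 (d (a (c z8 z12) (c z8 z12)) z8)))) z8) (d (c z8 (b (d (c z8 z12) z8) (d (c z8 z12) (c z8 (b z8 z0))))) z8))) (c z8 (b z8 (d (a (c z8 (b (d (a (c z8 z12) z8) z8) (d (a (c z8 z12) (c z8 z12)) z8))) (c z8 (b z8 (d (a (c z8 z12) z8) z8)))) z8)))))) _ _ (by decide +kernel)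

end Vale.Agent.Lib.P154Q5
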