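import Vale.Agent.Lib.P154Q5.CkBDefs

namespace Vale.Agent.Lib.P154Q5

set_option maxRecDepth 100000
set_option exponentiation.threshold 1000

open Tr

theorem okB1005 : CKB ⟨1560, 1920, 5376, 5504⟩ ⟨13483, 14678, 6912, 7168⟩ :=
  ckB_sound (d (c (a (b (d (c z8 z12) (c z8 (a (b (d z12 z8) (d z12 z8)) (b (d z12 z8) (d z12 z8))))) (d (c z8 z12) (c z8 (a (b (d (c z8 z12) z8) (d (c z8 z12) (c z8 z12))) (b (d z12 z8) (d z12 z8)))))) (b (d (c z8 z12) z8) (d (c z8 z12) (c z8 (b (d z12 z8) (d z12 z8)))))) z12) (c z8 (a (b (d z12 (c z8 z12)) (d z12 (c (a (b z8 (d (c z8 z12) z8)) z8) z12))) (b (d z12 (c z8 z12)) (d z12 (c z8 z12)))))) _ _ (by decide +kernel)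

theorem okB1006 : CKB ⟨1560, 1920, 5504, 5632⟩ ⟨13483, 14678, 6912, 7040⟩ :=
  ckB_sound (c (a (b (d (c (a (b (d (c z8 (a (b (d z12 (c z8 z12)) (d z12 (c z8 z12))) (b z12 (d z12 (c z8 z12))))) z8) (d (c z8 (a (b (d z12 (c z8 z12)) (d z12 (c z8 z12))) (b (d z12 (c z8 z12)) (d z12 (c z8 z12))))) z8)) (b z8 (d (c z8 (a (b (d z12 (c z8 z12)) (d z12 (c z8 z12))) z12)) z8))) z12) (c z8 (a (b (d (c z8 z12) (c z8 z12)) (d (c (a (b (d (c z8 z12) z8) (d (c z8 z12) z8)) z8) z12) (c z8 (a (b z12 (d z12 (c z8 z12))) z12)))) (b (d (c z8 z12) (c z8 z12)) (d (c z8 z12) (c z8 z12)))))) (d (c (b (d (a (c z8 (b (d (a (c (b z12 z12) z12) z12) (a (c z8 z12) (c z8 z12))) (d (c (b z12 z12) z12) (c z8 z12)))) (c z8 (b (d z12 (a (c z8 z12) (c z8 z12))) (d z12 (a (c z8 z12) (c z8 z12)))))) (a (c z8 (b z8 z8)) z8)) (d (c z8 (b (d (a (c (b z12 z12) z12) z12) (a (c z8 z12)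 (c z8 z12))) (d (a (c (b z12 z12) z12) z12) (a (c z8 z12) (c z8 z12))))) (c z8 (b z8 z8)))) (b (d z12 (a (c (b z12 z12) z12) z12)) (d z12 (c (b z12 z12) z12)))) (c (b z8 z8) (b (d (a (c (b (d (a (c z8 z12) (c z8 z12)) z8) (d (c z8 z12) (c z8 (b z12 z12)))) z12) (c (b z8 (d (a (c z8 z12) (c z8 z12)) z8)) z12)) (a (c z8 (b (d z12 (a (c z8 z12) z12)) (d z12 (c z8 z12)))) (c z8 z12))) (d (c (b (d (a (c z8 z12) (c z8 z12)) (a (c z8 (b z12 z12)) z8)) (d (a (c z8 z12) (c z8 z12)) (a (c z8 (b z12 z12)) z8))) z12) (c z8 (b (d z12 (a (c z8 z12) z12)) (d z12 (a (c z8 z12) (c z8 z12)))))))))) (b (d (c z8 z12) (c z8 (b (d z12 z8) (d (a (c z8 z12) z12) z8)))) (d (c (b z8 (d (a (c z8 (b (d z12 (a (c z8 z12) (c z8 z12))) (d z12 (a (c z8 z12) (c z8 z12))))) z8) z8)) z12) (c z8 (b (d (a (c z8 z12) (c z8 z12)) (a (c z8 z12) z8)) (d (a (c (b z8 (d (a (c z8 z12)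 z12) z8)) z12) (c z8 z12)) (a (c z8 z12) (c z8 z12)))))))) z12) _ _ (by decide +kernel)

theorem okB1007 : CKB ⟨1560, 1920, 5504, 5632⟩ ⟨13483, 14678, 7040, 7168⟩ :=
  ckB_sound (c (a (b (d (c z8 (a (b z8 (d (c z8 (a (b z8 (d (c z8 z12) z8)) z8)) z8)) z8)) z8) (d (c z8 (b (d (a (c z8 (b (d (a (c z8 z12) z8) z8) (d (c z8 z12) z8))) z8) z8) (d (c z8 (b (d (a (c z8 z12) z8) z8) (d (a (c z8 z12) z8) z8))) z8))) z8)) z8) (a (b (d (c (a (b (d z12 (c (a (b (d z12 (c z8 z12)) (d z12 (c z8 z12))) (b z12 (d z12 (c z8 z12)))) z12)) (d z12 (c (a (b (d z12 (c z8 z12)) (d z12 (c z8 z12))) (b (d z12 (c z8 z12)) (d z12 (c z8 z12)))) z12))) (b z12 (d z12 (c (a (b z12 (d z12 (c z8 z12))) z12) z12)))) z12) (c (a (b (d (c z8 z12) z8) (d (c z8 z12) (c z8 (a (b z8 (d (c z8 z12) z8)) z8)))) (b (d (c z8 z12) z8) (d (c z8 z12) z8))) z12)) (d (c (b (d z12 (a (c (b (d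 (a (c (b z12 z12) z12) z12) (a (c z8 z12) (c z8 z12))) (d (c (b z12 z12) z12) (c z8 z12))) z12) (c (b (d z12 (a (c z8 z12) (c z8 z12))) (d z12 (a (c z8 z12) (c z8 z12)))) z12))) (d z12 (c (b (d (a (c (b z12 z12) z12) z12) (a (c z8 z12) (c z8 z12))) (d (a (c (b z12 z12) z12) z12) (a (c z8 z12) (c z8 z12)))) z12))) z12) (c (b (d (a (c (b z8 z8) (b z12 z12)) (c z8 z12)) (a (c z8 (b (d (a (c z8 z12) (c z8 z12)) z8) (d (c z8 z12) z8))) z8)) (d (c (b z8 z8) (b z12 z12)) (c z8 (b (d (a (c z8 z12) (c z8 z12)) z8) (d (a (c z8 z12) (c z8 z12)) z8))))) (b z12 z12)))) (b (d z12 (c (b z8 (d (a (c z8 z12) (c z8 z12)) z8)) z12)) (d (c (b (d z12 (a (c (b z12 (d z12 (a (c z8 z12) z12))) z12) z12)) (d z12 (a (c (b (d z12 (a (c z8 z12) (c z8 z12))) (d z12 (a (c z8 z12) (c z8 z12)))) z12) (c (b z12 (d z12 (a (c z8 z12) z12))) z12)))) z12) (c (b (d (a (c z8 z12)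 (c z8 z12)) z8) (d (a (c z8 z12) (c z8 z12)) z8)) z12))))) _ _ (by decide +kernel)

theorem okB1008 : CKB ⟨0, 1920, 5120, 5632⟩ ⟨14678, 17067, 6656, 7168⟩ :=
  ckB_sound (b z12 z12) _ _ (by decide +kernel)

theorem okB1009 : CKB ⟨1920, 3072, 5120, 5632⟩ ⟨12288, 17067, 6656, 7168⟩ :=
  ckB_sound (c (b (d (a (c (b z8 (d (a (c z8 (b (d z12 z8) (d z12 z8))) z8) z8)) z12) (c z8 z12)) (a (c z8 (b (d (a (c z8 z12) (c z8 z12)) (a (c z8 z12) z8)) (d (a (c z8 z12) (c z8 z12)) (a (c z8 z12) (c z8 z12))))) (c z8 (b (d (a (c z8 z12) z12) z8) (d (a (c z8 z12) (c z8 z12)) z8))))) (d (a (c (b (d (a (c z8 (b (d (a (c z8 z12) z12) z8) (d (a (c z8 z12) (c z8 z12)) (a (c z8 z12) z8)))) (c z8 (b (d z12 z8) (d z12 z8)))) z8) (d (a (c z8 (b (d (a (c z8 z12) (c z8 z12)) (a (c z8 z12) (c z8 z12))) (d (a (c (b z8 (d (a (c z8 z12) (c z8 z12)) z8)) z12) (c z8 z12)) (a (c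 z8 z12) (c z8 z12))))) (c z8 (b (d (a (c z8 z12) z12) z8) (d (a (c z8 z12) (c z8 z12)) (a (c z8 z12) z8))))) z8)) (b z12 (d z12 (a (c (b (d z12 (a (c (b z12 (d z12 (a (c z8 z12) z12))) z12) z12)) (d z12 (a (c (b (d z12 (a (c z8 z12) (c z8 z12))) (d z12 (a (c z8 z12) (c z8 z12)))) z12) (c (b z12 (d z12 (a (c z8 z12) z12))) z12)))) z12) z12)))) (c (b z8 (d (a (c z8 (b (d z12 z8) (d z12 z8))) z8) z8)) z12)) (a (c z8 (b (d (a (c (b (d (a (c z8 z12) (c z8 z12)) z8) (d (a (c z8 z12) (c z8 z12)) z8)) z12) (c z8 z12)) (a (c z8 (b (d z12 (a (c z8 z12) z12)) (d z12 (a (c z8 z12) (c z8 z12))))) (c z8 z12))) (d (a (c (b (d (a (c z8 z12) (c z8 z12)) (a (c z8 (b (d z12 z8) (d z12 z8))) z8)) (d (a (c z8 z12) (c z8 z12)) (a (c z8 (b (d z12 z8) (d (a (c z8 z12) z12) z8))) (c z8 (b (d z12 z8) (d z12 z8)))))) z12) (c (b (d (a (c z8 z12) (c z8 z12)) z8) (d (a (c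 z8 z12) (c z8 z12)) z8)) z12)) (a (c z8 (b (d z12 (a (c z8 z12) (c z8 z12))) (d z12 (a (c z8 z12) (c z8 z12))))) (c z8 (b (d z12 (a (c z8 z12) z12)) (d z12 (a (c z8 z12) (c z8 z12))))))))) (c z8 (b (d (a (c z8 z12) (c z8 z12)) (a (c z8 z12) z8)) (d (a (c z8 z12) (c z8 z12)) (a (c z8 z12) (c z8 z12)))))))) z12) _ _ (by decide +kernel)

theorem okB1010 : CKB ⟨0, 3072, 5632, 5888⟩ ⟨12288, 14678, 6144, 6400⟩ :=
  ckB_sound (a (c (b (d z12 (a (c (b (d z12 (a (c (b z12 z12) z12) z12)) (d z12 (c (a (b z12 z12) z12) z12))) z12) z12)) (d z12 (c (b (d z12 (a (c (b (d z12 (a (c (b z12 z12) z12) z12)) (d z12 (c (a (b z12 z12) z12) z12))) z12) z12)) (d z12 (c (a (b (d z12 (c (a (b z12 z12) z12) z12)) (d z12 (c (b z12 z0) z12))) z12) z12))) z12))) z12) z12) _ _ (by decide +kernel)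

theorem okB1011 : CKB ⟨0, 2400, 5632, 5760⟩ ⟨12288, 13483, 6400, 6528⟩ :=
  ckB_sound (a (c (b (d (a (c (b (d (a (c (b z8 z8) z12) (c z8 z12)) (a (c z8 z12) (c z8 z12))) (d (c (a (b z8 z8) z8) z12) (c z8 (a (b z12 z12) z12)))) z12) (c (b (d (a (c z8 z12) z12) z8) (d (a (c z8 z12) (c z8 z12)) (a (c z8 z12) z8))) z12)) (a (c (b (d (a (c z8 (b z8 z8)) z8) z8) (d (c z8 (a (b z8 z8) z8)) z8)) (b (d z12 (a (c (b z12 z12) z12) z12)) (d z12 (c (a (b z12 z12) z12) z12)))) (c z8 z12))) (d (c (a (b (d (c (a (b z8 z8) z8) z12) (c z8 (a (b z12 z12) z12))) (d (c (b z8 z0) z12) (c z8 (b z12 z0)))) (b (d (c z8 z12) (c z8 z12)) (d (c (a (b z8 z8) z8) z12) (c z8 z12)))) z12) (c (a (b (d (c z8 (a (b (d (c z8 z12) z8) (d (c z8 z12) z8)) z8)) z8) (d (c z8 (b (d (c z8 z12) z8) z0)) z8)) (b z8 (d (c z8 (a (b z8 (d (c z8 z12) z8)) z8)) z8))) (a (b (d z12 (c (a (b z12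 (d z12 (c (b z12 z0) z12))) z12) z12)) (d z12 (c (b (d z12 (c (b z12 z12) z12)) z0) z12))) (b z12 (d z12 (c (a (b z12 (d z12 (c (b z12 z12) z12))) z12) z12))))))) z12) (c (b (d (a (c (b (d z12 z8) (d z12 z8)) z12) (c (b (d z12 z8) (d z12 z8)) z12)) (a (c z8 z12) (c z8 z12))) (d (a (c (b (d (a (c z8 z12) z12) z8) (d (a (c z8 z12) (c z8 z12)) (a (c z8 z12) z8))) z12) (c (b (d z12 z8) (d z12 z8)) z12)) (a (c z8 z12) (c z8 z12)))) z12)) _ _ (by decide +kernel)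

theorem okB1012 : CKB ⟨0, 2400, 5632, 5760⟩ ⟨12288, 13483, 6528, 6656⟩ :=
  ckB_sound (a (c (b (d (a (c z8 (b (d (a (c (b z8 z8) z12) (c z8 z12)) (a (c z8 (b (d z12 (a (c z8 z12) z12)) (d z12 (c z8 z12)))) (c z8 z12))) (d (c (a (b (d (c z8 z12) z8) (d (c z8 z12) z8)) z8) z12) (c z8 (a (b (d z12 (c z8 z12)) (d z12 (c z8 z12))) (b z12 (d z12 (c z8 z12)))))))) (c z8 (b (d (a (c z8 z12) (c z8 z12)) (a (c z8 z12) z8)) (d (a (c z8 z12) (c z8 z12)) (a (c z8 z12) z8))))) (a (c z8 (b (d (a (c z8 (b z8 z8)) z8) z8) (d (c z8 (a (b z8 (d (c z8 z12) z8)) z8)) z8))) z8)) (d (c z8 (a (b (d (c (a (b (d (c z8 z12) z8) (d (c z8 z12) z8)) z8) z12) (c z8 (a (b (d z12 (c z8 z12)) (d z12 (c z8 z12))) (b z12 (d z12 (c z8 z12)))))) (d (c (b (d (c z8 z12) z8) z0) z12) (c z8 (b (d z12 (c z8 z12)) z0)))) (b (d (c z8 z12) (c z8 z12)) (d (c (a (b z8 (d (c z8 z12) z8)) z8)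 z12) (c z8 (a (b (d z12 (c z8 z12)) (d z12 (c z8 z12))) (b z12 (d z12 (c z8 z12))))))))) (c z8 (a (b (d (c z8 (a (b (d (c z8 z12) z8) (d (c z8 z12) z8)) z8)) z8) (d (c z8 (b (d (c z8 z12) z8) z0)) z8)) (b z8 (d (c z8 (a (b z8 (d (c z8 z12) z8)) z8)) z8)))))) (b (d z12 (a (c (b (d z12 (a (c (b (d z12 (a (c z8 z12) (c z8 z12))) (d z12 (c z8 z12))) z12) (c (b z12 (d z12 (a (c z8 z12) z12))) z12))) (d z12 (c (a (b (d z12 (c z8 z12)) (d z12 (c z8 z12))) (b (d z12 (c z8 z12)) (d z12 (c z8 z12)))) z12))) z12) (c (b z12 (d z12 (a (c (b z12 (d z12 (a (c z8 z12) z12))) z12) z12))) z12))) (d z12 (c (a (b (d z12 (c (a (b (d z12 (c z8 z12)) (d z12 (c z8 z12))) (b (d z12 (c z8 z12)) (d z12 (c z8 z12)))) z12)) (d z12 (c (b (d z12 (c z8 z12)) z0) z12))) (b (d z12 (c (a (b z12 (d z12 (c z8 z12))) z12) z12)) (d z12 (c (a (b (d z12 (c z8 z12)) (d z12 (c z8 z12)))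 (b (d z12 (c z8 z12)) (d z12 (c z8 z12)))) z12)))) z12)))) (c (b (d (a (c z8 (b (d (a (c z8 z12) z12) z8) (d (a (c z8 z12) (c z8 z12)) z8))) z8) z8) (d (a (c z8 (b (d (a (c z8 z12) (c z8 z12)) z8) (d (a (c z8 z12) (c z8 z12)) (a (c z8 z12) z8)))) (c z8 (b (d (a (c z8 z12) z12) z8) (d (a (c z8 z12) (c z8 z12)) z8)))) z8)) (b z12 (d z12 (a (c (b z12 (d z12 (a (c (b z12 (d z12 (a (c z8 z12) z12))) z12) z12))) z12) z12))))) _ _ (by decide +kernel)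

theorem okB1013 : CKB ⟨0, 2400, 5760, 5888⟩ ⟨12288, 13483, 6400, 6528⟩ :=
  ckB_sound (c (b (d (a (c (b (d (a (c (b (d (a (c z8 z12) (c z8 z12)) z8) (d (c z8 z12) z8)) z12) (c z8 z12)) (a (c z8 (b z12 z12)) (c z8 z12))) (d (c (a (b (d (c z8 z12) z8) (d (c z8 z12) z8)) z8) z12) (c z8 (a (b z12 z12) z12)))) z12) (c (b (d (a (c z8 z12) (c z8 z12)) (a (c z8 z12) z8)) (d (a (c z8 z12) (c z8 z12)) (a (c z8 z12) z8))) z12)) (a (c (b (d (a (c z8 (b (d (a (c z8 z12) (c z8 z12)) z8) (d (c z8 z12) z8))) z8) z8) (d (c z8 (a (b (d (c z8 z12) z8) (d (c z8 z12) z8)) z8)) z8)) (b (d z12 (a (c (b (d z12 (a (c (a (b z12 z12) z12) z12) z12)) (d z12 (c (a (b z12 z12) z12) z12))) z12) z12)) (d z12 (c (a (b (d z12 (c (a (b z12 z12) z12) z12)) (d z12 (c (b z12 z0) z12))) z12) z12)))) (c z8 z12))) (d (c (a (b (d (c (a (b (d (c z8 z12) z8) (d (c z8 z12) z8)) z8) z12)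 (c z8 (a (b z12 z12) z12))) (d (c (b (d (c z8 z12) z8) z0) z12) (c z8 (b z12 z0)))) (b (d (c z8 z12) (c z8 z12)) (d (c (a (b z8 (d (c z8 z12) z8)) z8) z12) (c z8 (a (b z12 z12) z12))))) z12) (c (a (b (d (c z8 (a (b (d (c z8 z12) z8) (d (c z8 z12) z8)) z8)) z8) (d (c z8 (b (d (c z8 z12) z8) z0)) z8)) (b z8 (d (c z8 (a (b z8 (d (c z8 z12) z8)) z8)) z8))) (a (b (d z12 (c (a (b (d z12 (c (a (b z12 z12) z12) z12)) (d z12 (c (b z12 z0) z12))) z12) z12)) (d z12 (c (b (d z12 (c (b z12 z12) z12)) z0) z12))) (b z12 (d z12 (c (a (b z12 (d z12 (c (b z12 z12) z12))) z12) z12))))))) z12) _ _ (by decide +kernel)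

theorem okB1014 : CKB ⟨0, 2400, 5760, 5888⟩ ⟨12288, 13483, 6528, 6656⟩ :=
  ckB_sound (c (b (d (a (c z8 (b (d (a (c (b (d (a (c z8 z12) (c z8 z12)) z8) (d (c z8 z12) z8)) z12) (c z8 z12)) (a (c z8 (b (d z12 (a (c z8 z12) z12)) (d z12 (a (c z8 z12) (c z8 z12))))) (c z8 z12))) (d (c (a (b (d (c z8 z12) z8) (d (c z8 z12) z8)) (b z8 (d (c z8 z12) z8))) z12) (c z8 (a (b (d z12 (c z8 z12)) (d z12 (c z8 z12))) (b z12 (d z12 (c z8 z12)))))))) (c z8 (b (d (a (c z8 z12) (c z8 z12)) (a (c z8 z12) z8)) (d (a (c z8 z12) (c z8 z12)) (a (c z8 z12) z8))))) (a (c z8 (b (d (a (c z8 (b (d (a (c z8 z12) z8) z8) (d (a (c z8 z12) z8) z8))) z8) z8) (d (c z8 (a (b (d (c z8 z12) z8) (d (c z8 z12) z8)) z8)) z8))) z8)) (d (c z8 (a (b (d (c (a (b (d (c z8 z12) z8) (d (c z8 z12) z8)) (b z8 (d (c z8 z12) z8))) z12) (c z8 (a (b (d z12 (c z8 z12)) (d z12 (c z8 z12))) (b z12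 (d z12 (c z8 z12)))))) (d (c (b (d (c z8 z12) z8) z0) z12) (c z8 (b (d z12 (c z8 z12)) z0)))) (b (d (c z8 z12) (c z8 z12)) (d (c (a (b z8 (d (c z8 z12) z8)) z8) z12) (c z8 (a (b (d z12 (c z8 z12)) (d z12 (c z8 z12))) (b z12 (d z12 (c z8 z12))))))))) (c z8 (a (b (d (c z8 (a (b (d (c z8 z12) z8) (d (c z8 z12) z8)) z8)) z8) (d (c z8 (b (d (c z8 z12) z8) z0)) z8)) (b z8 (d (c z8 (a (b z8 (d (c z8 z12) z8)) z8)) z8)))))) (b (d z12 (a (c (b (d z12 (a (c (b (d z12 (a (c z8 z12) (c z8 z12))) (d z12 (a (c z8 z12) (c z8 z12)))) z12) (c (b (d z12 (a (c z8 z12) z12)) (d z12 (a (c z8 z12) z12))) z12))) (d z12 (c (a (b (d z12 (c z8 z12)) (d z12 (c z8 z12))) (b (d z12 (c z8 z12)) (d z12 (c z8 z12)))) z12))) z12) (c (b z12 (d z12 (a (c (b z12 (d z12 (a (c z8 z12) z12))) z12) z12))) z12))) (d z12 (c (a (b (d z12 (c (a (b (d z12 (c z8 z12)) (d z12 (c z8 z12)))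 (b (d z12 (c z8 z12)) (d z12 (c z8 z12)))) z12)) (d z12 (c (b (d z12 (c z8 z12)) z0) z12))) (b (d z12 (c (a (b z12 (d z12 (c z8 z12))) z12) z12)) (d z12 (c (a (b (d z12 (c z8 z12)) (d z12 (c z8 z12))) (b (d z12 (c z8 z12)) (d z12 (c z8 z12)))) z12)))) z12)))) _ _ (by decide +kernel)

theorem okB1015 : CKB ⟨0, 2400, 5632, 5888⟩ ⟨13483, 14678, 6400, 6656⟩ :=
  ckB_sound z12 _ _ (by decide +kernel)

theorem okB1016 : CKB ⟨2400, 3072, 5632, 5888⟩ ⟨12288, 14678, 6400, 6656⟩ :=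
  ckB_sound (c (b (d (a (c (b (d (a (c (b z12 (d z12 z8)) z12) z12) (a (c z8 z12) (c z8 z12))) (d (a (c (b (d z12 z8) (d z12 z8)) z12) (c (b z12 (d z12 z8)) z12)) (a (c z8 z12) (c z8 z12)))) z12) (c (b (d z12 (a (c z8 z12) (c z8 z12))) (d z12 (a (c z8 z12) (c z8 z12)))) z12)) (a (c z8 z12) (c z8 z12))) (d (a (c (b (d (a (c (b (d z12 z8) (d z12 z8)) z12) (c (b (d z12 z8) (d z12 z8)) z12)) (a (c z8 z12) (c z8 z12))) (d (a (c (b (d (a (c z8 z12) z12) z8) (d (a (c z8 z12) (c z8 z12)) (a (c z8 z12) z8))) z12) (c (b (d z12 z8) (d z12 z8)) z12)) (a (c z8 z12) (c z8 z12)))) z12) (c (b (d (a (c (b z12 (d z12 z8)) z12) z12) (a (c z8 z12) (c z8 z12))) (d (a (c (b (d z12 z8) (d z12 z8)) z12) (c (b z12 (d z12 z8)) z12)) (a (c z8 z12) (c z8 z12)))) z12)) (a (c (b (d (a (c z8 (b (d (a (c z8 z12) z12) z8) (d (a (c z8 z12) z12) z8))) z8) z8) (d (a (c z8 (b (d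 (a (c z8 z12) (c z8 z12)) z8) (d (a (c z8 z12) (c z8 z12)) (a (c z8 z12) z8)))) (c z8 (b (d z12 z8) (d (a (c z8 z12) z12) z8)))) z8)) (b z12 (d z12 (a (c (b z12 (d z12 (a (c (b z12 (d z12 (a (c z8 z12) z12))) z12) z12))) z12) z12)))) (c z8 z12)))) z12) _ _ (by decide +kernel)

theorem okB1017 : CKB ⟨0, 3072, 5888, 6144⟩ ⟨12288, 14678, 6144, 6400⟩ :=
  ckB_sound (c (b (d z12 (a (c (b (d z12 (a (c (b (d z12 (a (c (b z12 z12) z12) z12)) (d z12 (c (b z12 z12) z12))) z12) z12)) (d z12 (c (b (d z12 (a (c (b z12 z12) z12) z12)) (d z12 (c (b z12 z12) z12))) z12))) z12) z12)) (d z12 (c (b (d z12 (a (c (b (d z12 (a (c (b z12 z12) z12) z12)) (d z12 (c (b z12 z12) z12))) z12) z12)) (d z12 (c (b z12 z12) z12))) z12))) z12) _ _ (by decide +kernel)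

theorem okB1018 : CKB ⟨0, 3072, 5888, 6016⟩ ⟨12288, 13483, 6400, 6528⟩ :=
  ckB_sound (a (c (b (d (a (c (b (d (a (c (b (d (a (c z8 z12) (c z8 z12)) z8) (d (c z8 z12) z8)) z12) (c z8 z12)) (a (c z8 (b z12 z12)) (c z8 z12))) (d (c (b (d (a (c z8 z12) (c z8 z12)) z8) (d (c z8 z12) z8)) z12) (c z8 (b z12 z12)))) z12) (c (b (d (a (c z8 z12) (c z8 z12)) (a (c z8 z12) z8)) (d (a (c z8 z12) (c z8 z12)) (a (c z8 z12) z8))) z12)) (a (c (b (d (a (c z8 (b (d (a (c z8 z12) (c z8 z12)) z8) (d (c z8 z12) z8))) z8) z8) (d (c z8 (b (d (a (c z8 z12) (c z8 z12)) z8) (d (c z8 z12) z8))) z8)) (b (d z12 (a (c (b (d z12 (a (c (b z12 z12) z12) z12)) (d z12 (c (b z12 z12) z12))) z12) z12)) (d z12 (c (b (d z12 (a (c (b z12 z12) z12) z12)) (d z12 (c (a (b z12 z12) z12) z12))) z12)))) (c z8 z12))) (d (c (b (d (a (c (b (d (a (c z8 z12) (c z8 z12)) z8) z8) z12) (c z8 z12))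 (a (c z8 (b z12 z12)) (c z8 z12))) (d (c (b z8 z8) z12) (c z8 (b z12 z12)))) z12) (c (b (d (a (c z8 (b (d (a (c z8 z12) (c z8 z12)) z8) (d (c z8 z12) z8))) z8) z8) (d (c z8 (b (d (a (c z8 z12) (c z8 z12)) z8) z8)) z8)) (b (d z12 (a (c (b (d z12 (a (c (b z12 z12) z12) z12)) (d z12 (c (a (b z12 z12) z12) z12))) z12) z12)) (d z12 (c (b (d z12 (a (c (b z12 z12) z12) z12)) (d z12 (c (a (b z12 z12) z12) z12))) z12)))))) z12) (c (b (d (a (c (b (d z12 z8) (d (a (c z8 z12) z12) z8)) z12) (c (b (d z12 z8) (d z12 z8)) z12)) (a (c z8 z12) (c z8 z12))) (d (a (c (b (d (a (c z8 z12) z12) z8) (d (a (c z8 z12) (c z8 z12)) (a (c z8 z12) z8))) z12) (c (b (d z12 z8) (d z12 z8)) z12)) (a (c z8 z12) (c z8 z12)))) z12)) _ _ (by decide +kernel)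

theorem okB1019 : CKB ⟨0, 3072, 5888, 6016⟩ ⟨12288, 13483, 6528, 6656⟩ :=
  ckB_sound (a (c (b (d (a (c z8 (b (d (a (c (b (d (a (c z8 z12) (c z8 z12)) z8) (d (c z8 z12) z8)) z12) (c z8 z12)) (a (c z8 (b (d z12 (a (c z8 z12) z12)) (d z12 (c z8 z12)))) (c z8 z12))) (d (c (b (d (a (c z8 z12) (c z8 z12)) z8) (d (c z8 z12) z8)) z12) (c z8 (b (d z12 (a (c z8 z12) z12)) (d z12 (c z8 z12))))))) (c z8 (b (d (a (c z8 z12) (c z8 z12)) z8) (d (a (c z8 z12) (c z8 z12)) (a (c z8 z12) z8))))) (a (c z8 (b (d (a (c z8 (b (d (a (c z8 z12) z8) z8) (d (c z8 z12) z8))) z8) z8) (d (c z8 (b (d (a (c z8 z12) z8) z8) (d (c z8 z12) z8))) z8))) z8)) (d (c z8 (b (d (a (c (b (d (a (c z8 z12) (c z8 z12)) z8) (d (c z8 z12) z8)) z12) (c z8 z12)) (a (c z8 (b (d z12 (a (c z8 z12) z12)) (d z12 (c z8 z12)))) (c z8 z12))) (d (c (b (d (a (c z8 z12) (c z8 z12)) z8) (d (c z8 z12)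 z8)) z12) (c z8 (b (d z12 (a (c z8 z12) z12)) (d z12 (c z8 z12))))))) (c z8 (b (d (a (c z8 (b (d (a (c z8 z12) z8) z8) (d (c z8 z12) z8))) z8) z8) (d (c z8 (b z8 z8)) z8))))) (b (d z12 (a (c (b (d z12 (a (c (b (d z12 (a (c z8 z12) (c z8 z12))) (d z12 (c z8 z12))) z12) (c (b (d z12 (a (c z8 z12) z12)) (d z12 (a (c z8 z12) z12))) z12))) (d z12 (c (b (d z12 (a (c z8 z12) (c z8 z12))) (d z12 (c z8 z12))) z12))) z12) (c (b z12 (d z12 (a (c (b z12 (d z12 (a (c z8 z12) z12))) z12) z12))) z12))) (d z12 (c (b (d z12 (a (c (b (d z12 (a (c z8 z12) (c z8 z12))) (d z12 (c z8 z12))) z12) (c (b z12 (d z12 (a (c z8 z12) z12))) z12))) (d z12 (c (b (d z12 (a (c z8 z12) (c z8 z12))) (d z12 (c z8 z12))) z12))) z12)))) (c (b (d (a (c z8 (b (d (a (c z8 z12) z12) z8) (d (a (c z8 z12) z12) z8))) z8) z8) (d (a (c z8 (b (d (a (c z8 z12) (c z8 z12)) z8) (d (a (c z8 z12)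 (c z8 z12)) (a (c z8 z12) z8)))) (c z8 (b (d z12 z8) (d (a (c z8 z12) z12) z8)))) z8)) (b z12 (d z12 (a (c (b z12 (d z12 (a (c (b z12 (d z12 (a (c z8 z12) z12))) z12) z12))) z12) z12))))) _ _ (by decide +kernel)

end Vale.Agent.Lib.P154Q5
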