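import Vale.Agent.Lib.P154Q5.CkBDefs

namespace Vale.Agent.Lib.P154Q5

set_option maxRecDepth 100000
set_option exponentiation.threshold 1000

open Tr

theorem okB1020 : CKB ⟨0, 3072, 6016, 6144⟩ ⟨12288, 13483, 6400, 6656⟩ :=
  ckB_sound (d (c (b (d (a (c (b (d (a (c (b z8 z8) z12) (c z8 z12)) (a (c z8 (b z12 z12)) (c z8 z12))) (d (c (b z8 z8) z12) (c z8 (b z12 z12)))) z12) (c (b (d (a (c z8 z12) z12) z8) (d (a (c z8 z12) (c z8 z12)) (a (c z8 z12) z8))) z12)) (a (c (b (d (a (c z8 (b z8 z8)) z8) z8) (d (c z8 (b z8 z8)) z8)) (b (d z12 (a (c (b (d z12 (a (c (b z12 z12) z12) z12)) z12) z12) z12)) (d z12 (c (b z12 z12) z12)))) (c z8 z12))) (d (c (b (d (a (c (b z8 z8) z12) (c z8 z12)) (a (c z8 (b z12 z12)) (c z8 z12))) (d (c (b z8 z8) z12) (c z8 (b z12 z12)))) z12) (c (b (d (a (c z8 (b z8 z8)) z8) z8) (d (c z8 (b z8 z8)) z8)) (b (d z12 (a (c (b z12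 z12) z12) z12)) (d z12 (c (b z12 z12) z12)))))) z12) (c (b (d (a (c z8 (b (d (a (c (b z8 z8) z12) (c z8 z12)) (a (c z8 (b (d z12 (a (c z8 z12) z12)) (d z12 (c z8 z12)))) (c z8 z12))) (d (c (b z8 z8) z12) (c z8 (b (d z12 (a (c z8 z12) z12)) (d z12 (c z8 z12))))))) (c z8 (b (d (a (c z8 z12) (c z8 z12)) z8) (d (a (c z8 z12) (c z8 z12)) (a (c z8 z12) z8))))) (a (c z8 (b (d (a (c z8 (b z8 z8)) z8) z8) (d (c z8 (b z8 z8)) z8))) z8)) (d (c z8 (b (d (a (c (b z8 z8) z12) (c z8 z12)) (a (c z8 (b (d z12 (a (c z8 z12) z12)) (d z12 (c z8 z12)))) (c z8 z12))) (d (c (b z8 z8) z12) (c z8 (b (d z12 (a (c z8 z12) z12)) (d z12 (c z8 z12))))))) (c z8 (b (d (a (c z8 (b z8 z8)) z8) z8) (d (c z8 (b z8 z8)) z8))))) (b (d z12 (a (c (b (d z12 (a (c (b (d z12 (a (c z8 z12) (c z8 z12))) (d z12 (c z8 z12))) z12) (c (b z12 (d z12 (a (c z8 z12) z12))) z12))) (d z12 (c (b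 (d z12 (a (c z8 z12) z12)) (d z12 (c z8 z12))) z12))) z12) z12)) (d z12 (c (b (d z12 (a (c (b (d z12 (a (c z8 z12) z12)) (d z12 (c z8 z12))) z12) z12)) (d z12 (c (b (d z12 (a (c z8 z12) z12)) (d z12 (c z8 z12))) z12))) z12))))) _ _ (by decide +kernel)

theorem okB1021 : CKB ⟨0, 3072, 5888, 6144⟩ ⟨13483, 14678, 6400, 6656⟩ :=
  ckB_sound z12 _ _ (by decide +kernel)

theorem okB1022 : CKB ⟨0, 3072, 5632, 6144⟩ ⟨14678, 17067, 6144, 6656⟩ :=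
  ckB_sound z12 _ _ (by decide +kernel)

theorem okB1023 : CKB ⟨0, 2064, 5632, 5760⟩ ⟨12288, 12886, 6656, 6784⟩ :=
  ckB_sound (b z8 z8) _ _ (by decide +kernel)

theorem okB1024 : CKB ⟨0, 2064, 5632, 5760⟩ ⟨12886, 13483, 6656, 6784⟩ :=
  ckB_sound (b (d (a (c (b (d (a (c (b z8 z8) z12) (c z8 z12)) (a (c z8 (b (d (a (c (b z12 z12) z12) z12) (a (c z8 z12) (c z8 z12))) (d (c (a (b z12 z12) z12) z12) (c z8 z12)))) (c z8 (b (d z12 (a (c z8 z12) (c z8 z12))) (d z12 (a (c z8 z12) (c z8 z12))))))) (d (c (a (b z8 z8) z8) z12) (c z8 (a (b (d (c (a (b z12 z12) z12) z12) (c z8 z12)) (d (c (b z12 z0) z12) (c z8 z12))) (b (d z12 (c z8 z12)) (d (c (a (b z12 z12) z12) z12) (c z8 z12))))))) z12) (c (b (d (a (c z8 z12) (c z8 z12)) z8) (d (a (c z8 z12) (c z8 z12)) (a (c z8 (b (d z12 (a (c z8 z12) (c z8 z12))) (d z12 (a (c z8 z12) (c z8 z12))))) z8))) z12)) (a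 (c (b (d (a (c z8 (b z8 z8)) z8) z8) (d (c z8 (a (b z8 z8) z8)) z8)) (b (d z12 (a (c (b (d (a (c z8 z12) (c z8 z12)) (a (c z8 z12) z8)) (d (c z8 z12) (c z8 z12))) z12) (c (b (d z12 z8) (d (a (c z8 z12) z12) z8)) z12))) (d (c (a (b z12 z12) z12) z12) (c (a (b (d (c z8 z12) (c z8 z12)) (d (c z8 z12) (c z8 z12))) (b (d (c z8 z12) z8) (d (c z8 z12) (c z8 z12)))) z12)))) (c z8 (b (d z12 (a (c (b (d z12 z8) (d z12 z8)) z12) (c (b z12 (d z12 z8)) z12))) (d z12 (a (c (b (d z12 z8) (d (a (c z8 z12) z12) z8)) z12) (c (b (d z12 z8) (d z12 z8)) z12))))))) (d (c (a (b (d (c (a (b z8 (d (c z8 z12) z8)) z8) z12) (c z8 (a (b (d (c (a (b z12 z12) z12) z12) (c z8 z12)) (d (c (b z12 z0) z12) (c z8 z12))) (b (d z12 (c z8 z12)) (d (c (a (b z12 z12) z12) z12) (c z8 z12)))))) (d (c (b (d (c z8 z12) z8) z0) z12) (c z8 (b (d (c (b z12 z12) z12) (c z8 z12)) z0)))) (b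 (d (c z8 z12) (c z8 (a (b (d z12 (c z8 z12)) (d z12 (c z8 z12))) (b (d z12 (c z8 z12)) (d z12 (c z8 z12)))))) (d (c (a (b z8 (d (c z8 z12) z8)) z8) z12) (c z8 (a (b (d z12 (c z8 z12)) (d (c (b z12 z12) z12) (c z8 z12))) (b (d z12 (c z8 z12)) (d z12 (c z8 z12)))))))) z12) (c (a (b (d (c z8 (a (b z8 z8) z8)) z8) (d (c z8 (b z8 z0)) z8)) (b z8 (d (c z8 (a (b z8 z8) z8)) z8))) (a (b (d (c (a (b z12 z12) z12) z12) (c (a (b (d (c z8 z12) (c z8 z12)) (d (c z8 z12) (c z8 z12))) (b (d (c z8 z12) z8) (d (c z8 z12) (c z8 z12)))) z12)) (d (c (b z12 z0) z12) (c (b (d (c z8 z12) (c z8 z12)) z0) z12))) (b (d z12 (c (a (b (d z12 z8) (d (c z8 z12) z8)) (b (d z12 z8) (d z12 z8))) z12)) (d z12 (c (a (b (d (c z8 z12) z8) (d (c z8 z12) (c z8 z12))) (b (d (c z8 z12) z8) (d (c z8 z12) z8))) z12))))))) _ _ (by decide +kernel)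

theorem okB1025 : CKB ⟨2064, 2400, 5632, 5760⟩ ⟨12288, 13483, 6656, 6784⟩ :=
  ckB_sound (c z8 (b (d (a (c (b z8 (d (a (c z8 z12) (c z8 z12)) z8)) z12) (c z8 z12)) (a (c z8 (b z12 (d z12 (a (c (b z12 (d z12 z8)) z12) z12)))) (c z8 z12))) (d (a (c (b (d (a (c z8 z12) (c z8 z12)) z8) (d (a (c z8 z12) (c z8 z12)) (a (c z8 (b (d z12 (a (c z8 z12) (c z8 z12))) (d z12 (a (c z8 z12) (c z8 z12))))) z8))) z12) (c (b z8 (d (a (c z8 z12) (c z8 z12)) z8)) z12)) (a (c z8 (b (d z12 (a (c (b (d z12 z8) (d z12 z8)) z12) (c (b z12 (d z12 z8)) z12))) (d z12 (a (c (b (d z12 z8) (d z12 z8)) z12) (c (b (d z12 z8) (d z12 z8)) z12))))) (c z8 z12))))) _ _ (by decide +kernel)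

theorem okB1026 : CKB ⟨0, 2400, 5632, 5760⟩ ⟨12288, 13483, 6784, 6912⟩ :=
  ckB_sound (a (c z8 (b (d (a (c z8 (b (d (a (c (b z8 z8) (b (d z12 (a (c (b z12 z12) z12) z12)) (d z12 (c (a (b z12 z12) z12) z12)))) (c z8 z12)) (a (c z8 (b (d (a (c z8 z12) (c z8 z12)) z8) (d (c z8 z12) z8))) z8)) (d (c (a (b z8 z8) z8) (a (b (d z12 (c (a (b z12 z12) z12) z12)) (d z12 (c (b z12 z0) z12))) (b z12 (d z12 (c (a (b z12 z12) z12) z12))))) (c z8 (a (b (d (c z8 z12) z8) (d (c z8 z12) z8)) (b z8 (d (c z8 z12) z8))))))) (c z8 (b (d (a (c z8 z12) (c z8 z12)) z8) (d (a (c z8 z12) (c z8 z12)) z8)))) (a (c z8 (b z8 z8)) z8)) (d (c z8 (a (b (d (c (a (b z8 z8) z8) (a (b (d z12 (c (a (b z12 z12) z12) z12)) (d z12 (c (b z12 z0) z12))) (b z12 (d z12 (c (a (b z12 z12) z12) z12))))) (c z8 (a (b (d (c z8 z12) z8) (d (c z8 z12) (c z8 (b (d z12 z8) z0)))) (b z8 (d (c z8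 z12) z8))))) (d (c (b z8 z0) (b (d z12 (c (b z12 z12) z12)) z0)) (c z8 (b (d (c z8 z12) (c z8 (b (d z12 z8) (d z12 z8)))) z0)))) (b (d (c z8 z12) z8) (d (c z8 (a (b z12 (d z12 (c (b z12 z12) z12))) z12)) (c z8 (a (b (d (c z8 z12) z8) (d (c z8 z12) (c z8 (b (d z12 z8) (d z12 z8))))) (b z8 (d (c z8 z12) z8)))))))) (c z8 (a (b z8 z8) z8))))) (c z8 (b (d (a (c z8 (b z8 (d (a (c z8 z12) z8) z8))) z8) z8) (d (a (c z8 (b (d (a (c z8 z12) z8) z8) (d (a (c z8 z12) (c z8 z12)) z8))) z8) z8)))) _ _ (by decide +kernel)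

theorem okB1027 : CKB ⟨0, 2400, 5760, 5888⟩ ⟨12288, 12886, 6656, 6784⟩ :=
  ckB_sound (b z8 z8) _ _ (by decide +kernel)

theorem okB1028 : CKB ⟨0, 2400, 5760, 5824⟩ ⟨12886, 13483, 6656, 6784⟩ :=
  ckB_sound (d (a (c (b (d (a (c (b (d (a (c z8 (a (b z12 z12) z12)) z8) z8) (d (a (c z8 (b z12 z12)) z8) z8)) z12) (c z8 z12)) (a (c z8 (b (d (a (c (a (b z12 z12) z12) z12) z12) (a (c z8 z12) (c z8 z12))) (d (a (c (b z12 z12) z12) z12) (a (c z8 z12) (c z8 z12))))) (c z8 (b (d z12 (a (c z8 z12) (c z8 z12))) (d z12 (a (c z8 z12) (c z8 z12))))))) (d (c (a (b (d (c z8 (a (b z12 z12) z12)) z8) (d (c z8 (b z12 z0)) z8)) z8) z12) (c z8 (a (b (d (a (c (b z12 z12) z12) z12) (a (c z8 z12) (c z8 z12))) (d (c (b z12 z0) z12) (c z8 z12))) (b (d z12 (a (c z8 z12) (c z8 z12))) (d (a (c (b z12 z12) z12) z12) (a (c z8 z12) (c z8 z12)))))))) z12) (c (b (d (a (c z8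 z12) (c z8 z12)) z8) (d (a (c z8 z12) (c z8 z12)) (a (c z8 (b (d z12 (a (c z8 z12) (c z8 z12))) (d z12 (a (c z8 z12) (c z8 z12))))) z8))) z12)) (a (c (b (d (a (c z8 (b z8 z8)) z8) z8) (d (c z8 (a (b z8 z8) z8)) z8)) (b (d (a (c (b z12 z12) z12) z12) (a (c (b (d (a (c z8 z12) (c z8 z12)) (a (c z8 z12) z8)) (d (a (c z8 z12) (c z8 z12)) (a (c z8 z12) z8))) z12) (c (b (d z12 z8) (d (a (c z8 z12) z12) z8)) z12))) (d (a (c (b z12 z12) z12) z12) (a (c (b (d (a (c z8 z12) (c z8 z12)) (a (c z8 z12) z8)) (d (c z8 z12) (c z8 z12))) z12) (c (b (d (a (c z8 z12) z12) z8) (d (a (c z8 z12) (c z8 z12)) (a (c z8 z12) z8))) z12))))) (c z8 (b (d z12 (a (c (b (d z12 z8) (d z12 z8)) z12) (c (b z12 (d z12 z8)) z12))) (d z12 (a (c (b (d z12 z8) (d (a (c z8 z12) z12) z8)) z12) (c (b (d z12 z8) (d z12 z8)) z12))))))) _ _ (by decide +kernel)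

theorem okB1029 : CKB ⟨0, 2400, 5824, 5888⟩ ⟨12886, 13483, 6656, 6784⟩ :=
  ckB_sound (d (c (a (b (d (c (a (b (d (c z8 (a (b z12 z12) z12)) z8) (d (c z8 (b z12 z0)) z8)) z8) z12) (c z8 (a (b (d (c (a (b z12 z12) z12) z12) (c z8 z12)) (d (c (b z12 z0) z12) (c z8 z12))) (b (d z12 (c z8 z12)) (d (c (a (b z12 z12) z12) z12) (c z8 z12)))))) (d (c (b (d (c z8 (b z12 z12)) z8) z0) z12) (c z8 (b (d (c (b z12 z12) z12) (c z8 z12)) z0)))) (b (d (c z8 z12) (c z8 (a (b (d z12 (c z8 z12)) (d z12 (c z8 z12))) (b (d z12 (c z8 z12)) (d z12 (c z8 z12)))))) (d (c (a (b z8 (d (c z8 (b z12 z12)) z8)) z8) z12) (c z8 (a (b (d z12 (c z8 z12)) (d (c (b z12 z12) z12) (c z8 z12))) (b (d z12 (c z8 z12)) (d z12 (c z8 z12)))))))) z12) (c (a (b (d (c z8 (a (b z8 z8) z8)) z8) (d (c z8 (b z8 z0)) z8)) (b z8 (d (c z8 (a (b z8 z8) z8)) z8))) (a (b (d (c (a (b z12 z12) z12)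 z12) (c (a (b (d (a (c z8 z12) (c z8 z12)) (a (c z8 z12) z8)) (d (c z8 z12) (c z8 z12))) (b (d (c z8 z12) z8) (d (c z8 z12) (c z8 z12)))) z12)) (d (c (b z12 z0) z12) (c (b (d (c z8 z12) (c z8 z12)) z0) z12))) (b (d z12 (c (a (b (d z12 z8) (d (c z8 z12) z8)) (b (d z12 z8) (d z12 z8))) z12)) (d z12 (c (a (b (d (c z8 z12) z8) (d (c z8 z12) (c z8 z12))) (b (d z12 z8) (d (c z8 z12) z8))) z12)))))) _ _ (by decide +kernel)

theorem okB1030 : CKB ⟨0, 2400, 5760, 5888⟩ ⟨12288, 13483, 6784, 6912⟩ :=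
  ckB_sound (c z8 (b (d (a (c z8 (b (d (a (c (b z8 z8) (b (d z12 (a (c (a (b z12 z12) z12) z12) z12)) (d z12 (a (c (b z12 z12) z12) z12)))) (c z8 z12)) (a (c z8 (b (d (a (c z8 z12) (c z8 z12)) (a (c z8 (a (b (d z12 z8) (d z12 z8)) (b z12 (d z12 z8)))) z8)) (d (a (c z8 z12) (c z8 z12)) (a (c z8 (b (d z12 z8) (d z12 z8))) z8)))) z8)) (d (a (c (b z8 z8) (b (d z12 (a (c (b z12 z12) z12) z12)) (d z12 (c (b z12 z0) z12)))) (c z8 (b z12 (d z12 (a (c (b z12 z12) z12) z12))))) (a (c z8 (b (d (a (c z8 z12) (c z8 z12)) (a (c z8 (b (d z12 z8) (d z12 z8))) z8)) (d (c z8 z12) (c z8 (b (d z12 z8) z0))))) (c z8 (b z8 (d (a (c z8 z12) (c z8 z12)) z8))))))) (c z8 (b (d (a (c z8 z12) z8) z8) (d (a (c z8 z12) (c z8 z12)) z8)))) (a (c z8 (b z8 (d (a (c z8 (b z8 z8)) z8) z8))) z8)) (d (c z8 (a (b (d (c (a (b z8 z8) z8) (a (b (d z12 (a (c (b z12 z12) z12) z12)) (d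 z12 (c (b z12 z0) z12))) (b z12 (d z12 (c (a (b z12 z12) z12) z12))))) (c z8 (a (b (d (a (c z8 z12) (c z8 z12)) (a (c z8 (b (d z12 z8) (d z12 z8))) z8)) (d (c z8 z12) (c z8 (b (d z12 z8) z0)))) (b z8 (d (c z8 z12) z8))))) (d (c (b z8 z0) (b (d z12 (c (b z12 z12) z12)) z0)) (c z8 (b (d (c z8 z12) z8) z0)))) (b (d (c z8 z12) z8) (d (c z8 (a (b z12 (d z12 (c (b z12 z12) z12))) z12)) (c z8 (a (b (d (c z8 z12) z8) (d (c z8 z12) z8)) (b z8 (d (c z8 z12) z8)))))))) (c z8 (a (b (d (c z8 (a (b z8 z8) z8)) z8) (d (c z8 (b z8 z0)) z8)) z8))))) _ _ (by decide +kernel)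

theorem okB1031 : CKB ⟨0, 2400, 5632, 5760⟩ ⟨13483, 14678, 6656, 6912⟩ :=
  ckB_sound (d z12 (a (c (b (d (a (c (b z12 z12) z12) z12) (a (c (b (d (a (c (b (d z12 (a (c z8 z12) (c z8 z12))) (d z12 (c z8 z12))) z12) (c (b z12 (d z12 (a (c z8 z12) z12))) z12)) (a (c (b (d (a (c z8 z12) z8) z8) (d (c z8 z12) z8)) z12) (c z8 z12))) (d (c (a (b (d z12 (c z8 z12)) (d z12 (c z8 z12))) (b (d z12 (c z8 z12)) (d z12 (c z8 z12)))) z12) (c (a (b (d (c z8 z12) z8) (d (c z8 z12) z8)) (b z8 (d (c z8 z12) z8))) z12))) z12) (c (b (d z12 (a (c z8 z12) (c z8 z12))) (d (a (c (b z12 (d z12 (a (c z8 z12) z12))) z12) z12) (a (c z8 z12) (c z8 z12)))) z12))) (d (c (a (b z12 z12) z12) z12) (c (a (b (d (c (a (b (d z12 (c z8 z12)) (d z12 (c z8 z12))) (b (d z12 (c z8 z12)) (d z12 (c z8 z12)))) z12) (c (a (b (d (c z8 z12) z8) (d (c z8 (b z12 z0)) z8)) (b z8 (d (c z8 z12)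 z8))) z12)) (d (c (b (d z12 (c z8 z12)) z0) z12) (c (b (d (c z8 (b z12 z12)) z8) z0) z12))) (b (d (c (a (b z12 (d z12 (c z8 z12))) z12) z12) (c z8 z12)) (d (c (a (b (d z12 (c z8 z12)) (d z12 (c z8 z12))) (b (d z12 (c z8 z12)) (d z12 (c z8 z12)))) z12) (c (a (b (d (c z8 z12) z8) (d (c z8 (b z12 z12)) z8)) z8) z12)))) z12))) z12) (c (b (d z12 (a (c (b (d z12 (a (c z8 z12) (c z8 z12))) (d z12 (a (c z8 z12) (c z8 z12)))) z12) (c (b z12 (d z12 (a (c z8 z12) z12))) z12))) (d z12 (a (c (b (d z12 (a (c z8 z12) (c z8 z12))) (d (a (c (b z12 (d z12 (a (c z8 z12) z12))) z12) z12) (a (c z8 z12) (c z8 z12)))) z12) (c (b (d z12 (a (c z8 z12) (c z8 z12))) (d z12 (a (c z8 z12) (c z8 z12)))) z12)))) z12))) _ _ (by decide +kernel)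

theorem okB1032 : CKB ⟨0, 2400, 5760, 5888⟩ ⟨13483, 14678, 6656, 6912⟩ :=
  ckB_sound (d z12 (c (b (d (a (c (b z12 z12) z12) z12) (a (c (b (d (a (c (b (d z12 (a (c z8 z12) (c z8 z12))) (d z12 (a (c z8 z12) (c z8 z12)))) z12) (c (b z12 (d z12 (a (c z8 z12) z12))) z12)) (a (c (b (d (a (c z8 (a (b z12 z12) z12)) z8) z8) (d (a (c z8 (b z12 z12)) z8) z8)) z12) (c z8 z12))) (d (a (c (b (d z12 (a (c z8 z12) (c z8 z12))) (d z12 (c z8 z12))) z12) (c (b (d z12 (a (c z8 z12) z12)) (d z12 (a (c z8 z12) (c z8 z12)))) z12)) (a (c (b (d (a (c z8 (b z12 z12)) z8) z8) (d (c z8 (b z12 z0)) z8)) z12) (c (b z8 (d (a (c z8 z12) z8) z8)) z12)))) z12) (c (b (d z12 (a (c z8 z12) (c z8 z12))) (d (a (c (b z12 (d z12 (a (c z8 z12) z12))) z12) z12) (a (c z8 z12) (c z8 z12)))) z12))) (d (c (a (b z12 z12) z12) z12) (c (a (b (d (a (c (b (d z12 (a (c z8 z12) (c z8 z12)))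 (d z12 (c z8 z12))) z12) (c (b (d z12 (c z8 z12)) (d z12 (c z8 z12))) z12)) (a (c (b (d (a (c z8 (b z12 z12)) z8) z8) (d (c z8 (b z12 z0)) z8)) z12) (c (b z8 (d (c z8 z12) z8)) z12))) (d (c (b (d z12 (c z8 z12)) z0) z12) (c (b (d (c z8 (b z12 z12)) z8) z0) z12))) (b (d (c (a (b z12 (d z12 (c z8 z12))) z12) z12) (c z8 z12)) (d (c (a (b (d z12 (c z8 z12)) (d z12 (c z8 z12))) (b z12 (d z12 (c z8 z12)))) z12) (c (a (b z8 (d (c z8 z12) z8)) z8) z12)))) z12))) z12)) _ _ (by decide +kernel)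

theorem okB1033 : CKB ⟨2400, 3072, 5632, 5888⟩ ⟨12288, 14678, 6656, 6912⟩ :=
  ckB_sound (c (b (d (a (c z8 (b (d (a (c z8 z12) (c z8 z12)) (a (c z8 z12) z8)) (d (a (c z8 z12) (c z8 z12)) (a (c z8 z12) (c z8 z12))))) (c z8 (b (d z12 z8) (d (a (c z8 z12) z12) z8)))) z8) (d (a (c z8 (b (d (a (c (b z8 (d (a (c z8 z12) (c z8 z12)) z8)) z12) (c z8 z12)) (a (c z8 z12) (c z8 z12))) (d (a (c (b (d (a (c z8 z12) (c z8 z12)) z8) (d (a (c z8 z12) (c z8 z12)) (a (c z8 (b (d z12 (a (c z8 z12) z12)) (d z12 (a (c z8 z12) (c z8 z12))))) z8))) z12) (c (b z8 (d (a (c z8 z12) (c z8 z12)) z8)) z12)) (a (c z8 (b (d z12 (a (c (b (d z12 z8) (d z12 z8)) z12) z12)) (d z12 (a (c (b (d z12 z8) (d z12 z8)) z12) (c (b (d z12 z8) (d z12 z8)) z12))))) (c z8 z12))))) (c z8 (b (d (a (c z8 z12) (c z8 z12)) z8) (d (a (c z8 z12) (c z8 z12)) (a (c z8 z12) z8))))) (a (c z8 (b z8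 (d (a (c z8 (b (d (a (c z8 z12) z8) z8) (d (a (c z8 z12) (c z8 z12)) z8))) z8) z8))) z8))) (b z12 (d z12 (a (c (b (d z12 (a (c (b (d z12 (a (c z8 z12) z12)) (d z12 (a (c z8 z12) (c z8 z12)))) z12) z12)) (d z12 (a (c (b (d z12 (a (c z8 z12) (c z8 z12))) (d z12 (a (c z8 z12) (c z8 z12)))) z12) (c (b (d z12 (a (c z8 z12) z12)) (d z12 (a (c z8 z12) (c z8 z12)))) z12)))) z12) z12)))) _ _ (by decide +kernel)

theorem okB1034 : CKB ⟨0, 2400, 5632, 5888⟩ ⟨12288, 13483, 6912, 7168⟩ :=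
  ckB_sound (b (d (a (c z8 (b z8 z8)) z8) z8) (d (c z8 (b z8 z8)) z8)) _ _ (by decide +kernel)

end Vale.Agent.Lib.P154Q5
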