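import Vale.Agent.Lib.P154Q5.CkBDefs

namespace Vale.Agent.Lib.P154Q5

set_option maxRecDepth 100000
set_option exponentiation.threshold 1000

open Tr

theorem okB105 : CKB ⟨4097, 6145, 1536, 2048⟩ ⟨9600, 12288, 7168, 7680⟩ :=
  ckB_sound (a z8 (b (d (c (b (d z8 (a z8 z9)) z8) z8) (c (b (d (a z8 z9) (a z8 z9)) (d z8 (a z8 (c (b (d (a (c (b z1 (d (a z0 z1) (a z0 z1))) z9) z9) (a (c (b z1 (d (a z0 z1) (a z0 z1))) (b z1 (d (a z8 z9) (a z0 z1)))) z1)) (d (a z8 z9) (a z0 z1))) (b z9 (d (a z8 z9) (a z8 z9))))))) z8)) z8)) _ _ (by decide +kernel)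

theorem okB106 : CKB ⟨4097, 5121, 1536, 2048⟩ ⟨6144, 12288, 7680, 8192⟩ :=
  ckB_sound (b (d (c (a (b (d z0 z0) z0) (b (d z0 z0) (d z0 z0))) z8) (a (b (d z0 z0) (d z0 z0)) (b (d z0 (b (d z0 z0) z0)) (d z0 z0)))) (d z0 (a (b (d z0 z0) z0) (b (d z0 z0) (d z0 z0))))) _ _ (by decide +kernel)

theorem okB107 : CKB ⟨5121, 6145, 1536, 1792⟩ ⟨6144, 12288, 7680, 7936⟩ :=
  ckB_sound (c (b (d (a (c (b (d z0 z0) (d z0 z0)) z0) (c (b (d z1 z1) (d (c (a (b (d z1 z1) (d (c (a (b z1 (d z1 z1)) z1) z1) (a (b z1 (d z1 z1)) z1))) z0) z1) (a (b (d z1 z1) (d (c (a (b z1 (d z1 z1)) z1) z1) (a (b z1 (d z1 z1)) z1))) z0))) z1)) (a (b (d z0 z0) (d z0 z0)) (b (d z1 z1) (d (c (a (b (d z1 z1) (d (c (a (b z1 (d z1 z1)) z1) z1) (a (b z1 (d z1 z1)) z1))) z0) z1) (a (b (d z1 z1) (d (c (a (b z1 (d z1 z1)) z1) z1) (a (b z1 (d z1 z1)) z1)))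 z0))))) (d (a (c (b (d z0 z0) z0) z0) (c (b (d (c (a (b (d (c (a z0 z1) (a z0 z1)) (a z0 z1)) (d (c (a z0 z1) (a z0 z1)) (a z0 z1))) z1) (a (b (d z1 (a z0 z1)) (d (a z0 z1) (a z0 z1))) z1)) (a (b (d (c (a z0 z1) z1) (a z0 z1)) (d (c (a z0 z1) (a z0 z1)) (a z0 z1))) z1)) (d (c (a z0 z1) (a z0 z1)) (a z0 z1))) (b (d (a (c (b z1 (d (a z0 z1) (a z0 z1))) z9) z9) (a (c (b z1 (d (a z0 z1) (a z0 z1))) (b z1 (d (a z8 z9) (a z0 z1)))) z1)) (d (a z8 z9) (a z0 z1))))) (a (b (d z0 z0) z0) (b (d (c (a (b (d (c (a z0 z1) z1) (a z0 z1)) (d (c (a z0 z1) (a z0 z1)) (a z0 z1))) z1) (a (b z1 (d (a z0 z1) (a z0 z1))) z1)) (a (b (d (c (a z0 z1) z1) (a z0 z1)) (d (c (a z0 z1) (a z0 z1)) (a z0 z1))) z1)) (d (c (a z0 z1) (a z0 z1)) (a z0 z1)))))) (b (d (a z8 z9) (a z8 z9)) z8)) _ _ (by decide +kernel)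

theorem okB108 : CKB ⟨5121, 6145, 1536, 1792⟩ ⟨6144, 12288, 7936, 8192⟩ :=
  ckB_sound (b (d (a (c (b (d z0 z0) (d z0 z0)) z8) (c (b (d z1 z1) (d (a (c (b (d z1 z1) (d (a (c (b z1 (d z1 z1)) z1) z1) (a (b z1 (d z1 z1)) z1))) z1) z0) (a (b (d z1 z1) (d (a (c (b z1 (d z1 z1)) z1) z1) (a (b z1 (d z1 z1)) z1))) z0))) z9)) (a (b (d z0 z0) (d z0 z0)) (b (d z1 z1) (d (a (c (b (d z1 z1) (d (a (c (b z1 (d z1 z1)) z1) z1) (a (b z1 (d z1 z1)) z1))) z1) z0) (a (b (d z1 z1) (d (a (c (b z1 (d z1 z1)) z1) z1) z1)) z0))))) (d (a (c (b (d z0 z0) (d z0 z0)) z8) (c (b (d (a (c (b (d (a z0 z1) (a z0 z1)) (d (a z0 z1) (a z0 z1))) (b z1 (d (a z0 z1) (a z0 z1)))) z1) (a (b (d (a z0 z1) (a z0 z1)) (d (a z0 z1) (a z0 z1))) z1)) (d (a z0 z1) (a z0 z1))) (b (d z9 (a (c (b z1 (d (a z0 z1) (a z0 z1))) z9) z1)) (d (a z8 z9) (a z0 z1)))))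 (a (b (d z0 z0) (d z0 z0)) (b (d (a (c (b (d (a z0 z1) (a z0 z1)) (d (a z0 z1) (a z0 z1))) (b z1 (d (a z0 z1) (a z0 z1)))) z1) (a (b (d (a z0 z1) (a z0 z1)) (d (a z0 z1) (a z0 z1))) z1)) (d (a z0 z1) (a z0 z1)))))) _ _ (by decide +kernel)

theorem okB109 : CKB ⟨5121, 6145, 1792, 2048⟩ ⟨6144, 12288, 7680, 8192⟩ :=
  ckB_sound (d (c (b (d (a z0 (c (b (d (c (a z0 z1) (a z0 z1)) (a z0 z1)) (d (c (a z0 z1) (a z0 z1)) (a z0 z1))) (b (d (a z8 z9) (a z0 z1)) (d (a z8 z9) (a z0 z1))))) (a z0 (b (d (c (a z0 z1) (a z0 z1)) (a z0 z1)) (d (c (a z0 z1) (a z0 z1)) (a z0 z1))))) (d (a z0 (c (b (d z0 z0) (d z0 z0)) z0)) (a z0 (b (d z0 z0) (d z0 z0))))) z8) (b (d (a z0 (c (b (d (a z0 z1) (a z0 z1)) (d (a z0 z1) (a z0 z1))) (b (d (a z8 z9) (a z0 z1)) (d (a z8 z9) (a z0 z1))))) (a z0 (b (d (a z0 z1) (a z0 z1)) (d (a z0 z1) (a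 z0 z1))))) (d (a z0 (c (b (d z0 z0) (d z0 z0)) z8)) (a z0 (b (d z0 z0) z0))))) _ _ (by decide +kernel)

theorem okB110 : CKB ⟨6145, 8193, 1024, 2048⟩ ⟨6144, 12288, 7168, 8192⟩ :=
  ckB_sound (b z0 (d (c (b z0 z1) (b z0 z9)) (b z0 (d z1 z1)))) _ _ (by decide +kernel)

theorem okB111 : CKB ⟨4097, 6145, 2048, 3072⟩ ⟨6144, 9216, 4096, 5120⟩ :=
  ckB_sound z0 _ _ (by decide +kernel)

theorem okB112 : CKB ⟨6145, 8193, 2048, 2560⟩ ⟨6144, 9216, 4096, 5120⟩ :=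
  ckB_sound (d (c z1 (b (d (a (c z1 z5) z0) z1) (d (a (c (b z1 (d (a z0 z1) (a z0 z1))) (b (d z5 (a (b z5 (d z5 (c (a z4 z5) z5))) z5)) (d z5 (a z4 z5)))) z5) (a (c (b z1 (d (a z0 z1) (a z0 z1))) (b (d (a (b (d (c (a (b (d z5 (c z1 z5)) (d (c z1 z5) (c z1 z5))) z5) z5) (c z1 z5)) (d (c (a z4 z5) z5) (c z1 z5))) z5) z9) (d (a (b (d (c (a z4 z5) z5) (c (a z0 z1) z5)) (d (c (a z4 z5) z4) (c z0 z4))) z5) (a z8 z9)))) z1)))) (c z1 (b z9 (d (a (c z9 (b z9 (d (a z8 z9) (a z8 z9)))) z9) (a (c z9 (b z9 (d (a z8 z9) z9))) z9))))) _ _ (by decide +kernel)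

theorem okB113 : CKB ⟨6145, 8193, 2560, 3072⟩ ⟨6144, 9216, 4096, 5120⟩ :=
  ckB_sound (d (c (b (d (a (c (b (d (a z0 z1) (a z0 z1)) z0) (b (d (a z0 z1) (a z0 z1)) z0)) z1) (a (c (b (d (a z0 z1) (a z0 z1)) z0) (b (d (a z0 z1) (a z0 z1)) z0)) z1)) (d (a z0 z1) (a z0 z1))) (b (d (a (c (b (d (a z0 z1) (a z0 z1)) (d (a z0 z1) (a z0 z1))) (b (d (a z4 z5) (a z4 z5)) (d z4 (a z4 z5)))) z5) (a (c (b (d (a z0 z1) (a z0 z1)) z0) (b (d (a (b (d z4 (c z0 z4)) (d z4 (c z0 z4))) z5) (a z8 z9)) (d (a (b (d z4 (c z0 z4)) (d z4 (c z0 z4))) (b (d z5 (c z1 z5)) (d (c (a (b z5 (d z5 (c z1 z5))) z5) z5) (c z1 z5)))) (a z8 z9)))) z1)) (d (a (c (b (d (a z0 (c z1 (b z1 (d (a (c z0 z4) z5) (a z0 z1))))) z0) (d (a z0 (c z0 (b (d (a (c z0 z4) (c z1 z5)) (a z0 z1)) z0))) z0)) (b (d z4 (a z4 (b (d z5 (c (a (b z5 (d z5 (c (a z4 z5) z5)))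 z5) z5)) (d z5 (c (a z4 z5) z5))))) (d z4 (a z4 (b (d (c (a z4 z5) z5) (c (a z4 z5) z5)) z4))))) (c z1 z5)) (a (c z0 (b (d (a (b (d z4 (c z0 z4)) z4) (b (d (c (a (b (d (c z1 z5) (c z1 z5)) (d (c z1 z5) (c z1 z5))) z5) z5) (c z1 z5)) (d (c (a (b (d z4 (c z0 z4)) (d z4 (c z0 z4))) z5) z5) (c (a z0 z1) z5)))) (a z8 (b (d (c z1 z13) z9) (d (c z1 z13) (c z9 (a z12 z13)))))) (d (a z4 (b (d (c (a z4 z5) z5) (c (a z0 z1) z5)) (d (c (a z4 (b (d z5 (c z1 z5)) (d (c z1 z5) (c z1 z5)))) z4) (c z0 z4)))) (a z8 (b (d (c (a z0 z1) (a z12 z13)) (c (a z8 z9) (a z12 z13))) (d (c z0 z12) z8)))))) z1)))) (c (b (d (a (c (b (d (a z0 z1) (a z0 z1)) z0) (b (d (a z0 z1) (a z8 z9)) z0)) z1) (a (c (b (d (a z0 z1) (a z8 z9)) z8) (b (d (a z8 z9) (a z8 z9)) z8)) z9)) (d (a z0 z1) (a z8 z9))) (b (d (a (c (b (d (a z8 z9) (a z8 z9)) z8) (b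 (d (a z8 z9) (a z8 z9)) (d (a z8 z9) (a z8 z9)))) z9) (a (c (b (d (a z8 z9) (a z8 z9)) z8) (b (d (a z8 z9) (a z8 z9)) z8)) z9)) (d (a (c z8 (b (d (a z8 (b z9 (d (c z9 (a z12 z13)) z9))) z8) z8)) z9) (a z8 z9))))) _ _ (by decide +kernel)

theorem okB114 : CKB ⟨4097, 8193, 2048, 3072⟩ ⟨9216, 12288, 4096, 5120⟩ :=
  ckB_sound (a (b (d z12 (a z12 (b (d z12 (c (b (d z12 (c z8 z12)) (d z12 (c z8 z12))) z12)) (d z12 (c (b (d z12 (c z8 z12)) (d z12 (c z8 z12))) z12))))) (d z12 (a z12 (b (d z12 (c (b (d z12 (c z8 z12)) (d z12 (c z8 z12))) z12)) (d z12 (c (b (d z12 (c z8 z12)) z12) z12)))))) (b (d z13 (b (d z13 (c (a (b (d z13 (c z9 z13)) (d (c (a (b z13 (d z13 (c z9 z13))) z13) z13) (c z9 z13))) z0) z13)) (d (c (a (b (d z13 (c (a (b z13 (d z13 (c (a z12 z13) z13))) z13) z13)) (d z13 (c (a z12 z13) z13))) z13) z13)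 (c (a (b (d (c (a (b (d (c (a (b z13 (d z13 (c z9 z13))) z13) z13) (c z9 z13)) (d (c (a z12 z13) z13) (c z9 z13))) z13) z13) (c z9 z13)) (d (c (a (b (d (c (a z12 z13) z13) (c z9 z13)) (d z12 (c z8 z12))) z13) z13) (c (a z8 z9) z13))) z13) z13)))) (d (b z13 (d z5 (c (a z12 z13) z13))) (b (d (c (a (b (d (c (a z12 z13) z13) (c (a z12 z13) z13)) (d z12 (c (a z12 z13) z12))) z13) z13) (c (a (b (d (c (a (b (d z12 (c z8 z12)) (d z12 (c z8 z12))) z13) z13) (c (a z8 z9) z13)) (d (c (a (b (d z12 (c z8 z12)) (d z12 (c z8 z12))) (b z13 (d z13 (c z9 z13)))) z12) (c (a z8 z9) z12))) z13) z13)) (d (c (a (b (d z12 (c (a z12 (b z13 (d z13 (c (a z12 z13) z13)))) z12)) z12) z13) z13) (c (a (b (d (c (a z12 (b (d (c (a (b (d z13 (c z9 z13)) (d (c z9 z13) (c z9 z13))) z13) z13) (c z9 z13)) (d (c (a z12 z13) z13) (c z9 z13)))) z12)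 (c z8 z12)) (d (c (a z12 (b (d (c (a z12 z13) z13) (c (a z8 z9) z13)) (d (c (a z12 (b z13 (d z13 (c z9 z13)))) z12) (c z8 z12)))) z12) (c z8 z12))) z13) z13)))))) _ _ (by decide +kernel)

theorem okB115 : CKB ⟨4097, 8193, 2048, 3072⟩ ⟨6144, 9216, 5120, 6144⟩ :=
  ckB_sound (a z8 (b (d z9 (c (b z9 (d (a (c (b z9 (d z9 (a z8 z9))) z9) z9) (a (c (b z9 (d (a z8 z9) (a z8 z9))) (b z9 (d (a z8 z9) (a z8 z9)))) z9))) z9)) (d (c (b (d (a (c (b (d (a z8 z9) (a z8 z9)) z8) (b (d (a z8 z9) (a z8 z9)) z8)) z9) (a (c (b (d (a z8 z9) (a z8 z9)) z8) (b (d (a z8 z9) (a z8 z9)) z8)) z9)) (d (a z8 z9) (a z8 z9))) (b (d (a (c (b (d (a z8 z9) (a z8 z9)) z8) (b (d (a z8 z9) (a z8 z9)) z8)) z9) (a (c (b (d (a z8 z9) (a z8 z9)) z8) (b (d (a z8 z9) (a z8 z9)) z8)) z9)) (d (a z8 z9) (a z8 z9)))) (c (b (d (a (c (b (d (a z8 z9) (a z8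 z9)) z8) (b (d (a z8 z9) (a z8 z9)) z8)) z9) (a (c (b (d (a z8 z9) (a z8 z9)) z8) (b (d (a z8 z9) (a z8 z9)) z8)) z9)) (d (a z8 z9) (a z8 z9))) (b (d (a (c (b (d (a z8 z9) (a z8 z9)) z8) (b (d (a z8 z9) (a z8 z9)) z8)) z9) (a (c (b (d (a z8 z9) (a z8 z9)) z8) (b (d (a z8 z9) (a z8 z9)) z8)) z9)) (d (a z8 z9) (a z8 z9))))))) _ _ (by decide +kernel)

theorem okB116 : CKB ⟨4097, 8193, 2048, 3072⟩ ⟨9216, 12288, 5120, 6144⟩ :=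
  ckB_sound (a (b (d (a (b (d (c z8 z12) (c z8 z12)) (d (c z8 z12) (c z8 z12))) (b (d (c z8 z12) (c z8 z12)) (d (c z8 z12) (c z8 z12)))) z8) (d (a (b (d (c z8 z12) (c z8 z12)) (d (c z8 z12) (c z8 z12))) (b (d (c z8 z12) (c z8 z12)) (d (c z8 z12) (c z8 z12)))) z8)) (b (d (b (d (c z9 z13) (c z9 z13)) (d (c (a (b z9 (d (c (a z8 z9) z13) (c (a z8 z9) (a z12 z13)))) z9) z13) (c (a (b z9 (d (c z9 (a (b (d (c z9 z13) z9) (d (c z8 z12) z8)) z13)) (c z9 (a z8 z9)))) z9) z13))) (b z9 (d (c z9 (a (b (d z13 (c (a (b (d (c z9 z13) (c z9 z13)) (d (c z9 z13) (c z9 z13))) z13) z13)) (d (c (a z12 z13) z13) (c (a (b (d (c z9 z13) (c z9 z13)) (d z12 (c z8 z12))) z13) z13))) z13)) (c z9 (a (b (d (c z9 z13) z9) (d (c z9 z13) z9)) z13))))) (d (b (d (c (a (b (d (c (a z8 z9) (a z12 z13)) (c (a z8 z9) (a z12 z13))) (d (c z8 z12) (c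 z8 (a z12 z13)))) z9) z13) (c (a (b (d (c (a z8 z9) (a (b (d (c z8 z12) z8) (d z12 z8)) z13)) (c (a z8 z9) (a z8 z9))) z8) z9) (a (b (d z13 (c (a z12 z13) z13)) z12) z13))) (d (c (a (b (d (c z8 z12) (c z8 (a z12 (b (d z13 (c (a (b z13 (d z13 (c z9 z13))) z13) z13)) (d (c (a z12 z13) z13) (c (a z12 z13) z13)))))) (d (c z8 z12) z8)) z9) z13) (c (a z8 z9) (a z12 z13)))) (b (d (c (a (b (d (c (a z8 z9) (a z8 z9)) (c (a z8 z9) (a z8 z9))) z8) z9) (a (b (d (c (a z12 z13) z13) (c (a (b (d z12 (c z8 z12)) (d z12 (c z8 z12))) z13) z13)) (d z12 (c (a z12 (b z13 (d z13 (c z9 z13)))) z12))) z13)) (c (a (b (d (c (a z8 z9) (a z8 z9)) (c (a z8 z9) (a z8 z9))) z8) z9) (a (b (d (c (a z8 z9) (a z12 z13)) (c (a z8 z9) (a z12 z13))) (d (c z8 z12) z8)) z13))) (d (c (a z8 z9) (a (b (d z12 (c (a z12 (b (d (c z9 z13) (c z9 z13)) (d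 (c z9 z13) (c z9 z13)))) z12)) (d z12 (c (a z12 (b (d (c z9 z13) (c z9 z13)) (d (c z8 z12) (c z8 z12)))) z12))) z13)) (c (a z8 z9) (a (b (d (c z8 z12) z8) (d (c z8 z12) z8)) (b z13 (d z13 z9))))))))) _ _ (by decide +kernel)

theorem okB117 : CKB ⟨4097, 6145, 3072, 4096⟩ ⟨6144, 9216, 4096, 5120⟩ :=
  ckB_sound z0 _ _ (by decide +kernel)

theorem okB118 : CKB ⟨6145, 8193, 3072, 3584⟩ ⟨6144, 7680, 4096, 4608⟩ :=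
  ckB_sound (b (d (a z0 z1) (a z0 z1)) (d (a z0 (c z1 (b z1 (d (a z0 z1) (a z0 z1))))) (a z0 (c z1 (b z1 (d (a z0 z1) (a z0 z1))))))) _ _ (by decide +kernel)

theorem okB119 : CKB ⟨6145, 8193, 3072, 3584⟩ ⟨7680, 9216, 4096, 4608⟩ :=
  ckB_sound (b (d (a (c z0 z4) (c z1 (b z5 (d z5 (a (b z5 (d z5 (c (a (b z5 (d z5 (c (a z4 z5) z5))) z5) z5))) z5))))) (a (c z0 (b (d (a z4 (b (d (c (a z4 (b (d (c z1 z5) (c z1 z5)) (d (c z1 z5) (c z1 z5)))) z4) (c z0 z4)) (d (c (a z4 (b (d z4 (c z0 z4)) (d z4 (c z0 z4)))) z4) (c z0 z4)))) z8) (d (a z4 (b (d (c (a z4 (b (d z4 (c z0 z4)) (d z4 (c z0 z4)))) z4) (c z0 z4)) (d z4 (c z0 z4)))) z8))) (c z1 (b (d (a (b z5 (d z5 (c z1 z5))) z5) z9) (d (a (b (d (c (a (b z5 (d z5 (c z1 z5))) z5) z5) (c z1 z5)) (d (c (a (b (d (c z1 z5) (c z1 z5)) (d (c z1 z5) (c z1 z5))) z5) z5) (c z1 z5)))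 z5) (a (b z9 (d (c z1 z13) (c z9 z13))) z9)))))) (d (a (c z0 z4) (c (b (d (a (c (b z1 (d (a z0 z1) (a z0 z1))) (b (d (a (c (b z1 z0) (b z5 z4)) z5) (a (c z1 (b (d (a z4 z5) (a z4 z5)) z4)) z1)) (d (a (c z0 z4) (c z1 z5)) (a z0 z1)))) z1) (a (c z1 (b (d (a (c z1 (b z1 z0)) z1) z1) (d (a z0 z1) (a z0 z1)))) z1)) (d (a (c z0 (b (d (a (c z0 z4) (c z1 z5)) (a z0 z1)) (d (a (c z0 z4) (c z1 z5)) z0))) z1) (a z0 z1))) (b (d z5 (a (b (d z5 (c (a (b (d (c (a z4 z5) z5) (c (a z4 z5) z5)) z4) z5) z5)) (d (c (a z4 z5) z5) (c (a z4 z5) z5))) z5)) (d (a z4 z5) (a (b (d z4 (c (a z4 z5) z4)) (d z4 (c (a z4 (b (d z5 (c (a z4 z5) z5)) (d (c (a z4 z5) z5) (c (a z4 z5) z5)))) z4))) z5))))) (a z0 (c (b (d (a (c z1 (b z1 (d (a z0 z1) (a z0 z1)))) z1) (a (c z1 (b z1 (d (a z0 z1) z1))) z1)) (d (a z0 z1) (a z0 z1))) (b (d (a (b (d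 (c (a (b (d (c z1 z5) (c z1 z5)) (d (c z0 z4) (c z0 z4))) z5) z5) (c (a (b (d (c z1 z5) z1) z0) z1) z5)) (d (c (a (b (d (c z0 z4) (c z0 z4)) (d z4 (c z0 z4))) z5) z5) (c (a z0 z1) z5))) z5) (a (b (d (c (a (b z1 z0) z1) z13) (c z9 (a (b (d z13 (c (a z12 z13) z13)) z12) z13))) (d (c (a z0 z1) (a z12 z13)) (c (a z8 z9) (a z12 z13)))) z9)) (d (a (b (d (c (a (b (d z4 (c z0 z4)) (d z4 (c z0 z4))) (b (d z5 (c z1 z5)) (d (c z1 z5) (c z1 z5)))) z4) (c (a z0 z1) z4)) (d (c (a (b (d z4 (c z0 z4)) z4) (b (d (c z1 z5) (c z1 z5)) (d (c (a z0 z1) z5) (c z1 z5)))) z4) (c z0 z4))) z5) (a (b (d (c z0 z12) (c z8 (a z12 z13))) (d (c z0 z12) (c z8 (a z12 (b (d z13 (c (a z12 z13) z13)) (d (c (a z12 z13) z13) (c (a z12 z13) z13))))))) z9))))))) _ _ (by decide +kernel)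

end Vale.Agent.Lib.P154Q5
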