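import Vale.Agent.Lib.P154Q5.CkBDefs

namespace Vale.Agent.Lib.P154Q5

set_option maxRecDepth 100000
set_option exponentiation.threshold 1000

open Tr

theorem okB1050 : CKB ⟨0, 3072, 5888, 6144⟩ ⟨13483, 14678, 6656, 6912⟩ :=
  ckB_sound (b (d z12 (a (c (b (d (a (c (b z12 z12) z12) z12) (a (c (b (d (a (c (b (d z12 (a (c z8 z12) (c z8 z12))) (d z12 (c z8 z12))) z12) (c (b z12 (d z12 (a (c z8 z12) z12))) z12)) (a (c (b (d (a (c z8 z12) z8) z8) (d (c z8 z12) z8)) z12) (c z8 z12))) (d (c (b (d z12 (a (c z8 z12) (c z8 z12))) (d z12 (c z8 z12))) z12) (c (b (d (a (c z8 z12) z8) z8) (d (c z8 z12) z8)) z12))) z12) (c (b (d z12 (a (c z8 z12) (c z8 z12))) (d z12 (a (c z8 z12) (c z8 z12)))) z12))) (d (c (b z12 z12) z12) (c (b (d (a (c (b (d z12 (a (c z8 z12) z12)) (d z12 (c z8 z12))) z12) z12) (a (c (b (d (a (c z8 z12) z8) z8) (d (c z8 z12) z8)) z12)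 (c z8 z12))) (d (c (b (d z12 (a (c z8 z12) z12)) (d z12 (a (c z8 z12) (c z8 z12)))) z12) (c (b (d (a (c z8 z12) z8) z8) z8) z12))) z12))) z12) (c (b (d z12 (a (c (b (d z12 (a (c z8 z12) z12)) (d z12 (a (c z8 z12) (c z8 z12)))) z12) z12)) (d z12 (a (c (b (d z12 (a (c z8 z12) (c z8 z12))) (d z12 (a (c z8 z12) (c z8 z12)))) z12) (c (b (d z12 (a (c z8 z12) z12)) (d z12 (a (c z8 z12) (c z8 z12)))) z12)))) z12))) (d z12 (c (b (d (a (c (b z12 z12) z12) z12) (a (c (b (d (a (c (b (d z12 (a (c z8 z12) z12)) (d z12 (c z8 z12))) z12) z12) (a (c (b z8 z8) z12) (c z8 z12))) (d (c (b (d z12 (a (c z8 z12) z12)) (d z12 (c z8 z12))) z12) (c (b z8 z8) z12))) z12) (c (b (d z12 (a (c z8 z12) (c z8 z12))) (d z12 (a (c z8 z12) (c z8 z12)))) z12))) (d (c (b z12 z12) z12) (c (b (d (a (c (b (d z12 (a (c z8 z12) z12)) (d z12 (c z8 z12))) z12) z12) (a (c (b z8 z8)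 z12) (c z8 z12))) (d (c (b (d z12 (a (c z8 z12) z12)) (d z12 (c z8 z12))) z12) (c (b z8 z8) z12))) z12))) z12))) _ _ (by decide +kernel)

theorem okB1051 : CKB ⟨0, 3072, 5888, 6144⟩ ⟨12288, 13483, 6912, 7168⟩ :=
  ckB_sound (b (d (a (c z8 (b z8 z8)) z8) z8) (d (c z8 (b z8 z8)) z8)) _ _ (by decide +kernel)

theorem okB1052 : CKB ⟨0, 3072, 5888, 6016⟩ ⟨13483, 14678, 6912, 7040⟩ :=
  ckB_sound (a (c (b (d (a (c (b (d (a (c z8 (b (d (a (c (b z12 z12) z12) z12) (a (c z8 z12) (c z8 z12))) (d (c (b z12 z12) z12) (c z8 z12)))) (c z8 (b (d z12 (a (c z8 z12) (c z8 z12))) (d z12 (a (c z8 z12) (c z8 z12)))))) (a (c z8 (b z8 z8)) z8)) (d (c z8 (b (d (a (c (b z12 z12) z12) z12) (a (c z8 z12) (c z8 z12))) (d (c (a (b z12 z12) z12) z12) (c z8 z12)))) (c z8 (b z8 z8)))) (b (d z12 (a (c (b z12 z12) z12) z12)) (d z12 (c (b z12 z12) z12)))) (c (b z8 (d (a (c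 z8 (b (d z12 (a (c z8 z12) z12)) (d z12 (a (c z8 z12) (c z8 z12))))) z8) z8)) z12)) (a (c (b z8 z8) (b (d (a (c (b (d (a (c z8 z12) (c z8 z12)) z8) (d (c z8 z12) z8)) z12) (c z8 z12)) (a (c (b z8 z8) (b (d z12 (a (c z8 z12) z12)) (d z12 (c z8 z12)))) (c z8 z12))) (d (c (b (d (a (c z8 z12) (c z8 z12)) z8) (d (c z8 z12) z8)) z12) (c z8 (b (d z12 (a (c z8 z12) z12)) (d z12 (c z8 z12))))))) (c z8 (b (d (a (c z8 z12) (c z8 z12)) (a (c z8 z12) z8)) (d (a (c z8 z12) (c z8 z12)) (a (c z8 z12) z8)))))) (d (c (b (d (a (c z8 (b (d (a (c (b z12 z12) z12) z12) (a (c z8 z12) (c z8 z12))) (d (c (a (b z12 z12) z12) z12) (c z8 z12)))) (c z8 (b (d z12 (a (c z8 z12) z12)) (d z12 (a (c z8 z12) (c z8 z12)))))) (a (c z8 (b z8 z8)) z8)) (d (c z8 (b (d (a (c (b z12 z12) z12) z12) (a (c z8 z12) (c z8 z12))) (d (a (c (b z12 z12) z12) z12) (a (c z8 z12) (c z8 z12)))))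 (c z8 (b z8 z8)))) (b (d z12 (a (c (b z12 z12) z12) z12)) (d z12 (c (b z12 z12) z12)))) (c (b z8 z8) (b (d (a (c (b (d (a (c z8 z12) (c z8 z12)) z8) (d (c z8 z12) z8)) z12) (c z8 z12)) (a (c z8 (b (d z12 (a (c z8 z12) z12)) (d z12 (c z8 z12)))) (c z8 z12))) (d (c (b (d (a (c z8 z12) z12) z8) (d (a (c z8 z12) (c z8 z12)) z8)) z12) (c z8 (b (d z12 (a (c z8 z12) z12)) (d z12 (a (c z8 z12) z12))))))))) (b z12 z12)) (c (b (d (a (c z8 z12) (c z8 z12)) (a (c z8 (b (d z12 z8) (d z12 z8))) z8)) (d (a (c z8 z12) (c z8 z12)) (a (c z8 (b (d (a (c z8 z12) z12) z8) (d (a (c z8 z12) (c z8 z12)) (a (c z8 z12) z8)))) (c z8 (b (d z12 z8) (d z12 z8)))))) z12)) _ _ (by decide +kernel)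

theorem okB1053 : CKB ⟨0, 3072, 5888, 6016⟩ ⟨13483, 14678, 7040, 7168⟩ :=
  ckB_sound (a (c (b (d (a (c z8 (b (d (a (c z8 (b (d (a (c z8 z12) z8) z8) (d (c z8 z12) z8))) z8) z8) (d (c z8 (b (d (a (c z8 z12) z8) z8) (d (c z8 z12) z8))) z8))) z8) z8) (d (c z8 (b (d (a (c z8 (b z8 z8)) z8) z8) (d (c z8 (b z8 z8)) z8))) z8)) (b (d (a (c (b (d z12 (a (c (b (d (a (c (b z12 z12) z12) z12) (a (c z8 z12) (c z8 z12))) (d (c (b z12 z12) z12) (c z8 z12))) z12) (c (b (d z12 (a (c z8 z12) z12)) (d z12 (a (c z8 z12) (c z8 z12)))) z12))) (d z12 (c (b (d (a (c (b z12 z12) z12) z12) (a (c z8 z12) (c z8 z12))) (d z12 (c z8 z12))) z12))) z12) (c (b z12 (d z12 (a (c (b (d z12 (a (c z8 z12) z12)) (d z12 (a (c z8 z12) z12))) z12) z12))) z12)) (a (c (b (d (a (c (b z8 z8) (b z12 z12)) (c z8 z12)) (a (c z8 (b (d (a (c z8 z12) (c z8 z12)) z8) (d (c z8 z12) z8)))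 z8)) (d (c (b z8 z8) (b z12 z12)) (c z8 (b (d (a (c z8 z12) z12) z8) (d (a (c z8 z12) (c z8 z12)) z8))))) (b z12 z12)) (c (b (d (a (c z8 z12) (c z8 z12)) z8) (d (a (c z8 z12) (c z8 z12)) z8)) z12))) (d (c (b (d z12 (a (c (b (d z12 (a (c z8 z12) (c z8 z12))) (d z12 (c z8 z12))) z12) (c (b z12 (d z12 (a (c z8 z12) z12))) z12))) (d z12 (c (b (d z12 (a (c z8 z12) (c z8 z12))) (d z12 (a (c z8 z12) (c z8 z12)))) z12))) z12) (c (b (d (a (c (b z8 z8) (b z12 z12)) (c z8 z12)) (a (c z8 (b (d (a (c z8 z12) z12) z8) z8)) z8)) (d (c z8 (b z12 z12)) (c z8 (b z8 z8)))) (b z12 z12))))) (c z8 (b (d z12 (a (c z8 z12) (c z8 z12))) (d (a (c (b z12 (d z12 (a (c (b z12 (d z12 (a (c z8 z12) z12))) z12) z12))) z12) z12) (a (c (b z8 (d (a (c z8 z12) (c z8 z12)) z8)) z12) (c z8 z12)))))) _ _ (by decide +kernel)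

theorem okB1054 : CKB ⟨0, 3072, 6016, 6144⟩ ⟨13483, 14678, 6912, 7168⟩ :=
  ckB_sound (d (c (b (d (a (c (b (d (a (c z8 (b (d z12 (a (c z8 z12) (c z8 z12))) (d z12 (c z8 z12)))) z8) (a (c z8 (b z8 z8)) z8)) (d (c z8 (b (d z12 (a (c z8 z12) (c z8 z12))) (d z12 (c z8 z12)))) (c z8 (b z8 z8)))) (b (d z12 (a (c (b z12 z12) z12) z12)) (d z12 (c (b z12 z12) z12)))) (c z8 z12)) (a (c (b z8 z8) (b (d (a (c (b (d (a (c z8 z12) z12) z8) (d (c z8 z12) z8)) z12) (c z8 z12)) (a (c z8 (b (d z12 (a (c z8 z12) z12)) (d z12 (c z8 z12)))) (c z8 z12))) (d (c (b (d (a (c z8 z12) z12) z8) (d (c z8 z12) z8)) z12) (c z8 (b (d z12 (a (c z8 z12) z12)) z12))))) (c z8 (b (d (a (c z8 z12) z12) z8) (d (a (c z8 z12) (c z8 z12)) (a (c z8 z12) z8)))))) (d (c (b (d (a (c z8 (b (d z12 (a (c z8 z12) (c z8 z12))) (d z12 (c z8 z12)))) z8) z8) (d (c z8 (b (d z12 (a (c z8 z12)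 z12)) (d z12 (c z8 z12)))) z8)) (b z12 z12)) (c (b z8 z8) (b (d (a (c (b (d (a (c z8 z12) z12) z8) z8) z12) (c z8 z12)) (a (c z8 (b z12 z12)) z8)) (d (c (b z8 z8) z12) (c z8 (b z12 z12))))))) (b z12 z12)) (c (b (d (a (c z8 (b (d (a (c z8 (b z8 z8)) z8) z8) (d (c z8 (b z8 z8)) z8))) z8) z8) (d (c z8 (b (d (a (c z8 (b z8 z8)) z8) z8) (d (c z8 (b z8 z8)) z8))) z8)) (b (d (a (c (b (d z12 (a (c (b (d z12 (a (c z8 z12) (c z8 z12))) (d z12 (c z8 z12))) z12) (c (b z12 (d z12 (a (c z8 z12) z12))) z12))) (d z12 (c (b (d z12 (a (c z8 z12) z12)) (d z12 (c z8 z12))) z12))) z12) z12) (a (c (b (d (a (c z8 (b z12 z12)) (c z8 z12)) (a (c z8 (b z8 z8)) z8)) (d (c z8 z12) (c z8 (b z8 z8)))) (b z12 z12)) (c (b z8 (d (a (c z8 z12) (c z8 z12)) z8)) z12))) (d (c (b (d z12 (a (c (b (d z12 (a (c z8 z12) z12)) (d z12 (c z8 z12))) z12) z12)) (d z12 (c (b (d z12 (a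 (c z8 z12) z12)) (d z12 (c z8 z12))) z12))) z12) (c (b (d (a (c z8 z12) (c z8 z12)) (a (c z8 (b z8 z8)) z8)) (d (c z8 z12) (c z8 (b z8 z8)))) z12))))) _ _ (by decide +kernel)

theorem okB1055 : CKB ⟨0, 3072, 5632, 6144⟩ ⟨14678, 17067, 6656, 7168⟩ :=
  ckB_sound (b (d z12 (a (c (b z12 z12) z12) z12)) (d z12 (c (b z12 z12) z12))) _ _ (by decide +kernel)

theorem okB1056 : CKB ⟨0, 3072, 5120, 6144⟩ ⟨17067, 24576, 6144, 7168⟩ :=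
  ckB_sound (b (d z12 (a (b z12 z12) z12)) (d (b z12 z12) (b (d z12 z12) (d z12 (c z12 (b z12 z12)))))) _ _ (by decide +kernel)

theorem okB1057 : CKB ⟨0, 1344, 5120, 5376⟩ ⟨12288, 13824, 7168, 7424⟩ :=
  ckB_sound z8 _ _ (by decide +kernel)

theorem okB1058 : CKB ⟨0, 1344, 5120, 5248⟩ ⟨13824, 15360, 7168, 7424⟩ :=
  ckB_sound (d (a (c (b (d (a (c z8 (b (d (a (c z8 z12) (c z8 z12)) z8) (d (c z8 z12) z8))) (c z8 (b z8 (d (a (c z8 z12) z8) z8)))) z8) (d (c z8 (a (b (d (c z8 z12) z8) (d (c z8 z12) (c z8 (b z8 z8)))) (b (d (c z8 z12) z8) (d (c z8 z12) z8)))) z8)) (b (d z12 (a (c (b (d z12 (a (c z8 z12) (c z8 z12))) (d z12 (c z8 z12))) z12) (c (b z12 (d z12 (a (c z8 z12) z12))) z12))) (d z12 (c (a (b (d z12 (c z8 z12)) (d z12 (c (b z8 z8) z12))) (b (d z12 (c z8 z12)) (d z12 (c z8 z12)))) z12)))) (c (b z8 (d (a (c z8 (b z8 (d (a (c z8 z12) z8)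 z8))) z8) z8)) (b z12 (d z12 (a (c (b z12 (d z12 (a (c z8 z12) z12))) z12) z12))))) (a (c z8 (b (d (a (c (b (d (a (c z8 z12) (c z8 z12)) z8) (d (c z8 z12) z8)) z12) (c (b z8 (d (a (c z8 z12) z8) z8)) z12)) (a (c z8 (b (d z12 (a (c z8 z12) (c z8 z12))) (d z12 (c z8 z12)))) (c z8 (b z12 (d z12 (a (c z8 z12) z12)))))) (d (c (a (b (d (c z8 z12) z8) (d (c z8 z12) z8)) (b (d (c z8 z12) z8) (d (c z8 z12) z8))) z12) (c z8 (a (b (d z12 (c z8 z12)) (d z12 (c z8 z12))) (b (d z12 (c z8 z12)) (d z12 (c z8 z12)))))))) (c z8 (b (d (a (c z8 z12) (c z8 z12)) (a (c z8 z12) (c z8 z12))) (d (a (c (b z8 (d (a (c z8 z12) z8) z8)) z12) (c z8 z12)) (a (c z8 (b z12 (d z12 (a (c z8 z12) z12)))) (c z8 z12))))))) _ _ (by decide +kernel)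

theorem okB1059 : CKB ⟨0, 1344, 5248, 5376⟩ ⟨13824, 15360, 7168, 7424⟩ :=
  ckB_sound (d (c (a (b (d (c z8 (a (b (d (c z8 z12) (c z8 (a (b z8 z8) z8))) (d (c z8 z12) (c z8 (b z8 z8)))) (b (d (c z8 z12) z8) (d (c z8 z12) z8)))) z8) (d (c z8 (b (d (c z8 z12) (c z8 (b z8 (d (c z8 z12) z8)))) (d (c z8 (b z12 z0)) (c z8 (b (d (c z8 z12) z8) z0))))) (c z8 (b z8 z8)))) (b (d (c z8 (a (b z8 (d (c z8 z12) z8)) z8)) z8) (d (c z8 (a (b (d (c z8 z12) z8) (d (c z8 z12) (c z8 (a (b z8 (d (c z8 z12) z8)) z8)))) (b (d (c z8 z12) z8) (d (c z8 z12) z8)))) z8))) (a (b (d z12 (c (a (b (d z12 (c (a (b z8 z8) z8) z12)) (d z12 (c (b z8 z8) z12))) (b (d z12 (c z8 z12)) (d z12 (c z8 z12)))) z12)) (d z12 (c (b (d z12 (c (b z8 z8) z12)) (d z12 (c (b (d (c z8 z12) z8) z0) z12))) z12))) (b (d z12 (c (a (b (d z12 (c z8 z12)) (d z12 (c z8 z12))) z12) z12)) (d z12 (c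 (a (b (d z12 (c z8 z12)) (d z12 (c (a (b z8 (d (c z8 z12) z8)) z8) z12))) (b (d z12 (c z8 z12)) (d z12 (c z8 z12)))) z12))))) (c z8 (a (b (d (c (a (b (d (c z8 z12) z8) (d (c z8 z12) (c z8 (b z8 z8)))) (b (d (c z8 z12) z8) (d (c z8 z12) z8))) z12) (c z8 (a (b (d z12 (c z8 z12)) (d z12 (c z8 z12))) (b (d z12 (c z8 z12)) (d z12 (c z8 z12)))))) (d (c (b (d (c z8 z12) (c z8 (b z8 z8))) (d (c z8 z12) (c z8 (b z8 z0)))) z12) (c z8 (b (d z12 (c z8 z12)) (d z12 (c (b z8 z0) z12)))))) (b (d (c (a (b z8 (d (c z8 z12) z8)) z8) z12) (c z8 (a (b z12 (d z12 (c z8 z12))) z12))) (d (c (a (b (d (c z8 z12) z8) (d (c z8 z12) (c z8 (a (b z8 z8) z8)))) (b (d (c z8 z12) z8) (d (c z8 z12) z8))) z12) (c z8 (a (b (d z12 (c z8 z12)) (d z12 (c z8 z12))) (b (d z12 (c z8 z12)) (d z12 (c z8 z12)))))))))) _ _ (by decide +kernel)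

theorem okB1060 : CKB ⟨1344, 1920, 5120, 5376⟩ ⟨12288, 15360, 7168, 7424⟩ :=
  ckB_sound (c z8 (b (d (a (c z8 z12) (c z8 z12)) (a (c z8 (b (d (a (c z8 z12) (c z8 z12)) z8) (d (a (c z8 z12) (c z8 z12)) (a (c z8 z12) z8)))) (c z8 (b (d z12 z8) (d (a (c z8 z12) z12) z8))))) (d (a (c (b z8 (d (a (c z8 (b z8 (d (a (c z8 z12) z8) z8))) z8) z8)) (b z12 (d z12 (a (c (b z12 (d z12 (a (c z8 z12) z12))) z12) z12)))) (c z8 z12)) (a (c z8 (b (d (a (c z8 z12) (c z8 z12)) (a (c z8 z12) (c z8 z12))) (d (a (c z8 z12) (c z8 z12)) (a (c z8 (b z12 (d z12 (a (c z8 z12) z12)))) (c z8 z12))))) (c z8 (b (d (a (c z8 z12) (c z8 z12)) z8) (d (a (c z8 z12) (c z8 z12)) (a (c z8 z12) z8)))))))) _ _ (by decide +kernel)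

theorem okB1061 : CKB ⟨0, 1920, 5120, 5376⟩ ⟨12288, 15360, 7424, 7680⟩ :=
  ckB_sound (a (c z8 (b (d (a (c z8 (b (d (a (c z8 (b (d (a (c z8 z12) z8) z8) (d (c z8 z12) z8))) z8) z8) (d (c z8 (a (b (d (c z8 z12) z8) (d (c z8 z12) z8)) (b z8 (d (c z8 z12) z8)))) z8))) z8) z8) (d (c z8 (a (b (d (c z8 (a (b (d (c z8 z12) z8) (d (c z8 z12) z8)) (b z8 (d (c z8 z12) z8)))) z8) (d (c z8 (b (d (c z8 z12) z8) (d (c z8 z12) z8))) z8)) (b z8 (d (c z8 (a (b (d (c z8 z12) z8) (d (c z8 z12) z8)) z8)) z8)))) z8))) z8) _ _ (by decide +kernel)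

theorem okB1062 : CKB ⟨0, 1920, 5376, 5632⟩ ⟨12288, 13824, 7168, 7424⟩ :=
  ckB_sound z8 _ _ (by decide +kernel)

theorem okB1063 : CKB ⟨0, 1560, 5376, 5504⟩ ⟨13824, 15360, 7168, 7296⟩ :=
  ckB_sound (c (a (b (d (c z8 (a (b (d (c z8 (a (b z12 z12) z12)) (c z8 (a (b (d (c z8 z12) z8) (d (c z8 z12) z8)) (b z8 (d (c z8 z12) z8))))) (d (c z8 (b z12 z0)) (c z8 (b (d (c z8 z12) z8) z0)))) (b (d (c z8 z12) z8) (d (c z8 z12) (c z8 (a (b z8 (d (c z8 z12) z8)) z8)))))) (c z8 (a (b z8 z8) z8))) (d (c z8 (b (d (c z8 (b z12 z12)) (c z8 (b (d (a (c z8 z12) (c z8 z12)) z8) (d (c z8 z12) z8)))) z0)) (c z8 (b z8 z0)))) (b (d (c z8 (a (b (d (c z8 z12) z8) (d (c z8 z12) z8)) (b z8 (d (c z8 z12) z8)))) z8) (d (c z8 (a (b (d (c z8 z12) (c z8 (a (b z8 (d (c z8 z12) z8)) z8))) (d (c z8 (b z12 z12)) (c z8 (b (d (a (c z8 z12) (c z8 z12)) z8) (d (c z8 z12) z8)))))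 (b (d (c z8 z12) z8) (d (c z8 z12) z8)))) z8))) (a (b (d z12 (c (a (b (d (c (a (b z12 z12) z12) z12) (c (a (b (d (c z8 z12) z8) (d (c z8 z12) z8)) z8) z12)) (d (c (b z12 z0) z12) (c (b (d (c z8 z12) z8) z0) z12))) (b (d z12 (c z8 z12)) (d z12 (c (a (b z8 (d (c z8 z12) z8)) z8) z12)))) z12)) (d z12 (c (b (d (c (b z12 z12) z12) (c (b (d (a (c z8 z12) (c z8 z12)) z8) (d (c z8 z12) z8)) z12)) z0) z12))) (b (d z12 (c (a (b (d z12 (c z8 z12)) (d z12 (c z8 z12))) (b z12 (d z12 (c z8 z12)))) z12)) (d z12 (c (a (b (d z12 (c z8 z12)) (d (c (b z12 z12) z12) (c (b (d (a (c z8 z12) (c z8 z12)) z8) (d (c z8 z12) z8)) z12))) (b (d z12 (c z8 z12)) (d z12 (c z8 z12)))) z12))))) _ _ (by decide +kernel)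

theorem okB1064 : CKB ⟨0, 1560, 5376, 5504⟩ ⟨13824, 15360, 7296, 7424⟩ :=
  ckB_sound (c z8 (a (b (d (c (a (b (d (c z8 z12) (c z8 (a (b z8 z8) z8))) (d (c z8 (b z12 z0)) (c z8 (b z8 z0)))) (b (d (c z8 z12) z8) (d (c z8 z12) (c z8 (a (b z8 (d (c z8 z12) z8)) z8))))) z12) (c z8 (a (b (d z12 (c (a (b z8 z8) z8) z12)) (d (c (b z12 z0) z12) (c (b z8 z0) z12))) (b (d z12 (c z8 z12)) (d z12 (c z8 z12)))))) (d (c (b (d (c z8 (b z12 z12)) (c z8 (b (d (a (c z8 z12) (c z8 z12)) z8) (d (c z8 z12) z8)))) z0) z12) (c (b z8 z0) (b (d (c (b z12 z12) z12) (c (b z8 z8) z12)) z0)))) (b (d (c (a (b (d (c z8 z12) z8) (d (c z8 z12) z8)) z8) z12) (c z8 (a (b (d z12 (c z8 z12)) (d z12 (c z8 z12))) (b z12 (d z12 (c z8 z12)))))) (d (c (a (b (d (c z8 z12) z8) (d (c z8 (b z12 z12)) (c z8 (b (d (a (c z8 z12) (c z8 z12)) z8) (d (c z8 z12) z8))))) (b (d (c z8 z12) z8)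 (d (c z8 z12) z8))) z12) (c z8 (a (b (d z12 (c z8 z12)) (d (c (b z12 z12) z12) (c (b z8 z8) z12))) (b (d z12 (c z8 z12)) (d z12 (c z8 z12))))))))) _ _ (by decide +kernel)

end Vale.Agent.Lib.P154Q5
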