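import Vale.Agent.Lib.P154Q5.CkBDefs

namespace Vale.Agent.Lib.P154Q5

set_option maxRecDepth 100000
set_option exponentiation.threshold 1000

open Tr

theorem okB1065 : CKB ⟨0, 1560, 5504, 5632⟩ ⟨13824, 15360, 7168, 7424⟩ :=
  ckB_sound (d (c (b (d (c z8 (b (d (c z8 (a (b z12 (d z12 (c (b z12 z12) z12))) z12)) (c z8 (a (b (d (c z8 z12) z8) (d (c z8 z12) z8)) (b z8 (d (c z8 z12) z8))))) (d (c z8 (b (d z12 (c (b z12 z12) z12)) (d z12 (c (b z12 z0) z12)))) (c z8 (b (d (c z8 z12) z8) (d (c z8 z12) z8)))))) (c z8 (b z8 z8))) z0) (b (d z12 (c (b (d (c (a (b z12 z12) z12) z12) (c (a (b (d (c z8 z12) z8) (d (c z8 z12) z8)) (b z8 (d (c z8 z12) z8))) z12)) (d (c (b z12 z12) z12) (c (b (d (c z8 z12) z8) (d (c z8 z12) z8)) z12))) z12)) z0)) (c (b z8 z0) (b (d (c (b (d (c z8 (a (b z12 z12) z12)) (c z8 (a (b (d (c z8 z12) z8) (d (c z8 z12) z8)) z8))) (d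 (c z8 (b z12 z12)) (c z8 (b (d (c z8 z12) z8) (d (c z8 z12) z8))))) z12) (c (b z8 z8) (b (d (c (a (b z12 z12) z12) z12) (c (a (b z8 z8) z8) z12)) (d (c (b z12 z12) z12) (c (b z8 z8) z12))))) z0))) _ _ (by decide +kernel)

theorem okB1066 : CKB ⟨1560, 1920, 5376, 5504⟩ ⟨13824, 15360, 7168, 7424⟩ :=
  ckB_sound (d (c (a (b z8 (d (c z8 (a (b (d (c z8 z12) z8) (d (c z8 z12) z8)) (b z8 (d (c z8 z12) z8)))) z8)) z8) (a (b z12 (d z12 (c (a (b (d z12 (c z8 z12)) (d z12 (c z8 z12))) (b z12 (d z12 (c z8 z12)))) z12))) z12)) (c z8 (a (b (d (c z8 z12) (c z8 z12)) (d (c (a (b z8 (d (c z8 z12) z8)) z8) z12) (c z8 (a (b z12 (d z12 (c z8 z12))) z12)))) (b (d (c z8 z12) (c z8 z12)) (d (c z8 z12) (c z8 z12)))))) _ _ (by decide +kernel)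

theorem okB1067 : CKB ⟨1560, 1920, 5504, 5632⟩ ⟨13824, 15360, 7168, 7424⟩ :=
  ckB_sound (d (c (a (b (d (c z8 (a (b (d (c z8 z12) z8) (d (c z8 z12) (c z8 (a (b z8 (d (c z8 z12) z8)) z8)))) (b (d (c z8 z12) z8) (d (c z8 z12) z8)))) z8) (d (c z8 (b (d (a (c z8 (b (d z12 (a (c (b z12 z12) z12) z12)) (d z12 (c (b z12 z12) z12)))) (c z8 z12)) (a (c z8 (b (d (a (c z8 z12) (c z8 z12)) z8) (d (c z8 z12) z8))) (c z8 (b z8 (d (a (c z8 z12) (c z8 z12)) z8))))) (d (c z8 (b (d z12 (a (c (b z12 z12) z12) z12)) (d z12 (c (a (b z12 z12) z12) z12)))) (c z8 (b (d (a (c z8 z12) (c z8 z12)) z8) (d (c z8 z12) z8)))))) (c z8 (b z8 z8)))) (b (d (c z8 (b z8 (d (a (c z8 z12) z8) z8))) z8) (d (c z8 (b (d (a (c z8 z12) (c z8 z12)) z8) (d (a (c z8 z12) (c z8 z12)) z8))) z8))) (a (b (d z12 (c (a (b (d z12 (c z8 z12)) (d z12 (c (a (b z8 (d (c z8 z12) z8)) z8) z12)))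 (b (d z12 (c z8 z12)) (d z12 (c z8 z12)))) z12)) (d z12 (c (b (d (a (c (b z12 z12) z12) z12) (a (c (b (d (a (c z8 z12) (c z8 z12)) z8) (d (c z8 z12) z8)) z12) (c z8 z12))) (d (c (b z12 z12) z12) (c (b (d (a (c z8 z12) (c z8 z12)) z8) (d (c z8 z12) z8)) z12))) z12))) (b (d z12 (c (b z12 (d z12 (a (c z8 z12) z12))) z12)) (d z12 (c (b (d z12 (a (c z8 z12) (c z8 z12))) (d z12 (a (c z8 z12) (c z8 z12)))) z12))))) (c z8 (a (b (d (c (a (b (d (c z8 z12) z8) (d (c z8 z12) (c z8 (a (b z8 (d (c z8 z12) z8)) z8)))) (b (d (c z8 z12) z8) (d (c z8 z12) z8))) z12) (c z8 (a (b (d z12 (c z8 z12)) (d z12 (c z8 z12))) (b (d z12 (c z8 z12)) (d z12 (c z8 z12)))))) (d (c (b (d (a (c z8 (b z12 z12)) (c z8 z12)) (a (c z8 (b (d (a (c z8 z12) (c z8 z12)) z8) (d (c z8 z12) z8))) z8)) (d (c z8 (b z12 z12)) (c z8 (b (d (a (c z8 z12) (c z8 z12)) z8) (d (c z8 z12) z8)))))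 z12) (c (b z8 z8) (b (d (a (c (b z12 z12) z12) z12) (a (c (b z8 z8) z12) (c z8 z12))) (d (c (b z12 z12) z12) (c (b z8 z8) z12)))))) (b (d (c (b z8 (d (a (c z8 z12) z8) z8)) z12) (c z8 (b z12 (d z12 (a (c z8 z12) z12))))) (d (c (b (d (a (c z8 z12) z8) z8) (d (a (c z8 z12) (c z8 z12)) z8)) z12) (c z8 (b (d z12 (a (c z8 z12) (c z8 z12))) (d z12 (a (c z8 z12) (c z8 z12)))))))))) _ _ (by decide +kernel)

theorem okB1068 : CKB ⟨0, 1920, 5376, 5632⟩ ⟨12288, 15360, 7424, 7680⟩ :=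
  ckB_sound (c z8 (a (b (d (c z8 (a (b (d (c z8 (a (b (d (c z8 z12) z8) (d (c z8 (b z12 z0)) z8)) (b (d (c z8 z12) z8) (d (c z8 z12) z8)))) z8) (d (c z8 (b (d (c z8 (b z12 z12)) z8) z0)) z8)) (b z8 (d (c z8 (a (b (d (c z8 z12) z8) (d (c z8 (b z12 z12)) z8)) (b z8 (d (c z8 z12) z8)))) z8)))) z8) (d (c z8 (b (d (c z8 (b (d (c z8 (a (b z12 z12) z12)) z8) (d (c z8 (b z12 z12)) z8))) z8) z0)) z8)) (b z8 (d (c z8 (a (b (d (c z8 (a (b (d (c z8 z12) z8) (d (c z8 z12) z8)) z8)) z8) (d (c z8 (b (d (a (c z8 (b z12 z12)) (c z8 z12)) z8) (d (c z8 (b z12 z12)) z8))) z8)) (b z8 (d (c z8 (b z8 (d (a (c z8 z12) z8) z8))) z8)))) z8)))) _ _ (by decide +kernel)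

theorem okB1069 : CKB ⟨0, 1920, 5120, 5376⟩ ⟨15360, 18432, 7168, 7680⟩ :=
  ckB_sound (d z12 (a (c (b (d (a (c (b (d z12 (a (c (b (d z12 (a (c z8 z12) (c z8 z12))) (d z12 (c z8 z12))) z12) (c (b z12 (d z12 (a (c z8 z12) z12))) z12))) (d z12 (c (a (b (d z12 (c z8 z12)) (d z12 (c z8 z12))) (b (d z12 (c z8 z12)) (d z12 (c z8 z12)))) z12))) z12) (c (b z12 (d z12 (a (c (b z12 (d z12 (a (c z8 z12) z12))) z12) z12))) z12)) (a (c (b (d (a (c (b z8 z8) z12) (c z8 z12)) (a (c z8 (b (d z12 (a (c z8 z12) (c z8 z12))) (d z12 (a (c z8 z12) (c z8 z12))))) (c z8 (b (d z12 (a (c z8 z12) z12)) (d z12 (a (c z8 z12) z12)))))) (d (c (a (b z8 z8) z8) z12) (c z8 (a (b (d z12 (c z8 z12)) (d z12 (c z8 z12))) (b (d z12 (c z8 z12)) (d z12 (c z8 z12))))))) z12) (c (b (d (a (c z8 z12) (c z8 z12)) z8) (d (a (c z8 z12) (c z8 z12)) (a (c z8 (b z12 (d z12 (a (c z8 z12)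 z12)))) z8))) z12))) (d (c (a (b (d z12 (c (a (b (d z12 (c z8 z12)) (d z12 (c z8 z12))) (b (d z12 (c z8 z12)) (d z12 (c z8 z12)))) z12)) (d z12 (c (b (d z12 (c z8 z12)) (d z12 (c z8 z12))) z12))) (b (d z12 (c (a (b z12 (d z12 (c z8 z12))) z12) z12)) (d z12 (c (a (b (d z12 (c z8 z12)) (d z12 (c z8 z12))) (b (d z12 (c z8 z12)) (d z12 (c z8 z12)))) z12)))) z12) (c (a (b (d (c (a (b (d (c z8 z12) z8) (d (c z8 z12) z8)) z8) z12) (c z8 (a (b (d z12 (c z8 z12)) (d z12 (c z8 z12))) (b (d z12 (c z8 z12)) (d z12 (c z8 z12)))))) (d (c (b (d (c z8 z12) z8) (d (c z8 z12) z8)) z12) (c z8 (b (d z12 (c z8 z12)) (d (c (b z12 z0) z12) (c z8 z12)))))) (b (d (c z8 z12) (c z8 (a (b (d z12 (c z8 z12)) (d z12 (c z8 z12))) z12))) (d (c z8 z12) (c z8 (a (b (d z12 (c z8 z12)) (d z12 (c z8 z12))) (b (d z12 (c z8 z12)) (d z12 (c z8 z12)))))))) z12))) z12) (c (b (d z12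 (a (c (b (d (a (c z8 z12) (c z8 z12)) z8) (d (a (c z8 z12) (c z8 z12)) z8)) z12) (c (b z8 (d (a (c z8 z12) z12) z8)) z12))) (d z12 (a (c (b (d (a (c z8 z12) (c z8 z12)) z8) (d (a (c z8 z12) (c z8 z12)) (a (c z8 (b z12 (d z12 (a (c z8 z12) z12)))) z8))) z12) (c (b (d (a (c z8 z12) (c z8 z12)) z8) (d (a (c z8 z12) (c z8 z12)) z8)) z12)))) z12))) _ _ (by decide +kernel)

theorem okB1070 : CKB ⟨0, 1920, 5376, 5632⟩ ⟨15360, 18432, 7168, 7424⟩ :=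
  ckB_sound (c (a (b z12 z12) z12) z12) _ _ (by decide +kernel)

theorem okB1071 : CKB ⟨0, 1560, 5376, 5632⟩ ⟨15360, 16896, 7424, 7680⟩ :=
  ckB_sound (b (d (c (a (b (d z12 (c (a (b (d z12 (c z8 z12)) (d (c (b z12 z0) z12) (c z8 z12))) (b (d z12 (c z8 z12)) (d z12 (c z8 z12)))) z12)) (d z12 (c (b (d (c (b z12 z12) z12) (c z8 z12)) z0) z12))) (b (d z12 (c (a (b (d z12 (c z8 z12)) (d z12 (c z8 z12))) (b z12 (d z12 (c z8 z12)))) z12)) (d z12 (c (a (b (d z12 (c z8 z12)) (d (c (b z12 z12) z12) (c z8 z12))) (b (d z12 (c z8 z12)) (d z12 (c z8 z12)))) z12)))) z12) (c (a (b (d (c (a (b (d (c z8 z12) z8) (d (c z8 (b z12 z0)) z8)) z8) z12) (c z8 (a (b (d (c (a (b z12 z12) z12) z12) (c z8 z12)) (d (c (b z12 z0) z12) (c z8 z12))) (b (d z12 (c z8 z12)) (d z12 (c z8 z12)))))) (d (c (b (d (c z8 (b z12 z12)) z8) z0) z12) (c z8 (b (d (c (b z12 z12) z12) (c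 z8 z12)) z0)))) (b (d (c z8 z12) (c z8 (a (b (d z12 (c z8 z12)) (d z12 (c z8 z12))) (b z12 (d z12 (c z8 z12)))))) (d (c (a (b z8 (d (c z8 (b z12 z12)) z8)) z8) z12) (c z8 (a (b (d z12 (c z8 z12)) (d (c (b z12 z12) z12) (c z8 z12))) (b (d z12 (c z8 z12)) (d z12 (c z8 z12)))))))) z12)) (d (c (b (d z12 (c (b (d (c (a (b z12 z12) z12) z12) (c z8 z12)) (d (c (b z12 z12) z12) (c z8 z12))) z12)) z0) z12) (c (b (d (c (b (d (c z8 (a (b z12 z12) z12)) z8) (d (c z8 (b z12 z12)) z8)) z12) (c z8 (b (d (a (c (b z12 z12) z12) z12) (a (c z8 z12) (c z8 z12))) (d (c (b z12 z12) z12) (c z8 z12))))) z0) z12))) _ _ (by decide +kernel)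

theorem okB1072 : CKB ⟨1560, 1920, 5376, 5632⟩ ⟨15360, 16896, 7424, 7680⟩ :=
  ckB_sound (b (d (c (a (b z12 (d z12 (c (a (b z12 (d z12 (c z8 z12))) z12) z12))) z12) z12) (c (a (b (d (c z8 z12) z8) (d (c z8 z12) (c z8 (a (b z12 (d z12 (c z8 z12))) z12)))) (b (d (c z8 z12) z8) (d (c z8 z12) z8))) z12)) (d (c (a (b (d z12 (c (a (b (d z12 (c z8 z12)) (d z12 (c z8 z12))) (b (d z12 (c z8 z12)) (d z12 (c z8 z12)))) z12)) (d z12 (c (b (d (a (c (b z12 z12) z12) z12) (a (c z8 z12) (c z8 z12))) (d (c (b z12 z12) z12) (c z8 z12))) z12))) (b (d z12 (c (b z12 (d z12 (a (c z8 z12) z12))) z12)) (d z12 (c (b (d z12 (a (c z8 z12) z12)) (d z12 (a (c z8 z12) (c z8 z12)))) z12)))) z12) (c (a (b (d (c z8 z12) (c z8 (a (b (d z12 (c z8 z12)) (d z12 (c z8 z12))) (b (d z12 (c z8 z12)) (d z12 (c z8 z12)))))) (d (c (b (d (a (c z8 (b z12 z12)) z8) z8) (d (c z8 (b z12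 z12)) z8)) z12) (c z8 (b (d (a (c (b z12 z12) z12) z12) (a (c z8 z12) (c z8 z12))) (d (c (b z12 z12) z12) (c z8 z12)))))) (b (d (c z8 z12) (c z8 z12)) (d (c z8 z12) (c z8 (b (d z12 (a (c z8 z12) z12)) (d z12 (a (c z8 z12) (c z8 z12)))))))) z12))) _ _ (by decide +kernel)

theorem okB1073 : CKB ⟨0, 1920, 5376, 5632⟩ ⟨16896, 18432, 7424, 7680⟩ :=
  ckB_sound z12 _ _ (by decide +kernel)

theorem okB1074 : CKB ⟨1920, 3072, 5120, 5632⟩ ⟨12288, 18432, 7168, 7680⟩ :=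
  ckB_sound (c (b (d (a (c z8 (b (d (a (c z8 z12) (c z8 z12)) z8) (d (a (c z8 z12) (c z8 z12)) (a (c z8 (b (d z12 z8) (d (a (c z8 z12) z12) z8))) z8)))) (c z8 (b (d (a (c z8 z12) (c z8 z12)) z8) (d (a (c z8 z12) (c z8 z12)) z8)))) z8) (d (a (c z8 (b (d (a (c z8 z12) (c z8 z12)) (a (c z8 (b (d (a (c z8 z12) (c z8 z12)) z8) (d (a (c z8 z12) (c z8 z12)) (a (c z8 z12) z8)))) (c z8 (b (d z12 z8) (d (a (c z8 z12) z12) z8))))) (d (a (c (b z8 (d (a (c z8 (b z8 (d (a (c z8 z12) z8) z8))) z8) z8)) (b z12 (d z12 (a (c (b z12 (d z12 (a (c z8 z12) z12))) z12) z12)))) (c z8 z12)) (a (c z8 (b (d (a (c z8 z12) (c z8 z12)) (a (c z8 z12) (c z8 z12))) (d (a (c z8 z12) (c z8 z12)) (a (c z8 z12) (c z8 z12))))) (c z8 (b (d (a (c z8 z12) (c z8 z12)) z8) (d (a (c z8 z12) (c z8 z12)) (a (c z8 z12) z8)))))))) (c z8 (b (d (a (c z8 z12) (c z8 z12)) z8) (d (a (c z8 z12)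 (c z8 z12)) (a (c z8 (b (d z12 z8) (d (a (c z8 z12) z12) z8))) z8))))) z8)) (b (d z12 (a (c (b (d z12 (a (c z8 z12) (c z8 z12))) (d z12 (a (c z8 z12) (c z8 z12)))) z12) (c (b z12 (d z12 (a (c z8 z12) z12))) z12))) (d z12 (a (c (b (d z12 (a (c (b (d (a (c z8 z12) (c z8 z12)) z8) (d (a (c z8 z12) (c z8 z12)) z8)) z12) (c z8 z12))) (d z12 (a (c (b (d (a (c z8 z12) (c z8 z12)) z8) (d (a (c z8 z12) (c z8 z12)) z8)) z12) (c (b (d (a (c z8 z12) z12) z8) (d (a (c z8 z12) (c z8 z12)) z8)) z12)))) z12) (c (b (d z12 (a (c z8 z12) (c z8 z12))) (d z12 (a (c z8 z12) (c z8 z12)))) z12))))) _ _ (by decide +kernel)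

theorem okB1075 : CKB ⟨0, 1920, 5120, 5632⟩ ⟨12288, 15360, 7680, 8192⟩ :=
  ckB_sound (b z8 z8) _ _ (by decide +kernel)

theorem okB1076 : CKB ⟨0, 1920, 5120, 5376⟩ ⟨15360, 18432, 7680, 8192⟩ :=
  ckB_sound (d (a (c (b (d (a (c (b z8 z8) (b (d z12 (a (c (b (d z12 z8) (d z12 z8)) z12) (c z8 z12))) (d z12 (a (c (b (d z12 z8) (d z12 z8)) z12) (c z8 z12))))) (c z8 (b z12 (d z12 (a (c z8 z12) z12))))) (a (c z8 (b (d (a (c z8 z12) (c z8 z12)) z8) (d (a (c z8 z12) (c z8 z12)) z8))) (c z8 (b (d (a (c z8 z12) z8) z8) (d (a (c z8 z12) z8) z8))))) (d (c (a (b z8 z8) z8) (a (b (d z12 (c (a (b (d (c z8 z12) z8) (d (c z8 z12) z8)) (b z8 (d z12 z8))) z12)) (d z12 (c (b (d (c z8 z12) z8) (d (c z8 z12) z8)) z12))) (b (d z12 (c z8 z12)) (d z12 (c (a (b z8 (d z12 z8)) z8) z12))))) (c z8 (a (b (d (c z8 z12) z8) (d (c z8 z12) z8)) (b (d (c z8 z12) z8) (d (c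 z8 z12) z8)))))) (b z12 z12)) (c (b (d (a (c z8 z12) (c z8 z12)) z8) (d (a (c z8 (b z12 (d z12 (a (c z8 z12) z12)))) (c z8 z12)) (a (c z8 (b z8 (d (a (c z8 z12) z8) z8))) z8))) z12)) (a (c (b z8 z8) (b (d (a (c (b (d z12 (a (c z8 z12) (c z8 z12))) (d z12 (a (c z8 z12) (c z8 z12)))) z12) (c (b (d z12 (a (c z8 z12) z12)) (d z12 (a (c z8 z12) z12))) z12)) (a (c (b z8 z8) z12) (c z8 z12))) (d (a (c (b (d z12 (a (c z8 z12) (c z8 z12))) (d z12 (c z8 z12))) z12) (c (b (d z12 (c z8 z12)) (d z12 (c z8 z12))) z12)) (a (c (b z8 z8) z12) (c z8 z12))))) (c z8 (b (d z12 (a (c z8 z12) (c z8 z12))) (d (a (c (b z12 (d z12 (a (c z8 z12) z12))) z12) z12) (a (c z8 z12) (c z8 z12))))))) _ _ (by decide +kernel)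

theorem okB1077 : CKB ⟨0, 1920, 5376, 5632⟩ ⟨15360, 18432, 7680, 8192⟩ :=
  ckB_sound (d (c (a (b (d (c (a (b (d (c z8 (a (b z8 z8) z8)) z8) (d (c z8 (b z8 z0)) z8)) z8) (a (b (d z12 (c (a (b (d (c z8 z12) z8) (d (c z8 z12) z8)) (b z8 (d z12 z8))) z12)) (d z12 (c (b (d (c z8 z12) z8) z0) z12))) (b (d z12 (c z8 z12)) (d z12 (c (a (b z8 (d (c z8 z12) z8)) z8) z12))))) (c z8 (a (b (d (c z8 z12) z8) (d (c z8 z12) z8)) (b (d (c z8 z12) z8) (d (c z8 z12) z8))))) (d (c (b (d (c z8 (b z8 z8)) z8) z0) (b (d z12 (c (b (d (a (c z8 z12) z12) z8) (d (c z8 z12) z8)) z12)) z0)) (c z8 (b (d (c z8 z12) z8) z0)))) (b (d (c z8 (a (b z12 (d z12 (c z8 z12))) z12)) (c z8 (a (b z8 (d (c z8 z12) z8)) z8))) (d (c (a (b z8 (d (c z8 (b z8 z8)) z8)) z8) (a (b (d z12 (c (a (b z8 (d z12 z8)) z8) z12)) (d z12 (c (b (d (a (c z8 z12) z12) z8) (d (c z8 z12) z8)) z12))) (b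 z12 (d z12 (c z8 z12))))) (c z8 (a (b (d (c z8 z12) z8) (d (c z8 z12) z8)) (b (d (c z8 z12) z8) (d (c z8 z12) z8))))))) (a (b z12 z12) z12)) (c (a (b z8 z8) z8) (a (b (d (c (a (b (d z12 (c z8 z12)) (d z12 (c z8 z12))) (b (d z12 (c z8 z12)) (d z12 (c z8 z12)))) z12) (c (a (b z8 z8) z8) z12)) (d (c (b (d z12 (c z8 z12)) z0) z12) (c (b z8 z0) z12))) (b (d (c (a (b z12 (d z12 (c z8 z12))) z12) z12) (c z8 z12)) (d (c (a (b (d z12 (c z8 z12)) (d z12 (c z8 z12))) (b z12 (d z12 (c z8 z12)))) z12) (c z8 z12)))))) _ _ (by decide +kernel)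

theorem okB1078 : CKB ⟨1920, 3072, 5120, 5632⟩ ⟨12288, 18432, 7680, 8192⟩ :=
  ckB_sound (c z8 (b (d (a (c (b (d (a (c z8 z12) (c z8 z12)) z8) (d (a (c z8 z12) (c z8 z12)) z8)) z12) (c z8 z12)) (a (c z8 (b (d z12 (a (c z8 z12) (c z8 z12))) (d z12 (a (c z8 z12) (c z8 z12))))) (c z8 (b z12 (d z12 (a (c z8 z12) z12)))))) (d (a (c (b (d (a (c z8 z12) (c z8 z12)) z8) (d (a (c z8 z12) (c z8 z12)) z8)) z12) (c (b (d (a (c z8 z12) z8) z8) (d (a (c z8 z12) (c z8 z12)) z8)) z12)) (a (c z8 (b (d z12 (a (c z8 z12) (c z8 z12))) (d z12 (a (c z8 z12) (c z8 z12))))) (c z8 (b (d z12 (a (c z8 z12) z12)) (d z12 (a (c z8 z12) (c z8 z12))))))))) _ _ (by decide +kernel)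

theorem okB1079 : CKB ⟨0, 2400, 5632, 5888⟩ ⟨12288, 13824, 7168, 7424⟩ :=
  ckB_sound (b z8 z8) _ _ (by decide +kernel)

end Vale.Agent.Lib.P154Q5
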