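import Vale.Agent.Lib.P154Q5.CkBDefs

namespace Vale.Agent.Lib.P154Q5

set_option maxRecDepth 100000
set_option exponentiation.threshold 1000

open Tr

theorem okB1080 : CKB ⟨0, 2400, 5632, 5760⟩ ⟨13824, 15360, 7168, 7296⟩ :=
  ckB_sound (a (c (b (d (a (c z8 (b (d (a (c z8 (b (d z12 (a (c (b z12 z12) z12) z12)) (d z12 (c (a (b z12 z12) z12) z12)))) (c z8 z12)) (a (c z8 (b (d (a (c z8 z12) (c z8 z12)) z8) (d (c z8 z12) z8))) z8)) (d (c z8 (a (b (d z12 (c (a (b z12 z12) z12) z12)) (d z12 (c (b z12 z0) z12))) (b z12 (d z12 (c (a (b z12 z12) z12) z12))))) (c z8 (a (b (d (c z8 z12) z8) (d (c z8 z12) z8)) (b z8 (d (c z8 z12) z8))))))) (c z8 (b (d (a (c z8 z12) (c z8 z12)) z8) (d (a (c z8 z12) (c z8 z12)) z8)))) (a (c z8 (b z8 z8)) z8)) (d (c z8 (a (b (d (c z8 (a (b (d z12 (c (a (b z12 z12) z12) z12)) (d z12 (c (b z12 z0) z12))) (b z12 (d z12 (c (a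 (b z12 z12) z12) z12))))) (c z8 (a (b (d (c z8 z12) z8) (d (c z8 z12) z8)) (b z8 (d (c z8 z12) z8))))) (d (c z8 (b (d z12 (c (b z12 z12) z12)) z0)) (c z8 (b (d (c z8 z12) z8) z0)))) (b (d (c z8 z12) z8) (d (c z8 (a (b z12 (d z12 (c (b z12 z12) z12))) z12)) (c z8 (a (b (d (c z8 z12) z8) (d (c z8 z12) z8)) (b z8 (d (c z8 z12) z8)))))))) (c z8 (a (b z8 z8) z8)))) (b (d z12 (a (c (b (d (a (c (b z12 z12) z12) z12) (a (c (b (d (a (c z8 z12) (c z8 z12)) z8) (d (c z8 z12) z8)) z12) (c z8 z12))) (d (c (a (b z12 z12) z12) z12) (c (a (b (d (c z8 z12) z8) (d (c z8 z12) z8)) (b z8 (d (c z8 z12) z8))) z12))) z12) (c (b (d z12 (a (c z8 z12) (c z8 z12))) (d z12 (a (c z8 z12) (c z8 z12)))) z12))) (d z12 (c (a (b (d (c (a (b z12 z12) z12) z12) (c (a (b (d (c z8 z12) z8) (d (c z8 z12) z8)) (b z8 (d (c z8 z12) z8))) z12)) (d (c (b z12 z0) z12) (c (b (d (c z8 z12)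 z8) z0) z12))) (b (d z12 (c z8 z12)) (d (c (a (b z12 z12) z12) z12) (c (a (b (d (c z8 z12) z8) (d (c z8 z12) z8)) z8) z12)))) z12)))) (c (b (d (a (c z8 (b z8 (d (a (c z8 z12) z8) z8))) z8) z8) (d (a (c z8 (b (d (a (c z8 z12) (c z8 z12)) z8) (d (a (c z8 z12) (c z8 z12)) z8))) z8) z8)) (b (d z12 (a (c (b z12 (d z12 (a (c z8 z12) z12))) z12) z12)) (d z12 (a (c (b (d z12 (a (c z8 z12) (c z8 z12))) (d z12 (a (c z8 z12) (c z8 z12)))) z12) (c (b z12 (d z12 (a (c z8 z12) z12))) z12)))))) _ _ (by decide +kernel)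

theorem okB1081 : CKB ⟨0, 2400, 5632, 5760⟩ ⟨13824, 15360, 7296, 7424⟩ :=
  ckB_sound (a (c (b z8 z8) (b (d (a (c (b (d (a (c z8 (b z12 z12)) (c z8 z12)) (a (c z8 (b (d (a (c z8 z12) (c z8 z12)) z8) (d (c z8 z12) z8))) z8)) (d (c z8 (a (b z12 z12) z12)) (c z8 (a (b (d (c z8 z12) z8) (d (c z8 z12) z8)) (b z8 (d (c z8 z12) z8)))))) z12) (c (b (d (a (c z8 z12) z8) z8) (d (a (c z8 z12) (c z8 z12)) z8)) z12)) (a (c (b z8 z8) (b (d (a (c (b z12 z12) z12) z12) (a (c (b z8 z8) z12) (c z8 z12))) (d (c (a (b z12 z12) z12) z12) (c (a (b z8 z8) z8) z12)))) (c z8 (b (d z12 (a (c z8 z12) z12)) (d z12 (a (c z8 z12) (c z8 z12))))))) (d (c (a (b (d (c z8 (a (b z12 z12) z12)) (c z8 (a (b (d (c z8 z12) z8) (d (c z8 z12) z8)) z8))) (d (c z8 (b z12 z0)) (c z8 (b (d (c z8 z12) z8) z0)))) (b (d (c z8 z12) z8) (d (c z8 (a (b z12 z12) z12)) (c z8 (a (b z8 (d (c z8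 z12) z8)) z8))))) z12) (c (a (b z8 z8) z8) (a (b (d (c (a (b z12 z12) z12) z12) (c (a (b z8 z8) z8) z12)) (d (c (b z12 z0) z12) (c (b z8 z0) z12))) (b (d z12 (c z8 z12)) (d z12 (c (a (b z8 z8) z8) z12)))))))) (c z8 (b (d (a (c z8 z12) (c z8 z12)) (a (c z8 z12) (c z8 z12))) (d (a (c (b (d (a (c z8 z12) z8) z8) (d (a (c z8 z12) (c z8 z12)) z8)) z12) (c z8 z12)) (a (c z8 (b (d z12 (a (c z8 z12) z12)) (d z12 (a (c z8 z12) (c z8 z12))))) (c z8 z12)))))) _ _ (by decide +kernel)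

theorem okB1082 : CKB ⟨0, 2400, 5760, 5888⟩ ⟨13824, 15360, 7168, 7296⟩ :=
  ckB_sound (c (b (d (a (c z8 (b (d (a (c z8 (b (d z12 (a (c (a (b z12 z12) z12) z12) z12)) (d z12 (c (a (b z12 z12) z12) z12)))) (c z8 z12)) (a (c z8 (b (d (a (c z8 z12) (c z8 z12)) z8) (d (c z8 z12) z8))) z8)) (d (c z8 (a (b (d z12 (c (a (b z12 z12) z12) z12)) (d z12 (c (b z12 z0) z12))) z12)) (c z8 (a (b (d (c z8 z12) z8) (d (c z8 z12) z8)) (b z8 (d (c z8 z12) z8))))))) (c z8 (b (d (a (c z8 z12) z8) z8) (d (a (c z8 z12) (c z8 z12)) z8)))) (a (c z8 (b z8 z8)) z8)) (d (c z8 (a (b (d (c z8 (a (b (d z12 (c (a (b z12 z12) z12) z12)) (d z12 (c (b z12 z0) z12))) z12)) (c z8 (a (b (d (c z8 z12) z8) (d (c z8 z12) z8)) (b z8 (d (c z8 z12) z8))))) (d (c z8 (b (d z12 (c (b z12 z12) z12)) z0)) (c z8 (b (d (c z8 z12) z8) z0)))) (b (d (c z8 z12) z8) (d (c z8 (a (b z12 (d z12 (c (b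 z12 z12) z12))) z12)) (c z8 (a (b (d (c z8 z12) z8) (d (c z8 z12) z8)) z8)))))) (c z8 (a (b z8 z8) z8)))) (b (d z12 (a (c (b (d (a (c (b z12 z12) z12) z12) (a (c (b (d (a (c z8 z12) (c z8 z12)) z8) (d (c z8 z12) z8)) z12) (c z8 z12))) (d (c (a (b z12 z12) z12) z12) (c (a (b (d (c z8 z12) z8) (d (c z8 z12) z8)) (b z8 (d (c z8 z12) z8))) z12))) z12) (c (b (d z12 (a (c z8 z12) z12)) (d z12 (a (c z8 z12) (c z8 z12)))) z12))) (d z12 (c (a (b (d (c (a (b z12 z12) z12) z12) (c (a (b (d (c z8 z12) z8) (d (c z8 z12) z8)) (b z8 (d (c z8 z12) z8))) z12)) (d (c (b z12 z0) z12) (c (b (d (c z8 z12) z8) z0) z12))) (b (d z12 (c z8 z12)) (d (c (a (b z12 z12) z12) z12) (c (a (b z8 (d (c z8 z12) z8)) z8) z12)))) z12)))) _ _ (by decide +kernel)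

theorem okB1083 : CKB ⟨0, 2400, 5760, 5888⟩ ⟨13824, 15360, 7296, 7424⟩ :=
  ckB_sound (c (b z8 z8) (b (d (a (c (b (d (a (c z8 (b z12 z12)) (c z8 z12)) (a (c z8 (b (d (a (c z8 z12) (c z8 z12)) z8) (d (c z8 z12) z8))) z8)) (d (c z8 (a (b z12 z12) z12)) (c z8 (a (b (d (c z8 z12) z8) (d (c z8 z12) z8)) z8)))) z12) (c (b (d (a (c z8 z12) z8) z8) (d (a (c z8 z12) z8) z8)) z12)) (a (c (b z8 z8) (b (d (a (c (b z12 z12) z12) z12) (a (c (b z8 z8) z12) (c z8 z12))) (d (c (a (b z12 z12) z12) z12) (c (a (b z8 z8) z8) z12)))) (c z8 (b (d z12 (a (c z8 z12) z12)) (d z12 (a (c z8 z12) (c z8 z12))))))) (d (c (a (b (d (c z8 (a (b z12 z12) z12)) (c z8 (a (b z8 z8) z8))) (d (c z8 (b z12 z0)) (c z8 (b z8 z0)))) (b (d (c z8 z12) z8) (d (c z8 z12) (c z8 (a (b z8 z8) z8))))) z12) (c (a (b z8 z8) z8) (a (b (d (c (a (b z12 z12) z12) z12) (c (a (b z8 z8) z8) z12)) (d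 (c (b z12 z0) z12) (c (b z8 z0) z12))) (b (d z12 (c z8 z12)) (d z12 (c z8 z12)))))))) _ _ (by decide +kernel)

theorem okB1084 : CKB ⟨2400, 3072, 5632, 5888⟩ ⟨12288, 15360, 7168, 7424⟩ :=
  ckB_sound (c z8 (b (d (a (c z8 z12) (c z8 z12)) (a (c z8 (b (d (a (c z8 z12) (c z8 z12)) z8) (d (a (c z8 z12) (c z8 z12)) (a (c z8 z12) z8)))) (c z8 (b (d z12 z8) (d (a (c z8 z12) z12) z8))))) (d (a (c (b z8 (d (a (c z8 (b (d (a (c z8 z12) z8) z8) (d (a (c z8 z12) (c z8 z12)) z8))) z8) z8)) (b z12 (d z12 (a (c (b (d z12 (a (c z8 z12) z12)) (d z12 (a (c z8 z12) (c z8 z12)))) z12) z12)))) (c z8 z12)) (a (c z8 (b (d (a (c z8 z12) (c z8 z12)) (a (c z8 z12) (c z8 z12))) (d (a (c (b z8 (d (a (c z8 z12) z8) z8)) z12) (c z8 z12)) (a (c z8 (b z12 (d z12 (a (c z8 z12) z12)))) (c z8 z12))))) (c z8 (b (d (a (c z8 z12) (c z8 z12)) z8) (d (a (c z8 z12) (c z8 z12)) z8)))))))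 _ _ (by decide +kernel)

theorem okB1085 : CKB ⟨0, 3072, 5632, 5888⟩ ⟨12288, 15360, 7424, 7680⟩ :=
  ckB_sound (a (c z8 (b (d (a (c z8 (b (d (a (c z8 (b (d (a (c z8 (b z12 z12)) (c z8 z12)) z8) (d (c z8 (a (b z12 z12) z12)) z8))) (c z8 (b z8 (d (a (c z8 z12) z8) z8)))) z8) (d (c z8 (a (b (d (c z8 (a (b z12 z12) z12)) z8) (d (c z8 (b z12 z0)) z8)) (b (d (c z8 z12) z8) (d (c z8 z12) z8)))) z8))) z8) z8) (d (c z8 (b (d (a (c z8 (b (d (a (c z8 (b z12 z12)) z8) z8) (d (c z8 (a (b z12 z12) z12)) z8))) z8) z8) (d (c z8 (a (b (d (c z8 (a (b z12 z12) z12)) z8) (d (c z8 (b z12 z0)) z8)) (b z8 (d (c z8 z12) z8)))) z8))) z8))) z8) _ _ (by decide +kernel)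

theorem okB1086 : CKB ⟨0, 3072, 5888, 6144⟩ ⟨12288, 13824, 7168, 7424⟩ :=
  ckB_sound (b z8 z8) _ _ (by decide +kernel)

theorem okB1087 : CKB ⟨0, 3072, 5888, 6016⟩ ⟨13824, 15360, 7168, 7424⟩ :=
  ckB_sound (d (a (c (b (d (a (c z8 (b (d (a (c z8 (b z12 z12)) (c z8 z12)) (a (c z8 (b (d (a (c z8 z12) (c z8 z12)) z8) (d (c z8 z12) z8))) z8)) (d (c z8 (b z12 z12)) (c z8 (b (d (a (c z8 z12) (c z8 z12)) z8) (d (c z8 z12) z8)))))) (c z8 (b (d (a (c z8 z12) z8) z8) (d (a (c z8 z12) (c z8 z12)) z8)))) (a (c z8 (b z8 z8)) z8)) (d (c z8 (b (d (a (c z8 (b z12 z12)) (c z8 z12)) (a (c z8 (b (d (a (c z8 z12) (c z8 z12)) z8) (d (c z8 z12) z8))) z8)) (d (c z8 (b z12 z12)) (c z8 (b (d (a (c z8 z12) z12) z8) z8))))) (c z8 (b z8 z8)))) (b (d z12 (a (c (b (d (a (c (b z12 z12) z12) z12) (a (c (b (d (a (c z8 z12) (c z8 z12)) z8) (d (c z8 z12) z8)) z12) (c z8 z12)))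 (d (c (b z12 z12) z12) (c (b (d (a (c z8 z12) z12) z8) z8) z12))) z12) (c (b (d z12 (a (c z8 z12) z12)) (d z12 (a (c z8 z12) (c z8 z12)))) z12))) (d z12 (c (b (d (a (c (b z12 z12) z12) z12) (a (c (b z8 z8) z12) (c z8 z12))) (d (c (b z12 z12) z12) (c (b z8 z8) z12))) z12)))) (c (b z8 (d (a (c z8 (b z8 (d (a (c z8 z12) z8) z8))) z8) z8)) (b z12 (d z12 (a (c (b (d z12 (a (c z8 z12) z12)) (d z12 (a (c z8 z12) (c z8 z12)))) z12) z12))))) (a (c (b z8 z8) (b (d (a (c (b (d (a (c z8 (b z12 z12)) (c z8 z12)) (a (c z8 (b z8 z8)) z8)) (d (c z8 (b z12 z12)) (c z8 (b z8 z8)))) z12) (c (b z8 (d (a (c z8 z12) z8) z8)) z12)) (a (c (b z8 z8) (b (d (a (c (b z12 z12) z12) z12) (a (c (b z8 z8) z12) (c z8 z12))) (d z12 (c z8 z12)))) (c z8 (b z12 (d z12 (a (c z8 z12) z12)))))) (d (c (b (d (a (c z8 (b z12 z12)) (c z8 z12)) (a (c z8 (b z8 z8)) z8)) (d (c z8 z12) (c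 z8 (b z8 z8)))) z12) (c (b z8 z8) (b (d z12 (a (c z8 z12) (c z8 z12))) (d z12 (c z8 z12))))))) (c z8 (b (d (a (c z8 z12) (c z8 z12)) (a (c z8 z12) z8)) (d (a (c z8 z12) (c z8 z12)) (a (c z8 (b z12 (d z12 (a (c z8 z12) z12)))) (c z8 z12))))))) _ _ (by decide +kernel)

theorem okB1088 : CKB ⟨0, 3072, 6016, 6144⟩ ⟨13824, 15360, 7168, 7424⟩ :=
  ckB_sound (d (c (b (d (a (c z8 (b (d (a (c z8 (b z12 z12)) (c z8 z12)) (a (c z8 (b z8 z8)) z8)) (d (c z8 (b z12 z12)) (c z8 (b z8 z8))))) (c z8 (b z8 (d (a (c z8 z12) z8) z8)))) (a (c z8 (b z8 z8)) z8)) (d (c z8 (b (d (a (c z8 (b z12 z12)) (c z8 z12)) (a (c z8 (b z8 z8)) z8)) (d (c z8 z12) (c z8 (b z8 z8))))) (c z8 (b z8 z8)))) (b (d z12 (a (c (b (d (a (c (b z12 z12) z12) z12) (a (c (b z8 z8) z12) (c z8 z12))) (d z12 (c (b z8 z8) z12))) z12) (c (b z12 (d z12 (a (c z8 z12) z12))) z12))) (d z12 (c (b (d z12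 (a (c (b z8 z8) z12) (c z8 z12))) (d z12 (c z8 z12))) z12)))) (c (b z8 z8) (b (d (a (c (b (d (a (c z8 z12) z8) (a (c z8 (b z8 z8)) z8)) (d (c z8 z12) z8)) z12) (c z8 z12)) (a (c (b z8 z8) (b (d z12 (a (c z8 z12) (c z8 z12))) (d z12 (c z8 z12)))) (c z8 z12))) (d (c (b (d (a (c z8 z12) z8) z8) (d (c z8 z12) z8)) z12) (c z8 (b (d z12 (a (c z8 z12) z12)) (d z12 (c z8 z12)))))))) _ _ (by decide +kernel)

theorem okB1089 : CKB ⟨0, 3072, 5888, 6144⟩ ⟨12288, 15360, 7424, 7680⟩ :=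
  ckB_sound (c z8 (b (d (a (c z8 (b (d (a (c z8 (b (d (a (c z8 z12) z8) z8) (d (c z8 z12) z8))) z8) z8) (d (c z8 (b (d (a (c z8 z12) z8) z8) (d (c z8 z12) z8))) z8))) z8) z8) (d (c z8 (b (d (a (c z8 (b (d (a (c z8 z12) z8) z8) (d (c z8 z12) z8))) z8) z8) (d (c z8 (b (d (a (c z8 z12) z8) z8) (d (c z8 z12) z8))) z8))) z8))) _ _ (by decide +kernel)

theorem okB1090 : CKB ⟨0, 3072, 5632, 5888⟩ ⟨15360, 18432, 7168, 7680⟩ :=
  ckB_sound (d (a (c (b z12 z12) z12) z12) (a (c (b (d (a (c (b (d z12 (a (c (b (d (a (c (b z12 z12) z12) z12) (a (c z8 z12) (c z8 z12))) (d (c (a (b z12 z12) z12) z12) (c z8 z12))) z12) (c (b (d z12 (a (c z8 z12) z12)) (d z12 (a (c z8 z12) (c z8 z12)))) z12))) (d z12 (c (a (b (d (c (a (b z12 z12) z12) z12) (c z8 z12)) (d (c (b z12 z0) z12) (c z8 z12))) (b (d z12 (c z8 z12)) (d z12 (c z8 z12)))) z12))) z12) (c (b z12 (d z12 (a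 (c (b (d z12 (a (c z8 z12) z12)) (d z12 (a (c z8 z12) z12))) z12) z12))) z12)) (a (c (b (d (a (c (b (d (a (c z8 (b z12 z12)) z8) z8) (d (c z8 (a (b z12 z12) z12)) z8)) z12) (c z8 z12)) (a (c z8 (b (d (a (c (b z12 z12) z12) z12) (a (c z8 z12) (c z8 z12))) (d (c (a (b z12 z12) z12) z12) (c z8 z12)))) (c z8 (b (d z12 (a (c z8 z12) z12)) (d z12 (a (c z8 z12) (c z8 z12))))))) (d (c (a (b (d (c z8 (a (b z12 z12) z12)) z8) (d (c z8 (b z12 z0)) z8)) z8) z12) (c z8 (a (b (d (c (a (b z12 z12) z12) z12) (c z8 z12)) (d (c (b z12 z0) z12) (c z8 z12))) (b (d z12 (c z8 z12)) (d z12 (c z8 z12))))))) z12) (c (b (d (a (c z8 z12) (c z8 z12)) z8) (d (a (c z8 z12) (c z8 z12)) (a (c z8 (b z12 (d z12 (a (c z8 z12) z12)))) z8))) z12))) (d (c (b (d z12 (a (c (b (d (a (c (b z12 z12) z12) z12) (a (c z8 z12) (c z8 z12))) (d (c (a (b z12 z12) z12) z12) (c z8 z12))) z12)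 (c (b z12 (d z12 (a (c z8 z12) z12))) z12))) (d z12 (c (a (b (d z12 (c z8 z12)) (d z12 (c z8 z12))) (b (d z12 (c z8 z12)) (d z12 (c z8 z12)))) z12))) z12) (c (b (d (a (c (b (d (a (c z8 (b z12 z12)) z8) z8) (d (c z8 (a (b z12 z12) z12)) z8)) z12) (c z8 z12)) (a (c z8 (b (d (a (c (b z12 z12) z12) z12) (a (c z8 z12) (c z8 z12))) (d z12 (c z8 z12)))) (c z8 (b z12 (d z12 (a (c z8 z12) z12)))))) (d (c (a (b (d (c z8 z12) z8) (d (c z8 z12) z8)) z8) z12) (c z8 (a (b (d z12 (c z8 z12)) (d z12 (c z8 z12))) (b (d z12 (c z8 z12)) (d z12 (c z8 z12))))))) z12))) z12) (c (b (d z12 (a (c (b (d (a (c z8 z12) (c z8 z12)) z8) (d (a (c z8 z12) (c z8 z12)) z8)) z12) (c z8 z12))) (d (a (c (b z12 (d z12 (a (c (b z12 (d z12 (a (c z8 z12) z12))) z12) z12))) z12) z12) (a (c (b (d (a (c z8 z12) (c z8 z12)) z8) (d (a (c z8 z12) (c z8 z12)) z8)) z12) (c (b z8 (d (a (c z8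 z12) (c z8 z12)) z8)) z12)))) z12))) _ _ (by decide +kernel)

theorem okB1091 : CKB ⟨0, 3072, 5888, 6144⟩ ⟨15360, 18432, 7168, 7680⟩ :=
  ckB_sound (d (c (b z12 z12) z12) (c (b (d (a (c (b (d z12 (a (c (b (d z12 (a (c z8 z12) (c z8 z12))) (d z12 (c z8 z12))) z12) (c (b z12 (d z12 (a (c z8 z12) z12))) z12))) (d z12 (c (b (d z12 (a (c z8 z12) (c z8 z12))) (d z12 (c z8 z12))) z12))) z12) z12) (a (c (b (d (a (c (b z8 z8) z12) (c z8 z12)) (a (c z8 (b (d z12 (a (c z8 z12) (c z8 z12))) (d z12 (c z8 z12)))) z8)) (d (c (b z8 z8) z12) (c z8 (b (d z12 (a (c z8 z12) z12)) (d z12 (c z8 z12)))))) z12) (c (b (d (a (c z8 z12) (c z8 z12)) z8) (d (a (c z8 z12) (c z8 z12)) z8)) z12))) (d (c (b (d z12 (a (c (b (d z12 (a (c z8 z12) z12)) (d z12 (c z8 z12))) z12) z12)) (d z12 (c (b (d z12 (a (c z8 z12) z12)) (d z12 (c z8 z12))) z12))) z12) (c (b (d (a (c (b z8 z8)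 z12) (c z8 z12)) (a (c z8 (b (d z12 (a (c z8 z12) z12)) (d z12 (c z8 z12)))) z8)) (d (c (b z8 z8) z12) (c z8 (b (d z12 (a (c z8 z12) z12)) (d z12 (c z8 z12)))))) z12))) z12)) _ _ (by decide +kernel)

theorem okB1092 : CKB ⟨0, 3072, 5632, 6144⟩ ⟨12288, 18432, 7680, 8192⟩ :=
  ckB_sound (c (b z8 (d (c z8 (b z8 z8)) z8)) (b (d (a (c (b (d (a (c (b (d (a (c z8 (b z8 z8)) z8) z8) (d (c z8 (a (b z8 z8) z8)) z8)) (b (d z12 (a (c (b (d (a (c z8 z12) z12) z8) (d (c z8 z12) z8)) z12) (c z8 z12))) (d z12 (c (a (b (d (c z8 z12) z8) (d (c z8 z12) z8)) (b z8 (d z12 z8))) z12)))) (c z8 (b z12 (d z12 (a (c z8 z12) z12))))) (a (c z8 (b (d (a (c z8 z12) (c z8 z12)) z8) (d (c z8 z12) z8))) (c z8 (b z8 (d (a (c z8 z12) z8) z8))))) (d (c (b (d (a (c z8 (b z8 z8)) z8) z8) z8) (b (d z12 (a (c (b (d z12 z8) (d z12 z8)) z12) (c z8 z12))) (d z12 (c (a (b (d z12 z8) z8)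 z8) z12)))) (c z8 (b (d (a (c z8 z12) (c z8 z12)) z8) (d (c z8 z12) z8))))) (b z12 z12)) (c (b (d (a (c z8 z12) (c z8 z12)) z8) (d (a (c z8 z12) (c z8 z12)) z8)) z12)) (a (c (b z8 z8) (b (d (a (c (b (d z12 (a (c z8 z12) (c z8 z12))) (d z12 (c z8 z12))) z12) z12) (a (c (b z8 z8) z12) (c z8 z12))) (d (c (b (d z12 (a (c z8 z12) z12)) (d z12 (c z8 z12))) z12) (c (b z8 z8) z12)))) (c z8 (b (d z12 (a (c z8 z12) (c z8 z12))) (d z12 (a (c z8 z12) (c z8 z12))))))) (d (c (b (d (a (c (b z8 z8) (b (d z12 (a (c (b z8 z8) z12) z12)) (d z12 (c (b z8 z8) z12)))) (c z8 z12)) (a (c z8 (b (d (a (c z8 z12) z8) z8) (d (c z8 z12) z8))) z8)) (d (c (b z8 z8) (b (d z12 (a (c (b z8 z8) z12) z12)) (d z12 (c (b z8 z8) z12)))) (c z8 (b (d (a (c z8 z12) z8) z8) (d (c z8 z12) z8))))) (b z12 z12)) (c (b z8 z8) (b (d (a (c (b (d z12 (a (c z8 z12) z12)) (d z12 (c z8 z12))) z12)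 z12) (a (c (b z8 z8) z12) (c z8 z12))) (d (c (b (d z12 (a (c z8 z12) z12)) (d z12 (c z8 z12))) z12) (c z8 z12))))))) _ _ (by decide +kernel)

theorem okB1093 : CKB ⟨0, 3072, 5120, 6144⟩ ⟨18432, 24576, 7168, 8192⟩ :=
  ckB_sound (b (d (a (b (d z12 z12) (d z12 (c z12 (a (b z12 z12) z12)))) (b z12 (d z12 z12))) (a (c z12 (b (d z12 (a (b z12 (d z12 z12)) z12)) (d (a (b z12 (d z12 z12)) (b z12 (d z12 z12))) (a (b (d z12 z12) (d z12 (c z12 (b z12 z0)))) (b z12 (d z12 z12)))))) (c z12 (b (d z12 z12) (d z12 z12))))) (d (b (d (a (c z12 (b z12 z12)) z12) (a (c z12 (b z12 (d z12 z12))) z12)) (d (c z12 (b z12 (d z12 z12))) (c z12 (b (d z12 z12) (d z12 (c z12 (b z12 z12))))))) (c (b z12 z12) (b (d (a (b (d z12 z12) (d z12 (c z12 (b z12 z12)))) (b z12 (d z12 z12))) (a (b (d (a (c z12 (b z12 z12)) z12) (c z12 (a (b z12 z12) z12))) (d (c z12 (b z12 (d z12 z12)))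 (c z12 (b (d z12 z12) (d z12 z12))))) (b z12 (d z12 z12)))) (d (b (d (a (c z12 (b z12 z12)) z12) (a (c z12 (b z12 (d z12 z12))) z12)) (d (c z12 (b z12 z12)) (c z12 (b (d z12 z12) (d z12 z12))))) (b (d (a (c z12 (b (d z12 z12) (d z12 z12))) z12) (c z12 (a (b (d z12 z12) (d z12 z12)) z12))) (d (c z12 (b (d z12 z12) (d z12 z12))) (c z12 (b (d z12 z12) (d z12 (c z12 (b z12 z12)))))))))))) _ _ (by decide +kernel)

theorem okB1094 : CKB ⟨3072, 6144, 4096, 5120⟩ ⟨12288, 24576, 6144, 8192⟩ :=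
  ckB_sound (d (c (b (d z12 (a (c (b (d (a (c z8 z12) (c z8 z12)) z8) (d (a (c z8 z12) (c z8 z12)) z8)) z12) (c z8 z12))) (d (a (c (b z12 (d z12 (a (c (b (d z12 (a (c z8 z12) z12)) (d z12 (a (c z8 z12) (c z8 z12)))) z12) z12))) z12) z12) (a (c (b (d (a (c z8 z12) (c z8 z12)) z8) (d (a (c z8 z12) (c z8 z12)) z8)) z12) (c (b z8 (d (a (c z8 z12) (c z8 z12)) z8)) z12)))) z12) (c (b (d (a (c z8 z12) (c z8 z12)) (a (c z8 (b (d (a (c z8 z12) (c z8 z12)) z8) (d (a (c z8 z12) (c z8 z12)) z8))) z8)) (d (a (c z8 z12) (c z8 z12)) (a (c z8 (b (d (a (c z8 z12) (c z8 z12)) z8) (d (a (c z8 z12) (c z8 z12)) z8))) (c z8 (b (d (a (c z8 z12) z12) z8) (d (a (c z8 z12) (c z8 z12)) z8)))))) (b z12 (d z12 z12)))) _ _ (by decide +kernel)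

end Vale.Agent.Lib.P154Q5
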