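import Vale.Agent.Lib.P154Q5.CkBDefs

namespace Vale.Agent.Lib.P154Q5

set_option maxRecDepth 100000
set_option exponentiation.threshold 1000

open Tr

theorem okB1095 : CKB ⟨3072, 6144, 5120, 5632⟩ ⟨12288, 17067, 6144, 7168⟩ :=
  ckB_sound (d (a (c (b (d z12 (a (c (b (d z12 (a (c z8 z12) (c z8 z12))) (d z12 (a (c z8 z12) (c z8 z12)))) z12) (c (b (d z12 (a (c z8 z12) z12)) (d z12 (a (c z8 z12) z12))) z12))) (d z12 (a (c (b (d z12 (a (c z8 z12) (c z8 z12))) (d z12 (a (c z8 z12) (c z8 z12)))) z12) (c (b (d z12 (a (c z8 z12) (c z8 z12))) (d z12 (a (c z8 z12) (c z8 z12)))) z12)))) z12) (c (b z12 (d z12 (a (c (b z12 (d z12 (a (c z8 z12) z12))) z12) z14))) z12)) (a (c (b (d (a (c z8 z12) (c z8 z12)) (a (c z8 (b (d z12 z8) (d z12 z8))) z8)) (d (a (c z8 z12) (c z8 z12)) (a (c z8 (b (d (a (c z8 z12) z12) z8) (d (a (c z8 z12) (c z8 z12)) z8))) z8))) z12)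 (c (b (d (a (c z8 z12) (c z8 z12)) z8) (d (a (c z8 z12) (c z10 z14)) z8)) z12))) _ _ (by decide +kernel)

theorem okB1096 : CKB ⟨3072, 6144, 5632, 6144⟩ ⟨12288, 17067, 6144, 6656⟩ :=
  ckB_sound (a (c (b (d z12 (a (c (b (d (a (c (b (d z12 (a (c z8 z12) z12)) (d z12 (a (c z8 z12) (c z8 z12)))) z12) z12) (a (c z8 z12) (c z8 z12))) (d (a (c (b (d z12 (a (c z8 z12) (c z8 z12))) (d z12 (a (c z8 z12) (c z8 z12)))) z12) (c (b (d z12 (a (c z8 z12) z12)) (d z12 (a (c z8 z12) (c z8 z12)))) z12)) (a (c z8 z12) (c z8 z12)))) z12) (c (b (d z12 (a (c z8 z12) (c z8 z12))) (d z12 (a (c z8 z12) (c z8 z12)))) z12))) (d z12 (a (c (b (d (a (c (b (d (a (c (b z12 (d z12 z8)) z12) z12) (a (c z8 z12) (c z8 z12))) (d (a (c (b (d z12 z8) (d z12 z8)) z12) z12) (a (c z8 z12) (c z8 z12)))) z12) (c (b (d z12 (a (c z8 z12) (c z8 z12))) (d z12 (a (c z8 z12) (c z8 z12)))) z12))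 (a (c z8 z12) (c z8 z12))) (d (a (c (b (d (a (c (b (d z12 z8) (d z12 z8)) z12) (c (b (d z12 z8) (d z12 z8)) z12)) (a (c z8 z12) (c z8 z12))) (d (a (c (b (d (a (c z8 z12) z12) z8) (d (a (c z8 z12) (c z8 z12)) z8)) z12) (c (b (d z12 z8) (d z12 z8)) z12)) (a (c z8 z12) (c z8 z12)))) z12) (c (b (d z12 (a (c z8 z12) (c z8 z12))) (d (a (c (b (d z12 z8) (d z12 z8)) z12) z12) (a (c z8 z12) (c z8 z12)))) z12)) (a (c (b z8 (d (a (c z8 (b (d (a (c z8 z12) (c z8 z12)) z8) (d (a (c z8 z12) (c z8 z12)) z8))) z8) z8)) z12) (c z8 z12)))) z12) (c (b (d (a (c (b z12 (d z12 (a (c z8 z12) z12))) z12) z12) (a (c z8 z12) (c z8 z12))) (d (a (c (b (d z12 (a (c z8 z12) (c z8 z12))) (d z12 (a (c z8 z12) (c z8 z12)))) z12) (c (b z12 (d z12 (a (c z8 z12) z12))) z12)) (a (c z8 z12) (c z8 z12)))) z12)))) z12) (c (b (d z12 (a (c (b (d z12 (a (c z8 z12) (c z8 z12))) (d z12 (a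 (c z8 z12) (c z8 z12)))) z12) (c (b z14 (d z14 (a (c z10 z14) z14))) z14))) (d z12 (a (c (b (d z12 (a (c z8 z12) (c z8 z12))) (d z12 (a (c z8 z12) (c z8 z12)))) z12) (c (b (d z14 (a (c z10 z14) z14)) (d z14 (a (c z8 z12) (c z10 z14)))) z14)))) z12)) _ _ (by decide +kernel)

theorem okB1097 : CKB ⟨3072, 6144, 5632, 6144⟩ ⟨12288, 17067, 6656, 7168⟩ :=
  ckB_sound (a (c (b (d (a (c (b z8 (d (a (c z8 (b (d z12 z8) (d (a (c z8 z12) z12) z8))) z8) z8)) z12) (c z8 z12)) (a (c z8 (b (d (a (c z8 z12) (c z8 z12)) (a (c z8 z12) z8)) (d (a (c z8 z12) (c z8 z12)) (a (c z8 z12) z8)))) (c z8 (b (d z12 z8) (d (a (c z8 z12) z12) z8))))) (d (a (c (b (d (a (c z8 (b (d (a (c z8 z12) z12) z8) (d (a (c z8 z12) (c z8 z12)) (a (c z8 z12) z8)))) (c z8 (b (d z12 z8) (d z12 z8)))) z8) (d (a (c z8 (b (d (a (c z8 z12) (c z8 z12)) (a (c z8 z12) (c z8 z12))) (d (a (c (b (d (a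 (c z8 z12) (c z8 z12)) z8) (d (a (c z8 z12) (c z8 z12)) z8)) z12) (c z8 z12)) (a (c z8 (b (d z12 (a (c (b z12 (d z12 z8)) z12) z12)) (d z12 (a (c (b (d z12 z8) (d z12 z8)) z12) z12)))) (c z8 z12))))) (c z8 (b (d (a (c z8 z12) z12) z8) (d (a (c z8 z12) (c z8 z12)) z8)))) (a (c z8 (b z8 (d (a (c z8 (b z8 (d (a (c z8 z12) z8) z8))) z8) z8))) z8))) (b z12 (d z12 (a (c (b (d z12 (a (c (b (d z12 (a (c z8 z12) z12)) (d z12 (a (c z8 z12) z12))) z12) z12)) (d z12 (a (c (b (d z12 (a (c z8 z12) (c z8 z12))) (d z12 (a (c z8 z12) (c z8 z12)))) z12) (c (b z12 (d z12 (a (c z8 z12) z12))) z12)))) z12) z12)))) (c z8 z12)) (a (c z8 (b (d (a (c (b (d (a (c z8 z12) (c z8 z12)) z8) (d (a (c z8 z12) (c z8 z12)) z8)) z12) (c z8 z12)) (a (c z8 (b (d z12 (a (c z8 z12) z12)) (d z12 (a (c z8 z12) (c z8 z12))))) (c z8 z12))) (d (a (c (b (d (a (c z8 z12) (c z8 z12)) z8) (d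 (a (c z8 z12) (c z8 z12)) (a (c z8 (b (d z12 z8) (d (a (c z8 z12) z12) z8))) z8))) z12) (c (b z8 (d (a (c z8 z12) (c z8 z12)) z8)) z12)) (a (c z8 (b (d z12 (a (c z8 z12) (c z8 z12))) (d z12 (a (c z8 z12) (c z8 z12))))) (c z8 (b (d z12 (a (c z8 z12) z12)) (d z12 (a (c z8 z12) z12)))))))) (c z8 (b (d (a (c z8 z12) (c z8 z12)) z8) (d (a (c z8 z12) (c z8 z12)) (a (c z8 z12) z8))))))) z12) (c (b (d (a (c z8 z12) (c z10 z14)) z8) (d (a (c z8 z12) (c z10 z14)) (a (c z8 (b (d z12 z8) (d z12 z8))) z10))) z12)) _ _ (by decide +kernel)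

theorem okB1098 : CKB ⟨3072, 6144, 5120, 6144⟩ ⟨17067, 24576, 6144, 7168⟩ :=
  ckB_sound (b (d z12 z12) (d z12 (a z12 (b z12 (d z12 z12))))) _ _ (by decide +kernel)

theorem okB1099 : CKB ⟨3072, 6144, 5120, 6144⟩ ⟨12288, 24576, 7168, 8192⟩ :=
  ckB_sound (c (b (d (a (c (b z8 (d (a (c z8 (b (d (a (c z8 z12) z8) z8) (d (a (c z8 z12) (c z8 z12)) z8))) z8) z8)) z12) (c z8 z12)) (a (c z8 (b (d (a (c z8 z12) (c z8 z12)) (a (c z8 z12) z8)) (d (a (c z8 z12) (c z8 z12)) (a (c z8 z12) z8)))) (c z8 (b (d (a (c z8 z12) (c z8 z12)) z8) (d (a (c z8 z12) (c z10 z14)) z8))))) (d (a (c (b (d (a (c z8 (b (d (a (c z8 z12) (c z8 z12)) z8) (d (a (c z8 z12) (c z8 z12)) (a (c z8 (b (d z12 z8) (d (a (c z8 z12) z12) z8))) z8)))) (c z8 (b z8 (d (a (c z8 z12) z8) z8)))) z8) (d (a (c z8 (b (d (a (c z8 z12) (c z8 z12)) (a (c z8 (b (d (a (c z8 z12) z12) z8) (d (a (c z8 z12)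 (c z8 z12)) z8))) z8)) (d (a (c z8 (b z12 (d z12 (a (c (b z12 (d z12 (a (c z8 z12) z12))) z12) z12)))) (c z8 z12)) (a (c z8 (b (d (a (c z8 z12) (c z8 z12)) (a (c z8 z12) z8)) (d (a (c z8 z12) (c z8 z12)) (a (c z8 z12) z8)))) (c z8 (b (d (a (c z8 z12) z12) z8) (d (a (c z8 z12) (c z8 z12)) z8))))))) (c z8 (b (d (a (c z8 z12) z8) z8) (d (a (c z8 z12) (c z8 z12)) z8)))) z8)) (b (d z12 (a (c (b (d z12 (a (c z8 z12) z12)) (d z12 (a (c z8 z12) (c z8 z12)))) z12) z12)) (d z12 (a (c (b (d z12 (a (c z8 z12) (c z8 z12))) (d z12 (a (c (b (d (a (c z8 z12) (c z8 z12)) z8) (d (a (c z8 z12) (c z8 z12)) z8)) z12) (c z8 z12)))) z12) (c (b z12 (d z12 (a (c z8 z12) z12))) z12))))) (c z8 z12)) (a (c z8 (b (d (a (c (b z8 (d (a (c z8 z12) z8) z8)) z12) (c z8 z12)) (a (c z8 (b (d z12 (a (c z8 z12) z12)) (d z12 (a (c z8 z12) z12)))) (c z8 z12))) (d (a (c (b (d (a (c z8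 z12) (c z8 z12)) z8) (d (a (c z8 z12) (c z8 z12)) z8)) z12) (c z8 z12)) (a (c z8 (b (d z12 (a (c z8 z12) (c z8 z12))) (d z12 (a (c z8 z12) (c z8 z12))))) (c z8 z12))))) (c z8 (b (d (a (c z8 z12) (c z10 z14)) z8) (d (a (c z8 z12) (c z10 z14)) z8)))))) (b (d z12 (a (c z12 (b z12 (d z12 z12))) z12)) (d (a (b (d z12 z12) (d z12 (a (c z12 (b z12 (d z12 z12))) z12))) (b z12 (d z12 z12))) (a (c z12 (b (d z12 z12) (d (a (b (d z12 z12) (d z12 z12)) z12) (a (b (d z12 z12) (d z12 (c z12 (a (b z12 (d z12 z12)) z12)))) z12)))) (c z12 (b z12 (d z12 z12))))))) _ _ (by decide +kernel)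

theorem okB1100 : CKB ⟨0, 6144, 6144, 8192⟩ ⟨12288, 24576, 4096, 6144⟩ :=
  ckB_sound (b (d (b (d z12 z12) z12) (b (d z12 (c z12 (a (b z12 z12) z12))) (d z12 (c z12 (b z12 z12))))) z0) _ _ (by decide +kernel)

theorem okB1101 : CKB ⟨0, 4608, 6144, 6400⟩ ⟨12288, 14678, 6144, 6400⟩ :=
  ckB_sound (a (c (b (d z12 (a (c (b (d z12 (a (c (b z12 z12) z12) z12)) (d z12 (c (b z12 z12) z12))) z12) z12)) (d z12 (c (b (d z12 (a (c (b z12 z12) z12) z12)) (d z12 (c (b z12 z12) z12))) z12))) z12) z12) _ _ (by decide +kernel)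

theorem okB1102 : CKB ⟨0, 3840, 6144, 6400⟩ ⟨12288, 14678, 6400, 6656⟩ :=
  ckB_sound (c (b (d (a (c (b (d (a (c (b (d (a (c (b z8 z8) z12) (c z8 z12)) (a (c z8 z12) z8)) (d (c (b z8 z8) z12) (c z8 z12))) z12) (c (b (d (a (c z8 z12) z12) z8) (d (a (c z8 z12) z12) z8)) z12)) (a (c (b (d (a (c z8 (b z8 z8)) z8) z8) (d (c z8 (b z8 z8)) z8)) (b (d z12 (a (c (b z12 z12) z12) z12)) (d z12 (c (b z12 z12) z12)))) (c z8 z12))) (d (c (b (d (a (c z8 z12) (c z8 z12)) (a (c z8 z12) z8)) (d (c z8 z12) (c z8 z12))) z12) (c (b z8 z8) (b (d z12 (a (c (b z12 z12) z12) z12)) z12)))) z12) (c (b (d (a (c (b (d z12 z8) (d z12 z8)) z12) (c (b z12 (d z12 z8)) z12)) (a (c z8 z12) (c z8 z12))) (d (a (c (b (d z12 z8) (d (a (c z8 z12) z12) z8)) z12) (c (b (d z12 z8) (d z12 z8)) z12)) (a (c z8 z12) (c z8 z12)))) z12)) (a (c (b (d (a (c z8 (b (d (a (c (b z8 z8) z12) (c z8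 z12)) (a (c z8 (b z12 z12)) z8)) (d (c (b z8 z8) z12) (c z8 (b z12 z12))))) (c z8 (b (d (a (c z8 z12) z12) z8) (d (a (c z8 z12) (c z8 z12)) z8)))) (a (c z8 (b (d (a (c z8 (b z8 z8)) z8) z8) z8)) z8)) (d (c z8 (b (d (a (c z8 z12) (c z8 z12)) (a (c z8 (b z12 z12)) z8)) (d (c z8 z12) (c z8 (b z12 z12))))) (c z8 (b z8 z8)))) (b (d z12 (a (c (b (d z12 (a (c (b (d z12 (a (c z8 z12) z12)) (d z12 (c z8 z12))) z12) z12)) (d z12 (c (b (d z12 (a (c z8 z12) z12)) (d z12 (c z8 z12))) z12))) z12) z12)) (d z12 (c (b (d z12 (a (c (b (d z12 (a (c z8 z12) z12)) z12) z12) z12)) (d z12 (c (b z12 z12) z12))) z12)))) (c (b z8 (d (a (c z8 (b (d (a (c z8 z12) z12) z8) (d (a (c z8 z12) (c z8 z12)) z8))) z8) z8)) z12))) (d (c (b (d (a (c (b (d (a (c z8 z12) (c z8 z12)) (a (c z8 z12) z8)) (d (c z8 z12) (c z8 z12))) z12) (c (b (d z12 z8) (d (a (c z8 z12) z12) z8)) z12)) (a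 (c (b z8 z8) (b z12 z12)) (c z8 z12))) (d (c (b (d (a (c z8 z12) z12) (a (c z8 z12) z8)) (d (c z8 z12) z8)) z12) (c (b z8 z8) (b z12 z12)))) z12) (c (b (d (a (c z8 (b (d (a (c z8 z12) (c z8 z12)) (a (c z8 (b z12 z12)) z8)) (d (c z8 z12) (c z8 z12)))) (c z8 (b (d z12 z8) (d (a (c z8 z12) z12) z8)))) (a (c z8 (b z8 z8)) z8)) (d (c z8 (b (d (a (c z8 z12) (c z8 z12)) (a (c z8 z12) z8)) (d (c z8 z12) z8))) (c z8 (b z8 z8)))) (b (d z12 (a (c (b (d z12 (a (c (b z12 z12) z12) z12)) (d z12 (c (b z12 z12) z12))) z12) z12)) (d z12 (c (b (d z12 (a (c (b z12 z12) z12) z12)) z12) z12)))))) z12) _ _ (by decide +kernel)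

theorem okB1103 : CKB ⟨3840, 4608, 6144, 6400⟩ ⟨12288, 14678, 6400, 6656⟩ :=
  ckB_sound (c (b (d (a (c (b (d z12 (a (c z8 z12) (c z8 z12))) (d z12 (a (c z8 z12) (c z8 z12)))) z12) (c (b (d z12 (a (c z8 z12) z12)) (d z12 (a (c z8 z12) (c z8 z12)))) z12)) (a (c z8 z12) (c z8 z12))) (d (a (c (b (d (a (c (b (d z12 z8) (d z12 z8)) z12) z12) (a (c z8 z12) (c z8 z12))) (d (a (c (b (d z12 z8) (d (a (c z8 z12) z12) z8)) z12) (c (b (d z12 z8) (d z12 z8)) z12)) (a (c z8 z12) (c z8 z12)))) z12) (c (b (d z12 (a (c z8 z12) (c z8 z12))) (d z12 (a (c z8 z12) (c z8 z12)))) z12)) (a (c z8 z12) (c z8 z12)))) z12) _ _ (by decide +kernel)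

theorem okB1104 : CKB ⟨0, 4608, 6400, 6656⟩ ⟨12288, 14678, 6144, 6656⟩ :=
  ckB_sound (d (c (b (d z12 (a (c (b z12 z12) z12) z12)) (d z12 (c (b z12 z12) z12))) z12) (c (b (d (a (c (b (d (a (c (b (d (a (c z8 z12) z12) z8) (d (c z8 z12) z8)) z12) (c (b (d z12 z8) (d z12 z8)) z12)) (a (c (b z8 z8) (b z12 z12)) (c z8 z12))) (d (c (b (d (c z8 z12) z8) (d z12 z8)) z12) (c z8 z12))) z12) (c (b (d (a (c (b z12 (d z12 z8)) z12) z12) (a (c z8 z12) (c z8 z12))) (d (a (c (b (d z12 z8) (d z12 z8)) z12) z12) (a (c z8 z12) (c z8 z12)))) z12)) (a (c (b (d (a (c z8 (b (d (a (c z8 z12) z12) z8) (d (c z8 z12) z8))) z8) (a (c z8 (b z8 z8)) z8)) (d (c z8 (b (d (c z8 z12) z8) (d (c z8 z12) z8))) z8)) (b (d z12 (a (c (b z12 z12) z12) z12)) (d z12 (c (b z12 z12) z12)))) (c z8 z12))) (d (c (b (d (c (a (b (d z12 z8) (d z12 z8)) (b z12 (d z12 z8))) z12) (c z8 z12)) (d (c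 (b (d z12 z8) z0) z12) (c z8 z12))) z12) (c (b (d (c z8 (a (b (d (c z8 z12) z8) (d z12 z8)) (b (d z12 z8) (d z12 z8)))) z8) (d (c z8 (b (d z12 z8) z0)) z8)) (b (d z12 (c (a (b z12 z12) z12) z12)) z12)))) z12)) _ _ (by decide +kernel)

theorem okB1105 : CKB ⟨0, 4608, 6144, 6656⟩ ⟨14678, 17067, 6144, 6656⟩ :=
  ckB_sound z12 _ _ (by decide +kernel)

theorem okB1106 : CKB ⟨4608, 6144, 6144, 6656⟩ ⟨12288, 17067, 6144, 6656⟩ :=
  ckB_sound (c (b (d z12 (a (c (b (d z12 (a (c z8 z12) (c z8 z12))) (d (a (c (b (d z12 (a (c z8 z12) z12)) (d z12 (a (c z8 z12) (c z8 z12)))) z12) z12) (a (c z8 z12) (c z8 z12)))) z12) (c (b (d z12 (a (c z8 z12) (c z10 z14))) (d z12 (a (c z8 z12) (c z8 z12)))) z12))) (d z12 (a (c (b (d (a (c (b (d z12 (a (c z8 z12) (c z8 z12))) (d z12 (a (c z8 z12) (c z8 z12)))) z12) (c (b z12 (d z12 (a (c z8 z12) z12))) z12)) (a (c z8 z12) (c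 z8 z12))) (d (a (c (b (d z12 (a (c z8 z12) (c z8 z12))) (d (a (c (b (d z12 z8) (d z12 z8)) z12) z12) (a (c z8 z12) (c z8 z12)))) z12) (c (b (d z12 (a (c z8 z12) z12)) (d z12 (a (c z8 z12) (c z8 z12)))) z12)) (a (c z8 z12) (c z8 z12)))) z12) (c (b (d z12 (a (c z8 z12) (c z8 z12))) (d z12 (a (c z8 z12) (c z8 z12)))) z12)))) z12) _ _ (by decide +kernel)

theorem okB1107 : CKB ⟨0, 3840, 6144, 6400⟩ ⟨12288, 13483, 6656, 6912⟩ :=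
  ckB_sound (b (d (a (c (b z8 z8) (b (d (a (c (b (d (a (c (b z8 z8) z12) (c z8 z12)) (a (c z8 (b (d z12 (a (c z8 z12) z12)) (d z12 (c z8 z12)))) z8)) (d (c z8 z12) (c z8 (b (d z12 (a (c z8 z12) z12)) (d z12 (c z8 z12)))))) z12) (c (b z8 (d (a (c z8 z12) (c z8 z12)) z8)) z12)) (a (c (b z8 z8) (b (d z12 (a (c (b (d (a (c z8 z12) z12) z8) (d (c z8 z12) z8)) z12) (c (b (d z12 z8) (d z12 z8)) z12))) (d z12 (c (b (d z12 z8) (d z12 z8)) z12)))) (c z8 (b z12 (d z12 (a (c (b z12 (d z12 z8)) z12) z12)))))) (d (c (b (d (a (c z8 z12) (c z8 z12)) (a (c z8 (b (d z12 (a (c z8 z12) z12)) (d z12 (c z8 z12)))) z8)) (d (c z8 z12) (c z8 (b (d z12 (a (c z8 z12) z12)) (d z12 (c z8 z12)))))) z12) (c (b z8 z8) (b (d z12 (a (c (b (d z12 z8) (d z12 z8)) z12) (c (b z12 (d z12 z8)) z12))) (d z12 (c (b (d z12 z8) (d z12 z8)) z12))))))) (c z8 (b (d (a (c z8 z12) (c z8 z12))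 (a (c z8 z12) z8)) (d (a (c (b z8 (d (a (c z8 z12) (c z8 z12)) z8)) z12) (c z8 z12)) (a (c z8 z12) (c z8 z12)))))) (a (c z8 (b (d (a (c z8 (b (d (a (c z8 (b z12 z12)) (c z8 z12)) (a (c z8 (b z8 z8)) z8)) (d (c z8 (b z12 z12)) (c z8 (b z8 z8))))) z8) (a (c z8 (b z8 z8)) z8)) (d (c z8 (b (d (a (c z8 z12) z8) (a (c z8 (b z8 z8)) z8)) (d (c z8 z12) z8))) (c z8 (b z8 z8))))) z8)) (d (c (b z8 z8) (b (d (a (c (b (d (a (c z8 z12) (c z8 z12)) (a (c z8 (b (d z12 (a (c z8 z12) z12)) z12)) z8)) (d (c z8 z12) (c z8 (b z12 z12)))) z12) (c z8 z12)) (a (c (b z8 z8) (b (d z12 (a (c (b (d z12 z8) (d z12 z8)) z12) z12)) (d z12 (c (b (d z12 z8) (d z12 z8)) z12)))) (c z8 z12))) (d (c (b (d (a (c z8 z12) (c z8 z12)) z8) (d (c z8 z12) z8)) z12) (c (b z8 z8) (b (d z12 (a (c (b (d z12 z8) z12) z12) z12)) (d z12 (c (b z12 z12) z12))))))) (c z8 (b (d (a (c z8 (b (d (a (c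 z8 z12) z8) z8) (d (c z8 z12) z8))) z8) (a (c z8 (b z8 z8)) z8)) (d (c z8 (b (d (a (c z8 z12) z8) z8) (d (c z8 z12) z8))) z8))))) _ _ (by decide +kernel)

theorem okB1108 : CKB ⟨0, 3840, 6144, 6400⟩ ⟨13483, 14678, 6656, 6912⟩ :=
  ckB_sound (b (d z12 (a (c (b (d z12 (a (c (b (d (a (c (b (d z12 (a (c z8 z12) z12)) z12) z12) z12) (a (c (b z8 z8) z12) (c z8 z12))) (d (c (b z12 z12) z12) (c z8 z12))) z12) (c (b (d z12 (a (c z8 z12) (c z8 z12))) (d z12 (a (c z8 z12) (c z8 z12)))) z12))) (d z12 (c (b (d (a (c (b z12 z12) z12) z12) (a (c z8 z12) (c z8 z12))) (d (c (b z12 z12) z12) (c z8 z12))) z12))) z12) (c (b z12 (d z12 (a (c (b (d z12 (a (c z8 z12) z12)) (d z12 (a (c z8 z12) (c z8 z12)))) z12) z12))) z12))) (d z12 (c (b (d z12 (a (c (b (d (a (c (b z12 z12) z12) z12) (a (c z8 z12) (c z8 z12))) (d z12 (c z8 z12))) z12) (c (b z12 (d z12 (a (c z8 z12)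 z12))) z12))) (d z12 (c (b (d z12 (a (c z8 z12) (c z8 z12))) (d z12 (c z8 z12))) z12))) z12))) _ _ (by decide +kernel)

theorem okB1109 : CKB ⟨3840, 4608, 6144, 6400⟩ ⟨12288, 14678, 6656, 6912⟩ :=
  ckB_sound (c (b (d (a (c z8 (b (d z12 z8) (d (a (c z8 z12) z12) z8))) z8) z8) (d (a (c z8 (b (d (a (c z8 z12) (c z8 z12)) z8) (d (a (c z8 z12) (c z8 z12)) (a (c z8 z12) z8)))) (c z8 (b (d z12 z8) (d (a (c z8 z12) z12) z8)))) z8)) (b z12 (d z12 (a (c (b z12 (d z12 (a (c (b z12 (d z12 (a (c z8 z12) z12))) z12) z12))) z12) z12)))) _ _ (by decide +kernel)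

end Vale.Agent.Lib.P154Q5
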