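import Vale.Agent.Lib.P154Q5.CkBDefs

namespace Vale.Agent.Lib.P154Q5

set_option maxRecDepth 100000
set_option exponentiation.threshold 1000

open Tr

theorem okB1110 : CKB ⟨0, 4608, 6144, 6400⟩ ⟨12288, 14678, 6912, 7168⟩ :=
  ckB_sound (a (c (b (d (a (c z8 (b z8 z8)) z8) z8) (d (c z8 (b z8 z8)) z8)) (b (d (a (c (b (d (a (c (b (d (a (c z8 (b (d z12 (a (c z8 z12) z12)) (d z12 (c z8 z12)))) z8) z8) (d (c z8 (b (d z12 (a (c z8 z12) z12)) (d z12 (c z8 z12)))) z8)) (b z12 z12)) (c z8 z12)) (a (c z8 (b (d (a (c (b z8 z8) z12) (c z8 z12)) (a (c z8 (b z12 z12)) z8)) (d (c (b z8 z8) z12) (c z8 (b z12 z12))))) (c z8 (b (d z12 z8) (d (a (c z8 z12) z12) z8))))) (d (c (b (d (a (c z8 (b (d z12 (a (c z8 z12) z12)) (d z12 (c z8 z12)))) z8) z8) (d (c z8 (b (d z12 (a (c z8 z12) z12)) z12)) z8)) (b z12 z12)) (c z8 (b (d (a (c (b z8 z8) z12) z12) (a (c z8 (b z12 z12))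 z8)) (d (c z8 z12) (c z8 z12)))))) (b z12 z12)) (c (b (d (a (c z8 z12) (c z8 z12)) z8) (d (a (c z8 z12) (c z8 z12)) (a (c z8 (b (d z12 z8) (d z12 z8))) z8))) z12)) (a (c (b (d (a (c z8 (b z8 z8)) z8) z8) (d (c z8 (b z8 z8)) z8)) (b (d (a (c (b (d z12 (a (c (b (d z12 (a (c z8 z12) z12)) (d z12 (c z8 z12))) z12) z12)) (d z12 (c (b (d z12 (a (c z8 z12) z12)) (d z12 (c z8 z12))) z12))) z12) z12) (a (c (b (d (a (c z8 z12) (c z8 z12)) z8) (d (c z8 z12) z8)) z12) (c z8 z12))) (d (c (b (d z12 (a (c (b z12 z12) z12) z12)) (d z12 (c (b z12 z12) z12))) z12) (c (b (d (a (c z8 z12) (c z8 z12)) z8) (d (c z8 z12) z8)) z12)))) (c z8 (b (d z12 (a (c z8 z12) (c z8 z12))) (d z12 (a (c z8 z12) (c z8 z12))))))) (d (c (b (d (a (c (b (d (a (c z8 (b z12 z12)) z8) z8) z8) (b z12 z12)) (c z8 z12)) (a (c z8 (b (d (a (c z8 z12) z12) (a (c z8 z12) z8)) (d (c z8 z12) (c z8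 z12)))) z8)) (d (c (b z8 z8) (b z12 z12)) (c z8 (b (d (a (c z8 z12) z12) z8) (d (c z8 z12) z8))))) (b z12 z12)) (c (b (d (a (c z8 (b z8 z8)) z8) z8) (d (c z8 (b z8 z8)) z8)) (b (d (a (c (b (d z12 (a (c (b z12 z12) z12) z12)) (d z12 (c (b z12 z12) z12))) z12) z12) (a (c (b (d (a (c z8 z12) (c z8 z12)) z8) (d (c z8 z12) z8)) z12) (c z8 z12))) (d (c (b z12 z12) z12) (c (b z8 z8) z12))))))) (c z8 (b (d (a (c z8 z12) (c z8 z12)) (a (c z8 (b z12 (d z12 (a (c z8 z12) z12)))) z8)) (d (a (c (b (d (a (c z8 z12) (c z8 z12)) z8) (d (a (c z8 z12) (c z8 z12)) z8)) z12) (c z8 z12)) (a (c z8 (b (d z12 (a (c z8 z12) z12)) (d z12 (a (c z8 z12) (c z8 z12))))) (c z8 z12)))))) _ _ (by decide +kernel)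

theorem okB1111 : CKB ⟨0, 4608, 6400, 6656⟩ ⟨12288, 14678, 6656, 7168⟩ :=
  ckB_sound (d (c (b (d (a (c (b z8 z8) (b (d (a (c (b (d (a (c z8 z12) (c z8 z12)) z8) z8) z12) (c z8 z12)) (a (c z8 (b (d z12 (a (c (b z12 z12) z12) z12)) (d z12 (c (b z12 z12) z12)))) (c z8 z12))) (d (c (b z8 z8) z12) (c z8 (b z12 z12))))) (c z8 (b (d (a (c z8 z12) z12) z8) (d (a (c z8 z12) (c z8 z12)) (a (c z8 z12) z8))))) (a (c z8 (b (d (a (c z8 (b z8 z8)) z8) z8) (d (c z8 (b z8 z8)) z8))) z8)) (d (c (b z8 z8) (b (d (c (a (b z8 z8) z8) z12) (c z8 (a (b z12 z12) z12))) (d (c z8 z12) (c z8 (b z12 z0))))) (c z8 (b (d (c z8 (a (b z8 z8) z8)) z8) z8)))) (b (d z12 (a (c (b (d z12 (a (c (b (d z12 (a (c z8 z12) z12)) (d z12 (c z8 z12))) z12) z12)) (d z12 (c (b (d z12 (a (c z8 z12) z12)) (d z12 (c z8 z12))) z12))) z12) z12)) (d z12 (c (b (d z12 (c (a (b (d z12 (c z8 z12)) z12)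 z12) z12)) (d z12 (c (b z12 z0) z12))) z12)))) (c (b (d (a (c z8 (b z8 z8)) z8) z8) z8) (b (d (a (c (b (d (a (c (b z8 z8) z12) (c z8 z12)) (a (c z8 (b (d (a (c z8 z12) z12) z8) (d (c z8 z12) z8))) z8)) (d (c (b z8 z8) z12) (c z8 (b (d z12 z8) (d z12 z8))))) z12) (c (b z8 (d (a (c z8 z12) (c z8 z12)) z8)) z12)) (a (c (b z8 z8) (b (d (a (c (b z12 z12) z12) z12) (a (c (b z8 z8) z12) (c z8 z12))) (d (c (b z12 z12) z12) (c (b z8 z8) z12)))) (c z8 (b (d z12 (a (c z8 z12) z12)) (d z12 (a (c z8 z12) z12)))))) (d (c (b (d (c z8 z12) (c z8 (a (b (d z12 z8) (d z12 z8)) (b z12 (d z12 z8))))) (d (c z8 z12) z8)) z12) (c (b z8 z8) (b (d z12 (c z8 z12)) (d z12 (c z8 z12)))))))) _ _ (by decide +kernel)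

theorem okB1112 : CKB ⟨0, 4608, 6144, 6656⟩ ⟨14678, 17067, 6656, 7168⟩ :=
  ckB_sound (b (d z12 (a (c (b z12 z12) z12) z12)) (d z12 (c (b z12 z12) z12))) _ _ (by decide +kernel)

theorem okB1113 : CKB ⟨4608, 6144, 6144, 6656⟩ ⟨12288, 17067, 6656, 7168⟩ :=
  ckB_sound (c (b (d (a (c z8 z12) (c z8 z12)) (a (c z8 (b (d (a (c z8 z12) z12) z8) (d (a (c z8 z12) (c z8 z12)) z8))) z8)) (d (a (c (b z8 (d (a (c z8 (b (d (a (c z8 z12) z12) z8) (d (a (c z8 z12) z12) (a (c z8 z12) z8)))) z8) z8)) (b z12 (d z12 (a (c (b z12 (d z12 (a (c (b z12 z12) z12) z12))) z12) z12)))) (c z8 z12)) (a (c z8 (b (d (a (c z8 z12) (c z8 z12)) z8) (d (a (c (b z8 (d (a (c z8 z12) (c z8 z12)) z8)) z12) (c z8 z12)) (a (c z8 (b z12 (d z12 (a (c z8 z12) z12)))) z8)))) (c z8 (b (d z12 z8) (d (a (c z8 z12) z12) z8)))))) z12) _ _ (by decide +kernel)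

theorem okB1114 : CKB ⟨0, 6144, 6656, 7168⟩ ⟨12288, 17067, 6144, 7168⟩ :=
  ckB_sound (d (c (b (d (a (c (b (d z12 (a (c (b z12 z12) z12) z12)) z12) z12) z12) (a (c (b (d (a (c (b (d (a (c (b (d z12 z8) (d z12 z8)) z12) z12) (a (c z8 z12) (c z8 z12))) (d (c (b z12 z0) z12) (c z8 z12))) z12) (c (b (d z12 (c z8 z12)) (d z12 (c z8 z12))) z12)) (a (c (b z8 z8) (b z12 z12)) (c z8 z12))) (d (c (b (d (c (b z12 z12) z12) (c z8 z12)) z0) z12) (c (b z8 z0) (b z12 z0)))) z12) (c (b (d (c (a (b z12 (d z12 (c z8 z12))) z12) z12) (c z8 z12)) (d (c (a (b (d z12 (c z8 z12)) (d z12 (c z8 z12))) z12) z12) (c z8 z12))) z12))) (d (c (b z12 z0) z12) (c (b (d (c (b (d z12 (c z8 z12)) (d z12 (c z8 z12))) z12) (c z8 z12)) z0) z12))) z12) (c (b (d (a (c (b (d (a (c z8 (b (d (a (c z8 z12) (c z8 z12)) (a (c z8 z12) z8)) (d (c z8 z12) z8))) z8) (a (c z8 (b z8 z8)) z8)) (d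 (c z8 (b (d (c z8 z12) z8) z0)) (c z8 (b z8 z0)))) (b (d z12 (a (c (b (d z12 (a (c (b z12 z12) z12) z12)) z12) z12) z12)) (d z12 (c (b z12 z0) z12)))) (c (b z8 (d (c z8 (a (b (d z12 z8) (d (c z8 z12) z8)) (b z12 (d z12 z8)))) z8)) z12)) (a (c (b z8 z8) (b (d (a (c (b (d (a (c z8 z12) (c z8 z12)) z8) (d (c z8 z12) z8)) z12) (c z8 z12)) (a (c (b z8 z8) (b (d z12 (a (c z8 z12) z12)) (d z12 (c z8 z12)))) (c z8 (b z12 (d z12 (a (c z8 z12) z12)))))) (d (c (b z8 z0) z12) (c z8 (b (d z12 (c z8 z12)) z0))))) (c z8 (b (d (a (c z8 z12) z12) z8) (d (a (c z8 z12) (c z8 z12)) (a (c z8 (b z12 (d z12 (c z8 z12)))) z8)))))) (d (c (b (d (c z8 (b (d z12 z8) (d z12 z8))) z8) z0) (b (d z12 (c (b z12 z12) z12)) z0)) (c (b z8 z0) (b (d (c (b z8 z8) z12) (c z8 (b z12 z12))) z0)))) (b z12 z12))) _ _ (by decide +kernel)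

theorem okB1115 : CKB ⟨0, 6144, 6144, 7168⟩ ⟨17067, 24576, 6144, 7168⟩ :=
  ckB_sound (b (d (a (b (d z12 z12) (d z12 z12)) (b (d z12 z12) (d z12 z12))) (a (b (d z12 (c z12 (a (b z12 z12) z12))) (d (c z12 (b z12 z12)) (c z12 (b (d z12 z12) (d z12 z12))))) (b (d z12 z12) (d z12 z12)))) (d (b (d z12 z12) (d z12 z12)) (b (d (c z12 (a (b z12 z12) z12)) (c z12 (a (b (d z12 z12) (d z12 z12)) z12))) (d (c z12 (b z12 z0)) (c z12 (b (d z12 z12) z0)))))) _ _ (by decide +kernel)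

theorem okB1116 : CKB ⟨0, 4608, 6144, 6656⟩ ⟨12288, 15360, 7168, 7680⟩ :=
  ckB_sound (b (d (a (c (b z8 z8) (b (d (a (c (b (d (a (c z8 (b (d (a (c z8 z12) z8) z8) (d (c z8 z12) z8))) z8) (a (c z8 (b z8 z8)) z8)) (d (c z8 (b (d (a (c z8 z12) z8) z8) (d (c z8 z12) z8))) z8)) (b (d z12 (a (c (b (d z12 (a (c z8 z12) z12)) (d z12 (c z8 z12))) z12) z12)) (d z12 (c (b (d z12 (a (c z8 z12) z12)) (d z12 (c z8 z12))) z12)))) (c z8 z12)) (a (c (b z8 z8) (b (d (a (c (b (d (a (c z8 z12) z8) z8) (d (c z8 z12) z8)) z12) (c z8 z12)) (a (c z8 (b (d z12 (a (c z8 z12) z12)) (d z12 (c z8 z12)))) (c z8 z12))) (d (c (b (d (a (c z8 z12) z8) z8) (d (c z8 z12) z8)) z12) (c z8 (b (d z12 (a (c z8 z12) z12)) (d z12 (c z8 z12))))))) (c z8 (b (d (a (c z8 z12) (c z8 z12)) z8) (d (a (c z8 z12) (c z8 z12)) (a (c z8 z12) z8)))))) (d (c (b (d (a (c z8 (b (d (a (c z8 z12) z8) z8)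 (d (c z8 z12) z8))) z8) z8) (d (c z8 (b z8 z8)) z8)) (b (d z12 (a (c (b (d z12 (a (c z8 z12) z12)) (d z12 (c z8 z12))) z12) z12)) (d z12 (c (b (d z12 (a (c z8 z12) z12)) (d z12 (c z8 z12))) z12)))) (c (b z8 z8) (b (d (a (c (b z8 z8) z12) (c z8 z12)) (a (c z8 (b (d z12 (a (c z8 z12) z12)) (d z12 (c z8 z12)))) z8)) (d (c (b z8 z8) z12) (c z8 (b z12 z12)))))))) (c z8 (b (d (a (c z8 z12) (c z8 z12)) (a (c z8 (b (d z12 z8) (d (a (c z8 z12) z12) z8))) z8)) (d (a (c z8 z12) (c z8 z12)) (a (c z8 (b (d (a (c z8 z12) (c z8 z12)) z8) (d (a (c z8 z12) (c z8 z12)) z8))) z8))))) (a (c z8 (b (d (a (c z8 (b (d (a (c z8 (b z8 z8)) z8) z8) (d (c z8 (b z8 z8)) z8))) z8) z8) (d (c z8 (b (d (a (c z8 (b z8 z8)) z8) z8) (d (c z8 (b z8 z8)) z8))) z8))) z8)) (d (c (b z8 z8) (b (d (a (c (b (d (a (c z8 (b z8 z8)) z8) z8) (d (c z8 (b z8 z8)) z8)) (b (d z12 (a (c (b z12 z12)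 z12) z12)) (d z12 (c (b z12 z12) z12)))) (c z8 z12)) (a (c z8 (b (d (a (c (b z8 z8) z12) (c z8 z12)) (a (c z8 (b z12 z12)) z8)) (d (c z8 z12) (c z8 (b z12 z12))))) (c z8 (b (d (a (c z8 z12) z12) z8) (d (a (c z8 z12) (c z8 z12)) z8))))) (d (c (b z8 z8) (b (d z12 (c (a (b z12 z12) z12) z12)) z12)) (c z8 (b (d (c z8 z12) (c z8 z12)) (d (c z8 z12) z8)))))) (c z8 (b (d (a (c z8 (b z8 z8)) z8) z8) (d (c z8 (b z8 z8)) z8))))) _ _ (by decide +kernel)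

theorem okB1117 : CKB ⟨0, 4608, 6144, 6656⟩ ⟨15360, 18432, 7168, 7680⟩ :=
  ckB_sound (b (d (a (c (b z12 z12) z12) z12) (a (c (b (d (a (c (b (d z12 (a (c (b (d z12 (a (c z8 z12) z12)) (d z12 (c z8 z12))) z12) z12)) (d z12 (c (b (d z12 (a (c z8 z12) z12)) (d z12 (c z8 z12))) z12))) z12) z12) (a (c (b (d (a (c (b z8 z8) z12) (c z8 z12)) (a (c z8 (b (d z12 (a (c z8 z12) z12)) (d z12 (c z8 z12)))) z8)) (d (c z8 z12) (c z8 (b (d z12 (a (c z8 z12) z12)) z12)))) z12) (c (b z8 (d (a (c z8 z12) (c z8 z12)) z8)) z12))) (d (c (b (d z12 (a (c (b z12 z12) z12) z12)) (d z12 (c (b z12 z12) z12))) z12) (c (b (d (a (c z8 z12) (c z8 z12)) (a (c z8 (b z12 z12)) z8)) (d (c z8 z12) (c z8 (b z12 z12)))) z12))) z12) (c (b (d z12 (a (c z8 z12) (c z8 z12))) (d z12 (a (c z8 z12) (c z8 z12)))) z12))) (d (c (b z12 z12) z12) (c (b (d (a (c (b (d z12 (a (c (b z12 z12) z12)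 z12)) (d z12 (c (b z12 z12) z12))) z12) z12) (a (c (b (d (a (c z8 z12) (c z8 z12)) z8) (d (c z8 z12) z8)) z12) (c z8 z12))) (d (c (b z12 z12) z12) (c (b (d (c z8 z12) z8) (d (c z8 z12) z8)) z12))) z12))) _ _ (by decide +kernel)

theorem okB1118 : CKB ⟨4608, 6144, 6144, 6656⟩ ⟨12288, 18432, 7168, 7680⟩ :=
  ckB_sound (c (b (d (c z8 (a (b z8 (d (a (c z8 z12) z8) z8)) z8)) z8) (d (c z8 (a (b (d (a (c z8 z12) z8) z8) (d (a (c z8 z12) (c z8 z12)) (a (c z8 (b (d z12 z8) (d (a (c z8 z12) z12) z8))) z8))) z8)) z8)) (b z12 (d z12 (a (c (b (d z12 (a (c z8 z12) z12)) (d z12 (a (c z8 z12) (c z8 z12)))) z12) z12)))) _ _ (by decide +kernel)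

theorem okB1119 : CKB ⟨0, 6144, 6144, 6656⟩ ⟨12288, 18432, 7680, 8192⟩ :=
  ckB_sound (a (c (b (d (a (c z8 (b z8 z8)) z8) z8) (d (c z8 (b z8 z8)) (c (b z8 z8) z8))) (b (d (a (c (b (d (a (c (b z8 z8) (b (d z12 (a (c z8 z12) z12)) (d z12 (c z8 z12)))) (c z8 z12)) (a (c z8 (b (d (a (c z8 z12) z8) z8) (d (c z8 z12) z8))) z8)) (d (c (b z8 z8) (b (d z12 (a (c z8 z12) z12)) (d z12 (c z8 z12)))) (c z8 (b (d (a (c z8 z12) z8) z8) z8)))) (b z12 z12)) (c (b (d (a (c z8 z12) z8) z8) (d (a (c z8 z12) z8) z8)) z12)) (a (c (b z8 z8) (b (d (a (c (b (d z12 (a (c z8 z12) z12)) (d z12 (c z8 z12))) z12) z12) (a (c z8 z12) (c z8 z12))) (d (c (b (d z12 (a (c z8 z12) z12)) (d z12 (c z8 z12))) z12) (c z8 z12)))) (c z8 (b (d z12 (a (c z8 z12) z12)) (d z12 (a (c z8 z12) z12)))))) (d (c (b (d (a (c (b z8 z8) (b (d z12 (a (c z8 z12) z12)) z12)) (c z8 z12)) (a (c z8 (b z8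 z8)) z8)) (d (c z8 (b z12 z12)) (c z8 (b z8 z8)))) (b z12 z12)) (c (b z8 z8) (b (d (a (c (b z12 z12) z12) z12) (a (c z8 z12) (c z8 z12))) (d (c (b z12 z12) z12) (c z8 z12))))))) (c z8 (b (d (a (c z8 z12) (c z8 z12)) (a (c z8 z12) z8)) (d (a (c (b z8 (d (a (c z8 z12) z8) z8)) z12) (c z8 z12)) (a (c z8 (b z12 (d z12 (a (c z8 z12) z12)))) z8))))) _ _ (by decide +kernel)

theorem okB1120 : CKB ⟨0, 6144, 6656, 7168⟩ ⟨12288, 18432, 7168, 8192⟩ :=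
  ckB_sound (d (c (b (d (c (a (b z8 z8) z8) (a (b (d (c (a (b z8 z8) z8) (a (b z12 z12) z12)) (c z8 (a (b (d (c z8 z12) z8) (d (c z8 z12) z8)) (b (d z12 z8) (d (c z8 z12) z8))))) (d (c (b z8 z0) (b z12 z0)) (c z8 (b (d (c z8 z12) z8) z0)))) (b z8 (d (c z8 z12) z8)))) (c (a (b z8 z8) z8) (a (b (d (c z8 (a (b z8 z8) z8)) z8) z8) z8))) (d (c (b z8 z0) (b (d (c z8 (b z12 z12)) (c z8 (b (d z12 z8) (d z12 z8)))) z0)) (c (b z8 z0) (b z8 z0)))) (b (d (c (a (b z12 z12) z12) z12) (c (a (b (d (c (a (b z12 z12) z12) z12) (c (a (b z8 z8) z8) z12)) (d (c (b z12 z0) z12) (c (b z8 z0) z12))) (b z12 (d z12 (c z8 z12)))) z12)) (d (c (b z12 z0) z12) (c (b (d z12 (c z8 z12)) z0) z12)))) (c (b (d (c (a (b z8 z8) z8) (a (b z8 z8) z8)) (c (a (b z8 z8) z8) z8)) (d (c (b z8 z0) (b z8 z0)) (c (b z8 z0) (b z8 z0)))) (b (d (c (a (b (d (c z8 (a (b z12 z12) z12)) z8) (d (c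 z8 (b z12 z0)) z8)) z8) (a (b z12 z12) z12)) (c (a (b z8 z8) z8) (a (b (d (a (c (b z12 z12) z12) z12) (a (c z8 z12) (c z8 z12))) (d (c (b z12 z0) z12) (c z8 z12))) (b z12 (d z12 (c z8 z12)))))) (d (c (b (d (c z8 z12) z8) z0) (b z12 z0)) (c (b z8 z0) (b (d z12 (c z8 z12)) z0)))))) _ _ (by decide +kernel)

theorem okB1121 : CKB ⟨0, 6144, 6144, 6656⟩ ⟨18432, 24576, 7168, 8192⟩ :=
  ckB_sound (d (a (b (d (a (c z12 (b (d z12 z12) (d z12 z12))) z12) (a (c z12 (b (d (a (c z12 (b z12 z12)) z12) (a (c z12 (b z12 z12)) z12)) (d (c z12 (b z12 z12)) (c z12 (b z12 z12))))) (c z12 (b z12 (d z12 z12))))) (d (c z12 (b (d z12 z12) (d z12 z12))) (c z12 (b (d (a (c z12 (b z12 z12)) z12) (c z12 (a (b z12 z12) z12))) (d (c z12 (b z12 z12)) (c z12 (b z12 z12))))))) (b (d z12 z12) (d (c z12 (a (b z12 (d z12 z12)) z12)) (c z12 (a (b (d z12 z12) (d z12 z12)) z12))))) (a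 (c (b z12 z12) (b (d (a (b (d (a (c z12 (b (d z12 z12) (d z12 z12))) z12) (a (c z12 (b (d z12 z12) (d z12 z12))) z12)) (d (c z12 (b (d z12 z12) (d z12 z12))) (c z12 (b (d z12 z12) (d z12 z12))))) (b (d z12 z12) (d z12 z12))) (a (b (d (a (c z12 (b (d z12 z12) (d z12 z12))) z12) (c z12 (a (b (d z12 (c z12 (a (b z12 z12) z12))) (d (c z12 (b z12 z12)) (c z12 (b z12 z12)))) (b z12 (d z12 z12))))) (d (c z12 (b (d z12 z12) (d z12 z12))) (c z12 (b (d (c z12 (a (b z12 z12) z12)) (c z12 (a (b z12 z12) z12))) (d (c z12 (b z12 z12)) (c z12 (b z12 z12))))))) (b (d z12 z12) (d (c z12 (a (b z12 (d z12 z12)) z12)) (c z12 (a (b z12 (d z12 z12)) z12)))))) (d (b (d (a (c z12 (b (d z12 z12) (d z12 z12))) z12) (c z12 (a (b (d z12 z12) (d z12 z12)) z12))) (d (c z12 (b (d z12 z12) (d z12 z12))) (c z12 (b (d z12 z12) (d z12 z12))))) (b (d (c z12 (a (b (d z12 z12) (d z12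 z12)) (b z12 (d z12 z12)))) (c z12 (a (b (d z12 (c z12 (a (b z12 z12) z12))) (d z12 z12)) (b z12 (d z12 z12))))) (d (c z12 (b (d z12 z12) (d z12 z12))) (c z12 (b (d z12 z12) (d z12 z12)))))))) (c z12 (b (d z12 (a (b z12 (d z12 z12)) z12)) (d (a (b (d z12 z12) (d z12 (c z12 (a (b z12 (d z12 z12)) z12)))) z12) (a (b (d z12 z12) (d (c z12 (a (b z12 (d z12 z12)) z12)) (c z12 (a (b z12 (d z12 z12)) z12)))) (b z12 (d z12 z12)))))))) _ _ (by decide +kernel)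

theorem okB1122 : CKB ⟨0, 6144, 6656, 7168⟩ ⟨18432, 24576, 7168, 8192⟩ :=
  ckB_sound (d (b (d (c z12 (a (b (d z12 z12) (d z12 z12)) (b z12 (d z12 z12)))) (c z12 (a (b (d (c z12 (a (b z12 z12) z12)) (c z12 (a (b z12 z12) z12))) (d (c z12 (b z12 z0)) (c z12 (b z12 z0)))) (b z12 (d z12 z12))))) (d (c z12 (b (d z12 z12) z0)) (c z12 (b (d z12 (c z12 (b z12 z12))) z0)))) (c (b z12 z12) (b (d (a (b (d (c z12 (a (b (d z12 z12) z12) z12)) (c z12 (a (b (d z12 z12) (d z12 z12)) z12))) (d (c z12 (b z12 z0)) (c z12 (b z12 z0)))) (b (d z12 z12) (d z12 (c z12 (a (b z12 z12) z12))))) (a (b (d (c z12 (a (b (d z12 z12) (d z12 z12)) z12)) (c z12 (a (b (d z12 z12) (d z12 z12)) z12))) (d (c z12 (b (d z12 z12) z0)) (c z12 (b (d z12 z12) z0)))) (b (d z12 z12) (d (c z12 (a (b z12 z12) z12)) (c z12 (a (b z12 (d z12 z12)) z12)))))) (d (b (d (c z12 (b z12 z12)) (c z12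 (b z12 z12))) z0) (b (d (c z12 (b z12 z12)) (c z12 (b z12 z12))) z0))))) _ _ (by decide +kernel)

theorem okB1123 : CKB ⟨0, 6144, 7168, 8192⟩ ⟨12288, 24576, 6144, 8192⟩ :=
  ckB_sound z0 _ _ (by decide +kernel)

theorem okB1124 : CKB ⟨6144, 12288, 4096, 6144⟩ ⟨12288, 24576, 4096, 6144⟩ :=
  ckB_sound (b (d (a (b z12 z14) (b (d (c (b (d (a z13 (c (b z13 z15) (b z13 z15))) z13) z15) z15) (c z15 z15)) (d z15 z15))) (a (b z12 z14) z15)) (d z14 (a (b z14 (d z14 z14)) (b (d z15 (c (b (d z15 (a z14 z15)) (d z15 (a z14 z15))) z15)) z14)))) _ _ (by decide +kernel)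

end Vale.Agent.Lib.P154Q5
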