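import Vale.Agent.Lib.P154Q5.CkBDefs

namespace Vale.Agent.Lib.P154Q5

set_option maxRecDepth 100000
set_option exponentiation.threshold 1000

open Tr

theorem okB1125 : CKB ⟨6144, 12288, 4096, 5120⟩ ⟨12288, 24576, 6144, 7168⟩ :=
  ckB_sound (a (c (b (d (a (c (b (d z12 (a z12 (c (b (d z12 (c z8 z12)) (d z12 (c z8 z12))) z12))) z12) z12) (c (b (d (c (a z12 z13) z13) (c (a (b (d (c (a z12 (b (d (c (a z12 z13) z13) (c z9 z13)) z12)) z12) (c z8 z12)) (d z12 (c z8 z12))) (b (d z13 (c z9 z13)) (d (c (b z13 (d z13 (a (c z9 z13) z13))) z13) (c z9 z13)))) z13)) (d z12 (c (a (b (d z12 (c z8 z12)) (d z12 (c z8 z12))) (b (d (c (b (d (a (c (b (d z13 z9) (d (a z12 z13) z9)) z13) z13) (a (c z9 z13) z13)) (d (a z12 z13) (a (c z8 z12) z13))) z13) (c (b z9 (d (a z8 z9) z9)) (b z13 (d z13 (a z12 z13))))) (d (c (b (d (a z12 z15) (a z12 z15)) (d z14 (a z14 (c z11 z15))))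 z14) (c z10 z14)))) z12))) z12)) (a (c z8 z12) (c (b (d (c (a z8 z9) (a z12 z13)) (c (a z8 z9) (a (b (d z12 z8) (d z12 z8)) (b z13 (d (c z9 z13) z9))))) (d (c z8 z12) z8)) z12))) (d (a z12 (c (b (d z14 (c (a (b (d z14 (c z10 z14)) (d z14 (c z10 z14))) (b (d (c (b (d z14 (a z14 (c z11 z15))) (d z14 (a z14 (c z10 z14)))) z14) (c z10 z14)) (d (c (b (d z14 (a z14 (c z10 z14))) z14) z14) (c z10 z14)))) z14)) (d z14 (c (a (b (d z14 (c z10 z14)) z14) (b (d z14 (c z10 z14)) (d z14 (c z10 z14)))) z14))) z14)) (a (c z8 z12) (c (b (d (c z10 z14) z10) (d (c z10 z14) z10)) z14)))) z12) (c (b (d z15 (c z11 z15)) (d (c (b (d z15 (a (c (b (d z15 (a (c z11 z15) z15)) (d (a (c (b z15 (d z15 (a (c z11 z15) z15))) z15) z15) (a (c z11 z15) z15))) z15) z15)) (d (a (c (b (d z15 (a (c (b z15 (d z15 (a z14 z15))) z15) z15)) (d (a z14 z15) (a z14 z15))) z15) z15) (a (c (b (d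 (a (c (b (d (a (c (b (d z15 z11) (d (a z14 z15) z11)) z15) z15) (a (c z11 z15) z15)) (d (a z14 z15) (a (c z10 z14) z15))) z15) z15) (a (c (b z11 (d (a z10 z11) (a z10 z11))) (b z15 (d z15 (a z14 z15)))) z15)) (d (a (c (b (d (a z14 z15) (a (c z10 z14) (c z11 z15))) (d z14 (a z14 (c z11 z15)))) z14) z15) (a (c z10 z14) z15))) z15) z15))) z15) (c (b (d (a (c z11 z15) z15) z11) (d (a (c (b (d (a (c z11 (b (d (a (c z11 z15) z15) z11) (d (a z14 z15) (a z10 z11)))) z11) z11) (d (a z10 z11) (a z10 z11))) (b (d z15 (a (c (b z15 (d z15 (a z14 z15))) z15) z15)) (d z15 (a z14 z15)))) z15) (a (c (b z11 (d (a z10 z11) z11)) (b (d (a (c z11 z15) z15) z11) (d (a (c z10 z14) z15) (a z10 z11)))) z11))) z15))) z15)) _ _ (by decide +kernel)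

theorem okB1126 : CKB ⟨6144, 12288, 4096, 5120⟩ ⟨12288, 24576, 7168, 8192⟩ :=
  ckB_sound (c (a (b (d (c z8 z12) z8) (d (c z10 z14) z10)) (b (d (c z11 z15) z11) (d (c (b z11 (d (a (c z11 (b z11 (d (a z10 z11) (a z10 z11)))) z11) z11)) (b z15 (d z15 (a (c (b z15 (d z15 (a z14 z15))) z15) z15)))) (c z11 (b z11 (d (a (c z11 z15) z15) z11)))))) z14) _ _ (by decide +kernel)

theorem okB1127 : CKB ⟨6144, 9216, 5120, 6144⟩ ⟨12288, 24576, 6144, 7168⟩ :=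
  ckB_sound (c (b (d (a z14 (c (b (d z14 (c (a z14 (b (d z14 (c z10 z14)) (d z14 (c z10 z14)))) z14)) (d z14 (c (a z14 (b (d z14 (c z10 z14)) z14)) z14))) z14)) (a (c z10 z14) (c (b (d (c z10 z14) z10) z10) z14))) (d z14 (a (c (b (d (a (c z10 z14) (c z10 z14)) z10) (d (a (c z10 z14) (c z10 z14)) z10)) z14) (c z10 z14)))) (b (d z14 z14) (d z14 z14))) _ _ (by decide +kernel)

theorem okB1128 : CKB ⟨9216, 12288, 5120, 6144⟩ ⟨12288, 24576, 6144, 7168⟩ :=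
  ckB_sound (c (b (d (c (b (d (a (c (b (d (a z14 z15) (a z14 z15)) z14) z14) z15) (a (c (b (d (a (c (b (d z14 (a z14 (c z10 z14))) (d z14 (a z14 (c z10 z14)))) z14) z15) (a (c z10 z14) (c z11 z15))) (d (a z14 (c (b (d z15 (a (c z11 z15) z15)) (d (a (c (b (d z15 z11) (d (a z14 z15) z11)) z15) z15) (a (c z11 z15) z15))) z15)) (a (c z10 z14) (c z11 z15)))) z14) z15)) (d (a z14 z15) (a (c (b (d (a z14 (c (b (d (a z14 z15) (a (c z10 z14) z15)) (d z14 (a z14 (c z11 z15)))) z15)) (a (c z10 z14) (c (b (d (a z10 z11) (a z10 z11)) z10) (b (d z15 (a z14 z15)) z14)))) (d (a z14 (c (b (d z14 (a z14 (c z11 z15))) (d z14 (a z14 (c z10 z14)))) z14)) (a (c z10 z14) (c z10 z14)))) z14) (c (b z15 (d z15 (a (c z11 z15) z15))) z15)))) z15) (c (b (d (a (c (b (d (a z10 z11) (a z10 z11)) z10) z14) z15) (a (c z10 (b (d (a z14 z15) (a z10 z11)) (d (a z14 (c z11 z15)) z10))) z11))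 (d (a (c z10 z14) (c z11 z15)) (a z10 z11))) (b (d z15 (a z14 z15)) (d z15 (a z14 z15))))) (d (c (b (d (a z14 (c (b z15 (d z15 (a (c (b (d z15 (a z14 z15)) (d z15 (a z14 z15))) z15) z15))) z15)) (a (c (b (d z14 (a (c z10 z14) (c z10 z14))) (d z14 (a z14 (c z10 z14)))) z14) (c (b (d (a (c (b (d z15 (a (c z11 z15) z15)) (d (a (c (b z15 (d z15 z11)) z15) z15) (a (c z11 z15) z15))) z15) z15) (a (c z11 z15) z15)) (d (a (c (b (d (a z14 z15) (a (c z10 z14) z15)) (d (a z14 z15) (a z14 z15))) z15) z15) (a (c (b z11 (d (a z10 z11) (a z10 z11))) (b z15 (d z15 (a z14 z15)))) z15))) z15))) (d (a z14 (c (b (d (a z14 z15) (a z14 z15)) z14) z15)) (a (c (b (d z14 (a z14 (c z10 z14))) (d z14 (a z14 (c z10 z14)))) z14) (c (b (d (a (c (b (d z14 (a z14 (c z11 z15))) z14) z14) z15) (a (c z10 z14) (c z11 z15))) (d (a z14 (c (b z15 (d z15 (a (c z11 z15) z15))) z15)) (a (c z10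 z14) (c z11 z15)))) z15)))) z14) (c (b (d (a (c z10 z14) (c (b z11 (d (a (c z11 (b (d (a z14 z15) z11) (d (a z14 z15) (a z10 z11)))) z11) (a (c z11 (b z11 (d (a z10 z11) z11))) z11))) (b z15 (d z15 (a (c (b z15 (d z15 (a z14 z15))) z15) z15))))) (a z10 (c z11 (b (d (a (c z11 z15) z15) z11) (d (a (c (b z11 (d (a z14 z15) z11)) z15) z15) (a (c z11 (b z15 (d z15 (a z14 z15)))) z11)))))) (d (a (c z10 z14) (c (b (d (a z10 z11) (a z10 z11)) z10) (b (d z15 (a z14 z15)) z14))) (a z10 (c (b (d (a z10 z11) z11) z10) (b (d (a z14 z15) (a z10 z11)) (d (a z14 (c z11 z15)) z10)))))) z14))) z14) _ _ (by decide +kernel)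

theorem okB1129 : CKB ⟨6144, 12288, 5120, 6144⟩ ⟨12288, 24576, 7168, 8192⟩ :=
  ckB_sound (c (a (b (d (c z10 z14) z10) (d (c z10 z14) (c z10 (a (b z10 (d (c z10 z14) z10)) z10)))) (b (d (c (b (d (a z10 z11) (a z10 z11)) (d (a z10 z11) (a z10 z11))) (b (d (a z14 z15) (a z14 z15)) (d (a z14 z15) (a z14 z15)))) (c (b (d (a z10 z11) z11) (d (a z10 z11) (a z10 z11))) (b (d (a (c z10 z14) z15) (a z10 z11)) (d (a (c z10 z14) z15) (a z10 z11))))) (d (c (b (d (a z10 (c z11 (b z11 (d (a (c z11 z15) z11) z11)))) z10) z10) z14) (c z10 (b (d (a (c z10 z14) (c z11 z15)) z10) (d (a z14 (c (b z11 z10) z15)) z10)))))) (a (b (d z14 z14) (d z14 z14)) z14)) _ _ (by decide +kernel)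

theorem okB1130 : CKB ⟨6144, 12288, 6144, 8192⟩ ⟨12288, 24576, 4096, 6144⟩ :=
  ckB_sound (b (d (a (b (d z14 z14) (d z14 z14)) (b z14 (d z14 z14))) (a (b (d z14 (c z14 (a (b z14 (d z14 z14)) z14))) (d (c z14 (a (b (d z12 z12) z12) z14)) (c z14 (a (b (d z12 z12) (d z12 z12)) (b z14 (d z14 z14)))))) (b (d z14 z14) (d z14 z14)))) (d (b (d z14 z14) (d (c z12 (b (d (a z12 z14) (a z12 z14)) (d z12 z12))) (c z12 (b (d (a z12 z14) (a z12 z14)) (d z12 z12))))) (b (d (a (c z12 (b (d (a z12 z14) (a z12 z14)) z12)) z14) (a (c z12 (b (d (a z12 z14) z12) (d z12 z12))) z14)) (d (c z12 (b (d (a z12 z14) (a z12 z14)) (d z12 z12))) (c z12 (b (d (a z12 z14) (a z12 z14)) (d z12 z12))))))) _ _ (by decide +kernel)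

theorem okB1131 : CKB ⟨6144, 12288, 6144, 7168⟩ ⟨12288, 24576, 6144, 8192⟩ :=
  ckB_sound (d (a (c (b (d (a (c (b (d z14 (a (c (b z14 (d z14 (a (c z10 z14) z14))) z14) z14)) (d z14 (a (c (b (d z14 (a (c z10 z14) z14)) (d z14 (a (c z8 z12) (c z10 z14)))) z14) z14))) z14) z14) (a (c (b (d (a (c z10 z14) (c z10 z14)) z10) (d (a (c z10 z14) (c z10 z14)) z10)) z14) (c z10 z14))) (d (a (c (b (d z12 (a (c (b (d z12 (a (c z8 z12) (c z8 z12))) (d z12 (a (c z8 z12) (c z8 z12)))) z12) (c (b z14 (d z14 (c z10 z14))) z14))) (d (a (c (b z12 z12) z12) z12) (a (c (b (d (a (c (b z12 (d z12 (a (c z8 z12) z12))) z12) z12) (a (c z8 z12) (c z8 z12))) (d (c (b (d z12 (a (c z8 z12) z12)) (d z12 (c z8 z12))) z12) (c z8 z12))) z12) (c (b (d z12 (c z8 z12)) (d z12 (c z8 z12))) z12)))) z12) z14) (a (c (b (d (a (c z8 z12) (c z10 z14)) z8) (d (a (c (b z8 z8) (b z12 z12)) (c z8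 z12)) (a (c z8 (b (d (a (c z8 z12) z12) z8) (d (c z8 z12) (c z8 (b z12 z12))))) z8))) z12) (c z10 z14)))) (b (d (a (b z14 (d z14 z14)) z14) (a (b (d z14 z14) (d z14 z14)) z14)) (d (a (b (d z12 z12) (d z12 z12)) (b z14 (d z14 z14))) (a (b (d z12 z12) (d z12 (c z12 (a (b z12 z12) z12)))) (b (d z14 z14) (d z14 z14)))))) (c (b (d (c (b (d z14 (a z14 (c (b (d (a z14 (c (b (d (a z14 z15) (a z14 z15)) z14) z15)) (a (c z10 z14) (c (b z11 z10) (b z15 z14)))) (d z14 (a z14 (c z10 z14)))) z14))) (d z14 (a z14 (c (b (d z14 (a z14 (c z10 z14))) z14) z14)))) z14) (c (b (d (a (c z10 z14) (c z10 z14)) z10) z10) z14)) (d z14 (c z10 z14))) (b (d z14 z14) (d z14 z14)))) (c (a (b (d (c z10 z14) (c z10 (a (b (d (c z10 z14) z10) (d (c z10 z14) z10)) z10))) (d (c z10 z14) (c z10 (a (b (d (c z8 z12) z8) (d (c (a (b z8 z8) z8) z12) (c z8 (a (b z12 (d z12 (c z8 z12))) z12))))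 z10)))) (b (d (c z10 z14) z10) (d (c z10 z14) z10))) (a (b (d (a (b (d z14 z14) (d z14 z14)) z14) (a (c z14 (b (d z14 z14) (d z14 z14))) z14)) (d (a (b (d z12 z12) (d (c z12 (a (b z12 (d z12 z12)) z12)) (c z12 (a (b (d z12 z12) (d z12 z12)) z12)))) (b (d z14 z14) (d z14 z14))) (a (c z12 (b (d z12 (a (b z12 (d z12 z12)) z14)) (d (a (b (d z12 z12) (d z12 (c z12 (b z12 z12)))) z12) (a (b (d z12 z12) (d (c z12 (b z12 z12)) (c z12 (b z12 z12)))) z12)))) (c z14 (b (d z14 z14) (d z14 z14)))))) (b (d z14 z14) (d z14 z14))))) _ _ (by decide +kernel)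

theorem okB1132 : CKB ⟨6144, 12288, 7168, 8192⟩ ⟨12288, 24576, 6144, 7168⟩ :=
  ckB_sound (c (b (d (a (c (b (d (a (c (b z12 z12) z12) z14) (a (c (b (d (a (c (b z12 z12) z12) z12) (a (c z8 z12) z12)) (d (c (a (b z12 z12) z12) z12) (c z8 z12))) z12) z14)) (d z12 (c (b (d z12 (a (c z8 z12) z12)) (d z12 (c z8 z12))) z12))) z12) z14) (a (c (b (d (a (c (b z8 z8) (b z12 z12)) (c z10 z14)) (a (c (b z8 z8) (b (d (a (c z8 z12) z12) z8) (d (c z8 z12) z8))) z10)) (d (c (b z8 z8) (b z12 z12)) (c z8 (b (d (a (c z8 z12) z12) z8) (d z12 z8))))) (b z12 z12)) (c z10 z14))) (d (c (b (d z12 (a (c (b (d z12 (a (c z8 z12) z12)) z12) z12) z14)) (d z12 (c (b z12 z12) z12))) z12) (c (b (d (a (c z8 z12) z14) z8) z8) (b z12 z12)))) (b (d (a (b (d z12 z12) (d z12 z12)) (b z14 (d z14 z14))) (a (b (d (a (c z12 (b z12 z12)) z14) (a (c z12 (b z12 z12)) z14)) (d z12 (c z12 (b z12 z12))))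 (b z14 (d z14 z14)))) (d (b (d z12 z12) (d z12 z12)) (b (d z12 z12) (d z12 z12))))) _ _ (by decide +kernel)

theorem okB1133 : CKB ⟨6144, 12288, 7168, 8192⟩ ⟨12288, 24576, 7168, 8192⟩ :=
  ckB_sound (c (b (d (a (c (b (d (a (c (b z8 z8) (b z8 z8)) z10) (a (c (b z8 z8) (b z8 z8)) z10)) (d (c (b z8 z8) (b z8 z8)) (c (b z8 z8) z8))) (b (d z12 (a (c (b (d z12 (a (c z8 z12) z12)) (d z12 (c z8 z12))) z12) z14)) (d z12 (c (b z12 z12) z12)))) (c z10 z14)) (a (c (b (d (a (c (b z8 z8) (b z8 z8)) z10) (a (c (b (d z8 (a (c (b z8 z8) z8) z8)) (d z8 (c (a (b z8 z8) z8) z8))) (b z8 z8)) z10)) (d (c (b z8 z8) (b z8 z8)) (c (b (d z8 (a (c (b z8 z8) z8) z8)) (d (c (a (b z8 z8) z8) z8) (c (a (b z8 z8) z8) z8))) (b z8 z8)))) (b (d (a (c (b z8 z8) z12) (c z10 z14)) (a (c z8 (b (d z12 (a (c z8 z12) z12)) (d z12 (c z8 z12)))) z10)) (d (c (b z8 z8) z12) (c z8 (b (d z12 (a (c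 z8 z12) z12)) z12))))) z10)) (d (c (b (d (a (c (b z8 z8) z8) z10) (a (c (b z8 z8) z8) z10)) (d z8 (c (b z8 z8) z8))) (b (d z12 (a (c (b z12 z12) z12) z14)) (d z12 (c (b z12 z12) z12)))) (c (b (d (a (c (b z8 z8) (b z8 z8)) z10) (a (c (b (d (a (c (b z8 z8) z8) z8) (a (c (b z8 z8) z8) z8)) (d (c (b z8 z8) z8) (c (b z8 z8) z8))) (b z8 z8)) z10)) (d (c (b z8 z8) (b z8 z8)) (c (b (d (a (c (b z8 z8) z8) z10) (a (c (b z8 z8) z8) z10)) (d z8 (c (b z8 z8) z8))) (b z8 z8)))) (b (d (a (c z8 z12) z14) z8) z8)))) (b (d (a (b (d (a (c z12 (b (d z12 z12) z12)) z14) (a (c z12 (b (d z12 z12) (d z12 z12))) z14)) (d (c z12 (b z12 z12)) (c z12 (b z12 z12)))) (b z14 (d z14 z14))) (a (c (b z12 z12) (b (d (a (b (d z12 z12) (d z12 z12)) z14) (a (b (d z12 z12) (d z12 z12)) z14)) (d (b z12 z12) (b z12 z12)))) (c z14 (b z14 (d z14 z14))))) (d (b (d z12 z12) (d z12 z12)) (c (b z12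 z12) (b (d z12 z12) (d z12 z12)))))) _ _ (by decide +kernel)

theorem okB1134 : CKB ⟨0, 1536, 4096, 5120⟩ ⟨12288, 18432, 8192, 9216⟩ :=
  ckB_sound (b (d (a (c (b (d z8 (a (b (d z0 z0) (d z0 z0)) (b (d z0 z0) (d z0 z0)))) (d z8 (a (b (d z0 z0) (d z0 z0)) (b (d z0 z0) (d z0 z0))))) (b z8 (d (a (c z8 (b z8 (d (c z8 (a (b z8 z8) z8)) z8))) z8) z8))) z8) (a (b (d z8 (a (b (d z0 z0) (d z0 z0)) (b (d z0 z0) (d z0 z0)))) (d z8 (a (b (d z0 z0) (d z0 z0)) (b (d z0 z0) (d z0 z0))))) (b (d z8 (a (b (d z0 z0) (d z0 z0)) (b (d z0 z0) (d z0 z0)))) (d z8 (a (b (d z0 z0) (d z0 z0)) (b (d z0 z0) (d z0 z0))))))) (d (c (a (b (d z8 (a (b (d z0 z0) (d z0 z0)) (b (d z0 z0) (d z0 z0)))) (d z8 (b (d z0 z0) (d z0 z0)))) (b (d z8 (a (b (d z0 z0) (d z0 z0)) (b (d z0 z0) (d z0 z0)))) (d z8 (a (b (d z0 z0) (d z0 z0)) (b (d z0 z0) (d z0 z0)))))) (a (b (d (c z8 (a (b (d (a (c z8 (b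 z8 (d z12 z8))) z8) z8) (d (c z8 (b (d z12 z8) (d z12 z8))) z8)) z8)) z8) (d (c z8 (b (d (a (c z8 (b (d z12 z8) (d (c z8 z12) z8))) z8) z8) (d (c z8 (b (d (a (c z8 z12) z12) z8) (d (a (c z8 z12) z12) z8))) z8))) z8)) z8)) (a (b (d z8 (a (b (d z0 z0) (d z0 z0)) (b (d z0 z0) (d z0 z0)))) (d z8 (b (d z0 z0) (d z0 z0)))) (b (d z8 (a (b (d z0 z0) (d z0 z0)) (b (d z0 z0) (d z0 z0)))) (d z8 (a (b (d z0 z0) (d z0 z0)) (b (d z0 z0) (d z0 z0)))))))) _ _ (by decide +kernel)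

theorem okB1135 : CKB ⟨0, 1536, 4096, 5120⟩ ⟨18432, 24576, 8192, 9216⟩ :=
  ckB_sound (b (d (a (c (b (d z12 (a (c (b (d (a (c z8 z12) (c z8 z12)) z8) (d (a (c z8 z12) (c z8 z12)) z8)) z12) (c (b (d (a (c z8 z12) z8) z8) (d (a (c z8 z12) z8) z8)) z12))) (d z12 (a (c (b (d (a (c z8 z12) (c z8 z12)) z8) (d (a (c z8 z12) (c z8 z12)) z8)) z12) (c (b (d (a (c z8 z12) z8) z8) (d (a (c z8 z12) (c z8 z12)) z8)) z12)))) z12) (c (b (d z12 (a (c z8 z12) (c z8 z12))) (d z12 (a (c z8 z12) (c z8 z12)))) z12)) (a (c (b (d (a (c z8 (b (d z12 z8) (d z12 z8))) (c z8 z12)) z8) (d (a (c z8 (b (d z12 z8) (d z12 z8))) (c z8 z12)) z8)) z12) (c (b (d (a (c z8 z12) z8) z8) (d (a (c z8 z12) z8) z8)) z12))) (d (a (c (b (d (a (c (b z12 z12) z12) z12) (a (c (b (d (a (c z8 z12) (c z8 z12)) z8) (d (c z8 z12) z8)) z12) (c (b (d (a (c z8 z12) (c z8 z12)) z8) (d (a (c z8 z12) (c z8 z12))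 z8)) z12))) (d (c (b z12 z12) z12) (c (b (d (a (c z8 z12) (c z8 z12)) z8) (d (c z8 z12) z8)) z12))) z12) (c (b (d z12 (c (a (b z8 (d (c z8 z12) z8)) z8) z12)) (d z12 (c (a (b (d (c z8 z12) z8) (d (c z8 z12) z8)) z8) z12))) z12)) (a (c (b (d (a (c z8 (b z12 z12)) (c z8 z12)) z8) (d (c z8 (b z12 z12)) z8)) z12) (c (b (d (c z8 z12) z8) (d (c z8 z12) z8)) z12)))) _ _ (by decide +kernel)

theorem okB1136 : CKB ⟨1536, 3072, 4096, 5120⟩ ⟨12288, 24576, 8192, 9216⟩ :=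
  ckB_sound (c (b (d z8 (a (b (d z8 (a (b (d z0 z0) (d z0 z0)) (b (d z0 z0) (d z0 z0)))) (d z8 (a (b (d z0 z0) (d z0 z0)) (b (d z0 z0) (d z0 z0))))) (b (d z8 (b (d z0 z0) (d z0 z0))) (d z8 (b (d z0 z0) (d z0 z0)))))) (d z8 (a (b (d z8 (a (b (d z0 z0) (d z0 z0)) (b (d z0 z0) (d z0 z0)))) (d z8 (a (b (d z0 z0) (d z0 z0)) (b (d z0 z0) (d z0 z0))))) (b (d z8 z0) (d z8 z0))))) (b (d (a (c (b (d z12 (a (c z8 z12) (c z8 z12))) (d z12 (a (c z8 z12) (c z8 z12)))) z12) z12) (a (c z8 z12) (c z8 z12))) (d (a (c (b (d z12 (a (c z8 z12) (c z8 z12))) (d z12 (a (c z8 z12) (c z8 z12)))) z12) z12) (a (c z8 z12) (c z8 z12))))) _ _ (by decide +kernel)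

theorem okB1137 : CKB ⟨0, 3072, 4096, 5120⟩ ⟨12288, 24576, 9216, 10240⟩ :=
  ckB_sound (a (b (d (a (b (d (c z8 (a (b (d z12 z8) (d z12 z8)) (b (d z12 z8) (d z12 z8)))) z8) (d (c z8 (a (b (d z12 z8) (d z12 z8)) (b (d z12 z8) (d z12 z8)))) z8)) z8) (a (b (d (a (b (d z8 z0) (d z8 z0)) (b (d z8 z0) (d z8 z0))) z0) (d (a (b (d z8 z0) (d z8 z0)) (b (d z8 z0) (d z8 z0))) z0)) (b (d (a (b (d z8 z0) (d z8 z0)) (b (d z8 z0) (d z8 z0))) z0) (d (a (b (d z8 z0) (d z8 z0)) (b (d z8 z0) (d z8 z0))) z0)))) (d (a (b (d (c z8 (a (b (d z12 z8) (d z12 z8)) (b (d z12 z8) (d z12 z8)))) z8) (d (c z8 (b (d z12 z8) (d z12 z8))) z8)) (b z8 (d (c z8 (a (b z8 (d z12 z8)) z8)) z8))) (a (b (d (a (b (d z8 z0) (d z8 z0)) (b (d z8 z0) (d z8 z0))) z0) (d (b (d z8 z0) z0) z0)) (b (d (a (b (d z8 z0) (d z8 z0)) (b (d z8 z0) (d z8 z0))) z0) (d z0 z0))))) (b (d z8 (a (b (d (a (b (d z8 z0)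 (d z8 z0)) (b (d z8 z0) (d z8 z0))) z0) (d (a (b (d z8 z0) (d z8 z0)) (b (d z8 z0) (d z8 z0))) z0)) (b (d (b (d z8 z0) (d z8 z0)) z0) (d (b (d z8 z0) (d z8 z0)) z0)))) (d z8 (a (b (d (a (b (d z8 z0) z0) (b (d z8 z0) z0)) z0) (d z0 z0)) (b (d z0 z0) (d z0 z0)))))) _ _ (by decide +kernel)

theorem okB1138 : CKB ⟨0, 3072, 5120, 6144⟩ ⟨12288, 24576, 8192, 9216⟩ :=
  ckB_sound (c (b (d (a (c (b (d z8 (a (b (d z0 z0) (d z0 z0)) (b (d z0 z0) (d z0 z0)))) (d z8 (a (b (d z0 z0) (d z0 z0)) (b (d z0 z0) (d z0 z0))))) (b (d (a (c z8 (b (d (a (c z8 (b (d (a (c z8 z12) z12) z8) (d (a (c z8 z12) z12) z8))) z8) z8) (d (a (c z8 (b (d (a (c z8 z12) z12) z8) (d (c z8 z12) z8))) z8) z8))) z8) z8) (d (c z8 (a (b (d (c z8 (a (b (d (c z8 z12) z8) (d (c z8 z12) z8)) z8)) z8) (d (c z8 (b (d z12 z8) z0)) z8)) (b z8 (d (c z8 (a (b z8 (d z12 z8)) z8)) z8)))) z8))) z8) (a (b (d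 z8 (a (b (d z0 z0) (d z0 z0)) (b (d z0 z0) (d z0 z0)))) (d z8 (a (b (d z0 z0) (d z0 z0)) (b (d z0 z0) (d z0 z0))))) (b (d z8 (a (b (d z0 z0) (d z0 z0)) z0)) (d z8 (a (b (d z0 z0) (d z0 z0)) (b (d z0 z0) (d z0 z0))))))) (d (c (b (d z8 (a (b (d z0 z0) (d z0 z0)) (b (d z0 z0) (d z0 z0)))) (d z8 (b (d (a (c (b z0 z0) z8) z0) z0) (d (c (b z0 z0) z8) z0)))) (b (d (a (c z8 (b (d (a (c z8 (b z8 z8)) z8) z8) (d (c z8 (b z8 z8)) z8))) z8) z8) (d (c z8 (b (d (a (c z8 (b z8 z8)) z8) z8) (d (c z8 (b z8 z8)) z8))) z8))) (b (d z8 (a (b (d z0 z0) (d z0 z0)) (b (d z0 z0) (d z0 z0)))) (d z8 (b (d z0 z0) (d z0 z0)))))) (b (d (a (c (b (d (a (c (b z12 z12) z12) z12) (a (c (b (d (a (c z8 z12) (c z8 z12)) z8) (d (a (c z8 z12) (c z8 z12)) z8)) z12) (c (b z8 (d (a (c z8 z12) z8) z8)) z12))) (d (c (a (b z12 z12) z12) z12) (c (a (b (d (c z8 z12) z8) (d (c z8 z12) z8)) (b (d (c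 z8 z12) z8) (d (c z8 z12) z8))) z12))) (b z12 z12)) (c (b (d z12 (a (c z8 z12) z12)) (d z12 (a (c z8 z12) (c z8 z12)))) z12)) (a (c (b (d (a (c z8 (b z12 z12)) (c z8 z12)) z8) (d (c z8 (a (b z12 z12) z12)) z8)) z12) (c z8 z12))) (d (c (b (d (a (c (b z12 z12) z12) z12) (a (c (b (d (a (c z8 z12) z8) z8) (d (c z8 z12) z8)) z12) (c z8 z12))) (d (c (b z12 z12) z12) (c (b (d (a (c z8 z12) z8) z8) (d (c z8 z12) z8)) z12))) (b (d (a (b z12 z12) z12) z12) (d (b z12 z12) z12))) (c (b (d (a (c z8 (b z12 z12)) z8) z8) (d (c z8 (b z12 z12)) z8)) (b z12 z12))))) _ _ (by decide +kernel)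

theorem okB1139 : CKB ⟨0, 3072, 5120, 6144⟩ ⟨12288, 24576, 9216, 10240⟩ :=
  ckB_sound (b (d (a (b (d (a (c z8 (b (d z12 z8) (d z12 z8))) z8) z8) (d (c z8 (a (b (d z12 z8) (d z12 z8)) z8)) z8)) z8) (a (b (d (a (b z0 z0) z0) z0) (d (a (b z0 z0) z0) z0)) (b (d z0 z0) (d z0 z0)))) (d (b (d (a (c z8 (b (d z12 z8) z8)) z8) z8) (d (c z8 (b z8 z8)) z8)) (b (d z0 z0) (d z0 z0)))) _ _ (by decide +kernel)

end Vale.Agent.Lib.P154Q5
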