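import Vale.Agent.Lib.P154Q5.CkBDefs

namespace Vale.Agent.Lib.P154Q5

set_option maxRecDepth 100000
set_option exponentiation.threshold 1000

open Tr

theorem okB1140 : CKB ⟨3072, 6144, 4096, 6144⟩ ⟨12288, 24576, 8192, 10240⟩ :=
  ckB_sound (b (d (c (b (d z8 (a (b (d z8 z0) (d z8 z0)) (b (d z8 z0) (d z8 z0)))) (d z8 (a (b (d z8 z0) (d z8 z0)) (b (d z8 z0) (d z8 z0))))) (b (d z12 (a (c z8 z12) (c z8 z12))) (d z12 (a (c z8 z12) (c z8 z12))))) (b (d z8 (a (b (d (a (b (d z8 z0) (d z8 z0)) (b (d z8 z0) (d z8 z0))) z0) (d (a (b (d z8 z0) z0) z0) z0)) (b (d (a (b (d z8 z0) z0) z0) z0) (d z0 z0)))) (d z8 (a (b (d z0 z0) (d z0 z0)) (b (d z0 z0) (d z0 z0)))))) (d (c (b (d z8 (a (b (d z8 z0) (d z8 z0)) (b (d z8 z0) (d z8 z0)))) (d z8 (a (b (d z8 (a (b z0 (d z0 z0)) z0)) (d z8 (a (b (d z0 z0) (d z0 z0)) (b z0 (d z0 z0)))))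 (b (d z8 z0) (d z8 z0))))) (b (d z12 (a (c z8 z12) (c z8 z12))) (d (a (c (b z12 (d z12 (a (c z8 z12) z12))) z12) z12) (a (c z8 z12) (c z8 z12))))) (b (d z8 (a (b (d z0 z0) (d z0 z0)) (b (d z0 z0) (d z0 z0)))) (d z8 (a (b (d z0 z0) (d z0 z0)) (b (d z0 z0) (d z0 z0))))))) _ _ (by decide +kernel)

theorem okB1141 : CKB ⟨0, 6144, 4096, 6144⟩ ⟨12288, 24576, 10240, 12288⟩ :=
  ckB_sound z0 _ _ (by decide +kernel)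

theorem okB1142 : CKB ⟨0, 6144, 6144, 7168⟩ ⟨12288, 18432, 8192, 9216⟩ :=
  ckB_sound (b (d (a (c (b (d (a (c (b (d (a (c (b (d z0 z0) (d z0 z0)) z8) z0) (a (b (d z0 z0) (d z0 z0)) z0)) (d (c (b (d z0 z0) (d z0 z0)) z8) (b (d z0 z0) (d z0 z0)))) z8) z8) (a (b (d (a (c (b z0 z0) z8) z0) (a (b z0 z0) z0)) (d (c (b (d z0 z0) (d z0 z0)) z8) (b z0 z0))) (b (d z0 z0) (d z0 z0)))) (d (c (b (d (c (a (b (d z0 z0) (d z0 z0)) (b (d z0 z0) (d z0 z0))) z8) (a (b (d z0 z0) (d z0 z0)) (b z0 (d z0 z0)))) (d (c (b (d z0 z0) (d z0 z0)) z8) (b (d z0 z0) (d z0 z0)))) z8) (b (d (a (c (b (d z0 z0) (d z0 z0)) z8) z0) (a (b z0 z0) z0)) (d (c (b (d z0 z0) (d z0 z0)) z8) (b z0 (d z0 z0)))))) (b (d (a (c z8 (b (d (a (c z8 (b z8 z8)) z8) z8) z8)) z8) z8) (d (c z8 (b z8 z8)) z8))) (c (b (d z8 (a (b (d z0 z0) (d z0 z0)) (b (d z0 z0) (d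 z0 z0)))) (d z8 (a (b (d z0 z0) (d (a (c (b z0 (d z0 z0)) z8) z0) z0)) (b (d z0 z0) (d z0 z0))))) z8)) (a (b (d z8 (a (b (d z0 z0) (d z0 z0)) (b (d z0 z0) (d z0 z0)))) (d z8 (b (d z0 z0) (d z0 z0)))) (b (d z8 (a (b z0 (d z0 z0)) z0)) (d z8 (a (b (d z0 z0) (d z0 z0)) (b z0 (d z0 z0))))))) (d (c (b (d (c (a (b (d (c (a (b (d z0 z0) (d z0 z0)) (b (d z0 z0) (d z0 z0))) z8) (a (b (d z0 z0) (d z0 z0)) (b (d z0 z0) (d z0 z0)))) (d (c (b (d (c (b z0 z0) z0) z0) z0) z8) (b (d z0 z0) z0))) (b (d (c (a (b (d z0 z0) (d z0 z0)) (b z0 (d z0 z0))) z8) (a (b z0 (d z0 z0)) z0)) (d (c (a (b (d z0 z0) (d (c (b z0 z0) z0) z0)) (b (d z0 z0) (d z0 z0))) z8) (a (b (d z0 z0) (d z0 z0)) (b z0 (d z0 z0)))))) (a (b z8 z8) z8)) (a (b (d (c (a (b (d z0 z0) (d z0 z0)) (b z0 (d z0 z0))) z8) (a (b (d z0 z0) (d z0 z0)) z0)) (d (c (b (d z0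 z0) z0) z8) (b (d z0 z0) z0))) (b (d z0 z0) (d (c (a (b (d z0 z0) (d z0 z0)) z0) z8) (a (b z0 (d z0 z0)) z0))))) (d (c (b (d (c (b (d (c (a (b z0 z0) z0) z0) (a (b z0 z0) z0)) (d (c (b z0 z0) z0) (b z0 z0))) z8) (b (d z0 z0) (d z0 z0))) z0) (b z8 z0)) (b (d (c (b (d z0 z0) (d z0 z0)) z8) (b (d z0 z0) (d z0 z0))) z0))) (b (d (c z8 (a (b z8 z8) z8)) z8) (d (c z8 (b z8 z0)) z8))) (b (d z8 (a (b (d z0 z0) (d z0 z0)) (b (d z0 z0) (d z0 z0)))) (d (c (b (d (c (b z0 z0) z8) (b z0 z0)) z0) z8) (b (d z0 z0) z0))))) _ _ (by decide +kernel)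

theorem okB1143 : CKB ⟨0, 6144, 6144, 7168⟩ ⟨18432, 24576, 8192, 9216⟩ :=
  ckB_sound (b (d (a (c (b (d (a (c (b z12 z12) z12) z12) (a (c (b (d (a (c z8 z12) z8) z8) (d (c z8 z12) z8)) z12) (c z8 z12))) (d (c (b z12 z12) z12) (c (b z8 z8) z12))) (b (d (a (b (d (c z12 (a (b z12 z12) z12)) z12) (d (c z12 (b z12 z12)) z12)) z12) z12) (d (b z12 z12) z12))) (c (b z12 (d z12 (a (c z8 z12) z12))) z12)) (a (c (b (d (a (c z8 (b z12 z12)) z8) z8) (d (c z8 (b z12 z12)) z8)) (b z12 z12)) (c z8 z12))) (d (c (b (d (a (c (b z12 z12) z12) z12) (a (c (b z8 z8) z12) (c z8 z12))) (d (c (b z12 z0) z12) (c (b z8 z0) z12))) (b (d (a (b z12 z12) z12) z12) (d (b z12 z0) z12))) (c (b (d (a (c z8 (b z12 z12)) z8) z8) z8) (b z12 z12)))) _ _ (by decide +kernel)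

theorem okB1144 : CKB ⟨0, 6144, 6144, 7168⟩ ⟨12288, 24576, 9216, 10240⟩ :=
  ckB_sound (b (d (a (b (d (c z8 (a (b z8 z8) z8)) z8) z8) z8) (a (b (d z0 z0) (d z0 z0)) (b (d z0 z0) (d z0 z0)))) (d (b z8 z8) (b (d (a (b z0 z0) z0) z0) (d (b z0 z0) z0)))) _ _ (by decide +kernel)

theorem okB1145 : CKB ⟨0, 6144, 7168, 8192⟩ ⟨12288, 24576, 8192, 10240⟩ :=
  ckB_sound z0 _ _ (by decide +kernel)

theorem okB1146 : CKB ⟨0, 6144, 6144, 8192⟩ ⟨12288, 24576, 10240, 12288⟩ :=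
  ckB_sound z0 _ _ (by decide +kernel)

theorem okB1147 : CKB ⟨6144, 12288, 4096, 6144⟩ ⟨12288, 24576, 8192, 12288⟩ :=
  ckB_sound (d (b (d (c (a (b (d z8 (a (b (d z8 z0) (d z8 z0)) (b (d z9 (a z0 z1)) (d z8 z0)))) (d z10 (a (b (d z8 z0) (d z10 z2)) (b (d z10 z2) (d z10 z2))))) (b (d z11 z3) (d z11 (b (d z11 z3) (d z11 (a (b z3 (d z3 z3)) z3)))))) (a (b (d z12 z8) (d z14 (a (c z8 z12) z10))) (b z15 (d (c (b z15 (d z15 (a (c z11 z15) z15))) z15) (c z11 z15))))) (a (b (d z8 (a (b (d z0 z0) (d z0 z0)) (b (d (a z0 z1) z0) (d z0 z0)))) (d z10 (a (b (d z0 z0) (d z2 z0)) (b (d z2 z0) (d z2 z0))))) (b (d z11 (b z1 (d z3 z0))) (d z11 (b (d z3 z0) (d (a (b z3 (d z11 z3)) z3) z0)))))) (d (c (a (b (d z10 (a (b (d z10 z2) (d z10 z2)) (b (d z10 z2) (d z10 z2)))) (d z10 (a (b (d z10 z2) (d z10 z2)) (b (d z10 z2) (d z10 z2)))))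 (b (d (c (b (d z11 (a z2 z3)) (d (a z10 z11) (a z2 z3))) (b z11 (d (a z10 z11) z11))) (b (d z11 (a z2 z3)) (d z11 (a z2 z3)))) (d z10 (b (d z10 z2) (d z10 z2))))) (a (b (d z14 (a (c z10 z14) z10)) (d z14 (a (c z10 z14) z10))) (b (d (c (b (d z15 (a z14 z15)) (d (a z14 z15) (a z14 z15))) z15) (c (b z11 (d (a z10 z11) z11)) (b z15 (d z15 (a z14 z15))))) (d z14 (c z10 z14))))) (a (b (d z10 (a (b (d z2 z0) (d z2 z0)) (b (d z2 z0) (d z2 z0)))) (d z10 (a (b (d z2 z0) (d z2 z0)) (b (d z2 z0) (d z2 z0))))) (b (d z11 (b (d (a z2 z3) z0) (d (a z2 z3) z0))) (d z10 (b (d z2 z0) (d z2 z0))))))) z0) _ _ (by decide +kernel)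

theorem okB1148 : CKB ⟨6144, 12288, 6144, 7168⟩ ⟨12288, 24576, 8192, 10240⟩ :=
  ckB_sound (d (c (a (b (d z10 (a (b (d z10 z2) (d z10 z2)) (b (d z10 z2) (d z10 z2)))) (d (c (a (b (d z8 (a (b (d z0 z0) (d z0 z0)) (b (d z2 z2) (d z2 z2)))) (d (c (a (b (d (c (a (b (d z0 z0) (d (c (a (b z0 z0) z0) z0) z0)) (b (d z0 z0) (d z0 z0))) z8) (a (b (d z0 z0) (d z0 z0)) (b z0 (d z0 z0)))) (d (c (b (d (a (c (b z0 z0) z0) z0) (a (b z0 z0) z0)) (d (c (b z0 z0) z0) (b z0 z0))) z8) (b (d (a (c (b z0 z0) z0) z0) z0) (d (c (b z0 z0) z0) z0)))) (b (d (c (a (b z0 (d z0 z0)) z0) z8) z0) (d (c (a (b (d z0 z0) (d z0 z0)) (b (d z0 z0) (d z0 z0))) z8) (a (b (d z0 z0) (d z0 z0)) (b z0 (d z0 z0)))))) z8) (a (b (d (c (a (b z0 (d z0 z0)) z0) z8) (a (b z0 (d z0 z0)) z0)) (d (c (b (d z0 z0) (d z0 z0)) z8) (b (d z0 z0) (d z0 z0)))) (b (d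 z0 z0) (d (c (a (b z0 (d z0 z0)) z0) z8) z0))))) (b (d z10 (a (b (d z2 z2) (d z2 z2)) (b z2 (d z2 z2)))) (d z10 (a (b (d z2 z2) (d z2 z2)) (b (d z2 z2) (d z2 z2)))))) z10) (a (b (d z8 (a (b (d z0 z0) (d z0 z0)) z2)) (d z8 (a (b (d z0 z0) (d z0 z0)) (b (d z0 z0) (d z0 z0))))) (b (d z10 z2) (d z10 (a (b z2 (d z2 z2)) z2)))))) (b (d z10 (b (d z10 z2) (d z10 z2))) (d z10 (b (d z10 z2) (d z10 z2))))) (a (b (d z14 (a (c z10 z14) z10)) (d (a (c (b z12 (d z12 (a (c z8 z12) z12))) z12) z14) (a (c z8 z12) z10))) (b z14 (d z14 z10)))) (a (b (d z10 (a (b (d z2 z0) (d z2 z0)) (b (d z2 z0) (d z2 z0)))) (d z10 (a (b (d z0 z0) (d z0 z0)) (b (d z2 z0) (d z2 z0))))) (b (d z10 (b (d z2 z0) (d z2 z0))) (d z10 (b (d z2 z0) (d z2 z0)))))) _ _ (by decide +kernel)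

theorem okB1149 : CKB ⟨6144, 9600, 7168, 7680⟩ ⟨12288, 18432, 8192, 8704⟩ :=
  ckB_sound (c (b (d (a (c (b (d (a (c (b (d (a (c (b (d z0 z0) (d z0 z0)) z0) z0) (a (b z0 z0) z0)) (d (c (a (b (d z0 z0) (d z0 z0)) z0) z0) (a (b z0 z0) z0))) z8) (c (b (d z0 z0) (d z0 z0)) z8)) (a (b (d (a (c (b z0 z0) z0) z0) z0) (d (c (a (b z0 z0) z0) z0) (a (b z0 z0) z0))) (b (d z0 z0) (d z0 z0)))) (d (c (a (b (d (c (a (b (d z0 z0) (d z0 z0)) z0) z0) (a (b z0 z0) z0)) (d (c (b (d z0 z0) z0) z0) (b z0 z0))) (b (d z0 z0) (d (c (a (b z0 (d z0 z0)) z0) z0) (a (b z0 z0) z0)))) z8) (a (b (d (c (a (b z0 z0) z0) z0) (a (b z0 z0) z0)) (d (c (b z0 z0) z0) (b z0 z0))) (b (d z0 z0) (d (c (a (b z0 z0) z0) z0) z0))))) (b z8 z8)) z10) (a (b (d (a (c (b (d z0 z0) (d z0 z0)) z8) (c (b z0 (d z0 z0)) z8)) (a (b (d z0 z0) (d z0 z0)) z0)) (d (c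 (a (b (d z0 z0) (d z0 z0)) (b (d z0 z0) (d z0 z0))) z8) (a (b (d z0 z0) (d z0 z0)) (b z0 (d z0 z0))))) (b (d z2 z2) (d (a (c (b z0 (d z0 z0)) z8) z2) z2)))) (d (c (b (d (a (c (b (d (a (c (b (d z0 z0) (d z0 z0)) z0) z0) (a (b (d z0 z0) (d z0 z0)) z0)) (d (c (a (b (d z0 z0) (d z0 z0)) (b z0 (d z0 z0))) z0) (a (b (d z0 z0) (d z0 z0)) z0))) (b z8 z8)) (c (b (d z0 z0) (d z0 z0)) z8)) (a (b (d (a (c (b z0 z0) z0) z0) (a (b z0 z0) z0)) (d (c (a (b z0 z0) z0) z0) (a (b z0 z0) z0))) (b (d z0 z0) (d z0 z0)))) (d (c (a (b (d (c (a (b (d z0 z0) (d z0 z0)) (b z0 (d z0 z0))) z0) (a (b (d z0 z0) (d z0 z0)) z0)) (d (c (b (d z0 z0) z0) z0) (b (d z0 z0) z0))) (b (d z0 z0) (d (c (a (b z0 (d z0 z0)) z0) z0) (a (b z0 (d z0 z0)) z0)))) (a (b z8 z8) z8)) (a (b (d (c (a (b z0 z0) z0) z0) (a (b z0 z0) z0)) (d (c (b z0 z0) z0) (b z0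 z0))) (b (d z0 z0) (d (c (a (b z0 z0) z0) z0) z0))))) (b z8 z8)) (b (d (a (c (b (d (a (c (b z0 z0) z0) z0) z0) (d (c (a (b z0 z0) z0) z0) z0)) z8) (c (b z0 (d z0 z0)) z8)) (a (b (d z0 z0) (d z0 z0)) z0)) (d (c (a (b (d (c (a (b z0 z0) z0) z0) z0) (d (c (b z0 z0) z0) z0)) (b (d z0 z0) (d z0 z0))) z8) (a (b (d z0 z0) (d z0 z0)) (b z0 (d z0 z0))))))) (b (d (a (c (b z8 z8) z8) z10) (a (c (b z8 z8) z8) z10)) (d (c (b z8 z8) z8) (c (b z8 z8) z8)))) _ _ (by decide +kernel)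

theorem okB1150 : CKB ⟨9600, 12288, 7168, 7680⟩ ⟨12288, 18432, 8192, 8704⟩ :=
  ckB_sound (c (b (d z10 (a (b (d z2 z2) (d z2 z2)) (b z2 (d z2 z2)))) (d z10 (a (b (d z2 z2) (d (a (c (b z2 (d z0 z0)) z8) z2) z2)) (b (d z2 z2) (d z2 z2))))) z10) _ _ (by decide +kernel)

theorem okB1151 : CKB ⟨6144, 12288, 7168, 7680⟩ ⟨12288, 18432, 8704, 9216⟩ :=
  ckB_sound (a (b (d (a (c (b (d (a (c (b (d z0 z0) (d z0 z0)) z8) z0) (a (b z0 z0) z0)) (d (c (a (b (d z0 z0) (d z0 z0)) (b z0 (d z0 z0))) z8) (a (b z0 z0) z0))) z8) z10) (a (b (d (a (b z0 z0) z0) z0) (d (a (b z0 z0) z0) z0)) (b (d z2 z2) (d z2 z2)))) (d (c (b (d (a (c (b (d z0 z0) (d z0 z0)) z8) z0) (a (b z0 z0) z0)) (d (c (a (b (d z0 z0) (d z0 z0)) (b z0 (d z0 z0))) z8) (a (b (d z0 z0) (d z0 z0)) z0))) z8) (b (d (a (b z0 z0) z0) z0) (d (a (b z0 z0) z0) (a (b z0 z0)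 z0))))) (b (d z10 z2) (d z10 (a (b (d z2 z2) (d z2 z2)) z2)))) _ _ (by decide +kernel)

theorem okB1152 : CKB ⟨6144, 12288, 7680, 8192⟩ ⟨12288, 18432, 8192, 8704⟩ :=
  ckB_sound (c (b (d (a (c (b (d (a (c (b (d (a (c (b (d z0 z0) (d z0 z0)) z0) z0) (a (b (d z0 z0) (d z0 z0)) z0)) (d (c (b (d z0 z0) (d z0 z0)) z0) (b (d z0 z0) (d z0 z0)))) (b z8 z8)) (c (b (d z2 z2) (d z0 z0)) z8)) (a (b (d (a (c (b z0 z0) z0) z0) (a (b z0 z0) z0)) (d (c (b z0 z0) z0) (b z0 z0))) (b (d z2 z2) (d z0 z0)))) (d (c (b (d (a (c (b (d z0 z0) (d z0 z0)) z0) z0) (a (b (d z0 z0) (d z0 z0)) z0)) (d (c (b (d z0 z0) (d z0 z0)) z0) (b (d z0 z0) (d z0 z0)))) (b z8 z8)) (b (d (a (c (b z0 z0) z0) z0) (a (b z0 z0) z0)) (d (c (b z0 z0) z0) (b z0 z0))))) (b z8 (d z8 (c (b z8 z8) z8)))) z10) (a (b (d (a (c (b (d (a (c (b z0 z0) z0) z0) z0) (d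 (c (b z0 z0) z0) (b z0 z0))) z8) (c (b z2 (d z0 z0)) z8)) (a (b (d z0 z0) (d z0 z0)) z0)) (d (c (b (d (a (c (b z0 z0) z0) z0) (a (b z0 z0) z0)) (d (c (b z0 z0) z0) (b z0 z0))) z8) (b (d z0 z0) (d z0 z0)))) (b (d z2 z2) (d (a (c (b z2 (d z0 z0)) z10) z2) z2)))) (d (c (b (d (a (c (b (d (a (c (b (d z0 z0) (d z0 z0)) z0) z0) (a (b (d z0 z0) (d z0 z0)) z0)) (d (c (b (d z0 z0) (d z0 z0)) z0) (b (d z0 z0) z0))) (b z8 z8)) (c (b (d z2 z2) (d z0 z0)) z10)) (a (b (d (a (c (b z0 z0) z0) z0) (a (b z0 z0) z0)) (d (c (b z0 z0) z0) (b z0 z0))) (b (d z2 z2) (d z0 z0)))) (d (c (b (d (a (c (b (d z0 z0) (d z0 z0)) z0) z0) (a (b z0 z0) z0)) (d (c (b z0 z0) z0) (b z0 z0))) (b z8 z8)) (b (d (a (c (b z0 z0) z0) z0) (a (b z0 z0) z0)) (d (c (b z0 z0) z0) (b z0 z0))))) (b (d z8 (a (c (b z8 z8) z8) z10)) (d z8 (c (b z8 z8) z8)))) (b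 (d (a (c (b (d (a (c (b z0 z0) z0) z0) (a (b z0 z0) z0)) (d (c (b z0 z0) z0) (b z0 z0))) z8) (c (b z2 (d z0 z0)) z10)) (a (b (d z0 z0) (d z0 z0)) z2)) (d (c (b (d (a (c (b z0 z0) z0) z0) (a (b z0 z0) z0)) (d (c (b z0 z0) z0) (b z0 z0))) z8) (b (d z0 z0) (d z0 z0)))))) (b (d (a (c (b z8 z8) z8) z10) (a (c (b z8 z8) z8) z10)) (d (c (b z8 z8) z8) (c (b z8 z8) z8)))) _ _ (by decide +kernel)

theorem okB1153 : CKB ⟨6144, 12288, 7680, 8192⟩ ⟨12288, 18432, 8704, 9216⟩ :=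
  ckB_sound (b (d (a (c (b (d (a (c (b (d z0 z0) (d z0 z0)) z8) z0) (a (b (d z0 z0) (d z0 z0)) z0)) (d (c (b (d z0 z0) (d z0 z0)) z8) (b (d z0 z0) (d z0 z0)))) (b z8 z8)) z10) (a (b (d (a (b z0 z0) z0) (a (b z0 z0) z0)) (d (b z0 z0) (b z0 z0))) (b (d z2 z2) (d z2 z2)))) (d (c (b (d (a (c (b (d z0 z0) (d z0 z0)) z8) z2) (a (b (d z0 z0) (d z0 z0)) z2)) (d (c (b (d z0 z0) (d z0 z0)) z8) (b (d z0 z0) (d z0 z0)))) (b z8 z8)) (b (d (a (b z0 z0) z2) (a (b z0 z0) z2)) (d (b z0 z0) (b z0 z0))))) _ _ (by decide +kernel)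

theorem okB1154 : CKB ⟨6144, 12288, 7168, 8192⟩ ⟨18432, 24576, 8192, 9216⟩ :=
  ckB_sound (b (d (a (c (b (d (a (c (b z12 z12) z12) z14) (a (c z8 z12) z14)) (d (c (b z12 z12) z12) (c z8 z12))) (b z12 z12)) z14) (a (c (b z8 z8) (b z12 z12)) z10)) (d (c (b (d z12 (a (c z8 z12) z14)) (d z12 (c z8 z12))) z12) (c (b z8 (d z8 (c (b z8 z8) z8))) (b z12 z12)))) _ _ (by decide +kernel)

end Vale.Agent.Lib.P154Q5
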