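import Vale.Agent.Lib.P154Q5.CkBDefs

namespace Vale.Agent.Lib.P154Q5

set_option maxRecDepth 100000
set_option exponentiation.threshold 1000

open Tr

theorem okB1155 : CKB ⟨6144, 12288, 7168, 8192⟩ ⟨12288, 24576, 9216, 10240⟩ :=
  ckB_sound (b (d z10 (a (b (d (a (b z0 z0) z2) z0) (d (b z0 z0) z0)) (b (d z2 z0) (d z2 z0)))) (d (b (d z8 z8) (d (c (b z8 z8) z8) z8)) (b (d (a (b z0 z0) z2) z0) (d (b z0 z0) z0)))) _ _ (by decide +kernel)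

theorem okB1156 : CKB ⟨6144, 12288, 6144, 8192⟩ ⟨12288, 24576, 10240, 12288⟩ :=
  ckB_sound z0 _ _ (by decide +kernel)

theorem okB1157 : CKB ⟨0, 12288, 8192, 12288⟩ ⟨12288, 24576, 4096, 12288⟩ :=
  ckB_sound (d (b (d (b (d (b (d z12 (c z12 (b z12 z0))) z0) (b (d (c z12 (b z12 z0)) (c z12 (b z12 z0))) z0)) z0) (b (d (c (b (d (c (b (d z12 (c (b z12 z0) z12)) z0) z12) (c (b z8 z0) (b z12 z0))) z0) (b (d (b z12 z0) (b z12 z0)) z0)) (c (b (d (c (b (d z8 (c (b z8 z0) z8)) z0) (b (d z12 (c (b z12 z0) z12)) z0)) (c (b (d (c (b z8 z0) (b z8 z0)) (c (b (d z8 (c (b z8 z0) z8)) z0) (b z8 z0))) z0) (b z8 z0))) z0) (b (d (b z12 z0) (c (b z12 z0) (b z12 z0))) z0))) z0)) z0) (b (d (b (d (c (b (d (c (b (d (c (b (d (c (b (d (c (b z0 z0) z0) (b z0 z0)) z0) (b z8 z0)) (b (d (c (b z0 z0) z0) (b z0 z0)) z0))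 z0) (b (d z8 (c (b z8 z0) z8)) z0)) (b (d (c (b (d (c (b z0 z0) z0) (b z0 z0)) z0) z8) (b (d z0 z0) z0)) z0)) z0) (b (d (c (b z8 z0) z8) (c (b z8 z0) (b z8 z0))) z0)) (b (d (c (b (d (c (b (d z0 z0) z0) z8) (b (d z0 z0) z0)) z0) (b z8 z0)) (b (d (b z0 z0) (b z0 z0)) z0)) z0)) z0) (b (d (c (b (d z12 (c z8 z12)) z0) z12) (c (b (d z8 (c (b z8 z0) z8)) z0) (b z12 z0))) z0)) (b (d (b (d (c (b z8 z0) z8) (c (b (d z8 z0) z0) z8)) z0) (b (d (b z0 z0) z0) z0)) z0)) z0) z0) z0)) _ _ (by decide +kernel)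

theorem okB1158 : CKB ⟨12288, 24576, 4096, 6144⟩ ⟨0, 6144, 4096, 8192⟩ :=
  ckB_sound (d (c (b z3 (d z3 (b z3 (d z3 z3)))) (b (d z3 (b z3 z3)) (d z3 (b z3 z3)))) (b (d (b z3 z3) z0) (d (b (d z3 z3) (d (a z3 (c (b z3 z3) z3)) (a z3 (b z3 (d z3 z3))))) z0))) _ _ (by decide +kernel)

theorem okB1159 : CKB ⟨12288, 17067, 6144, 6656⟩ ⟨0, 1536, 4096, 5120⟩ :=
  ckB_sound (d (c (a (b z3 (d (c (a (b z3 (d (c (a z2 z3) (a z2 z3)) (c (a z2 z3) (a z2 z3)))) z3) (a (b z3 (d (c (a z2 z3) (a z2 z3)) (c (a z2 z3) (a z2 z3)))) z3)) (c (a (b (d z3 (a (c (b z3 (d (a z2 z3) (a z2 z3))) (b z3 (d z3 (a z2 z3)))) z3)) (d (c (a z2 z3) (a z2 z3)) (a z2 z3))) z3) (a (b z3 (d (c (a z2 z3) (a z2 z3)) (c (a z2 z3) (a z2 z3)))) z3)))) z3) (a (b z3 (d (c (a (b z3 (d (c (a z2 z3) (a z2 z3)) (c (a z2 z3) (a z2 z3)))) z3)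 (a (b z3 (d (c (a z2 z3) z3) (c (a z2 z3) (a z2 z3)))) z3)) (c (a (b z3 (d (c (a z2 z3) (a z2 z3)) (c (a z2 z3) (a z2 z3)))) z3) (a (b z3 (d (c (a z2 z3) (a z2 z3)) (c (a z2 z3) (a z2 z3)))) z3)))) z3)) (c (a (b (d z3 z3) (d (c (a (b (d (c (a (b z3 (d (c (a z2 z3) (a z2 z3)) (a z2 z3))) z3) (a (b z3 (d (c (a z2 z3) (a z2 z3)) (c (a z2 z3) (a z2 z3)))) z3)) (a (b z3 (d (c (a z2 z3) (a z2 z3)) (c (a z2 z3) (a z2 z3)))) z3)) (d (c (a z2 z3) (a z2 z3)) (a z2 z3))) z3) (a (b (d (a (c (b z3 (d z3 (a z2 z3))) z3) z3) (a (c (b z3 (d (a z2 z3) (a z2 z3))) (b z3 (d (a z2 z3) (a z2 z3)))) z3)) (d (a z2 z3) (a z2 z3))) z3)) (a (b (d (c (a (b (d z3 (a (b z3 z2) z3)) (d (c (a z2 z3) (a z2 z3)) (a z2 z3))) z3) (a (b z3 (d (c (a z2 z3) (a z2 z3)) (c (a z2 z3) (a z2 z3)))) z3)) (a (b (d (c (a (b z3 z2) z3)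 z3) (c (a (b z3 z2) z3) (a (b z3 z2) z3))) (d (c (a z2 z3) (a z2 z3)) (c (a z2 z3) (a z2 z3)))) z3)) (d (c (a (b (d z2 z2) z2) z3) (a z2 z3)) (a (b (d z2 (c (a z2 (b (d z3 z3) z2)) z2)) z2) z3))) z3))) z3) (a (b z3 (d (a (c (b (d z3 (a (c (b z3 (d z3 (a z2 z3))) z3) z3)) (d (a z2 z3) (a z2 z3))) (b z3 (d (a z2 z3) (a z2 z3)))) z3) (a (c (b (d (a (c (b z3 (d (a z2 z3) (a z2 z3))) (b z3 (d (a z2 z3) (a z2 z3)))) z3) (a (c (b (d z3 (a (c (b z3 z2) z3) z3)) (d (a z2 z3) (a z2 z3))) (b z3 (d (a z2 z3) (a z2 z3)))) z3)) (d (a z2 z3) (a z2 z3))) (b (d (a (c (b z3 (d z3 (a z2 z3))) z3) z3) (a (c (b z3 (d (a z2 z3) (a z2 z3))) (b z3 (d (a z2 z3) (a z2 z3)))) z3)) (d (a z2 z3) (a z2 z3)))) z3))) z3))) _ _ (by decide +kernel)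

theorem okB1160 : CKB ⟨12288, 17067, 6656, 7168⟩ ⟨0, 1536, 4096, 4608⟩ :=
  ckB_sound (c (a (b (d (c (a z2 z3) (a z2 z3)) (c (a (b (d z2 (a z2 (c (b z3 z2) (b z3 z2)))) z2) z3) (a z2 z3))) (d (c (a z2 (b (d (c (a z2 z3) (a z2 z3)) (c (a z2 z3) (a z2 z3))) (d (c (a z2 z3) z2) (c (a z2 z3) (a z2 z3))))) (a z2 (b (d (c (a z2 z3) z3) (c (a z2 z3) (a z2 z3))) z2))) (c (a z2 (b (d (c (a z2 z3) (a z2 z3)) (c (a (b (d (c (a z2 z3) (a z2 z3)) (a z2 z3)) z2) z3) (a z2 z3))) (d (c (a z2 z3) (a z2 z3)) (c (a z2 (b z3 (d (c (a z2 z3) z3) (a z2 z3)))) (a z2 z3))))) (a z2 (b (d (c (a z2 z3) (a z2 z3)) (c (a z2 z3) (a z2 z3))) (d (c (a z2 z3) z2) (c (a z2 z3) (a z2 z3)))))))) z3) (a (b (d (c (a z2 z3) (a z2 z3)) (c (a z2 z3) (a z2 z3))) (d (c (a z2 (b z3 z2)) (a z2 (b z3 z2))) (c (a z2 (b (d (c (a z2 z3)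 z3) (c (a z2 z3) (a z2 z3))) (d z2 (c (a z2 z3) z2)))) (a z2 (b (d z3 (c (a z2 z3) z3)) z2))))) z3)) _ _ (by decide +kernel)

theorem okB1161 : CKB ⟨12288, 14678, 6656, 6912⟩ ⟨0, 864, 4608, 5120⟩ :=
  ckB_sound (d (c (a (b (d (c (a z2 (b (d z3 z3) z2)) (a z2 (b z3 z2))) (a z2 (b (d (c (a z2 z3) z3) (c (a z2 z3) (a z2 z3))) (d (c (a z2 z3) z2) (c (a z2 z3) z2))))) (d z2 z2)) (b z3 (d z3 (a (b z3 (d z3 z3)) z3)))) (a (b (d z2 (a z2 (c (b z3 z2) (b z3 z2)))) z2) z3)) (a (b (d (c (a z2 (b (d (c (a z2 z3) (a z2 z3)) (a z2 z3)) (d (c (a z2 z3) (a z2 z3)) (a z2 z3)))) (a z2 (b (d (c (a z2 z3) z3) (c (a z2 z3) (a z2 z3))) (d z2 (c (a z2 z3) z2))))) (a z2 (b (d (c (a z2 z3) (a z2 z3)) (c (a (b (d (c (a z2 z3) z3) (a z2 z3)) z2) z3) (a z2 z3))) (d (c (a z2 z3) (a z2 z3)) (c (a z2 (b z3 (d z3 z3)))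 (a z2 z3)))))) (d (c (a z2 (b (d z2 z2) z2)) z2) (a z2 (b (d z2 (c (a z2 (b (d z2 z2) z2)) z2)) z2)))) (b z3 (d (c (a (b z3 (d (c (a (b z3 (d z3 z3)) z3) z3) (a (b z3 (d z3 (c (a z2 z3) z3))) z3))) z3) z3) (a (b z3 (d (c (a (b z3 (d (c (a z2 z3) z3) (c (a z2 z3) z3))) z3) z3) (c (a (b z3 (d (c (a z2 z3) (a z2 z3)) (a z2 z3))) z3) (a (b z3 (d z3 (c (a z2 z3) (a z2 z3)))) z3)))) z3))))) _ _ (by decide +kernel)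

theorem okB1162 : CKB ⟨12288, 14678, 6912, 7168⟩ ⟨0, 864, 4608, 5120⟩ :=
  ckB_sound (d (c (a z2 (b (d (c (a (b (d (c (a z2 z3) (a z2 z3)) (a z2 z3)) z2) z3) (a (b (d (c (a z2 z3) (a z2 z3)) (c (a z2 z3) (a z2 z3))) z2) z3)) (a (b (d (c (a z2 z3) (a z2 z3)) (c (a z2 z3) (a z2 z3))) (d z2 z2)) z3)) (d (c (a z2 (b z3 (d (c (a z2 z3) (a z2 z3)) (a z2 z3)))) (a z2 (b z3 (d z3 (c (a z2 z3) (a z2 z3)))))) (a z2 (b z3 (d (c (a z2 z3) (a z2 z3)) (c (a z2 z3) (a z2 z3)))))))) (a z2 (b (d (c (a z2 z3) (a z2 z3)) (c (a (b (d (c (a z2 z3) (a z2 z3)) (c (a z2 z3) (a z2 z3))) z2) z3) (a (b (d (c (a z2 z3) (a z2 z3)) (c (a z2 z3) (a z2 z3))) z2) z3))) (d (c (a z2 z3) (a z2 z3)) (c (a z2 (b z3 (d (c (a z2 z3) (a z2 z3)) (c (a z2 z3) (a z2 z3))))) (a z2 (b z3 (d z3 (c (a z2 z3) z3))))))))) (a z2 (b (d (c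 (a (b (d (c (a z2 z3) (a z2 z3)) (a z2 z3)) (d (c (a z2 (b z3 z2)) z2) (a z2 (b z3 z2)))) z3) (a (b (d (c (a z2 z3) (a z2 z3)) (c (a z2 z3) (a z2 z3))) z2) z3)) (a (b (d (c (a z2 z3) (a z2 z3)) (c (a z2 z3) (a z2 z3))) (d (c (a z2 (b (d z3 z3) (d z2 z2))) (a z2 (b z3 z2))) (c (a z2 (b (d (c (a z2 z3) z3) (a z2 z3)) (d z2 (a z2 z3)))) (a z2 (b z3 z2))))) z3)) (d (c (a z2 (b (d z3 z3) (d (c (a z2 z3) (a z2 z3)) (a (b (d (c (a z2 z3) (a z2 z3)) (c (a z2 z3) (a z2 z3))) z2) z3)))) (a z2 (b z3 (d (c (a z2 z3) (a z2 z3)) (c (a z2 z3) (a z2 z3)))))) (a (b (d z2 z2) z2) (b (d z3 (c (a (b z3 (d z3 z3)) z3) z3)) (d (c (a (b (d (c (a z2 z3) (a z2 z3)) (c (a z2 z3) (a z2 z3))) z2) z3) (a z2 z3)) (c (a (b (d (c (a z2 z3) (a z2 z3)) (a z2 z3)) z2) z3) (a z2 z3))))))))) _ _ (by decide +kernel)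

theorem okB1163 : CKB ⟨14678, 17067, 6656, 7168⟩ ⟨0, 864, 4608, 5120⟩ :=
  ckB_sound z3 _ _ (by decide +kernel)

theorem okB1164 : CKB ⟨12288, 17067, 6656, 7168⟩ ⟨864, 1536, 4608, 5120⟩ :=
  ckB_sound (a (b (d (a z2 z3) (a (c (b (d (a z2 (c (b z3 z2) (b z3 z2))) (a z2 (c (b (d (a z2 z3) (a z2 z3)) (d (a z2 z3) (a z2 z3))) (b (d z3 (a z2 z3)) (d z2 (a z2 z3)))))) z2) (b (d z2 (a z2 (c (b z3 z2) (b z3 z2)))) z2)) z3)) (d (a z2 (c (b (d (a z2 z3) (a z2 z3)) (d (a z2 z3) (a z2 z3))) (b (d (a z2 z3) (a z2 z3)) (d z2 (a z2 z3))))) (a z2 (c (b (d (a (c (b (d (a z2 z3) (a z2 z3)) z2) z2) z3) (a (c (b (d (a z2 z3) (a z2 z3)) (d z2 (a z2 (c (b z3 z2) (b z3 z2))))) (b (d (a z2 z3) (a z2 z3)) z2)) z3)) (d (a z2 (c (b z3 (d (c (a z2 z3) z3) (c (a z2 z3) (a z2 z3)))) (b z3 (d z3 (c (a z2 z3) z3))))) (a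 z2 (c (b z3 (d (c (a z2 z3) (a z2 z3)) (c (a z2 z3) (a z2 z3)))) (b z3 (d (c (a z2 z3) (a z2 z3)) (c (a z2 z3) (a z2 z3)))))))) (b (d (a z2 z3) (a (c (b (d (a z2 z3) (a z2 z3)) z2) z2) z3)) (d (a z2 z3) (a z2 (c (b z3 (d z3 (a z2 z3))) z3)))))))) z3) _ _ (by decide +kernel)

theorem okB1165 : CKB ⟨17067, 24576, 6144, 7168⟩ ⟨0, 1536, 4096, 5120⟩ :=
  ckB_sound z3 _ _ (by decide +kernel)

theorem okB1166 : CKB ⟨12288, 24576, 6144, 7168⟩ ⟨1536, 3072, 4096, 5120⟩ :=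
  ckB_sound (a (b (d (a (c (b z3 (d (a (c (b z3 (d z3 (a z2 z3))) z3) z3) (a (c (b z3 (d (a z2 z3) (a z2 z3))) (b z3 (d z3 (a z2 z3)))) z3))) z3) z3) (a (c (b z3 (d (a (c (b z3 (d (a z2 z3) (a z2 z3))) (b z3 (d (a z2 z3) (a z2 z3)))) z3) (a (c (b (d z3 (a (c (b z3 (d z3 (a z2 z3))) z3) z3)) (d (a z2 z3) (a z2 z3))) (b z3 (d (a z2 z3) (a z2 z3)))) z3))) (b z3 (d (a (b z3 (d (c (a z2 z3) z3) (c (a z2 z3) (a z2 z3)))) z3) (a (b z3 (d (c (a z2 z3) (a z2 z3)) (c (a z2 z3) (a z2 z3)))) z3)))) z3)) (d (a (c (b (d (a z2 z3) (a z2 z3)) (d z2 (a z2 (c (b z3 z2) (b z3 z2))))) (b (d (a z2 z3) (a z2 z3)) z2)) z3) (a (c (b (d (a z2 z3) (a z2 z3)) (d (a z2 (c (b (d z3 (c (a z2 z3) (a z2 z3))) z2) (b z3 z2))) (a z2 (c (b (d (c (a z2 z3) (a z2 z3)) (c (a z2 z3) (a z2 z3))) (d (c (a z2 z3) z2) (c (a z2 z3)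 (a z2 z3)))) (b (d (a z2 z3) (a z2 z3)) z2))))) (b (d (a z2 z3) (a z2 z3)) (d z2 (a z2 (b (d z3 (c (a z2 z3) z3)) z2))))) z3))) z3) _ _ (by decide +kernel)

theorem okB1167 : CKB ⟨12288, 14678, 6144, 6400⟩ ⟨0, 1920, 5120, 5632⟩ :=
  ckB_sound (d (c (a (b z3 (d z3 (c (a (b z3 (d z3 z3)) z3) z3))) z3) z3) (a (c (b z3 (d (a (c (b z3 (d z3 z3)) z3) z3) (a (b z3 (d (a (b z3 (d z3 z3)) z3) z0)) z3))) (b z3 (d z3 (a (c (b z3 (d z3 (a (b z3 (d z3 z3)) z3))) z3) z3)))) z3)) _ _ (by decide +kernel)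

theorem okB1168 : CKB ⟨12288, 14678, 6400, 6656⟩ ⟨0, 1920, 5120, 5376⟩ :=
  ckB_sound (c (a (b (d (c (a (b (d (c (a (b z3 z2) z3) (a (b z3 z2) z3)) (c (a (b (d z3 z3) z2) z3) (a (b z3 z2) z3))) (d (c (a z2 z3) (a z2 z3)) (c (a z2 z3) (a z2 z3)))) z3) (a (b (d (c (a (b z3 z2) z3) z3) (c (a (b z3 z2) z3) (a (b z3 z2) z3))) (d (c (a z2 z3) (a z2 z3)) (c (a z2 z3) (a z2 z3)))) z3)) (c (a (b (d (c (a (b (d (c (a z2 z3) z3) (a z2 z3)) (d z2 z2)) z3) (a (b z3 z2) z3)) (a (b (d (a z2 z3) (a z2 z3)) (d (a z2 z3) (a z2 z3))) z3)) (d (c (a z2 z3) (a z2 z3)) (a z2 z3))) z3) (a (b (d (a (c (b z3 z2) (b z3 z2)) z3) (a (c (b (d z3 (a z2 z3)) (d z2 (a z2 z3))) (b z3 z2)) z3)) (d (a z2 z3) (a z2 z3))) z3))) (d (c (a (b (d (c (a z2 (b (d z3 (c (a z2 z3) z3)) z2)) z2) (c (a z2 (b (d (c (a z2 z3) z3) (a z2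 z3)) (d z2 z2))) (a z2 (b (d z3 (c (a z2 z3) z3)) z2)))) (d z2 z2)) (b z3 (d z3 z3))) (a z2 z3)) (c (a (b (d (c (a z2 (b (d (c (a z2 z3) (a z2 z3)) (a z2 z3)) (d z2 (a z2 z3)))) (a z2 (b (d z3 (c (a z2 z3) (a z2 z3))) z2))) (a z2 (b (d (a z2 z3) (a z2 z3)) (d (a z2 z3) (a z2 z3))))) (d z2 z2)) (b z3 (d (c (a (b z3 (d z3 z3)) z3) z3) (a (b z3 (d z3 (a (b z3 (d z3 z0)) z3))) z3)))) (a (b (d (a z2 (c (b z3 z2) (b z3 z2))) (a z2 (c (b (d (a z2 z3) (a z2 z3)) (d z2 (a z2 z3))) (b (d z3 (a z2 z3)) z2)))) z2) z3)))) z3) (a (b (d (c (a (b z3 (d (c (a z2 z3) (a z2 z3)) (c (a z2 z3) (a z2 z3)))) z3) (a (b z3 (d (c (a z2 z3) (a z2 z3)) (c (a z2 z3) (a z2 z3)))) z3)) (c (a (b (d (c (a (b z3 z2) z3) z3) (c (a (b z3 z2) z3) (a (b z3 z2) z3))) (d (c (a z2 z3) (a z2 z3)) (c (a z2 z3) (a z2 z3)))) z3) (a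 (b z3 (d (c (a z2 z3) (a z2 z3)) (c (a z2 z3) (a z2 z3)))) z3))) (d (c (a z2 z3) (a z2 z3)) (c (a (b (d z2 (c (a z2 (b z3 z2)) z2)) z2) z3) (a z2 z3)))) z3)) _ _ (by decide +kernel)

theorem okB1169 : CKB ⟨12288, 13483, 6400, 6656⟩ ⟨0, 1560, 5376, 5632⟩ :=
  ckB_sound (b (d (a (c (b (d (a (c (b (d (a z2 z3) (a z2 z3)) (d (a z2 z3) (a z2 z3))) (b (d z3 (a z2 z3)) (d z2 (a z2 z3)))) z3) (a (b (d (a z2 z3) z0) (d (a z2 z3) z0)) z3)) (d (a (c (b (d z2 z2) z2) z2) (c (b z3 (d z3 z3)) z3)) (a (b (d z2 z0) z2) (b z3 (d z3 z0))))) (b (d (a (c (b z3 z2) (b z3 z2)) z3) (a (c (b (d (a z2 z3) (a z2 z3)) (d (a z2 z3) (a z2 z3))) (b (d z3 (a z2 z3)) (d z2 (a z2 z3)))) z3)) (d (a z2 z3) (a z2 z3)))) z3) (a (b (d (a (b (d (c (a z2 z3) (a z2 z3)) (a z2 z3)) (d (c (a z2 z3) (a z2 z3)) (a z2 z3))) z3) z0) (d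 (a (b (d z2 (a z2 (b (d (a z2 z3) (a z2 z3)) z2))) z2) (b z3 (d z3 (a (b z3 (d z3 z3)) z3)))) z0)) z3)) (d (a (c (b (d (a z2 (c (b (d (a z2 z3) (a z2 z3)) (d (a z2 z3) (a z2 z3))) (b (d (a z2 z3) (a z2 z3)) (d z2 (a z2 z3))))) (a z2 (b (d (a z2 z3) z0) (d (a z2 (b z3 (d z3 z3))) z0)))) (d (a z2 (c (b (d z2 z2) z2) z2)) (a z2 (b (d z2 z0) z2)))) (b (d (a z2 (c (b (d (a z2 z3) (a z2 z3)) z2) (b (d z3 (a z2 z3)) z2))) (a z2 (c (b (d (a z2 z3) (a z2 z3)) (d (a z2 z3) (a z2 (b z3 (d z3 z3))))) (b (d (a z2 z3) (a z2 z3)) (d z2 (a z2 z3)))))) z2)) (c (b z3 (d (a (c (b z3 (d (a (c (b z3 (d z3 z3)) z3) z3) (a (b z3 (d z3 z0)) z3))) (b z3 (d z3 (a (c (b z3 (d z3 z3)) z3) z3)))) z3) (a (b z3 (d (a (b z3 (d (c (a z2 z3) z3) (a z2 z3))) z3) z0)) z3))) (b z3 (d z3 (a (c (b z3 (d z3 (a (b z3 (d (c (a z2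 z3) z3) (c (a z2 z3) z3))) z3))) z3) z3))))) (a (b (d (a z2 (b (d (c (a z2 z3) (a z2 z3)) (a (b (d (a z2 z3) (a z2 z3)) z2) z3)) (d (c (a z2 (b z3 (d z3 z3))) (a z2 z3)) (a z2 (b z3 (d z3 (a z2 z3))))))) z0) (d (a z2 (b (d (c (a z2 (b (d z2 z2) z2)) z2) (a z2 (b (d z2 z2) z2))) z2)) z0)) (b z3 (d (a (b z3 (d (c (a (b z3 (d (c (a z2 z3) z3) (a z2 z3))) z3) (a (b z3 (d z3 (c (a z2 z3) z3))) z3)) (a (b z3 (d (a z2 z3) (a z2 z3))) z3))) z3) z0))))) _ _ (by decide +kernel)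

end Vale.Agent.Lib.P154Q5
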