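import Vale.Agent.Lib.P154Q5.CkBDefs

namespace Vale.Agent.Lib.P154Q5

set_option maxRecDepth 100000
set_option exponentiation.threshold 1000

open Tr

theorem okB1170 : CKB ⟨12288, 13483, 6400, 6656⟩ ⟨1560, 1920, 5376, 5632⟩ :=
  ckB_sound (b (d (a (c (b (d (a (c (b z3 z2) (b z3 z2)) z3) (a (c (b z3 z2) (b z3 z2)) z3)) (d (a z2 z3) (a z2 z3))) (b (d (a (b z3 z2) z3) (a (b z3 z2) z3)) (d (a z2 z3) (a z2 z3)))) z3) (a (c (b (d (a (c (b (d (a z2 z3) (a z2 z3)) (d z2 (a z2 z3))) (b (d z3 (a z2 z3)) z2)) z3) (a (b (d (c (a (b (d (c (a z2 z3) z3) (a z2 z3)) z2) z3) (a z2 z3)) (a (b (d (c (a z2 z3) z3) (a z2 z3)) z2) z3)) (d (c (a z2 z3) (a z2 z3)) (a z2 z3))) z3)) (d (a z2 z3) (a (b (d (c (a z2 (b (d (c (a z2 z3) z3) (a z2 z3)) z2)) z2) (a z2 (b (d (c (a z2 z3) (a z2 z3)) (a z2 z3)) z2))) (d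 z2 z2)) (b z3 (d (c (a (b z3 (d z3 z3)) z3) z3) (a (b z3 (d z3 z3)) z3)))))) (b (d (a (b z3 z2) z3) (a (b (d (c (a z2 z3) z3) (c (a z2 z3) (a z2 z3))) (d z2 (c (a z2 z3) z2))) z3)) (d (a z2 z3) (a z2 z3)))) z3)) (d (a (c (b (d z2 (a z2 (c (b (d (a z2 z3) (a z2 z3)) z2) (b (d z3 (a z2 z3)) z2)))) z2) z2) z3) (a (c (b (d (a z2 (c (b (d (a z2 z3) (a z2 z3)) (d (a z2 z3) (a z2 z3))) (b (d (a z2 z3) (a z2 z3)) (d z2 (a z2 z3))))) (a z2 (b (d (c (a (b (d (c (a z2 z3) (a z2 z3)) (a z2 z3)) z2) z3) (a z2 z3)) (a (b (d (c (a z2 z3) (a z2 z3)) (a z2 z3)) z2) z3)) (d (c (a z2 (b z3 (d (c (a z2 z3) z3) (a z2 z3)))) (a z2 z3)) (a z2 (b z3 (d (c (a z2 z3) z3) (a z2 z3)))))))) (d z2 (a z2 (b (d (c (a z2 (b (d z2 z2) z2)) z2) (a z2 (b (d z2 z2) z2))) (d z2 z2))))) (b (d (a z2 (b (d z3 (c (a z2 z3) z3))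 z2)) (a z2 (b (d (c (a z2 z3) (a z2 z3)) (c (a z2 z3) (a z2 z3))) (d z2 (c (a z2 z3) z2))))) z2)) (c (b z3 (d (a (c (b z3 (d z3 (a (c (b z3 (d z3 (a z2 z3))) z3) z3))) z3) z3) (a (b z3 (d (c (a (b z3 (d (c (a z2 z3) (a z2 z3)) (a z2 z3))) z3) (a (b z3 (d z3 (c (a z2 z3) z3))) z3)) (a (b z3 (d (c (a z2 z3) (a z2 z3)) (a z2 z3))) z3))) z3))) (b z3 (d z3 (a (b z3 (d z3 (c (a (b z3 (d z3 (c (a z2 z3) z3))) z3) z3))) z3))))))) _ _ (by decide +kernel)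

theorem okB1171 : CKB ⟨13483, 14678, 6400, 6656⟩ ⟨0, 1920, 5376, 5632⟩ :=
  ckB_sound z3 _ _ (by decide +kernel)

theorem okB1172 : CKB ⟨14678, 17067, 6144, 6656⟩ ⟨0, 1920, 5120, 5632⟩ :=
  ckB_sound z3 _ _ (by decide +kernel)

theorem okB1173 : CKB ⟨12288, 17067, 6144, 6656⟩ ⟨1920, 3072, 5120, 5632⟩ :=
  ckB_sound (a (b z3 (d (c (a (b (d (c (a (b z3 (d z3 (c (a z2 z3) z3))) z3) z3) (c (a (b z3 (d (c (a z2 z3) (a z2 z3)) (c (a z2 z3) (a z2 z3)))) z3) (a (b z3 (d (c (a z2 z3) z3) (c (a z2 z3) (a z2 z3)))) z3))) (d (c (a z2 z3) (a z2 z3)) (c (a z2 z3) (a z2 z3)))) z3) (a (b z3 (d (c (a z2 z3) (a z2 z3)) (c (a z2 z3) (a z2 z3)))) z3)) (c (a (b (d (c (a (b (d z3 (c (a (b z3 z2) z3) z3)) (d (c (a z2 z3) (a z2 z3)) (c (a z2 z3) (a z2 z3)))) z3) (a (b z3 (d (c (a z2 z3) (a z2 z3)) (c (a z2 z3)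 (a z2 z3)))) z3)) (c (a (b (d (c (a (b z3 z2) z3) (a (b z3 z2) z3)) (c (a (b z3 z2) z3) (a (b z3 z2) z3))) (d (c (a z2 z3) (a z2 z3)) (c (a z2 z3) (a z2 z3)))) z3) (a (b (d z3 (c (a (b z3 z2) z3) z3)) (d (c (a z2 z3) (a z2 z3)) (c (a z2 z3) (a z2 z3)))) z3))) (d (c (a z2 z3) (a z2 z3)) (c (a (b (d z2 (c (a z2 (b (d z3 (c (a z2 z3) z3)) z2)) z2)) z2) z3) (a z2 z3)))) z3) (a (b (d (c (a (b z3 (d (c (a z2 z3) z3) (c (a z2 z3) (a z2 z3)))) z3) z3) (c (a (b z3 (d (c (a z2 z3) (a z2 z3)) (c (a z2 z3) (a z2 z3)))) z3) (a (b z3 (d (c (a z2 z3) z3) (c (a z2 z3) (a z2 z3)))) z3))) (d (c (a z2 z3) (a z2 z3)) (c (a z2 z3) (a z2 z3)))) z3)))) z3) _ _ (by decide +kernel)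

theorem okB1174 : CKB ⟨12288, 14678, 6144, 6400⟩ ⟨0, 3072, 5632, 6144⟩ :=
  ckB_sound (d (c (a (b z3 (d (c (a (b z3 (d (c (a (b z3 (d z3 z3)) z3) z3) (a (c (b z3 (d z3 z3)) z3) z3))) z3) z3) (a (b z3 (d (c (a (b z3 (d (c (a (b z3 (d z3 z3)) z3) z3) (a (c (b z3 (d z3 z3)) z3) z3))) z3) z3) (a (c (b z3 (d (a (c (b z3 (d z3 z3)) z3) z3) (a (b z3 (d z3 z0)) z3))) z3) z3))) z3))) z3) z3) (a (b z3 (d (c (a (b z3 (d (c (a (b z3 (d (c (a (b z3 (d z3 z3)) z3) z3) (a (b z3 (d z3 z3)) z3))) z3) z3) (a (b z3 (d (c (a (b z3 (d z3 z3)) z3) z3) (a (b z3 (d z3 z3)) z3))) z3))) z3) z3) (a (b z3 (d (c (a (b z3 (d (c (a (b z3 (d z3 z3)) z3) z3) (a (b z3 (d z3 z3)) z3))) z3) z3) (a (b z3 (d z3 z3)) z3))) z3))) z3)) _ _ (by decide +kernel)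

theorem okB1175 : CKB ⟨12288, 13483, 6400, 6528⟩ ⟨0, 2400, 5632, 5760⟩ :=
  ckB_sound (c (a (b (d (c (a (b (d (c (a (b (d (c (a z2 z3) z3) (a z2 z3)) z2) z3) (a z2 z3)) (a (c (b (d (a z2 z3) (a z2 z3)) z2) z2) z3)) (d (c (a z2 z3) (a z2 z3)) (a z2 (c (b z3 (d z3 z3)) z3)))) z3) (a (b (d (c (a z2 z3) z3) (c (a z2 z3) (a z2 z3))) (d z2 (c (a z2 z3) z2))) z3)) (a (c (b (d (a (c (b (d (a z2 z3) (a z2 z3)) z2) z2) z3) (a (b (d (a z2 z3) z0) z2) z3)) (d (a z2 (c (b z3 (d z3 z3)) z3)) (a z2 (b z3 (d z3 z0))))) (b (d (a z2 z3) (a (c (b (d (a z2 z3) (a z2 z3)) z2) z2) z3)) (d (a z2 z3) (a z2 z3)))) z3)) (d (c (a (b (d (c (a z2 (b (d (c (a z2 z3) (a z2 z3)) (a z2 z3)) z2)) z2) (a z2 (c (b (d (a z2 z3) (a z2 z3)) z2) z2))) (d z2 z2)) (b z3 (d (c (a (b z3 (d z3 z3)) z3) z3) (a (c (b z3 (d z3 z3))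 z3) z3)))) (a z2 z3)) (a (c (b (d (a z2 (c (b (d (a z2 z3) (a z2 z3)) z2) z2)) (a z2 (b (d (a z2 z3) z0) (d z2 z0)))) (d z2 z2)) (b (d z2 (a z2 (c (b (d (a z2 z3) (a z2 z3)) z2) z2))) z2)) (c (b z3 (d (a (c (b z3 (d z3 (a (b z3 z2) z3))) z3) z3) (a (b z3 (d (a (b z3 z2) z3) z0)) z3))) (b z3 (d z3 (a (c (b z3 (d z3 (a (b z3 z2) z3))) z3) z3))))))) z3) (a (b (d (c (a (b z3 z2) z3) (a (b z3 z2) z3)) (c (a (b (d (c (a z2 z3) z3) (c (a z2 z3) (a z2 z3))) (d z2 (c (a z2 z3) z2))) z3) (a (b z3 z2) z3))) (d (c (a z2 z3) (a z2 z3)) (c (a z2 z3) (a z2 z3)))) z3)) _ _ (by decide +kernel)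

theorem okB1176 : CKB ⟨12288, 13483, 6400, 6528⟩ ⟨0, 2400, 5760, 5888⟩ :=
  ckB_sound (a (b (d (c (a (b (d (c (a (b (d (c (a z2 z3) (a z2 z3)) (a z2 z3)) z2) z3) (a z2 z3)) (a (c (b (d (a z2 z3) (a z2 z3)) (d z2 z2)) z2) z3)) (d (c (a z2 (b z3 (d z3 z3))) (a z2 z3)) (a z2 (c (b z3 (d z3 z3)) z3)))) z3) (a (b (d (c (a z2 z3) (a z2 z3)) (c (a z2 z3) (a z2 z3))) (d (c (a z2 z3) z2) (c (a z2 z3) z2))) z3)) (a (c (b (d (a (c (b (d (a z2 z3) (a z2 z3)) (d z2 z2)) z2) z3) (a (b (d (a z2 z3) z0) (d z2 z0)) z3)) (d (a z2 (c (b z3 (d z3 z3)) z3)) (a z2 (b z3 (d z3 z0))))) (b (d (a z2 z3) (a (c (b (d (a z2 z3) (a z2 z3)) z2) z2) z3)) (d (a z2 z3) (a z2 (c (b z3 (d z3 z3)) z3))))) z3)) (d (c (a (b (d (c (a z2 (b (d (c (a z2 z3) (a z2 z3)) (a z2 z3)) (d z2 z2))) z2) (a z2 (c (b (d (a z2 z3) (a z2 z3))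 (d z2 z2)) z2))) (d z2 z2)) (b z3 (d (c (a (b z3 (d (c (a (c (b z3 z2) z3) z3) z3) (a (c (b z3 z2) z3) z3))) z3) z3) (a (c (b z3 (d (a (c (b z3 z2) z3) z3) (a (b z3 z2) z3))) z3) z3)))) (a z2 z3)) (a (c (b (d (a z2 (c (b (d (a z2 z3) (a z2 z3)) (d z2 z2)) z2)) (a z2 (b (d (a z2 z3) z0) (d z2 z0)))) (d z2 z2)) (b (d z2 (a z2 (c (b (d (a z2 z3) (a z2 z3)) z2) z2))) z2)) (c (b z3 (d (a (c (b z3 (d (a (c (b z3 z2) z3) z3) (a (b z3 z2) z3))) z3) z3) (a (b z3 (d (a (b z3 z2) z3) z0)) z3))) (b z3 (d z3 (a (c (b z3 (d z3 (a (b z3 z2) z3))) z3) z3))))))) z3) _ _ (by decide +kernel)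

theorem okB1177 : CKB ⟨12288, 13483, 6528, 6656⟩ ⟨0, 2400, 5632, 5760⟩ :=
  ckB_sound (c (a (b (d (c (a z2 (b (d (c (a (b (d (c (a z2 z3) (a z2 z3)) (a z2 z3)) z2) z3) (a z2 z3)) (a (c (b (d (a z2 z3) (a z2 z3)) z2) z2) z3)) (d (c (a z2 (b z3 (d (c (a z2 z3) z3) (a z2 z3)))) (a z2 z3)) (a z2 (c (b z3 (d (a z2 z3) (a z2 z3))) (b z3 (d z3 (a z2 z3)))))))) (a z2 (b (d (c (a z2 z3) (a z2 z3)) (c (a z2 z3) (a z2 z3))) (d (c (a z2 z3) z2) (c (a z2 z3) z2))))) (a z2 (c (b (d (a (c (b (d (a z2 z3) (a z2 z3)) (d z2 z2)) z2) z3) (a (b (d (a z2 z3) z0) (d z2 z0)) z3)) (d (a z2 (c (b z3 (d (a z2 z3) (a z2 z3))) (b z3 (d z3 (a z2 z3))))) (a z2 (b z3 (d (a z2 z3) z0))))) (b (d (a z2 z3) (a (c (b (d (a z2 z3) (a z2 z3)) z2) z2) z3)) (d (a z2 z3) (a z2 (c (b z3 (d (a z2 z3) (a z2 z3))) (b z3 (d z3 (a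 z2 z3)))))))))) (d (c (a z2 (b (d (c (a z2 (b (d z2 z2) z2)) z2) (a z2 (c (b (d z2 (a z2 z3)) z2) z2))) (d z2 z2))) z2) (a z2 (c (b (d (a z2 (c (b (d (a z2 z3) (a z2 z3)) (d z2 z2)) z2)) (a z2 (b (d (a z2 z3) z0) (d z2 z0)))) (d z2 z2)) (b (d z2 (a z2 (c (b (d z2 (a z2 z3)) z2) z2))) z2))))) (b z3 (d (c (a (b z3 (d (c (a (b (d z3 z3) (d (c (a z2 z3) (a z2 z3)) (a z2 z3))) z3) (a (b z3 (d z3 (c (a z2 z3) z3))) z3)) (a (c (b (d z3 z3) (d (a z2 z3) (a z2 z3))) (b z3 (d (a z2 z3) (a z2 z3)))) z3))) z3) (a (b z3 (d z3 (c (a (b z3 (d z3 (c (a z2 z3) z3))) z3) z3))) z3)) (a (c (b (d z3 z3) (d (a (c (b (d z3 z3) (d (a z2 z3) (a z2 z3))) (b z3 (d (a z2 z3) (a z2 z3)))) z3) (a (b (d z3 z0) (d (a z2 z3) z0)) z3))) (b z3 (d (a (c (b z3 (d z3 (a z2 z3))) z3) z3) (a (c (b (d z3 z3) (d (a z2 z3) (a z2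 z3))) (b z3 (d (a z2 z3) (a z2 z3)))) z3)))) z3)))) (a (b (d (c (a z2 (b (d (c (a z2 z3) z3) (c (a z2 z3) (a z2 z3))) z2)) z2) (c (a z2 (b (d (c (a z2 z3) (a z2 z3)) (c (a z2 z3) (a z2 z3))) (d z2 (c (a z2 z3) z2)))) (a z2 (b (d (c (a z2 z3) z3) (c (a z2 z3) (a z2 z3))) z2)))) z2) (b z3 (d z3 (c (a (b z3 (d z3 (c (a (b z3 (d z3 (c (a z2 z3) z3))) z3) z3))) z3) z3))))) _ _ (by decide +kernel)

theorem okB1178 : CKB ⟨12288, 13483, 6528, 6656⟩ ⟨0, 2400, 5760, 5888⟩ :=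
  ckB_sound (a (b (d (c (a z2 (b (d (c (a (b (d (c (a z2 z3) (a z2 z3)) (a z2 z3)) (d z2 z2)) z3) (a z2 z3)) (a (c (b (d (a z2 z3) (a z2 z3)) (d z2 z2)) (b (d (a z2 z3) (a z2 z3)) z2)) z3)) (d (c (a z2 (b z3 (d (c (a z2 z3) z3) (c (a z2 z3) (a z2 z3))))) (a z2 z3)) (a z2 (c (b z3 (d (a z2 z3) (a z2 z3))) (b z3 (d z3 (a z2 z3)))))))) (a z2 (b (d (c (a z2 z3) (a z2 z3)) (c (a z2 z3) (a z2 z3))) (d (c (a z2 z3) z2) (c (a z2 z3) z2))))) (a z2 (c (b (d (a (c (b (d (a z2 z3) (a z2 z3)) (d z2 z2)) (b (d (a z2 z3) (a z2 z3)) z2)) z3) (a (b (d (a z2 z3) z0) (d z2 z0)) z3)) (d (a z2 (c (b z3 (d (a z2 z3) (a z2 z3))) (b z3 (d z3 (a z2 z3))))) (a z2 (b z3 (d (a z2 z3) z0))))) (b (d (a z2 z3) (a (c (b (d (a z2 z3) (a z2 z3)) z2) z2) z3)) (d (a z2 z3) (a z2 (c (b z3 (d (a z2 z3) (a z2 z3))) (b z3 (d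 z3 (a z2 z3)))))))))) (d (c (a z2 (b (d (c (a z2 (b (d (c (a z2 z3) z2) (c (a z2 z3) z2)) (d z2 z2))) z2) (a z2 (c (b (d (a z2 z3) (a z2 z3)) (d z2 z2)) z2))) (d z2 z2))) z2) (a z2 (c (b (d (a z2 (c (b (d (a z2 z3) (a z2 z3)) (d z2 z2)) z2)) (a z2 (b (d (a z2 z3) z0) (d z2 z0)))) (d z2 z2)) (b (d z2 (a z2 (c (b (d z2 (a z2 z3)) z2) z2))) z2))))) (b (d z3 z3) (d (c (a (b (d z3 z3) (d (c (a (b (d z3 z3) (d (c (a z2 z3) (a z2 z3)) (c (a z2 z3) (a z2 z3)))) z3) (a (b z3 (d (c (a z2 z3) z3) (c (a z2 z3) z3))) z3)) (a (c (b (d z3 z3) (d (a z2 z3) (a z2 z3))) (b z3 (d (a z2 z3) (a z2 z3)))) z3))) z3) (a (b z3 (d z3 (c (a (b z3 (d z3 (c (a z2 z3) z3))) z3) z3))) z3)) (a (c (b (d z3 z3) (d (a (c (b (d z3 z3) (d (a z2 z3) (a z2 z3))) (b z3 (d (a z2 z3) (a z2 z3)))) z3) (a (b (d z3 z0) (d (a z2 z3)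 z0)) z3))) (b z3 (d (a (c (b z3 (d z3 (a z2 z3))) z3) z3) (a (c (b (d z3 z3) (d (a z2 z3) (a z2 z3))) (b z3 (d (a z2 z3) (a z2 z3)))) z3)))) z3)))) _ _ (by decide +kernel)

theorem okB1179 : CKB ⟨13483, 14678, 6400, 6656⟩ ⟨0, 2400, 5632, 5888⟩ :=
  ckB_sound z3 _ _ (by decide +kernel)

theorem okB1180 : CKB ⟨12288, 14678, 6400, 6656⟩ ⟨2400, 3072, 5632, 5888⟩ :=
  ckB_sound (a (b (d (c (a (b (d (c (a (b z3 z2) z3) z3) (c (a (b z3 z2) z3) (a (b z3 z2) z3))) (d (c (a z2 z3) (a z2 z3)) (c (a z2 z3) (a z2 z3)))) z3) (a (b z3 (d (c (a z2 z3) (a z2 z3)) (c (a z2 z3) (a z2 z3)))) z3)) (c (a (b (d (c (a (b z3 z2) z3) (a (b z3 z2) z3)) (c (a (b (d (c (a z2 z3) z3) (c (a z2 z3) (a z2 z3))) (d z2 (c (a z2 z3) z2))) z3) (a (b z3 z2) z3))) (d (c (a z2 z3) (a z2 z3)) (c (a z2 z3) (a z2 z3)))) z3) (a (b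 (d (c (a (b z3 z2) z3) z3) (c (a (b z3 z2) z3) (a (b z3 z2) z3))) (d (c (a z2 z3) (a z2 z3)) (c (a z2 z3) (a z2 z3)))) z3))) (d (c (a z2 z3) (a z2 z3)) (c (a (b (d (c (a z2 (b (d (c (a z2 z3) z3) (c (a z2 z3) z3)) z2)) z2) (c (a z2 (b (d (c (a z2 z3) (a z2 z3)) (c (a z2 z3) (a z2 z3))) (d z2 (c (a z2 z3) z2)))) (a z2 (b (d z3 (c (a z2 z3) z3)) z2)))) z2) (b z3 (d z3 (c (a (b z3 (d z3 (c (a (b z3 (d z3 (c (a z2 z3) z3))) z3) z3))) z3) z3)))) (a z2 z3)))) z3) _ _ (by decide +kernel)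

theorem okB1181 : CKB ⟨12288, 13483, 6400, 6528⟩ ⟨0, 3072, 5888, 6016⟩ :=
  ckB_sound (c (a (b (d (c (a (b (d (c (a (b (d (c (a z2 z3) (a z2 z3)) (a z2 z3)) (d z2 z2)) z3) (a z2 z3)) (a (b (d (c (a z2 z3) (a z2 z3)) (a z2 z3)) (d z2 z2)) z3)) (d (c (a z2 (b z3 (d z3 z3))) (a z2 z3)) (a z2 (b z3 (d z3 z3))))) z3) (a (b (d (c (a z2 z3) (a z2 z3)) (c (a z2 z3) (a z2 z3))) (d (c (a z2 z3) z2) (c (a z2 z3) z2))) z3)) (a (b (d (c (a (b (d (c (a z2 z3) (a z2 z3)) (a z2 z3)) (d z2 z2)) z3) (a z2 z3)) (a (b (d (c (a z2 z3) (a z2 z3)) (a z2 z3)) (d z2 z2)) z3)) (d (c (a z2 (b z3 (d z3 z3))) (a z2 z3)) (a z2 (b z3 (d z3 z3))))) z3)) (d (c (a (b (d (c (a z2 (b (d (c (a z2 z3) (a z2 z3)) (a z2 z3)) (d z2 z2))) z2) (a z2 (b (d (c (a z2 z3) (a z2 z3)) (a z2 z3)) (d z2 z2)))) (d z2 z2)) (b z3 (d (c (a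 (b z3 (d (c (a (b z3 z2) z3) z3) (a (b z3 z2) z3))) z3) z3) (a (b z3 (d (c (a (b z3 z2) z3) z3) (a (c (b z3 z2) z3) z3))) z3)))) (a z2 z3)) (a (b (d (c (a z2 (b (d (c (a z2 z3) (a z2 z3)) (a z2 z3)) (d z2 z2))) z2) (a z2 (b (d (c (a z2 z3) (a z2 z3)) (a z2 z3)) (d z2 z2)))) (d z2 z2)) (b z3 (d (c (a (b z3 (d (c (a (b z3 z2) z3) z3) (a (c (b z3 z2) z3) z3))) z3) z3) (a (b z3 (d (c (a (b z3 z2) z3) z3) (a (c (b z3 z2) z3) z3))) z3)))))) z3) (a (b (d (c (a (b (d z3 (c (a z2 z3) z3)) z2) z3) (a (b z3 z2) z3)) (c (a (b (d (c (a z2 z3) z3) (c (a z2 z3) (a z2 z3))) (d z2 (c (a z2 z3) z2))) z3) (a (b z3 z2) z3))) (d (c (a z2 z3) (a z2 z3)) (c (a z2 z3) (a z2 z3)))) z3)) _ _ (by decide +kernel)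

theorem okB1182 : CKB ⟨12288, 13483, 6400, 6528⟩ ⟨0, 3072, 6016, 6144⟩ :=
  ckB_sound (a (b (d (c (a (b (d (c (a (b (d (c (a z2 z3) z3) (a z2 z3)) z2) z3) (a z2 z3)) (a (b (d (c (a z2 z3) z3) (a z2 z3)) z2) z3)) (d (c (a z2 (b z3 (d z3 z3))) (a z2 z3)) (a z2 (b z3 (d z3 z3))))) z3) (a (b (d (c (a z2 z3) z3) (c (a z2 z3) (a z2 z3))) (d z2 (c (a z2 z3) z2))) z3)) (a (b (d (c (a (b (d (c (a z2 z3) z3) (a z2 z3)) z2) z3) (a z2 z3)) (a (b (d (c (a z2 z3) z3) (a z2 z3)) z2) z3)) (d (c (a z2 (b z3 (d z3 z3))) (a z2 z3)) (a z2 (b z3 (d z3 z3))))) z3)) (d (c (a (b (d (c (a z2 (b (d (c (a z2 z3) (a z2 z3)) (a z2 z3)) (d z2 z2))) z2) (a z2 (b (d (c (a z2 z3) (a z2 z3)) (a z2 z3)) z2))) (d z2 z2)) (b z3 (d (c (a (b z3 (d (c (a (b z3 z2) z3) z3) z3)) z3) z3) (a (b z3 (d z3 z3)) z3)))) (a z2 z3)) (a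 (b (d (c (a z2 (b (d (c (a z2 z3) (a z2 z3)) (a z2 z3)) z2)) z2) (a z2 (b (d (c (a z2 z3) z3) (a z2 z3)) z2))) (d z2 z2)) (b z3 (d (c (a (b z3 (d z3 z3)) z3) z3) (a (b z3 (d z3 z3)) z3)))))) z3) _ _ (by decide +kernel)

theorem okB1183 : CKB ⟨12288, 13483, 6528, 6656⟩ ⟨0, 3072, 5888, 6016⟩ :=
  ckB_sound (c (a (b (d (c (a z2 (b (d (c (a (b (d (c (a z2 z3) (a z2 z3)) (a z2 z3)) (d z2 z2)) z3) (a z2 z3)) (a (b (d (c (a z2 z3) (a z2 z3)) (a z2 z3)) (d z2 z2)) z3)) (d (c (a z2 (b z3 (d (c (a z2 z3) z3) (a z2 z3)))) (a z2 z3)) (a z2 (b z3 (d (c (a z2 z3) z3) (a z2 z3))))))) (a z2 (b (d (c (a z2 z3) (a z2 z3)) (c (a z2 z3) (a z2 z3))) (d z2 (c (a z2 z3) z2))))) (a z2 (b (d (c (a (b (d (c (a z2 z3) (a z2 z3)) (a z2 z3)) (d z2 z2)) z3) (a z2 z3)) (a (b (d (c (a z2 z3) (a z2 z3)) (a z2 z3)) (d z2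 z2)) z3)) (d (c (a z2 (b z3 (d (c (a z2 z3) z3) (a z2 z3)))) (a z2 z3)) (a z2 (b z3 (d (c (a z2 z3) z3) (a z2 z3)))))))) (d (c (a z2 (b (d (c (a z2 (b (d (c (a z2 z3) z2) (a z2 z3)) (d z2 z2))) z2) (a z2 (b (d (c (a z2 z3) z2) (a z2 z3)) (d z2 z2)))) (d z2 z2))) z2) (a z2 (b (d (c (a z2 (b (d (c (a z2 z3) z2) (a z2 z3)) (d z2 z2))) z2) (a z2 (b (d z2 z2) (d z2 z2)))) (d z2 z2))))) (b (d z3 z3) (d (c (a (b (d z3 z3) (d (c (a (b (d z3 z3) (d (c (a z2 z3) (a z2 z3)) (a z2 z3))) z3) (a (b z3 (d (c (a z2 z3) z3) (c (a z2 z3) z3))) z3)) (a (b (d z3 z3) (d (c (a z2 z3) (a z2 z3)) (a z2 z3))) z3))) z3) (a (b z3 (d z3 (c (a (b z3 (d z3 (c (a z2 z3) z3))) z3) z3))) z3)) (a (b (d z3 z3) (d (c (a (b (d z3 z3) (d (c (a z2 z3) (a z2 z3)) (a z2 z3))) z3) (a (b z3 (d z3 (c (a z2 z3) z3))) z3)) (a (b (d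 z3 z3) (d (c (a z2 z3) (a z2 z3)) (a z2 z3))) z3))) z3)))) (a (b (d (c (a z2 (b (d (c (a z2 z3) z3) (c (a z2 z3) z3)) z2)) z2) (c (a z2 (b (d (c (a z2 z3) (a z2 z3)) (c (a z2 z3) (a z2 z3))) (d z2 (c (a z2 z3) z2)))) (a z2 (b (d z3 (c (a z2 z3) z3)) z2)))) z2) (b z3 (d z3 (c (a (b z3 (d z3 (c (a (b z3 (d z3 (c (a z2 z3) z3))) z3) z3))) z3) z3))))) _ _ (by decide +kernel)

theorem okB1184 : CKB ⟨12288, 13483, 6528, 6656⟩ ⟨0, 3072, 6016, 6144⟩ :=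
  ckB_sound (a (b (d (c (a z2 (b (d (c (a (b (d (c (a z2 z3) (a z2 z3)) (a z2 z3)) (d z2 z2)) z3) (a z2 z3)) (a (b (d (c (a z2 z3) (a z2 z3)) (a z2 z3)) z2) z3)) (d (c (a z2 (b z3 (d (c (a z2 z3) z3) (a z2 z3)))) (a z2 z3)) (a z2 (b z3 (d (c (a z2 z3) z3) (a z2 z3))))))) (a z2 (b (d (c (a z2 z3) (a z2 z3)) (c (a z2 z3) (a z2 z3))) (d z2 (c (a z2 z3) z2))))) (a z2 (b (d (c (a (b (d (c (a z2 z3) (a z2 z3)) (a z2 z3)) z2) z3) (a z2 z3)) (a (b (d (c (a z2 z3) (a z2 z3)) (a z2 z3)) z2) z3)) (d (c (a z2 (b z3 (d (c (a z2 z3) z3) (a z2 z3)))) (a z2 z3)) (a z2 (b z3 (d (c (a z2 z3) z3) (a z2 z3)))))))) (d (c (a z2 (b (d (c (a z2 (b (d z2 z2) z2)) z2) (a z2 (b (d z2 z2) z2))) (d z2 z2))) z2) (a z2 (b (d (c (a z2 (b (d z2 z2) z2)) z2) (a z2 (b (d z2 z2) z2))) (d z2 z2))))) (b (d z3 z3) (d (c (a (b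 (d z3 z3) (d (c (a (b (d z3 z3) (d (c (a z2 z3) (a z2 z3)) (a z2 z3))) z3) (a (b z3 (d z3 (c (a z2 z3) z3))) z3)) (a (b (d z3 z3) (d (c (a z2 z3) z3) (a z2 z3))) z3))) z3) z3) (a (b (d z3 z3) (d (c (a (b (d z3 z3) (d (c (a z2 z3) z3) (a z2 z3))) z3) z3) (a (b z3 (d (c (a z2 z3) z3) (a z2 z3))) z3))) z3)))) _ _ (by decide +kernel)

end Vale.Agent.Lib.P154Q5
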