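import Vale.Agent.Lib.P154Q5.CkBDefs

namespace Vale.Agent.Lib.P154Q5

set_option maxRecDepth 100000
set_option exponentiation.threshold 1000

open Tr

theorem okB1185 : CKB ⟨13483, 14678, 6400, 6656⟩ ⟨0, 3072, 5888, 6144⟩ :=
  ckB_sound z3 _ _ (by decide +kernel)

theorem okB1186 : CKB ⟨14678, 17067, 6144, 6656⟩ ⟨0, 3072, 5632, 6144⟩ :=
  ckB_sound z3 _ _ (by decide +kernel)

theorem okB1187 : CKB ⟨12288, 13483, 6656, 6912⟩ ⟨0, 1344, 5120, 5376⟩ :=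
  ckB_sound (b (d (c (a z2 (b (d (c (a (b (d (c (a z2 z3) (a z2 z3)) (c (a z2 z3) (a z2 z3))) z2) z3) (a z2 z3)) (c (a (b (d (c (a z2 z3) (a z2 z3)) (a z2 z3)) (d z2 z2)) z3) (a (b (d (c (a z2 z3) (a z2 z3)) (c (a z2 z3) (a z2 z3))) z2) z3))) (d (c (a z2 (b z3 (d z3 (c (a (b z3 z2) z3) z3)))) (a z2 z3)) (c (a z2 (b z3 (d (c (a (b z3 z2) z3) z3) (a (b z3 z2) z3)))) (a z2 z3))))) (a z2 (b (d (c (a z2 z3) (a z2 z3)) (c (a z2 z3) (a z2 z3))) (d (c (a z2 z3) (a z2 z3)) (c (a z2 z3) (a z2 z3)))))) (c (a z2 (b (d (c (a (b (d (c (a z2 z3) (a z2 z3)) (a z2 z3)) (d z2 (a z2 (b z3 (d z3 z3))))) z3) (a (b (d (c (a z2 z3) (a z2 z3)) (c (a z2 z3) (a z2 z3))) z2) z3)) (a (b (d (a z2 z3) (a z2 z3)) (d (a z2 (b z3 (d z3 (c (a z2 z3) z3)))) (a z2 (b z3 (d (a z2 z3) z0))))) z3)) (d (c (a z2 (b z3 (d (c (a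 (b z3 z2) z3) (a (b z3 z2) z3)) (a (b z3 z2) z3)))) (a z2 (b z3 (d z3 (c (a (b z3 z2) z3) z3))))) (a z2 (b z3 (d (a (b z3 z2) z3) (a (b (d z3 z0) z2) z3))))))) (a z2 (b (d (c (a (b (d (c (a z2 z3) (a z2 z3)) (c (a z2 z3) (a z2 z3))) z2) z3) (a z2 z3)) (c (a (b (d (c (a z2 z3) (a z2 z3)) (c (a z2 z3) (a z2 z3))) (d z2 (c (a z2 (b z3 (d z3 (a z2 z3)))) z2))) z3) (a (b (d (a z2 z3) (a z2 z3)) z2) z3))) (d (c (a z2 z3) (a z2 z3)) (c (a z2 (b z3 (d (c (a (b z3 z2) z3) z3) (c (a (b z3 z2) z3) (a (b z3 z2) z3))))) (a z2 (b z3 (d z3 (c (a (b z3 z2) z3) z3)))))))))) (d (c (a z2 (b (d (c (a z2 (b (d (c (a z2 z3) z2) (c (a z2 z3) z2)) z2)) z2) (c (a z2 (b (d (c (a z2 z3) z2) (a z2 z3)) (d z2 z2))) (a z2 (b (d z2 (c (a z2 z3) z2)) z2)))) (d z2 z2))) z2) (c (a z2 (b (d (c (a z2 (b (d (c (a z2 z3) (a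 z2 z3)) (a z2 z3)) (d z2 z2))) (a z2 (b (d z2 (c (a z2 z3) (a z2 z3))) z2))) (a z2 (b (d (a z2 z3) (a z2 z3)) (d z2 (a z2 (b (d (a z2 z3) z0) z2)))))) (d z2 z2))) (a z2 (b (d z2 (c (a z2 (b (d (c (a z2 z3) z2) (c (a z2 z3) (a z2 z3))) z2)) (a z2 (b (d z2 (c (a z2 z3) z2)) z2)))) z2))))) _ _ (by decide +kernel)

theorem okB1188 : CKB ⟨13483, 14678, 6656, 6912⟩ ⟨0, 1344, 5120, 5376⟩ :=
  ckB_sound (b z3 (d (c (a (b z3 (d (c (a (b z3 (d (c (a z2 z3) (a z2 z3)) (c (a z2 z3) (a z2 z3)))) z3) (a (b z3 (d (c (a z2 z3) z3) (c (a z2 z3) (a z2 z3)))) z3)) (c (a (b (d z3 z3) (d (c (a z2 z3) (a z2 z3)) (a z2 z3))) z3) (a (b z3 (d (c (a z2 z3) (a z2 z3)) (c (a z2 z3) (a z2 z3)))) z3)))) z3) (a (b z3 (d z3 (c (a (b z3 (d (c (a z2 z3) z3) (c (a z2 z3) (a z2 z3)))) z3) z3))) z3)) (c (a (b (d z3 z3) (d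 (c (a (b (d z3 z3) (d (c (a z2 z3) (a z2 z3)) (a z2 z3))) z3) (a (b z3 (d (c (a z2 z3) (a z2 z3)) (c (a z2 z3) (a z2 z3)))) z3)) (a (b (d (a (b z3 (d z3 z3)) z3) (a (b z3 (d z3 z0)) z3)) (d (a z2 z3) (a z2 z3))) z3))) z3) (a (b z3 (d (c (a (b z3 (d (c (a z2 z3) (a z2 z3)) (c (a z2 z3) (a z2 z3)))) z3) (a (b z3 (d z3 (c (a z2 z3) (a z2 z3)))) z3)) (c (a (b (d z3 (c (a (b z3 (d z3 z3)) z3) z3)) (d (c (a z2 z3) (a z2 z3)) (c (a z2 z3) (a z2 z3)))) z3) (a (b z3 (d (c (a z2 z3) (a z2 z3)) (c (a z2 z3) (a z2 z3)))) z3)))) z3)))) _ _ (by decide +kernel)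

theorem okB1189 : CKB ⟨12288, 14678, 6656, 6912⟩ ⟨1344, 1920, 5120, 5376⟩ :=
  ckB_sound (a (b (d (c (a z2 (b (d z3 (c (a z2 z3) (a z2 z3))) (d z2 (c (a z2 z3) z2)))) (a z2 (b z3 z2))) (c (a z2 (b (d (c (a z2 z3) (a z2 z3)) (c (a z2 z3) (a z2 z3))) (d (c (a z2 z3) (a z2 z3)) (c (a z2 z3) (a z2 z3))))) (a z2 (b (d (c (a z2 z3) z3) (c (a z2 z3) (a z2 z3))) (d z2 (c (a z2 z3) z2)))))) z2) (b z3 (d z3 (c (a (b z3 (d z3 (c (a (b z3 (d (c (a z2 z3) z3) (c (a z2 z3) (a z2 z3)))) z3) z3))) z3) z3)))) _ _ (by decide +kernel)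

theorem okB1190 : CKB ⟨12288, 13483, 6656, 6784⟩ ⟨0, 1560, 5376, 5632⟩ :=
  ckB_sound (d (a z2 (c (b (d (a (c (b (d (a z2 z3) (a z2 z3)) (d (a z2 (c (b z3 (d (a z2 z3) (a z2 z3))) (b z3 (d z3 (a z2 z3))))) (a z2 (b z3 (d (a z2 z3) z0))))) (b (d (a z2 z3) (a z2 z3)) (d z2 (a z2 (c (b z3 (d (a z2 z3) (a z2 z3))) (b z3 (d z3 (a z2 z3)))))))) z3) (a (b (d (a z2 z3) z0) (d (a z2 (b z3 (d (c (a z2 z3) (a z2 z3)) (a z2 z3)))) z0)) z3)) (d (a (c (b (d z2 z2) z2) z2) (c (b z3 (d (a (c (b (d z3 z3) z2) (b z3 z2)) z3) (a (b (d z3 z0) z2) z3))) (b z3 (d (a (c (b z3 z2) (b z3 z2)) z3) (a (c (b z3 z2) (b z3 z2)) z3))))) (a (b (d z2 z0) z2) (b (d z3 z0) (d (a (b (d (c (a z2 z3) z3) (a z2 z3)) (d z2 z2)) z3) z0))))) (b (d (a (c (b (d (a z2 z3) (a z2 z3)) z2) (b (d (a z2 z3) (a z2 z3)) z2)) z3) (a (c (b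 (d (a z2 z3) (a z2 z3)) (d (a z2 (c (b z3 (d z3 (a z2 z3))) z3)) (a z2 (b (d z3 z3) (d (c (a z2 z3) (a z2 z3)) (c (a z2 z3) (a z2 z3))))))) (b (d (a z2 z3) (a z2 z3)) z2)) z3)) (d (a z2 (c (b z3 (d z3 (a (c (b z3 z2) (b z3 z2)) z3))) z3)) (a z2 (c (b z3 (d (a (c (b z3 z2) (b z3 z2)) z3) (a (b (d (c (a z2 z3) z3) (c (a z2 z3) z3)) (d z2 z2)) z3))) (b z3 (d (a (c (b z3 z2) z3) z3) (a (c (b z3 z2) (b z3 z2)) z3))))))))) (a (b (d z2 z0) z2) (b (d (a (b (d (c (a z2 z3) (a z2 z3)) (a (b (d z2 z2) z2) z3)) (d (c (a z2 (b (d z3 z3) (d (c (a z2 z3) (a z2 z3)) (a z2 z3)))) (a z2 (b z3 (d (c (a z2 z3) (a z2 z3)) (c (a z2 z3) (a z2 z3)))))) (a z2 (b (d z3 z3) (d (a z2 z3) (a z2 z3)))))) z3) z0) (d (a (b (d z2 z2) z2) (b (d z3 z3) (d (c (a (b (d (c (a z2 z3) z3) (a z2 z3)) (d z2 z2)) z3) (a (b (d z3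 (c (a z2 z3) z3)) z2) z3)) (a (b (d (a z2 z3) (a z2 z3)) (d z2 z2)) z3)))) z0)))) _ _ (by decide +kernel)

theorem okB1191 : CKB ⟨12288, 13483, 6784, 6912⟩ ⟨0, 1560, 5376, 5632⟩ :=
  ckB_sound (d (a z2 (c (b (d (a z2 (c (b (d (a z2 z3) (a z2 z3)) (d (a z2 (c (b (d (c (a z2 z3) (a z2 z3)) (a z2 z3)) z2) z2)) (a z2 (b (d (a z2 z3) z0) z2)))) (b (d (a z2 z3) (a z2 z3)) z2))) (a z2 (b (d (a z2 z3) z0) (d (a z2 (b (d (c (a z2 z3) (a z2 z3)) (a z2 z3)) z2)) z0)))) (d z2 (a z2 (b (d z2 z0) z2)))) (b (d (a z2 (c (b (d z2 (a z2 z3)) z2) z2)) (a z2 (c (b (d (a z2 z3) (a z2 (b z3 (d z3 z3)))) (d z2 (a z2 (b (d (c (a z2 z3) (a z2 z3)) (c (a z2 z3) (a z2 z3))) z2)))) (b (d (a z2 z3) (a z2 z3)) z2)))) z2))) (a z2 (b (d (a z2 (b (d (c (a z2 (b z3 (d z3 z3))) (a z2 z3)) (a z2 (b z3 (d z3 z3)))) (d (c (a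 z2 (b (d (c (a z2 z3) (a z2 z3)) (a z2 z3)) (d z2 z2))) z2) (a z2 (b (d (a z2 z3) (a z2 z3)) (d z2 z2)))))) z0) (d (a z2 (b (d z2 z2) z2)) z0)))) _ _ (by decide +kernel)

theorem okB1192 : CKB ⟨12288, 13483, 6656, 6784⟩ ⟨1560, 1920, 5376, 5632⟩ :=
  ckB_sound (d (a z2 (c (b (d (a z2 z3) (a (c (b (d (a z2 z3) (a z2 z3)) z2) (b (d (a z2 z3) (a z2 z3)) z2)) z3)) (d (a z2 z3) (a z2 (c (b z3 (d z3 (a (c (b z3 z2) z3) z3))) z3)))) (b (d (a z2 z3) (a z2 z3)) (d (a z2 z3) (a z2 z3))))) (a z2 (c (b (d (a (c (b (d (a z2 z3) (a z2 z3)) (d z2 (a z2 (c (b z3 (d (a z2 z3) (a z2 z3))) (b z3 (d (a z2 z3) (a z2 z3))))))) (b (d (a z2 z3) (a z2 z3)) z2)) z3) (a (b (d (c (a (b (d z2 z2) z2) z3) (a z2 z3)) (a (b (d z2 z2) z2) z3)) (d (c (a z2 (b (d z3 z3) (d (c (a z2 z3) (a z2 z3)) (a z2 z3)))) (a z2 (b z3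 (d (c (a z2 z3) (a z2 z3)) (c (a z2 z3) (a z2 z3)))))) (a z2 (b (d z3 (a (c (b z3 (d z3 z3)) z3) z3)) (d (c (a z2 z3) (a z2 z3)) (a z2 z3)))))) z3)) (d (a z2 (c (b z3 (d (a (c (b z3 z2) (b z3 z2)) z3) (a (c (b (d z3 (a z2 z3)) z2) (b z3 z2)) z3))) (b z3 (d (a (c (b z3 z2) z3) z3) (a (c (b z3 z2) (b z3 z2)) z3))))) (a (b (d (c (a z2 (b (d z2 z2) z2)) z2) (a z2 (b (d z2 z2) z2))) z2) (b (d z3 z3) (d (c (a (b (d (c (a z2 z3) z3) (a z2 z3)) (d (c (a z2 z3) z2) (a z2 z3))) z3) (a (b z3 z2) z3)) (a (b (d (c (a z2 z3) (a z2 z3)) (a z2 z3)) (d (c (a z2 z3) z2) (a z2 z3))) z3)))))) (b (d (a (b (d (c (a z2 z3) (a z2 z3)) (c (a z2 z3) (a z2 z3))) z2) z3) (a (b (d (c (a z2 z3) (a z2 z3)) (c (a z2 z3) (a z2 z3))) (d z2 (c (a z2 (b z3 (d (c (a z2 z3) (a z2 z3)) (c (a z2 z3) (a z2 z3))))) z2))) z3)) (d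 (a z2 (b z3 (d z3 (c (a (b z3 z2) z3) z3)))) (a z2 (b z3 (d (c (a (b z3 z2) z3) (a (b z3 z2) z3)) (c (a (b (d z3 (c (a z2 z3) z3)) z2) z3) (a (b z3 z2) z3)))))))))) _ _ (by decide +kernel)

theorem okB1193 : CKB ⟨12288, 13483, 6784, 6912⟩ ⟨1560, 1920, 5376, 5632⟩ :=
  ckB_sound (d (a z2 (c (b (d z2 (a z2 (c (b (d z2 (a z2 z3)) z2) z2))) z2) z2)) (a z2 (c (b (d (a z2 (c (b (d (a z2 z3) (a z2 z3)) (d z2 (a z2 (c (b (d (a z2 z3) (a z2 z3)) z2) z2)))) (b (d (a z2 z3) (a z2 z3)) z2))) (a z2 (b (d (c (a z2 (b z3 (d z3 z3))) (a z2 z3)) (a (b (d z2 z2) z2) (b z3 (d (c (a (b z3 (d z3 z3)) z3) z3) (a (c (b z3 (d z3 z3)) z3) z3))))) (d (c (a z2 (b (d (c (a z2 z3) (a z2 z3)) (a z2 z3)) (d z2 z2))) z2) (a z2 (b (d (c (a z2 z3) (a z2 z3)) (a z2 z3)) (d z2 z2))))))) (d z2 (a z2 (b (d z2 z2) z2)))) (b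 (d (a z2 (b (d z2 (c (a z2 z3) z2)) z2)) (a z2 (b (d (c (a z2 z3) (a z2 z3)) (c (a z2 z3) (a z2 z3))) z2))) z2)))) _ _ (by decide +kernel)

theorem okB1194 : CKB ⟨13483, 14678, 6656, 6912⟩ ⟨0, 1920, 5376, 5632⟩ :=
  ckB_sound (c (b (d z3 z3) (d (c (a (b (d z3 z3) (d (c (a (b (d (c (a (b z3 (d z3 z3)) z3) z3) (a (b z3 (d (a z2 z3) z0)) z3)) (d (c (a z2 z3) (a z2 z3)) (a (b (d z2 z0) z2) z3))) z3) (a (b (d z3 (a (c (b z3 (d z3 (a z2 z3))) z3) z3)) (d (a z2 z3) (a z2 z3))) z3)) (a (b (d (a (b z3 (d (c (a z2 z3) z3) (a z2 z3))) z3) z0) (d (a (b (d z2 z2) z2) z3) z0)) z3))) z3) (a (b z3 (d (a (c (b z3 (d (a z2 z3) (a z2 z3))) (b z3 (d (a z2 z3) (a z2 z3)))) z3) (a (c (b (d z3 (a (b z3 (d (c (a z2 z3) z3) (c (a z2 z3) z3))) z3)) (d (a z2 z3) (a (b (d z2 z2) z2) z3))) (b z3 (d (a z2 z3) (a z2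 z3)))) z3))) z3)) (a (b (d z3 z0) (d (a (b (d (c (a (b z3 (d (c (a z2 z3) (a z2 z3)) (a z2 z3))) z3) (a (b z3 (d z3 (c (a z2 z3) z3))) z3)) (a (b z3 (d (a z2 z3) (a z2 z3))) z3)) (d (c (a (b (d z2 z2) z2) z3) (a z2 z3)) (a (b (d (a z2 z3) (a z2 z3)) z2) z3))) z3) z0)) z3))) (b z3 (d (a (c (b z3 (d (a (c (b z3 (d z3 (a z2 z3))) z3) z3) (a (c (b z3 (d (a z2 z3) (a z2 z3))) (b z3 (d (a z2 z3) (a z2 z3)))) z3))) (b z3 (d z3 (a (b z3 (d z3 (c (a z2 z3) z3))) z3)))) z3) (a (c (b (d z3 z3) (d (a (c (b (d z3 (a (c (b z3 (d z3 (a z2 z3))) z3) z3)) (d (a z2 z3) (a z2 z3))) (b z3 (d (a z2 z3) (a z2 z3)))) z3) (a (b (d (c (a (b z3 (d (c (a z2 z3) (a z2 z3)) (a z2 z3))) z3) (a (b z3 (d z3 (c (a z2 z3) z3))) z3)) (a (b (d z3 z3) (d (c (a z2 z3) (a z2 z3)) (a z2 z3))) z3)) (d (c (a (b (d (c (a z2 z3)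 z2) (a z2 z3)) z2) z3) (a z2 z3)) (a (b (d (c (a z2 z3) z2) (a z2 z3)) (d z2 z2)) z3))) z3))) (b z3 (d (a (b z3 (d (c (a z2 z3) (a z2 z3)) (c (a z2 z3) (a z2 z3)))) z3) (a (b (d z3 (c (a (b z3 (d z3 (c (a z2 z3) z3))) z3) z3)) (d (c (a z2 z3) (a z2 z3)) (c (a z2 z3) (a z2 z3)))) z3)))) z3)))) _ _ (by decide +kernel)

theorem okB1195 : CKB ⟨12288, 13483, 6912, 7168⟩ ⟨0, 1344, 5120, 5376⟩ :=
  ckB_sound (b (d z2 z2) z2) _ _ (by decide +kernel)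

theorem okB1196 : CKB ⟨13483, 14678, 6912, 7040⟩ ⟨0, 1344, 5120, 5376⟩ :=
  ckB_sound (d (c (a (b (d (c (a (b (d z2 z2) z2) z3) (a z2 z3)) (c (a (b (d z2 (a z2 (b z3 (d z3 z3)))) z2) z3) (a z2 z3))) (d (c (a z2 (b (d (c (a z2 z3) z3) (c (a z2 z3) (a z2 z3))) (d (c (a z2 z3) z2) (c (a z2 z3) z2)))) (a z2 (b z3 z2))) (c (a z2 (b (d (c (a z2 z3) (a z2 z3)) (a z2 z3)) (d (c (a z2 z3) z2) (a z2 z3)))) (a z2 (b (d z3 (c (a z2 z3) (a z2 z3))) (d z2 (c (a z2 z3) z2))))))) z3) (a (b (d (c (a z2 z3) (a z2 z3)) (c (a z2 z3) (a z2 z3))) (d z2 (c (a z2 (b z3 z2)) z2))) z3)) (c (a (b (d (c (a (b (d (c (a z2 (b z3 (d (c (a z2 z3) z3) (a z2 z3)))) z2) (a z2 (b z3 (d (a z2 z3) (a z2 z3))))) z2) z3) (a z2 z3)) (a (b (d (a z2 (b z3 (d (c (a z2 z3) z3) (c (a z2 z3) (a z2 z3))))) (a z2 (b z3 (d (a z2 z3) z0))))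 (d z2 z2)) (b z3 (d z3 z3)))) (d (c (a z2 (b (d (c (a z2 z3) (a z2 z3)) (a (b (d z3 z3) z2) z3)) (d (c (a z2 z3) (a z2 z3)) (a z2 z3)))) (a z2 (b (d (c (a z2 z3) z3) (c (a z2 z3) (a z2 z3))) (d z2 (c (a z2 z3) (a z2 z3)))))) (a z2 (b (d (a (b (d z3 (c (a z2 z3) z3)) z2) z3) (a (b (d (a z2 z3) z0) z2) z3)) (d (a z2 (b z3 (d z3 z3))) (a z2 (b z3 (d z3 z0)))))))) z3) (a (b (d (c (a z2 z3) (a z2 z3)) (c (a (b (d z2 (c (a z2 (b z3 (d (c (a z2 z3) z3) (a z2 z3)))) z2)) z2) z3) (a z2 z3))) (d (c (a z2 (b (d z3 (c (a z2 z3) z3)) z2)) (a z2 (b z3 z2))) (c (a z2 (b (d (c (a z2 z3) (a z2 z3)) (c (a (b (d z3 (a z2 z3)) z2) z3) (a z2 z3))) (d (c (a z2 z3) z2) (c (a z2 z3) (a z2 z3))))) (a z2 (b (d (c (a z2 z3) z3) (c (a z2 z3) (a z2 z3))) (d z2 (c (a z2 z3) z2))))))) z3))) _ _ (by decide +kernel)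

theorem okB1197 : CKB ⟨13483, 14678, 7040, 7168⟩ ⟨0, 1344, 5120, 5376⟩ :=
  ckB_sound (d (c (a (b (d z2 (c (a z2 (b (d z2 z2) z2)) z2)) z2) (b (d (c (a (b z3 (d z3 (c (a (b z3 (d z3 z3)) z3) z3))) z3) z3) (c (a (b z3 (d (c (a (b z3 (d z3 z3)) z3) z3) (a (b z3 (d (c (a z2 z3) z3) (a z2 z3))) z3))) z3) z3)) (d (c (a (b (d (c (a z2 z3) (a z2 z3)) (c (a z2 z3) (a z2 z3))) (d z2 z2)) z3) (a z2 z3)) (c (a (b (d (c (a z2 z3) (a z2 z3)) (a z2 z3)) (d z2 z2)) z3) (a (b (d (c (a z2 z3) (a z2 z3)) (c (a z2 z3) (a z2 z3))) z2) z3))))) (a z2 (b z3 (d (c (a z2 z3) (a z2 z3)) (c (a z2 z3) (a z2 z3)))))) (c (a (b (d (c (a z2 (b (d z2 z2) z2)) z2) (a z2 (b (d z2 z2) z2))) z2) (b (d (c (a (b z3 (d (c (a (b z3 (d (c (a z2 z3) z3) (a z2 z3))) z3) z3) (a (b z3 (d (a z2 z3) (a z2 z3))) z3))) z3) (a (b z3 (d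 z3 (c (a (b z3 (d z3 (c (a z2 z3) z3))) z3) z3))) z3)) (a (b z3 (d (a (b z3 (d (c (a z2 z3) z3) (c (a z2 z3) (a z2 z3)))) z3) (a (b z3 (d (a z2 z3) z0)) z3))) z3)) (d (c (a (b (d (c (a z2 z3) (a z2 z3)) (a z2 z3)) (d z2 (a z2 (b (d (a z2 z3) (a z2 z3)) z2)))) z3) (a (b (d (c (a z2 z3) (a z2 z3)) (c (a z2 z3) (a z2 z3))) z2) z3)) (a (b (d (a z2 z3) (a z2 z3)) (d (a z2 (b (d (c (a z2 z3) z3) (c (a z2 z3) z3)) z2)) (a z2 (b (d (a z2 z3) z0) z2)))) z3)))) (a z2 (b (d z3 (c (a (b z3 (d z3 (c (a (b z3 (d (c (a z2 z3) (a z2 z3)) (a z2 z3))) z3) (a (b z3 (d z3 (c (a z2 z3) z3))) z3)))) z3) z3)) (d (c (a (b (d (c (a z2 z3) (a z2 z3)) (c (a z2 z3) (a z2 z3))) z2) z3) (a z2 z3)) (c (a (b (d (c (a z2 z3) (a z2 z3)) (c (a z2 z3) (a z2 z3))) (d z2 (c (a z2 (b (d (c (a z2 z3) z3) (a z2 z3)) z2)) z2)))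 z3) (a (b (d (c (a z2 z3) (a z2 z3)) (c (a z2 z3) (a z2 z3))) z2) z3))))))) _ _ (by decide +kernel)

theorem okB1198 : CKB ⟨12288, 14678, 6912, 7168⟩ ⟨1344, 1920, 5120, 5376⟩ :=
  ckB_sound (a z2 (b (d (c (a (b (d (c (a z2 z3) (a z2 z3)) (c (a z2 z3) (a z2 z3))) z2) z3) (a z2 z3)) (c (a (b (d (c (a z2 z3) (a z2 z3)) (c (a z2 z3) (a z2 z3))) (d z2 (c (a z2 (b z3 z2)) z2))) z3) (a (b (d (c (a z2 z3) (a z2 z3)) (c (a z2 z3) (a z2 z3))) z2) z3))) (d (c (a z2 (b z3 (d (c (a z2 z3) z3) (c (a z2 z3) (a z2 z3))))) (a z2 z3)) (c (a z2 (b z3 (d (c (a z2 z3) (a z2 z3)) (c (a z2 z3) (a z2 z3))))) (a z2 (b z3 (d (c (a z2 z3) z3) (c (a z2 z3) (a z2 z3))))))))) _ _ (by decide +kernel)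

theorem okB1199 : CKB ⟨12288, 13483, 6912, 7168⟩ ⟨0, 1920, 5376, 5632⟩ :=
  ckB_sound (c (b (d z2 (a z2 (b (d z2 z0) z2))) z2) z2) _ _ (by decide +kernel)

end Vale.Agent.Lib.P154Q5
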