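import Vale.Agent.Lib.P154Q5.CkBDefs

namespace Vale.Agent.Lib.P154Q5

set_option maxRecDepth 100000
set_option exponentiation.threshold 1000

open Tr

theorem okB120 : CKB ⟨6145, 8193, 3072, 3584⟩ ⟨6144, 9216, 4608, 5120⟩ :=
  ckB_sound (c (b (d (a z0 z1) (a z8 z9)) (d (a z0 z1) z8)) (b (d (a z8 z9) (a z8 z9)) (d (a z8 (c (b z9 (d (a z8 z9) (a z8 z9))) (b (d (a (b (d (c z9 (a (b (d (c z9 z13) (c z9 z13)) (d (c z8 z12) (c z8 z12))) z13)) (c z9 (a (b z9 z8) z9))) (d (c (a z8 z9) (a (b (d z12 (c z8 z12)) (d z12 (c z8 z12))) z13)) (c (a z8 z9) (a z8 z9)))) z9) (a (b (d (c z9 (a (b z9 z8) z9)) z9) (d (c (a z8 z9) (a z8 z9)) (c z9 (a z8 z9)))) z9)) (d (a (b (d (c z8 (a (b (d z12 (c z8 z12)) (d z12 (c z8 z12))) (b (d z13 (c z9 z13)) (d (c z9 z13) (c z9 z13))))) z8) (d (c z8 (a z12 (b (d (c z9 z13) (c z9 z13)) (d (c z9 z13) (c z9 z13)))))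 z8)) z9) (a z8 z9))))) (a z8 (c (b z9 (d (a z8 z9) (a z8 z9))) (b (d (a (b z9 (d (c z9 (a z8 z9)) (c z9 (a z8 z9)))) z9) z9) (d (a z8 z9) (a z8 z9)))))))) _ _ (by decide +kernel)

theorem okB121 : CKB ⟨6145, 8193, 3584, 4096⟩ ⟨6144, 7680, 4096, 4608⟩ :=
  ckB_sound z0 _ _ (by decide +kernel)

theorem okB122 : CKB ⟨6145, 8193, 3584, 3840⟩ ⟨7680, 9216, 4096, 4608⟩ :=
  ckB_sound (d (a (c z0 z4) (c (b (d (a z0 z1) (a z0 z1)) (d (a z0 (c (b z1 (d (a z0 z1) z1)) (b (d (a (c z1 z5) z5) (a (c z1 (b (d z5 (a (b (c z1 z5) (c z1 z5)) z5)) (d (a z4 z5) (a z4 z5)))) z1)) (d (a (c z0 z4) z5) (a z0 z1))))) (a z0 (c z1 (b z1 (d (a z0 z1) (a z0 z1))))))) (b (d (a z4 z5) (a z4 z5)) (d z4 (a z4 (b (d z5 (c (a (b (d z5 (c (a (b (d z5 (c z1 z5)) (d (c z1 z5) (c z1 z5))) z5) z5)) (d (c (a z4 z5) z5) (c (a z4 z5) z5))) z5) z5)) (d (c (a z4 z5) z5)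 (c (a (b (d (c (a z4 z5) z5) (c (a z4 z5) z5)) (d z4 (c (a z4 (b z5 (d z5 (c z1 z5)))) z4))) z5) z5)))))))) (a z0 (c (b (d (a z0 z1) (a z0 z1)) (d (a z0 (c z1 (b z1 (d (a z0 z1) (a z0 z1))))) z0)) (b (d (a (b (d (c (a z4 (b (d (c z0 z4) (c z0 z4)) (d (c z0 z4) (c z0 z4)))) z4) (c z0 z4)) (d (c (a z4 (b (d (c z0 z4) (c z0 z4)) (d (c z0 z4) (c z0 z4)))) z4) (c z0 z4))) (b (d z5 (c z1 z5)) (d (c (a (b (d z5 (c z1 z5)) (d (c z1 z5) (c z1 z5))) z5) z5) (c z1 z5)))) (a (b (d (c z0 z12) (c z8 z12)) (d (c z0 z12) z8)) (b z9 (d (c z1 z13) (c z9 z13))))) (d (a (b (d (c (a z4 (b (d z4 (c z0 z4)) (d z4 (c z0 z4)))) z4) (c z0 z4)) (d (c (a z4 (b (d z4 (c z0 z4)) (d z4 (c z0 z4)))) z4) (c z0 z4))) (b (d (c (a (b (d (c z1 z5) (c z1 z5)) (d (c z1 z5) (c z1 z5))) z5) z5) (c (a (b z1 (d (c z1 (a z4 z5)) (c z1 (a z4 z5)))) z1) z5)) (d (c (a (b (d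 (c (a z0 z1) z5) (c (a z0 z1) (a z4 z5))) (d (c z0 z4) (c z0 z4))) z5) z5) (c (a z0 z1) z5)))) (a (b (d (c z0 z12) z8) z8) (b (d (c z1 z13) (c z9 (a (b (d z13 (c (a (b z13 (d z13 (c z9 z13))) z13) z13)) (d (c (a z12 z13) z13) (c (a z12 z13) z13))) z13))) (d (c (a z0 z1) (a z12 z13)) (c (a z8 z9) (a (b (d (c (a z12 z13) z13) (c (a z12 z13) z13)) z12) z13)))))))))) _ _ (by decide +kernel)

theorem okB123 : CKB ⟨6145, 8193, 3840, 4096⟩ ⟨7680, 9216, 4096, 4608⟩ :=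
  ckB_sound (d (a (c z0 z4) (c (b (d (a z0 (c z0 (b (d (a (c z0 z4) (c z1 z5)) (a z0 z1)) (d (a (c z0 z4) (c z1 z5)) (a z0 (c z1 (b (d z5 (a (b (c z1 z5) (c z1 z5)) z5)) (d (a z4 z5) (a (b (c z1 z5) (c z0 z4)) z5))))))))) (a z0 (c z0 (b (d (a z0 z1) (a z0 z1)) z0)))) (d (a z0 (c z0 (b (d (a (c z0 z4) (c z0 z4)) z0) z0))) z0)) (b (d z4 (a z4 (b (d (c (a z4 z5) z5) (c (a z4 z5) z5)) (d z4 (c (a z4 (b (d z5 (c (a (b z5 (d z5 (c z1 z5))) z5) z5)) (d (c (a z4 z5) z5) (c (a (b (d (c z1 z5) (c z1 z5)) z4) z5) z5)))) z4))))) (d z4 (a z4 (b (d z4 (c (a z4 (b (d (c (a z4 z5) z5) (c (a z4 z5) z5)) (d z4 (c (a z4 (b (d z5 (c z1 z5)) (d (c z1 z5) (c z1 z5)))) z4)))) z4)) (d z4 (c (a z4 (b (d z4 (c (a z4 (b (d (c z1 z5) (c z1 z5)) (d z4 (c z0 z4)))) z4)) z4)) z4)))))))) (a z0 (c z0 (b (d (a (b (d z4 (c z0 z4)) (d z4 (c z0 z4))) (b (d (c (a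 (b (d (c z0 z4) (c z0 z4)) (d (c z0 z4) (c z0 z4))) (b (d z5 (c z1 z5)) (d (c z1 z5) (c z1 z5)))) z5) (c (a z0 z1) (a z4 z5))) (d (c (a (b (d (c z0 z4) (c z0 z4)) (d (c z0 z4) (c z0 z4))) (b (d (c z1 z5) (c z1 z5)) (d (c z1 z5) (c z1 z5)))) z4) (c (a z0 (b z1 (d (c z1 (a z4 z5)) (c z1 (a z4 z5))))) z4)))) (a z8 (b (d (c (a z0 z1) (a z12 z13)) (c (a z8 z9) (a z12 z13))) (d (c (a z0 (b z1 (d (c z1 (a z0 z1)) z1))) z12) (c z8 (a z12 (b (d z13 (c (a (b z13 (d z13 (c z9 z13))) z13) z13)) (d (c (a z12 z13) z13) (c (a z12 z13) z13))))))))) (d (a (b (d z4 (c z0 z4)) (d z4 (c z0 z4))) (b (d (c (a (b (d z4 (c z0 z4)) (d z4 (c z0 z4))) (b (d (c (a z0 z1) z5) (c (a z0 z1) (a z4 z5))) (d (c z0 z4) (c z0 z4)))) z4) (c (a z0 (b (d (c (a z0 z1) (a z4 z5)) (c (a z0 z1) (a z4 z5))) z0)) z4)) (d (c (a (b (d z4 (c z0 z4)) (d z4 (c z0 z4))) (b (d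 (c z0 z4) (c z0 z4)) (d (c z0 z4) (c z0 z4)))) z4) (c z0 z4)))) (a z8 (b (d (c z0 z12) (c z8 (a z12 (b (d (c (a z12 z13) z13) (c (a z12 z13) z13)) (d z12 (c (a z12 (b z13 (d z13 (c z9 z13)))) z12)))))) (d (c z0 z12) (c z8 (a z12 (b (d z12 (c (a z12 (b (d (c z9 z13) (c z9 z13)) z12)) z12)) z12))))))))))) _ _ (by decide +kernel)

theorem okB124 : CKB ⟨6145, 8193, 3584, 4096⟩ ⟨6144, 9216, 4608, 5120⟩ :=
  ckB_sound (c z0 (b (d (a z8 (c (b (d (a z8 z9) (a z8 z9)) z8) (b (d (a z8 z9) (a z8 z9)) (d (a z8 (b (d (c z9 (a (b (d (c z9 z13) (c z9 z13)) (d (c z9 z13) (c z9 z13))) z13)) (c z9 (a (b z9 (d (c z9 (a z12 z13)) (c z9 (a z12 z13)))) z9))) (d (c (a z8 z9) (a (b (d (c (a z8 z9) z13) (c (a z8 z9) z13)) (d (c z8 z12) (c z8 z12))) z13)) (c (a z8 z9) (a z8 z9))))) (a z8 (b z9 (d (c z9 (a z8 z9)) (c z9 (a z8 z9))))))))) (a z8 (c z8 (b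 (d (a z8 z9) (a z8 z9)) (d (a z8 (b z9 (d (c z9 (a z8 z9)) z9))) z8))))) (d (a z8 (c z8 (b (d (a z8 (b (d (c (a z8 z9) (a (b (d (c z8 z12) (c z8 z12)) (d (c z8 z12) (c z8 z12))) (b (d z13 (c z9 z13)) (d (c z9 z13) (c z9 z13))))) (c (a z8 z9) (a z8 z9))) (d (c z8 (a (b (d (c z8 z12) (c z8 z12)) (d z12 (c z8 z12))) (b (d (c z9 z13) (c z9 z13)) (d (c (a z8 z9) z13) (c z9 z13))))) (c z8 (a z8 (b z9 (d (c z9 (a z12 z13)) (c z9 (a z12 z13))))))))) (a z8 (b (d (c (a z8 z9) (a z8 z9)) (c (a z8 z9) (a z8 z9))) z8))) (d (a z8 (b (d (c z8 (a (b (d z12 (c z8 z12)) (d z12 (c z8 z12))) (b (d (c (a z8 z9) z13) (c (a z8 z9) (a z12 z13))) (d (c z8 z12) (c z8 z12))))) (c z8 (a z8 (b (d (c (a z8 z9) (a z12 z13)) (c (a z8 z9) (a z12 z13))) z8)))) (d (c z8 (a (b (d z12 (c z8 z12)) z12) (b (d (c z8 z12) (c z8 z12)) (d (c z8 z12) (c z8 z12))))) z8)))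 z8)))) z8))) _ _ (by decide +kernel)

theorem okB125 : CKB ⟨4097, 6145, 3072, 4096⟩ ⟨9216, 12288, 4096, 5120⟩ :=
  ckB_sound z12 _ _ (by decide +kernel)

theorem okB126 : CKB ⟨6145, 8193, 3072, 3584⟩ ⟨9216, 12288, 4096, 5120⟩ :=
  ckB_sound (d (b (d z4 (c (a z12 z13) z12)) z12) (b (d (c (a z12 z13) z12) (c (a (b (d (c (a z12 (b (d (c (a z12 (b (d (c z9 z13) (c z9 z13)) (d (c z9 z13) (c z9 z13)))) z12) (c z8 z12)) (d (c (a z12 (b (d z12 (c z8 z12)) (d z12 (c z8 z12)))) z12) (c z8 z12)))) z12) (c z8 z12)) (d (c (a z12 (b (d z12 (c z8 z12)) (d z12 (c z8 z12)))) z12) (c z8 z12))) (b (d z13 (c z9 z13)) (d (c (a (b (d z13 (c z9 z13)) (d (c (a (b (d z13 (c z9 z13)) (d (c z9 z13) (c z9 z13))) z13) z13) (c z9 z13))) z13) z13) (c z9 z13)))) z12)) (d (c (a z12 (b (d z13 (c (a (b (d z13 (c (a (b (d z13 (c (a z12 z13) z13)) z12) z13) z13))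 (d (c (a z12 z13) z13) (c (a z12 z13) z13))) z13) z13)) (d (c (a z12 z13) z13) (c (a (b (d z12 (c (a z12 z13) z12)) (d z12 (c (a z12 (b (d z13 (c (a z12 z13) z13)) (d (c (a z12 z13) z13) (c (a z12 z13) z13)))) z12))) z13) z13)))) z12) (c (a (b (d (c (a z12 (b (d z12 (c z8 z12)) (d z12 (c z8 z12)))) z12) (c z8 z12)) (d (c (a z12 (b (d z12 (c z8 z12)) (d z12 (c z8 z12)))) z12) (c z8 z12))) (b (d (c (a (b (d (c (a (b (d (c z9 z13) (c z9 z13)) (d (c z8 z12) (c z8 z12))) z13) z13) (c (a (b z9 z8) z9) z13)) (d (c (a (b (d z12 (c z8 z12)) (d z12 (c z8 z12))) z13) z13) (c (a z8 z9) z13))) z13) z13) (c (a (b (d (c z9 z13) (c z9 (a (b (d (c (a z12 z13) z13) (c z9 z13)) z12) z13))) (d (c (a z8 z9) (a z12 z13)) (c (a z8 z9) (a z12 z13)))) z9) z13)) (d (c (a (b (d (c (a (b (d z12 (c z8 z12)) (d z12 (c z8 z12))) (b (d z13 (c z9 z13)) (d (c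 z9 z13) (c z9 z13)))) z12) (c z8 z12)) (d (c (a z12 (b (d (c z9 z13) (c z9 z13)) (d (c z9 z13) (c z9 z13)))) z12) (c z8 z12))) z13) z13) (c (a (b (d (c z8 z12) (c z8 (a z12 z13))) (d (c z8 z12) z8)) z9) z13)))) z12)))) _ _ (by decide +kernel)

theorem okB127 : CKB ⟨6145, 8193, 3584, 4096⟩ ⟨9216, 12288, 4096, 4608⟩ :=
  ckB_sound z12 _ _ (by decide +kernel)

theorem okB128 : CKB ⟨6145, 8193, 3584, 3840⟩ ⟨9216, 12288, 4608, 5120⟩ :=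
  ckB_sound (d (c (a z12 (b (d (c (a z12 z13) z13) (c (a z12 z13) z13)) (d z12 (c (a z12 (b (d z13 (c (a (b (d z13 (c (a (b z13 (d z13 (c z9 z13))) z13) z13)) (d (c (a z12 z13) z13) (c (a z12 z13) z13))) z13) z13)) (d (c (a z12 z13) z13) (c (a (b (d (c (a z12 z13) z13) (c (a z12 z13) z13)) z12) z13) z13)))) z12)))) z12) (c (a (b (d z12 (c z8 z12)) (d z12 (c z8 z12))) (b (d (c (a (b (d (c (a z12 (b (d (c z8 z12) (c z8 z12)) (d (c z8 z12) (c z8 z12)))) z12) (c z8 z12)) (d (c (a z12 (b (d (c z8 z12) (c z8 z12)) (d z12 (c z8 z12)))) z12) (c z8 z12))) (b (d z13 (c z9 z13)) (d (c (a (b (d z13 (c z9 z13)) (d (c z9 z13) (c z9 z13))) z13) z13) (c z9 z13)))) z13) (c (a z8 z9) (a z12 z13))) (d (c (a (b (d (c (a z12 (b (d z12 (c z8 z12)) (d z12 (c z8 z12)))) z12) (c z8 z12)) (d (c (a z12 (b (d z12 (c z8 z12)) (d z12 (c z8 z12)))) z12) (c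 z8 z12))) (b (d (c (a (b (d (c z9 z13) (c z9 z13)) (d (c z9 z13) (c z9 z13))) z13) z13) (c (a (b z9 (d (c z9 (a z12 z13)) z9)) z9) z13)) (d (c (a (b (d (c (a z8 z9) z13) (c (a z8 z9) (a z12 z13))) (d (c z8 z12) (c z8 z12))) z13) z13) (c (a z8 z9) z13)))) z12) (c (a z8 (b (d (c z9 z13) (c z9 (a (b (d z13 (c z9 z13)) (d (c (a z12 z13) z13) (c z9 z13))) z13))) (d (c (a z8 z9) (a z12 z13)) (c (a z8 z9) (a (b (d (c (a z12 z13) z13) (c (a z8 z9) z13)) (d z12 (c z8 z12))) z13))))) z12)))) z12)) _ _ (by decide +kernel)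

theorem okB129 : CKB ⟨6145, 8193, 3840, 4096⟩ ⟨9216, 12288, 4608, 5120⟩ :=
  ckB_sound (d (c (a z12 (b (d z12 (c (a z12 (b (d (c (a z12 z13) z13) (c (a z12 z13) z13)) (d z12 (c (a z12 (b (d z13 (c (a (b z13 (d z13 (c z9 z13))) z13) z13)) (d (c (a z12 z13) z13) (c (a z12 z13) z13)))) z12)))) z12)) (d z12 (c (a z12 (b (d z12 (c (a z12 (b (d (c (a z12 z13) z13) (c (a z12 z13) z13)) (d z12 (c (a z12 (b z13 (d z13 (c z9 z13)))) z12)))) z12)) (d z12 (c (a z12 (b (d z12 (c (a z12 (b (d (c z9 z13) (c z9 z13)) (d z12 (c z8 z12)))) z12)) z12)) z12)))) z12)))) z12) (c (a (b (d z12 (c z8 z12)) (d z12 (c z8 z12))) (b (d (c (a (b (d z12 (c z8 z12)) (d z12 (c z8 z12))) (b (d (c (a (b (d (c z8 z12) (c z8 z12)) (d (c z8 z12) (c z8 z12))) (b (d z13 (c z9 z13)) (d (c z9 z13) (c z9 z13)))) z13) (c (a z8 z9) (a z12 z13))) (d (c (a (b (d (c z8 z12)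 (c z8 z12)) (d z12 (c z8 z12))) (b (d (c z9 z13) (c z9 z13)) (d (c z9 z13) (c z9 z13)))) z12) (c (a z8 (b z9 (d (c z9 (a z12 z13)) z9))) z12)))) z12) (c (a z8 (b (d (c (a z8 z9) (a z12 z13)) (c (a z8 z9) (a (b (d z12 (c z8 z12)) z12) z13))) (d (c z8 z12) (c z8 (a z12 (b (d z13 (c z9 z13)) (d (c (a z12 z13) z13) (c z9 z13)))))))) z12)) (d (c (a (b (d z12 (c z8 z12)) (d z12 (c z8 z12))) (b (d (c (a (b (d z12 (c z8 z12)) (d z12 (c z8 z12))) (b (d (c (a z8 z9) z13) (c (a z8 z9) (a z12 z13))) (d (c z8 z12) (c z8 z12)))) z12) (c z8 z12)) (d (c (a (b (d z12 (c z8 z12)) (d z12 (c z8 z12))) (b (d (c z8 z12) (c z8 z12)) (d (c z8 z12) (c z8 z12)))) z12) (c z8 z12)))) z12) (c (a z8 (b (d (c z8 z12) (c z8 (a z12 (b (d (c (a z12 z13) z13) (c (a z8 z9) z13)) (d z12 (c z8 z12)))))) (d (c z8 z12) (c z8 (a z12 (b (d z12 (c z8 z12)) (d z12 (c z8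 z12)))))))) z12)))) z12)) _ _ (by decide +kernel)

theorem okB130 : CKB ⟨4097, 8193, 3072, 4096⟩ ⟨6144, 9216, 5120, 6144⟩ :=
  ckB_sound (a z8 (b (d (c (b (d (a z8 z9) (a z8 z9)) z8) (b (d (a z8 z9) (a z8 z9)) (d (a z8 (c (b z9 (d (a z8 z9) z9)) (b z9 (d (a z8 z9) (a z8 z9))))) (a z8 (c z9 (b z9 (d (a z8 z9) (a z8 z9)))))))) (c (b (d (a z8 z9) (a z8 z9)) z8) (b (d (a z8 z9) (a z8 z9)) z8))) z8)) _ _ (by decide +kernel)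

theorem okB131 : CKB ⟨4097, 6145, 3072, 4096⟩ ⟨9216, 12288, 5120, 6144⟩ :=
  ckB_sound (b (d (a (b (d (c z8 z12) (c z8 z12)) (d (c z8 z12) (c z8 z12))) (b (d (c z8 z12) (c z8 z12)) (d (c z8 z12) (c z8 z12)))) z8) (d (a (b (d (c z8 z12) (c z8 z12)) (d (c z8 z12) (c z8 z12))) (b (d (c z8 z12) (c z8 z12)) (d (c z8 z12) (c z8 z12)))) z8)) _ _ (by decide +kernel)

theorem okB132 : CKB ⟨6145, 8193, 3072, 3584⟩ ⟨9216, 12288, 5120, 5632⟩ :=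
  ckB_sound (b (d (c (a (b (d (c z8 z12) z8) (d (c z8 z12) z8)) (b z9 (d (c z9 z13) (c z9 (a (b z13 (d z13 (c (a (b (d z13 (c z9 z13)) (d z13 (c z9 z13))) z13) z13))) z13))))) z12) (c (a z8 z9) (a z12 z13))) (d (c (a (b (d (c z8 z12) z8) z8) (b (d (c (a (b (d (c z9 (a (b z9 z8) z9)) z9) (d (c (a z8 z9) (a z8 z9)) (c z9 (a z8 z9)))) z9) (a (b z13 (d z13 (c (a z12 z13) z13))) z13)) (c (a (b z9 (d (c z9 (a z8 z9)) (c z9 (a z8 z9)))) z9) (a (b (d (c (a (b z13 z12) z13) z13) (c (a (b (d (c z9 z13) (c z9 z13)) (d z12 (c z8 z12))) z13) z13)) (d (c (a z12 z13) z13) (c (a z12 z13) z13))) z13))) (d (c (a z8 z9) (a z12 z13)) (c (a z8 z9) (a (b (d z12 (c (a z12 (b z13 (d z13 (c z9 z13)))) z12)) (d z12 (c (a z12 (b (d (c z9 z13) (c z9 z13)) (d (c z9 z13) (c z9 z13)))) z12))) z13))))) z12) (c (a z8 (b (d (c z9 (a (b (d (c z9 z13) (c z9 z13))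 (d (c (a z8 z9) z13) (c (a z8 z9) (a z12 z13)))) z13)) (c z9 (a (b z9 (d (c (a z8 z9) (a z12 z13)) (c z9 (a z8 z9)))) z9))) (d (c (a z8 z9) (a (b (d (c z8 z12) z8) (d (c z8 z12) z8)) z13)) (c (a z8 z9) (a z8 z9))))) (a z12 (b z13 (d z13 (c (a z12 z13) z13))))))) _ _ (by decide +kernel)

theorem okB133 : CKB ⟨6145, 8193, 3072, 3584⟩ ⟨9216, 12288, 5632, 6144⟩ :=
  ckB_sound (b (d (c (a z8 z9) (a (b (d z12 (c (a z12 (b (d z12 (c z8 z12)) (d z12 (c z8 z12)))) z12)) (d z12 (c (a z12 (b (d z12 (c z8 z12)) (d z12 (c z8 z12)))) z12))) (b z13 (d z13 (c (a (b (d z13 (c z9 z13)) (d (c z9 z13) (c z9 z13))) z13) z13))))) (c (a z8 z9) (a (b (d (c z8 z12) z8) (d (c z8 z12) z8)) (b (d (c z9 z13) z9) (d (c z9 z13) z9))))) (d (c (a z8 (b (d (c z9 (a (b z9 (d (c z9 (a z8 z9)) z9)) z9)) z9) (d (c (a z8 z9) (a z8 z9)) (c (a z8 z9) (a z8 z9))))) (a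 (b (d z12 (c (a z12 (b (d z12 (c z8 z12)) (d z12 (c z8 z12)))) z12)) (d z12 (c (a z12 (b (d z12 (c z8 z12)) (d z12 (c z8 z12)))) z12))) (b (d (c (a (b (d z13 (c (a (b (d z13 (c z9 z13)) z12) z13) z13)) (d (c (a z12 z13) z13) (c (a z12 z13) z13))) z13) z13) (c (a (b (d (c z9 z13) (c z9 z13)) (d (c (a z8 z9) z13) (c z9 (a z12 z13)))) z13) z13)) (d (c (a z12 z13) z13) (c (a (b (d (c z8 z12) (c z8 z12)) (d (c z8 z12) (c z8 z12))) z13) z13))))) (c z8 (a (b (d (c z8 z12) z8) (d (c z8 z12) z8)) (b (d (c (a (b z9 (d (c z9 (a z12 z13)) z9)) z9) z13) (c z9 (a (b (d z13 (c (a (b z13 z12) z13) z13)) (d (c (a z12 z13) z13) (c (a z12 z13) z13))) z13))) (d (c (a z8 z9) (a z12 z13)) (c (a z8 z9) (a z12 z13)))))))) _ _ (by decide +kernel)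

theorem okB134 : CKB ⟨6145, 8193, 3584, 4096⟩ ⟨9216, 12288, 5120, 5632⟩ :=
  ckB_sound (b (d (c (a z8 (b (d (c (a z8 z9) (a z12 z13)) (c (a z8 z9) (a (b (d z12 (c (a z12 (b (d z12 (c z8 z12)) (d z12 (c z8 z12)))) z12)) (d z12 (c (a z12 (b (d z12 (c z8 z12)) (d z12 (c z8 z12)))) z12))) (b z13 (d z13 (c (a (b z13 (d z13 (c z9 z13))) z13) z13)))))) (d (c (a z8 (b (d (c z9 (a (b z9 (d (c z9 z13) z9)) z9)) z9) (d (c (a z8 z9) (a z8 z9)) (c z9 (a z8 z9))))) z12) (c (a z8 (b z9 (d (c z9 (a z8 z9)) (c z9 (a z8 z9))))) (a z12 (b (d (c (a (b z13 (d z13 (c (a z12 z13) z13))) z13) z13) (c (a (b (d (c z9 z13) (c z9 z13)) (d (c z9 z13) (c z9 z13))) z13) z13)) (d (c (a z12 z13) z13) (c (a (b (d (c z9 z13) (c z9 z13)) (d (c z8 z12) (c z8 z12))) z13) z13)))))))) z12) (c (a z8 (b (d (c (a z8 z9) (a (b (d (c z8 z12) z8) (d (c z8 z12) z8)) (b (d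 (c z9 z13) z9) (d (c z9 z13) z9)))) (c (a z8 z9) (a z8 z9))) (d (c z8 (a (b (d (c z8 z12) z8) (d (c z8 z12) z8)) (b (d (c z9 z13) (c z9 z13)) (d (c (a z8 z9) z13) (c (a z8 z9) (a z12 z13)))))) (c z8 (a z8 (b z9 (d (c z9 (a (b (d (c (a z12 z13) z13) (c z9 z13)) (d z12 (c z8 z12))) z13)) (c z9 (a z8 z9))))))))) z12)) (d (c (a z8 (b (d (c (a z8 (b (d (c (a z8 z9) (a z8 z9)) (c (a z8 z9) (a z8 z9))) (d (c z8 (a z8 (b z9 (d (c z9 z13) (c z9 (a z12 z13)))))) z8))) z12) (c z8 (a z12 (b (d (c (a z12 z13) z13) (c (a (b (d z12 (c z8 z12)) (d z12 (c z8 z12))) (b z13 (d z13 (c z9 z13)))) z13)) (d (c (a z12 (b z13 (d z13 (c (a z12 z13) z13)))) z12) (c (a (b (d z12 (c z8 z12)) (d z12 (c z8 z12))) (b (d (c z9 z13) (c z9 z13)) (d (c z9 z13) (c z9 z13)))) z12)))))) (d (c z8 z12) (c z8 (a z12 (b (d z12 (c (a (b (d z12 (c z8 z12)) z12) (b (d (c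 (a z8 z9) z13) (c z9 z13)) (d (c z8 z12) (c z8 z12)))) z12)) (d z12 (c (a z12 (b (d (c z8 z12) (c z8 z12)) (d (c z8 z12) (c z8 z12)))) z12)))))))) z12) (c (a z8 (b (d (c z8 (a (b (d (c z8 z12) z8) (d (c z8 z12) z8)) (b (d (c (a z8 z9) (a z12 z13)) (c (a z8 z9) (a z12 z13))) (d (c z8 z12) (c z8 z12))))) (c z8 (a z8 (b (d (c (a z8 z9) (a z12 z13)) (c (a z8 z9) (a z8 z9))) z8)))) (d (c z8 (a (b (d (c z8 z12) z8) (d (c z8 z12) z8)) (b (d (c z8 z12) (c z8 z12)) (d (c z8 z12) z8)))) z8))) z12))) _ _ (by decide +kernel)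

end Vale.Agent.Lib.P154Q5
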