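import Vale.Agent.Lib.P154Q5.CkBDefs

namespace Vale.Agent.Lib.P154Q5

set_option maxRecDepth 100000
set_option exponentiation.threshold 1000

open Tr

theorem okB1200 : CKB ⟨13483, 14678, 6912, 7040⟩ ⟨0, 1560, 5376, 5504⟩ :=
  ckB_sound (c (a (b (d (c (a (b (d (c (a z2 (b z3 (d (c (a z2 z3) (a z2 z3)) (a z2 z3)))) (a z2 (b z3 (d (c (a z2 z3) z3) (c (a z2 z3) (a z2 z3)))))) (a z2 (b (d z3 z0) (d (a z2 z3) z0)))) (d z2 z2)) (b z3 (d z3 z3))) (a (b (d z2 (a z2 (c (b z3 (d (c (a z2 z3) (a z2 z3)) (a z2 z3))) (b z3 (d (c (a z2 z3) z3) (c (a z2 z3) (a z2 z3))))))) z2) z3)) (a (b (d (a z2 (b (d z3 z3) (d (c (a z2 z3) (a z2 z3)) (a z2 z3)))) z0) (d z2 z0)) (b z3 (d z3 z0)))) (d (c (a z2 (b (d (c (a (b (d (c (a z2 z3) z3) (a z2 z3)) z2) z3) (a z2 z3)) (a (b (d (a z2 z3) z0) (d z2 z0)) z3)) (d (c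 (a z2 (b z3 (d z3 z3))) (a z2 z3)) (a z2 (b z3 (d z3 z0)))))) (a z2 (b (d (c (a z2 z3) (a z2 z3)) (c (a (b (d z3 (a z2 z3)) z2) z3) (a z2 z3))) (d (c (a z2 z3) (a z2 z3)) (c (a z2 (b z3 (d z3 (c (a z2 z3) z3)))) (a z2 z3)))))) (a z2 (b (d (a (b (d (c (a z2 z3) (a z2 z3)) (a z2 z3)) (d z2 z2)) z3) z0) (d (a z2 (b z3 (d (c (a z2 z3) z3) (a z2 z3)))) z0))))) z3) (a (b (d (a z2 z3) (a (c (b (d (a z2 (c (b z3 (d (a z2 z3) (a z2 z3))) (b z3 (d z3 (a z2 z3))))) (a z2 (b (d z3 z3) (d (c (a z2 z3) (a z2 z3)) (c (a z2 z3) (a z2 z3)))))) (d z2 (a z2 (b (d z2 z2) z2)))) (b (d z2 (a z2 (c (b z3 (d (a z2 z3) (a z2 z3))) (b z3 (d z3 (a z2 z3)))))) z2)) (c (b z3 (d z3 z3)) z3))) (d (a z2 (c (b (d (a z2 z3) (a z2 z3)) (d z2 (a z2 z3))) (b (d z3 (a z2 z3)) z2))) (a z2 (c (b (d (a z2 z3) (a (b (d (c (a z2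 z3) (a z2 z3)) (c (a z2 z3) (a z2 z3))) (d z2 z2)) z3)) (d (a z2 z3) (a z2 (b z3 (d (c (a z2 z3) z3) (c (a z2 z3) z3)))))) (b (d (a z2 z3) (a z2 z3)) (d (a z2 z3) (a z2 z3))))))) z3)) _ _ (by decide +kernel)

theorem okB1201 : CKB ⟨13483, 14678, 6912, 7040⟩ ⟨0, 1560, 5504, 5632⟩ :=
  ckB_sound (a (b (d (a (b (d (c (a z2 (b (d z3 z3) (d (c (a z2 z3) (a z2 z3)) (a z2 z3)))) (a z2 (b z3 (d (c (a z2 z3) (a z2 z3)) (c (a z2 z3) (a z2 z3)))))) (a z2 (b (d (a (b z3 (d z3 z3)) z3) (a (b z3 (d z3 z0)) z3)) (d (a z2 z3) (a z2 z3))))) (d (c (a z2 (b (d z2 z2) z2)) z2) (a z2 (b (d z2 z2) z2)))) (b z3 (d (c (a (b z3 (d z3 z3)) z3) z3) (a (b z3 (d z3 z3)) z3)))) z0) (d (a z2 (b (d (c (a (b (d (c (a z2 z3) (a z2 z3)) (a z2 z3)) (d z2 z2)) z3) (a (b (d (c (a z2 z3) z3) (c (a z2 z3) (a z2 z3))) z2) z3))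 (a (b (d (a z2 z3) (a z2 z3)) (d z2 z2)) z3)) (d (c (a z2 (b z3 (d (c (a z2 z3) z3) (a z2 z3)))) (a z2 (b z3 (d z3 (c (a z2 z3) z3))))) (a z2 (b z3 (d (a z2 z3) (a z2 z3))))))) z0)) (b z3 (d z3 z0))) _ _ (by decide +kernel)

theorem okB1202 : CKB ⟨13483, 14678, 7040, 7168⟩ ⟨0, 1560, 5376, 5504⟩ :=
  ckB_sound (c (a (b (d (c (a z2 (b (d (c (a z2 (b (d z2 z2) z2)) z2) (a z2 (b (d z2 z0) z2))) z2)) z2) (a z2 (b (d (a z2 (b (d z2 z2) z2)) z0) (d z2 z0)))) (d z2 z2)) (b (d (c (a (b z3 (d (c (a (b (d z3 z3) (d (c (a z2 z3) (a z2 z3)) (a z2 z3))) z3) (a (b z3 (d (c (a z2 z3) z3) (c (a z2 z3) (a z2 z3)))) z3)) (a (b (d z3 z0) (d (a z2 z3) z0)) z3))) z3) (a (b z3 (d (c (a (b z3 (d z3 (c (a z2 z3) z3))) z3) z3) (c (a (b z3 (d (c (a z2 z3) (a z2 z3)) (c (a z2 z3) (a z2 z3)))) z3) (a (b z3 (d (c (a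 z2 z3) z3) (c (a z2 z3) (a z2 z3)))) z3)))) z3)) (a (b (d z3 z0) (d (a (b (d z3 z3) (d (c (a z2 z3) (a z2 z3)) (a z2 z3))) z3) z0)) z3)) (d (c (a (b (d (c (a z2 z3) (a z2 z3)) (a z2 z3)) (d (c (a z2 (b (d (c (a z2 z3) (a z2 z3)) (a z2 z3)) z2)) z2) (a z2 (b (d (a z2 z3) z0) z2)))) z3) (a (b (d (c (a z2 z3) (a z2 z3)) (c (a z2 z3) (a z2 z3))) (d z2 (c (a z2 (b (d (c (a z2 z3) z3) (c (a z2 z3) (a z2 z3))) z2)) z2))) z3)) (a (b (d (a z2 z3) z0) (d (a z2 (b (d (c (a z2 z3) (a z2 z3)) (a z2 z3)) z2)) z0)) z3)))) (a (b (d z2 (a z2 (c (b (d z2 (a z2 (b (d z2 z2) z2))) z2) z2))) z2) (b (d z3 (c (a (b z3 (d (c (a (b z3 (d (c (a z2 z3) (a z2 z3)) (c (a z2 z3) (a z2 z3)))) z3) (a (b z3 (d z3 (c (a z2 z3) (a z2 z3)))) z3)) (a (b (d z3 z3) (d (c (a z2 z3) (a z2 z3)) (c (a z2 z3) (a z2 z3)))) z3)))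 z3) (a (b z3 (d z3 (a (c (b z3 (d (a z2 z3) (a z2 z3))) (b z3 (d z3 (a z2 z3)))) z3))) z3))) (d (c (a (b (d (c (a z2 z3) (a z2 z3)) (c (a z2 z3) (a z2 z3))) z2) z3) (a (b (d (a z2 z3) (a z2 z3)) z2) z3)) (c (a (b (d (c (a z2 z3) (a z2 z3)) (a z2 (b z3 (d z3 z3)))) (d z2 (a z2 (b (d (c (a z2 z3) (a z2 z3)) (c (a z2 z3) (a z2 z3))) (d z2 z2))))) z3) (a (b (d (a z2 z3) (a z2 z3)) z2) z3)))))) _ _ (by decide +kernel)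

theorem okB1203 : CKB ⟨13483, 14678, 7040, 7168⟩ ⟨0, 1560, 5504, 5632⟩ :=
  ckB_sound (a (b (d (a z2 (b (d (c (a z2 (b (d (c (a z2 z3) z2) (a z2 z3)) z2)) z2) (a z2 (b (d (a z2 z3) (a z2 z3)) z2))) (d z2 z2))) z0) (d z2 z0)) (b (d (a (b (d z3 z3) (d (c (a (b (d z3 z3) (d (c (a z2 z3) (a z2 z3)) (a z2 z3))) z3) (a (b z3 (d (c (a z2 z3) (a z2 z3)) (c (a z2 z3) (a z2 z3)))) z3)) (a (b (d (a (b z3 z2) z3) (a (b z3 z2) z3)) (d (a z2 z3) (a z2 z3))) z3))) z3) z0) (d (a (b (d (c (a (b (d z2 z2) z2) (b z3 (d z3 z3))) (a z2 z3)) (a (b (d z2 z2) z2) (b z3 (d z3 z3)))) (d (c (a z2 (b (d (c (a z2 z3) (a z2 z3)) (a z2 z3)) (d z2 z2))) z2) (a z2 (b (d (a z2 z3) (a z2 z3)) (d z2 z2))))) z3) z0))) _ _ (by decide +kernel)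

theorem okB1204 : CKB ⟨13483, 14678, 6912, 7040⟩ ⟨1560, 1920, 5376, 5632⟩ :=
  ckB_sound (d (a (c (b (d (a z2 z3) (a z2 z3)) (d (a z2 (c (b z3 z2) (b z3 z2))) (a z2 (c (b (d (a z2 z3) (a z2 z3)) (d z2 (a z2 z3))) (b z3 z2))))) (b (d (a z2 z3) (a z2 z3)) (d z2 (a z2 (b z3 z2))))) z3) (a (c (b (d (a (c (b (d (a z2 (c (b z3 (d (a z2 z3) (a z2 z3))) (b z3 (d z3 (a z2 z3))))) (a z2 (c (b z3 (d (a z2 z3) (a z2 z3))) (b z3 (d (a z2 z3) (a z2 z3)))))) z2) (b (d z2 (a z2 (c (b z3 (d (a z2 z3) (a z2 z3))) z3))) z2)) z3) (a (b (d (c (a z2 (b (d (c (a (b z3 (d z3 z3)) z3) z3) (a (b z3 (d z3 z3)) z3)) (d (c (a z2 z3) (a z2 z3)) (a z2 z3)))) (a z2 (b z3 (d (c (a z2 z3) (a z2 z3)) (c (a z2 z3) (a z2 z3)))))) (a z2 (b (d (c (a (b z3 (d z3 z3)) z3) z3) (c (a (b z3 (d z3 z3)) z3) z3)) (d (c (a z2 z3) (a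 z2 z3)) (c (a z2 z3) (a z2 z3)))))) (d (c (a z2 (b (d z2 z2) z2)) z2) (a z2 (b (d z2 z2) z2)))) (b z3 (d (c (a (b z3 (d z3 z3)) z3) z3) (a (b z3 (d z3 z3)) z3))))) (d (a z2 (c (b (d (a z2 z3) (a (c (b (d (a z2 z3) (a z2 z3)) z2) z2) z3)) (d (a z2 z3) (a z2 (c (b z3 (d z3 (a z2 z3))) z3)))) (b (d (a z2 z3) (a z2 z3)) (d (a z2 z3) (a z2 z3))))) (a (b (d z2 z2) z2) (b (d (c (a (b (d (c (a z2 z3) (a z2 z3)) (a z2 z3)) (d z2 (a z2 (b z3 (d z3 z3))))) z3) (a (b (d (c (a z2 z3) z3) (c (a z2 z3) (a z2 z3))) z2) z3)) (a (b (d (c (a z2 z3) (a z2 z3)) (c (a z2 z3) (a z2 z3))) (d (c (a z2 (b z3 (d z3 z3))) z2) (c (a z2 (b z3 (d z3 z3))) z2))) z3)) (d (c (a z2 (b z3 (d (c (a z2 z3) z3) (a z2 z3)))) (a z2 z3)) (a z2 (b z3 (d (c (a z2 z3) z3) (c (a z2 z3) (a z2 z3)))))))))) (b (d (a z2 z3) (a (b (d z2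 (c (a z2 (b z3 (d (c (a z2 z3) (a z2 z3)) (c (a z2 z3) (a z2 z3))))) z2)) z2) z3)) (d (a z2 (b (d z3 (c (a z2 z3) z3)) z2)) (a z2 (b (d (c (a z2 z3) (a z2 z3)) (c (a (b (d (c (a z2 z3) z3) (c (a z2 z3) z3)) z2) z3) (a z2 z3))) (d (c (a z2 z3) z2) (c (a z2 z3) (a z2 z3)))))))) z3)) _ _ (by decide +kernel)

theorem okB1205 : CKB ⟨13483, 14678, 7040, 7168⟩ ⟨1560, 1920, 5376, 5632⟩ :=
  ckB_sound (d (a z2 (c (b z3 (d (a z2 z3) (a (c (b (d (a z2 z3) (a z2 z3)) z2) z2) z3))) (b z3 (d (a z2 z3) (a z2 z3))))) (a (c (b (d (a z2 (c (b (d z2 (a z2 (c (b (d z2 (a z2 z3)) z2) z2))) z2) z2)) (a z2 (b (d (c (a z2 (b (d (c (a z2 z3) z2) (a z2 z3)) (d z2 z2))) z2) (a z2 (b (d (c (a z2 z3) z2) (c (a z2 z3) z2)) (d z2 z2)))) (d z2 z2)))) z2) z2) (c (b (d (a (c (b z3 (d (a (c (b z3 (d (a z2 z3) (a z2 z3)))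 (b z3 (d z3 (a z2 z3)))) z3) (a (c (b z3 (d (a z2 z3) (a z2 z3))) (b z3 (d (a z2 z3) (a z2 z3)))) z3))) (b z3 (d z3 (a (c (b z3 (d z3 (a z2 z3))) z3) z3)))) z3) (a (b (d z3 z3) (d (c (a (b (d (c (a (b z3 z2) z3) z3) (a (b z3 z2) z3)) (d (c (a z2 z3) (a z2 z3)) (a z2 z3))) z3) (a (b z3 (d (c (a z2 z3) (a z2 z3)) (c (a z2 z3) (a z2 z3)))) z3)) (a (b (d (c (a (b z3 z2) z3) z3) (c (a (b z3 z2) z3) z3)) (d (c (a z2 z3) (a z2 z3)) (c (a z2 z3) (a z2 z3)))) z3))) z3)) (d (a (c (b (d (a z2 z3) (a z2 z3)) (d z2 (a z2 (c (b (d (a z2 z3) (a z2 z3)) z2) z2)))) (b (d (a z2 z3) (a z2 z3)) z2)) z3) (a (b (d (c (a (b (d z2 z2) z2) (b z3 (d z3 z3))) (a z2 z3)) (a (b (d z2 z2) z2) (b z3 (d z3 z3)))) (d (c (a z2 (b (d (c (a z2 z3) (a z2 z3)) (a z2 z3)) (d z2 z2))) z2) (a z2 (b (d (c (a z2 z3) (a z2 z3))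 (c (a z2 z3) (a z2 z3))) (d z2 z2))))) (b z3 (d z3 z3))))) (b (d z3 (a (b z3 (d (c (a (b z3 (d z3 (c (a z2 z3) z3))) z3) z3) (c (a (b z3 (d (c (a z2 z3) (a z2 z3)) (c (a z2 z3) (a z2 z3)))) z3) (a (b z3 (d z3 (c (a z2 z3) z3))) z3)))) z3)) (d (a (b (d (c (a z2 z3) (a z2 z3)) (c (a z2 z3) (a z2 z3))) z2) z3) (a (b (d (c (a z2 z3) (a z2 z3)) (c (a z2 z3) (a z2 z3))) z2) z3)))))) _ _ (by decide +kernel)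

theorem okB1206 : CKB ⟨14678, 17067, 6656, 7168⟩ ⟨0, 1920, 5120, 5632⟩ :=
  ckB_sound (b z3 (d z3 z3)) _ _ (by decide +kernel)

theorem okB1207 : CKB ⟨12288, 17067, 6656, 7168⟩ ⟨1920, 3072, 5120, 5632⟩ :=
  ckB_sound (a (b (d (c (a (b (d z2 (c (a z2 (b z3 z2)) z2)) z2) z3) (a z2 z3)) (c (a (b (d (c (a z2 (b (d (c (a z2 z3) z3) (c (a z2 z3) (a z2 z3))) (d z2 (c (a z2 z3) z2)))) (a z2 (b z3 z2))) (c (a z2 (b (d (c (a z2 z3) (a z2 z3)) (c (a (b (d (c (a z2 z3) (a z2 z3)) (c (a z2 z3) (a z2 z3))) z2) z3) (a z2 z3))) (d (c (a z2 z3) (a z2 z3)) (c (a z2 z3) (a z2 z3))))) (a z2 (b (d (c (a z2 z3) z3) (c (a z2 z3) (a z2 z3))) (d z2 (c (a z2 z3) z2)))))) z2) (b z3 (d z3 (c (a (b z3 (d (c (a (b z3 (d z3 (c (a z2 z3) z3))) z3) z3) (c (a (b z3 (d (c (a z2 z3) (a z2 z3)) (c (a z2 z3) (a z2 z3))))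 z3) (a (b z3 (d z3 (c (a z2 z3) z3))) z3)))) z3) z3)))) (a (b (d z2 (c (a z2 (b z3 z2)) z2)) z2) z3))) (d (c (a z2 (b (d (c (a z2 z3) (a z2 z3)) (c (a z2 z3) (a z2 z3))) (d (c (a z2 z3) z2) (c (a z2 z3) (a z2 z3))))) (a z2 (b (d (c (a z2 z3) z3) (c (a z2 z3) (a z2 z3))) z2))) (c (a z2 (b (d (c (a (b (d (c (a z2 z3) (a z2 z3)) (c (a z2 z3) (a z2 z3))) z2) z3) (a z2 z3)) (c (a (b (d (c (a z2 z3) (a z2 z3)) (c (a z2 z3) (a z2 z3))) (d (c (a z2 (b z3 z2)) z2) (c (a z2 (b (d z3 (c (a z2 z3) z3)) z2)) (a z2 (b z3 z2))))) z3) (a (b (d (c (a z2 z3) (a z2 z3)) (c (a z2 z3) (a z2 z3))) z2) z3))) (d (c (a z2 (b z3 (d (c (a z2 z3) z3) (c (a z2 z3) (a z2 z3))))) (a z2 z3)) (c (a z2 (b z3 (d (c (a z2 z3) (a z2 z3)) (c (a z2 z3) (a z2 z3))))) (a z2 (b z3 (d (c (a z2 z3) z3) (c (a z2 z3) (a z2 z3)))))))))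 (a z2 (b (d (c (a z2 z3) (a z2 z3)) (c (a z2 z3) (a z2 z3))) (d (c (a z2 z3) z2) (c (a z2 z3) (a z2 z3)))))))) z3) _ _ (by decide +kernel)

theorem okB1208 : CKB ⟨12288, 12886, 6656, 6784⟩ ⟨0, 2064, 5632, 5760⟩ :=
  ckB_sound (b (d z2 z2) z2) _ _ (by decide +kernel)

theorem okB1209 : CKB ⟨12886, 13483, 6656, 6720⟩ ⟨0, 2064, 5632, 5760⟩ :=
  ckB_sound (d (c (a (b (d (c (a (b (d z2 z2) z2) z3) (a z2 z3)) (a (c (b (d z2 z2) z2) z2) z3)) (d (c (a z2 (b (d (c (a (b z3 (d z3 z3)) z3) z3) (a (c (b z3 (d z3 z3)) z3) z3)) (d (c (a z2 z3) (a z2 z3)) (a z2 z3)))) (a z2 (b z3 (d (c (a z2 z3) (a z2 z3)) (c (a z2 z3) (a z2 z3)))))) (a z2 (c (b (d (a (c (b z3 (d z3 z3)) z3) z3) (a (b z3 (d z3 z0)) z3)) (d (a z2 z3) (a z2 z3))) (b (d z3 (a (c (b z3 (d z3 z3)) z3) z3)) (d (a z2 z3) (a z2 z3))))))) z3)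 (a (b (d (c (a z2 z3) (a z2 z3)) (c (a z2 z3) (a z2 z3))) (d z2 (c (a z2 (b z3 (d (c (a z2 z3) (a z2 z3)) (c (a z2 z3) (a z2 z3))))) z2))) z3)) (a (c (b (d (a (c (b (d z2 (a z2 z3)) z2) z2) z3) (a (b (d (a z2 z3) z0) z2) z3)) (d (a z2 (c (b (d (a (c (b z3 (d z3 z3)) z3) z3) (a (b z3 (d z3 z0)) z3)) (d (a z2 z3) (a z2 z3))) (b (d z3 (a (c (b z3 (d z3 z3)) z3) z3)) (d (a z2 z3) (a z2 z3))))) (a z2 (b (d (a (b z3 (d z3 z3)) z3) z0) (d (a z2 z3) z0))))) (b (d (a z2 z3) (a (c (b (d z2 (a z2 z3)) z2) z2) z3)) (d (a z2 (c (b z3 (d (a z2 z3) (a z2 z3))) (b z3 (d (a z2 z3) (a z2 z3))))) (a z2 (c (b (d z3 (a (b z3 (d z3 z3)) z3)) (d (a z2 z3) (a z2 z3))) (b z3 (d (a z2 z3) (a z2 z3)))))))) z3)) _ _ (by decide +kernel)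

theorem okB1210 : CKB ⟨12886, 13483, 6720, 6784⟩ ⟨0, 2064, 5632, 5760⟩ :=
  ckB_sound (d (c (a (b (d (c (a z2 (b (d z2 z2) z2)) z2) (a z2 (c (b (d z2 z2) z2) z2))) (d z2 z2)) (b (d z3 (a (c (b z3 (d z3 z3)) z3) z3)) (d (c (a (b (d (c (a z2 z3) (a z2 z3)) (a z2 z3)) (d (c (a z2 z3) z2) (a z2 z3))) z3) (a (b (d z3 (c (a z2 z3) z3)) z2) z3)) (a (c (b (d (a z2 z3) (a z2 z3)) (d (a z2 z3) (a z2 z3))) (b (d (a z2 z3) (a z2 z3)) (d z2 (a z2 z3)))) z3)))) (a z2 (b z3 (d (c (a (b z3 z2) z3) (a (b z3 z2) z3)) (c (a (b (d z3 (c (a z2 z3) z3)) z2) z3) (a (b z3 z2) z3)))))) (a (c (b (d (a z2 (c (b (d z2 z2) z2) z2)) (a z2 (b (d z2 z0) z2))) (d z2 z2)) (b (d z2 (a z2 (c (b (d z2 z2) z2) z2))) z2)) (c (b (d (a (c (b z3 (d z3 z3)) z3) z3) (a (b z3 (d z3 z0)) z3)) (d (a (c (b (d (a z2 z3) (a z2 z3)) (d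 (a z2 z3) (a z2 z3))) (b (d (a z2 z3) (a z2 z3)) (d z2 (a z2 z3)))) z3) (a (b (d (a z2 z3) z0) (d (a z2 z3) z0)) z3))) (b z3 (d (a (c (b (d z3 (a z2 z3)) z2) (b z3 z2)) z3) (a (c (b (d (a z2 z3) (a z2 z3)) (d z2 (a z2 z3))) (b (d (a z2 z3) (a z2 z3)) z2)) z3)))))) _ _ (by decide +kernel)

theorem okB1211 : CKB ⟨12288, 13483, 6656, 6784⟩ ⟨2064, 2400, 5632, 5760⟩ :=
  ckB_sound (a z2 (b (d (c (a (b (d (c (a z2 z3) (a z2 z3)) (c (a z2 z3) (a z2 z3))) z2) z3) (a z2 z3)) (c (a (b (d (c (a z2 z3) (a z2 z3)) (c (a z2 z3) (a z2 z3))) (d z2 (c (a z2 (b z3 (d (c (a z2 z3) (a z2 z3)) (c (a z2 z3) (a z2 z3))))) z2))) z3) (a (b (d (c (a z2 z3) (a z2 z3)) (c (a z2 z3) (a z2 z3))) z2) z3))) (d (c (a z2 (b z3 (d z3 (c (a (b z3 z2) z3) z3)))) (a z2 z3)) (c (a z2 (b z3 (d (c (a (b z3 z2) z3) (a (b z3 z2)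 z3)) (c (a (b z3 z2) z3) (a (b z3 z2) z3))))) (a z2 z3))))) _ _ (by decide +kernel)

theorem okB1212 : CKB ⟨12288, 12886, 6656, 6784⟩ ⟨0, 2400, 5760, 5888⟩ :=
  ckB_sound (b (d z2 z2) z2) _ _ (by decide +kernel)

theorem okB1213 : CKB ⟨12886, 13483, 6656, 6720⟩ ⟨0, 2400, 5760, 5888⟩ :=
  ckB_sound (d (c (a (b (d (c (a (b (d (c (a z2 (c (b z3 (d z3 z3)) z3)) z2) (c (a z2 (b z3 (d z3 z3))) z2)) (d z2 z2)) z3) (a z2 z3)) (a (c (b (d (a z2 (c (b z3 (d z3 z3)) z3)) (a z2 (b z3 (d z3 z0)))) (d z2 z2)) z2) z3)) (d (c (a z2 (b (d (c (a (c (b z3 (d z3 z3)) z3) z3) z3) (c (a (b z3 (d z3 z3)) z3) z3)) (d (c (a z2 z3) (a z2 z3)) (c (a z2 z3) (a z2 z3))))) (a z2 (b z3 (d (c (a z2 z3) (a z2 z3)) (c (a z2 z3) (a z2 z3)))))) (a z2 (c (b (d (c (a (b z3 (d z3 z3)) z3) z3) (a (b z3 (d z3 z0)) z3)) (d (c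 (a z2 z3) (a z2 z3)) (a z2 z3))) (b (d z3 (c (a (b z3 (d z3 z3)) z3) z3)) (d (c (a z2 z3) (a z2 z3)) (c (a z2 z3) (a z2 z3)))))))) z3) (a (b (d (c (a z2 z3) (a z2 z3)) (c (a z2 z3) (a z2 z3))) (d z2 (c (a z2 (b z3 (d (c (a z2 z3) (a z2 z3)) (c (a z2 z3) (a z2 z3))))) z2))) z3)) (a (c (b (d (a (c (b (d (a z2 (c (b z3 (d z3 z3)) z3)) (a z2 (b z3 (d z3 z0)))) (d z2 z2)) z2) z3) (a (b (d (a z2 (b z3 (d z3 z3))) z0) (d z2 z0)) z3)) (d (a z2 (c (b (d (a (c (b z3 (d z3 z3)) z3) z3) (a (b z3 (d z3 z0)) z3)) (d (a z2 z3) (a z2 z3))) (b (d z3 (a (c (b z3 (d z3 z3)) z3) z3)) (d (a z2 z3) (a z2 z3))))) (a z2 (b (d (a (b z3 (d z3 z3)) z3) z0) (d (a z2 z3) z0))))) (b (d (a z2 z3) (a (c (b (d z2 (a z2 (b z3 (d z3 z3)))) z2) z2) z3)) (d (a z2 (c (b z3 (d (a z2 z3) (a z2 z3))) (b z3 (d (a z2 z3) (a z2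 z3))))) (a z2 (c (b (d z3 (a (b z3 (d z3 z3)) z3)) (d (a z2 z3) (a z2 z3))) (b z3 (d (a z2 z3) (a z2 z3)))))))) z3)) _ _ (by decide +kernel)

theorem okB1214 : CKB ⟨12886, 13483, 6720, 6784⟩ ⟨0, 2400, 5760, 5888⟩ :=
  ckB_sound (d (c (a (b (d (c (a z2 (b (d z2 z2) z2)) z2) (a z2 (c (b (d z2 z2) z2) z2))) (d z2 z2)) (b (d (c (a (b z3 (d z3 z3)) z3) z3) (c (a (b z3 (d z3 z3)) z3) z3)) (d (c (a (b (d (c (a z2 z3) (a z2 z3)) (c (a z2 z3) (a z2 z3))) (d (c (a z2 z3) z2) (c (a z2 z3) z2))) z3) (a (b (d z3 (c (a z2 z3) z3)) z2) z3)) (c (a (b (d (c (a z2 z3) (a z2 z3)) (a z2 z3)) (d (c (a z2 z3) z2) (a z2 z3))) z3) (a (b (d (c (a z2 z3) z3) (c (a z2 z3) (a z2 z3))) (d z2 (c (a z2 z3) z2))) z3))))) (a z2 (b z3 (d (c (a (b z3 z2) z3) (a (b z3 z2) z3)) (c (a (b (d z3 (c (a z2 z3) z3)) z2) z3) (a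 (b z3 z2) z3)))))) (a (c (b (d (a z2 (c (b (d z2 z2) z2) z2)) (a z2 (b (d z2 z0) z2))) (d z2 z2)) (b (d z2 (a z2 (c (b (d z2 z2) z2) z2))) z2)) (c (b (d (a (c (b z3 (d z3 z3)) z3) z3) (a (b z3 (d z3 z0)) z3)) (d (a (c (b (d (c (a z2 z3) (a z2 z3)) (a z2 z3)) (d (c (a z2 z3) z2) (a z2 z3))) (b (d (a z2 z3) (a z2 z3)) (d z2 (a z2 z3)))) z3) (a (b (d (a z2 z3) z0) (d (a z2 z3) z0)) z3))) (b z3 (d (a (c (b (d z3 (a z2 z3)) z2) (b z3 z2)) z3) (a (c (b (d (a z2 z3) (a z2 z3)) (d z2 (a z2 z3))) (b (d z3 (a z2 z3)) z2)) z3)))))) _ _ (by decide +kernel)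

end Vale.Agent.Lib.P154Q5
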