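import Vale.Agent.Lib.P154Q5.CkBDefs

namespace Vale.Agent.Lib.P154Q5

set_option maxRecDepth 100000
set_option exponentiation.threshold 1000

open Tr

theorem okB1215 : CKB ⟨12288, 13483, 6784, 6912⟩ ⟨0, 2400, 5632, 5760⟩ :=
  ckB_sound (c (a z2 (b (d (c (a z2 (b (d (c (a (b (d z2 z2) z2) (b z3 (d (c (a (b z3 (d z3 z3)) z3) z3) (a (c (b z3 (d z3 z3)) z3) z3)))) (a z2 z3)) (a (c (b (d z2 z2) z2) z2) (c (b z3 (d (a (c (b z3 (d z3 z3)) z3) z3) (a (b z3 (d z3 z0)) z3))) (b z3 (d z3 (a (c (b z3 (d z3 z3)) z3) z3)))))) (d (c (a z2 (b (d (c (a z2 z3) (a z2 z3)) (a z2 z3)) (d z2 z2))) z2) (a z2 (c (b (d (a z2 z3) (a z2 z3)) (d z2 z2)) (b (d (a z2 z3) (a z2 z3)) z2)))))) (a z2 (b (d (c (a z2 z3) (a z2 z3)) (c (a z2 z3) (a z2 z3))) z2))) (a z2 (c (b (d (a (c (b (d z2 z2) z2) z2) (c (b z3 (d (a (c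 (b z3 (d z3 z3)) z3) z3) (a (b z3 (d z3 z0)) z3))) (b z3 (d z3 (a (c (b z3 (d z3 z3)) z3) z3))))) (a (b (d z2 z0) z2) (b z3 (d (a (b z3 (d z3 z3)) z3) z0)))) (d (a z2 (c (b (d (a z2 z3) (a z2 z3)) (d z2 (a z2 (b z3 z2)))) (b (d (a z2 z3) (a z2 z3)) z2))) (a z2 (b (d (a z2 z3) z0) (d (a z2 (b z3 z2)) z0))))) (b (d (a z2 z3) (a z2 (c (b z3 (d z3 (a (b z3 (d z3 z3)) z3))) z3))) (d z2 (a z2 (c (b (d (a z2 z3) (a z2 z3)) (d z2 (a z2 (b z3 z2)))) (b (d (a z2 z3) (a z2 z3)) z2)))))))) (d (c (a z2 (b (d z2 z2) z2)) z2) (a z2 (c (b (d z2 z2) z2) z2))))) (a z2 (b (d (c (a z2 (b (d z2 (c (a z2 z3) z2)) z2)) z2) (c (a z2 (b (d (c (a z2 z3) z2) (c (a z2 z3) (a z2 z3))) z2)) z2)) z2))) _ _ (by decide +kernel)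

theorem okB1216 : CKB ⟨12288, 13483, 6784, 6912⟩ ⟨0, 2400, 5760, 5888⟩ :=
  ckB_sound (a z2 (b (d (c (a z2 (b (d (c (a (b (d z2 z2) z2) (b z3 (d (c (a (c (b z3 (d z3 z3)) z3) z3) z3) (c (a (b z3 (d z3 z3)) z3) z3)))) (a z2 z3)) (c (a (b (d z2 z2) z2) (b z3 (d (c (a (b z3 (d z3 z3)) z3) z3) (a (b z3 (d z3 z0)) z3)))) (a z2 (b z3 (d z3 (c (a (b z3 (d z3 z3)) z3) z3)))))) (d (c (a z2 (b (d (c (a z2 z3) (a z2 z3)) (c (a z2 z3) (a z2 z3))) (d (c (a z2 (c (b z3 z2) (b z3 z2))) z2) (c (a z2 (b z3 z2)) z2)))) z2) (c (a z2 (b (d (c (a z2 z3) (a z2 z3)) (a z2 z3)) (d (c (a z2 (b z3 z2)) z2) (a z2 (b z3 z2))))) (a z2 (b (d (c (a z2 z3) (a z2 z3)) (c (a z2 z3) (a z2 z3))) z2)))))) (a z2 (b (d (c (a z2 z3) z2) (c (a z2 z3) (a z2 z3))) z2))) (a z2 (c (b (d (a (c (b (d z2 z2) z2) z2) (c (b z3 (d (c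 (a (b z3 (d z3 z3)) z3) z3) (a (b z3 (d z3 z0)) z3))) (b z3 (d z3 (a (c (b z3 (d z3 z3)) z3) z3))))) (a (b (d z2 z0) z2) (b z3 (d (a (b z3 (d z3 z3)) z3) z0)))) (d (a z2 (c (b (d (c (a z2 z3) (a z2 z3)) (a z2 z3)) (d (c (a z2 (b z3 z2)) z2) (a z2 (b z3 z2)))) (b (d (a z2 z3) (a z2 z3)) z2))) (a z2 (b (d (a z2 z3) z0) (d z2 z0))))) (b (d (a z2 z3) (a z2 (c (b z3 (d z3 (a (b z3 (d z3 z3)) z3))) z3))) (d z2 (a z2 (c (b (d (a z2 z3) (a z2 z3)) (d z2 z2)) (b (d (a z2 z3) (a z2 z3)) z2)))))))) (d (c (a z2 (b (d z2 (c (a z2 (b (d z2 z2) z2)) z2)) z2)) z2) (a z2 (c (b (d (a z2 (c (b (d z2 z2) z2) z2)) (a z2 (b (d z2 z0) z2))) (d z2 z2)) z2))))) _ _ (by decide +kernel)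

theorem okB1217 : CKB ⟨13483, 14678, 6656, 6784⟩ ⟨0, 2400, 5632, 5888⟩ :=
  ckB_sound (d z3 z3) _ _ (by decide +kernel)

theorem okB1218 : CKB ⟨13483, 14678, 6784, 6912⟩ ⟨0, 2400, 5632, 5760⟩ :=
  ckB_sound (c (a (b (d (c (a (b z3 (d z3 z3)) z3) z3) (a (c (b z3 (d z3 z3)) z3) z3)) (d (c (a (b (d (c (a (b (d z3 z3) (d (c (a z2 z3) (a z2 z3)) (a z2 z3))) z3) (a (b z3 (d z3 (c (a z2 z3) z3))) z3)) (a (c (b (d z3 z3) (d (a z2 z3) (a z2 z3))) (b z3 (d (a z2 z3) (a z2 z3)))) z3)) (d (c (a (b (d (c (a z2 z3) z2) (a z2 z3)) (d z2 z2)) z3) (a z2 z3)) (a (c (b (d (a z2 z3) (a z2 z3)) (d z2 z2)) (b (d z2 (a z2 z3)) z2)) z3))) z3) (a (b (d z3 (c (a (b z3 (d z3 (c (a z2 z3) z3))) z3) z3)) (d (c (a z2 z3) (a z2 z3)) (c (a z2 z3) (a z2 z3)))) z3)) (a (c (b (d (a (c (b (d z3 z3) (d (a z2 z3) (a z2 z3)))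 (b z3 (d (a z2 z3) (a z2 z3)))) z3) (a (b (d z3 z0) (d (a z2 z3) z0)) z3)) (d (a (c (b (d (a z2 z3) (a z2 (b z3 (d z3 z0)))) (d z2 z2)) (b (d z2 (a z2 z3)) z2)) z3) (a (b (d (a z2 (b z3 (d z3 z3))) z0) (d z2 z0)) z3))) (b (d (a (c (b z3 (d z3 (a z2 z3))) z3) z3) (a (c (b z3 (d (a z2 z3) (a z2 z3))) (b z3 (d (a z2 z3) (a z2 z3)))) z3)) (d (a z2 z3) (a (c (b (d (a z2 z3) (a z2 (b z3 (d z3 z3)))) z2) z2) z3)))) z3))) z3) (a (b z3 (d (c (a (b z3 (d (c (a z2 z3) (a z2 z3)) (c (a z2 z3) (a z2 z3)))) z3) (a (b z3 (d z3 (c (a z2 z3) z3))) z3)) (c (a (b (d z3 (c (a (b z3 (d z3 (c (a z2 z3) z3))) z3) z3)) (d (c (a z2 z3) (a z2 z3)) (c (a z2 z3) (a z2 z3)))) z3) (a (b z3 (d (c (a z2 z3) (a z2 z3)) (c (a z2 z3) (a z2 z3)))) z3)))) z3)) _ _ (by decide +kernel)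

theorem okB1219 : CKB ⟨13483, 14678, 6784, 6912⟩ ⟨0, 2400, 5760, 5888⟩ :=
  ckB_sound (a (b (d (c (a (b z3 (d z3 z3)) z3) z3) (a (c (b z3 (d z3 z3)) z3) z3)) (d (c (a (b (d (c (a (b (d z3 z3) (d (c (a z2 z3) (a z2 z3)) (c (a z2 z3) (a z2 z3)))) z3) (a (b z3 (d z3 (c (a z2 z3) z3))) z3)) (c (a (b (d z3 z3) (d (c (a z2 z3) (a z2 z3)) (a z2 z3))) z3) (a (b z3 (d (c (a z2 z3) z3) (c (a z2 z3) (a z2 z3)))) z3))) (d (c (a (b (d (c (a z2 (c (b z3 (d z3 z3)) z3)) z2) (c (a z2 (b z3 (d z3 z3))) z2)) (d z2 z2)) z3) (a z2 z3)) (c (a (b (d (c (a z2 (b z3 (d z3 z3))) z2) (a z2 (b z3 (d z3 z0)))) (d z2 z2)) z3) (a (b (d z2 (c (a z2 z3) z2)) z2) z3)))) z3) (a (b (d z3 (c (a (b z3 (d z3 (c (a z2 z3) z3))) z3) z3)) (d (c (a z2 z3) (a z2 z3)) (c (a z2 z3) (a z2 z3)))) z3)) (a (c (b (d (c (a (b (d z3 z3)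 (d (c (a z2 z3) (a z2 z3)) (a z2 z3))) z3) (a (b z3 (d (a z2 z3) (a z2 z3))) z3)) (a (b (d z3 z0) (d (a z2 z3) z0)) z3)) (d (c (a (b (d (c (a z2 (b z3 (d z3 z3))) z2) (a z2 (b z3 (d z3 z0)))) (d z2 z2)) z3) (a (b (d z2 (a z2 z3)) z2) z3)) (a (b (d (a z2 (b z3 (d z3 z3))) z0) (d z2 z0)) z3))) (b (d (a (c (b z3 (d z3 (a z2 z3))) z3) z3) (a (c (b z3 (d (a z2 z3) (a z2 z3))) (b z3 (d z3 (a z2 z3)))) z3)) (d (a z2 z3) (a (c (b (d z2 (a z2 z3)) z2) z2) z3)))) z3))) z3) _ _ (by decide +kernel)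

theorem okB1220 : CKB ⟨12288, 14678, 6656, 6912⟩ ⟨2400, 3072, 5632, 5888⟩ :=
  ckB_sound (a (b (d (c (a z2 (b (d (c (a z2 z3) (a z2 z3)) (c (a z2 z3) (a z2 z3))) (d (c (a z2 z3) z2) (c (a z2 z3) (a z2 z3))))) (a z2 (b (d z3 (c (a z2 z3) z3)) z2))) (c (a z2 (b (d (c (a (b (d (c (a z2 z3) (a z2 z3)) (c (a z2 z3) (a z2 z3))) z2) z3) (a z2 z3)) (c (a (b (d (c (a z2 z3) (a z2 z3)) (c (a z2 z3) (a z2 z3))) (d z2 (c (a z2 (b z3 (d (c (a z2 z3) z3) (c (a z2 z3) (a z2 z3))))) z2))) z3) (a (b (d (c (a z2 z3) (a z2 z3)) (c (a z2 z3) (a z2 z3))) z2) z3))) (d (c (a z2 z3) (a z2 z3)) (c (a z2 (b z3 (d (c (a (b z3 z2) z3) z3) (c (a (b z3 z2) z3) (a (b z3 z2) z3))))) (a z2 z3))))) (a z2 (b (d (c (a z2 z3) (a z2 z3)) (c (a z2 z3) (a z2 z3))) (d z2 (c (a z2 z3) z2)))))) (d z2 (c (a z2 (b (d z2 (c (a z2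 (b (d (c (a z2 z3) z2) (c (a z2 z3) (a z2 z3))) z2)) z2)) z2)) z2))) (b z3 (d z3 (c (a (b z3 (d (c (a (b z3 (d (c (a z2 z3) z3) (c (a z2 z3) (a z2 z3)))) z3) z3) (c (a (b z3 (d (c (a z2 z3) (a z2 z3)) (c (a z2 z3) (a z2 z3)))) z3) (a (b z3 (d (c (a z2 z3) z3) (c (a z2 z3) (a z2 z3)))) z3)))) z3) z3)))) _ _ (by decide +kernel)

theorem okB1221 : CKB ⟨12288, 13483, 6656, 6784⟩ ⟨0, 2712, 5888, 6016⟩ :=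
  ckB_sound (a (b (d z2 z2) (d z2 z2)) (b (d (c (a (b (d (c (a (b (d (c (a z2 (b z3 (d z3 z3))) z2) (a z2 (b z3 (d z3 z3)))) (d z2 z2)) z3) (a z2 z3)) (a (b (d (c (a z2 z3) z2) z2) (d z2 z2)) z3)) (d (c (a z2 (b (d (c (a (b z3 (d z3 z3)) z3) z3) (a (b z3 (d z3 z3)) z3)) (d (c (a z2 z3) (a z2 z3)) (a z2 z3)))) (a z2 (b z3 (d (c (a z2 z3) (a z2 z3)) (c (a z2 z3) (a z2 z3)))))) (a z2 (b (d (c (a (b z3 (d z3 z3)) z3) z3) (a (c (b z3 (d z3 z3)) z3) z3)) (d (c (a z2 z3) (a z2 z3)) (a z2 z3)))))) z3) (a (b (d (c (a z2 z3) (a z2 z3)) (c (a z2 z3) (a z2 z3))) (d z2 (c (a z2 (b z3 (d (c (a z2 z3) (a z2 z3)) (c (a z2 z3) (a z2 z3))))) z2))) z3)) (a (b (d (c (a (b (d z2 z2) z2) z3) (a z2 z3)) (a (b (d z2 z2) z2) z3)) (d (c (a z2 (b (d (c (a (b z3 (d z3 z3)) z3) z3) (a (c (b z3 (d z3 z3)) z3) z3))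 (d (c (a z2 z3) (a z2 z3)) (a z2 z3)))) (a z2 (b z3 (d (c (a z2 z3) z3) (c (a z2 z3) (a z2 z3)))))) (a z2 (b (d (c (a (b z3 (d z3 z3)) z3) z3) (a (c (b z3 (d z3 z3)) z3) z3)) (d (c (a z2 z3) (a z2 z3)) (a z2 z3)))))) z3)) (d (c (a (b (d (c (a z2 (b (d z2 z2) z2)) z2) (a z2 (b (d z2 z2) z2))) (d z2 z2)) (b (d (c (a (b z3 (d z3 z3)) z3) z3) (a (b z3 (d z3 z3)) z3)) (d (c (a (b (d (c (a z2 z3) (a z2 z3)) (a z2 z3)) (d (c (a z2 z3) z2) (a z2 z3))) z3) (a (b (d z3 (c (a z2 z3) z3)) z2) z3)) (a (b (d (c (a z2 z3) (a z2 z3)) (a z2 z3)) (d (c (a z2 z3) z2) (a z2 z3))) z3)))) (a z2 (b z3 (d (c (a (b z3 z2) z3) z3) (c (a (b z3 z2) z3) (a (b z3 z2) z3)))))) (a (b (d (c (a z2 (b (d z2 z2) z2)) z2) (a z2 (b (d z2 z2) z2))) (d z2 z2)) (b (d (c (a (b z3 (d z3 z3)) z3) z3) (a (b z3 (d z3 z3)) z3)) (d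 (c (a (b (d (c (a z2 z3) z3) (a z2 z3)) (d (c (a z2 z3) z2) (a z2 z3))) z3) (a (b z3 z2) z3)) (a (b (d (c (a z2 z3) z3) (a z2 z3)) (d (c (a z2 z3) z2) (a z2 z3))) z3))))))) _ _ (by decide +kernel)

theorem okB1222 : CKB ⟨12288, 13483, 6656, 6784⟩ ⟨2712, 3072, 5888, 6016⟩ :=
  ckB_sound (a z2 (b (d (c (a (b (d (c (a z2 z3) (a z2 z3)) (c (a z2 z3) (a z2 z3))) z2) z3) (a z2 z3)) (c (a (b (d (c (a z2 z3) (a z2 z3)) (c (a z2 z3) (a z2 z3))) (d z2 (c (a z2 (b z3 (d (c (a z2 z3) z3) (c (a z2 z3) (a z2 z3))))) z2))) z3) (a z2 z3))) (d (c (a z2 z3) (a z2 z3)) (c (a z2 (b z3 (d (c (a (b z3 z2) z3) z3) (c (a (b z3 z2) z3) (a (b z3 z2) z3))))) (a z2 z3))))) _ _ (by decide +kernel)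

theorem okB1223 : CKB ⟨12288, 13483, 6656, 6784⟩ ⟨0, 3072, 6016, 6144⟩ :=
  ckB_sound (a (b (d z2 z2) (d z2 z2)) (b (d (c (a (b (d (c (a (b (d z2 z2) z2) z3) (a z2 z3)) (a (b (d z2 z2) z2) z3)) (d (c (a z2 (b (d (c (a (b z3 (d z3 z3)) z3) z3) (a (b z3 (d z3 z3)) z3)) (d (c (a z2 z3) (a z2 z3)) (a z2 z3)))) (a z2 (b z3 (d (c (a z2 z3) z3) (c (a z2 z3) (a z2 z3)))))) (a z2 (b (d z3 z3) (d (c (a z2 z3) (a z2 z3)) (a z2 z3)))))) z3) (a (b (d (c (a z2 z3) (a z2 z3)) (c (a z2 z3) (a z2 z3))) z2) z3)) (a (b (d (c (a (b (d z2 z2) z2) z3) (a z2 z3)) (a (b (d z2 z2) z2) z3)) (d (c (a z2 (b (d z3 z3) (d (c (a z2 z3) (a z2 z3)) (a z2 z3)))) z2) (a z2 (b (d z3 z3) (d (c (a z2 z3) (a z2 z3)) (a z2 z3)))))) z3)) (d (c (a (b (d (c (a z2 (b (d z2 z2) z2)) z2) (a z2 (b (d z2 z2) z2))) (d z2 z2)) (b (d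 (c (a (b z3 (d z3 z3)) z3) z3) z3) (d (c (a (b (d (c (a z2 z3) z3) (a z2 z3)) (d z2 z2)) z3) (a (b z3 z2) z3)) (a (b (d (c (a z2 z3) z3) (a z2 z3)) (d z2 z2)) z3)))) (a z2 (b z3 (d (c (a (b z3 z2) z3) z3) (c (a (b z3 z2) z3) (a (b z3 z2) z3)))))) (a (b (d (c (a z2 (b (d z2 z2) z2)) z2) z2) (d z2 z2)) (b (d z3 z3) (d (c (a (b (d (c (a z2 z3) z3) (a z2 z3)) (d z2 z2)) z3) (a (b z3 z2) z3)) (a (b (d (c (a z2 z3) z3) (a z2 z3)) (d z2 z2)) z3))))))) _ _ (by decide +kernel)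

theorem okB1224 : CKB ⟨12288, 13483, 6784, 6912⟩ ⟨0, 3072, 5888, 6144⟩ :=
  ckB_sound (d (c (a z2 (b (d (c (a z2 (b (d (c (a (b (d z2 z2) z2) (b z3 (d (c (a (b z3 (d z3 z3)) z3) z3) (a (b z3 (d z3 z3)) z3)))) (a z2 z3)) (a (b (d z2 z2) z2) (b z3 (d (c (a (b z3 (d z3 z3)) z3) z3) (a (c (b z3 (d z3 z3)) z3) z3))))) (d (c (a z2 (b (d (c (a z2 z3) (a z2 z3)) (a z2 z3)) (d z2 z2))) z2) (a z2 (b (d (c (a z2 z3) (a z2 z3)) (a z2 z3)) (d z2 z2)))))) (a z2 (b (d (c (a z2 z3) z2) (c (a z2 z3) (a z2 z3))) z2))) (a z2 (b (d (c (a (b (d z2 z2) z2) (b z3 (d (c (a (b z3 (d z3 z3)) z3) z3) (a (c (b z3 (d z3 z3)) z3) z3)))) (a z2 z3)) (a (b (d z2 z2) z2) (b z3 (d (c (a (b z3 (d z3 z3)) z3) z3) z3)))) (d (c (a z2 (b (d (c (a z2 z3) (a z2 z3)) (a z2 z3)) (d z2 z2))) z2) (a z2 (b (d (c (a z2 z3) (a z2 z3))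 (a z2 z3)) (d z2 z2))))))) (d (c (a z2 (b (d z2 z2) (d z2 z2))) z2) (a z2 (b (d z2 z2) (d z2 z2)))))) (a z2 (b (d z2 (c (a z2 (b (d (c (a z2 z3) z2) (c (a z2 z3) (a z2 z3))) z2)) z2)) z2))) (a z2 (b (d (c (a z2 (b (d (c (a (b (d z2 z2) z2) (b z3 (d z3 z3))) (a z2 z3)) (a z2 (b z3 (d z3 z3)))) (d (c (a z2 (b (d (c (a z2 z3) (a z2 z3)) (a z2 z3)) (d z2 z2))) z2) (a z2 (b (d (c (a z2 z3) (a z2 z3)) (a z2 z3)) (d z2 z2)))))) (a z2 (b (d (c (a z2 z3) z2) (c (a z2 z3) z2)) z2))) (a z2 (b (d (c (a z2 (b z3 (d z3 z3))) (a z2 z3)) (a z2 (b z3 (d z3 z3)))) (d (c (a z2 (b (d (c (a z2 z3) (a z2 z3)) (a z2 z3)) (d z2 z2))) z2) (a z2 (b (d (c (a z2 z3) z3) (a z2 z3)) z2)))))) (d (c (a z2 (b (d z2 z2) z2)) z2) (a z2 (b (d z2 z2) z2)))))) _ _ (by decide +kernel)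

theorem okB1225 : CKB ⟨13483, 14678, 6656, 6912⟩ ⟨0, 3072, 5888, 6144⟩ :=
  ckB_sound (b (d z3 z3) (d (c (a (b (d (c (a (b z3 (d z3 z3)) z3) z3) (a (b z3 (d z3 z3)) z3)) (d (c (a (b (d (c (a (b (d z3 z3) (d (c (a z2 z3) (a z2 z3)) (a z2 z3))) z3) (a (b z3 (d z3 (c (a z2 z3) z3))) z3)) (a (b (d z3 z3) (d (c (a z2 z3) (a z2 z3)) (a z2 z3))) z3)) (d (c (a (b (d (c (a z2 z3) z2) (a z2 z3)) (d z2 z2)) z3) (a z2 z3)) (a (b (d (c (a z2 z3) z2) (a z2 z3)) (d z2 z2)) z3))) z3) (a (b z3 (d (c (a z2 z3) (a z2 z3)) (c (a z2 z3) (a z2 z3)))) z3)) (a (b (d (c (a (b (d z3 z3) (d (c (a z2 z3) z3) (a z2 z3))) z3) z3) (a (b (d z3 z3) (d (c (a z2 z3) z3) (c (a z2 z3) (a z2 z3)))) z3)) (d (c (a (b (d (c (a z2 z3) z2) (a z2 z3)) (d z2 z2)) z3) (a z2 z3)) (a (b (d (c (a z2 z3) z2) z2) (d z2 z2)) z3))) z3)))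 z3) (a (b z3 (d (c (a (b z3 (d (c (a z2 z3) z3) (c (a z2 z3) (a z2 z3)))) z3) z3) (c (a (b z3 (d (c (a z2 z3) (a z2 z3)) (c (a z2 z3) (a z2 z3)))) z3) (a (b z3 (d (c (a z2 z3) z3) (c (a z2 z3) (a z2 z3)))) z3)))) z3)) (a (b (d (c (a (b z3 (d z3 z3)) z3) z3) (a (b z3 (d z3 z3)) z3)) (d (c (a (b (d (c (a (b (d z3 z3) (d (c (a z2 z3) z3) (a z2 z3))) z3) z3) (a (b z3 (d (c (a z2 z3) z3) (a z2 z3))) z3)) (d (c (a (b (d z2 z2) z2) z3) (a z2 z3)) (a (b (d z2 z2) z2) z3))) z3) (a (b z3 (d (c (a z2 z3) (a z2 z3)) (c (a z2 z3) (a z2 z3)))) z3)) (a (b (d (c (a (b z3 (d (c (a z2 z3) z3) (a z2 z3))) z3) z3) (a (b z3 (d (c (a z2 z3) z3) (a z2 z3))) z3)) (d (c (a (b (d z2 z2) z2) z3) (a z2 z3)) (a (b (d z2 z2) z2) z3))) z3))) z3))) _ _ (by decide +kernel)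

theorem okB1226 : CKB ⟨12288, 13483, 6912, 7168⟩ ⟨0, 2400, 5632, 5888⟩ :=
  ckB_sound (b (d (c (a z2 (b (d z2 z2) z2)) z2) (a z2 (b (d z2 z2) z2))) (d z2 z2)) _ _ (by decide +kernel)

theorem okB1227 : CKB ⟨13483, 14081, 6912, 6976⟩ ⟨0, 2064, 5632, 5760⟩ :=
  ckB_sound (d (c (a (b (d (c (a z2 (b (d (c (a (b z3 (d z3 z3)) z3) z3) (a (c (b z3 (d z3 z3)) z3) z3)) (d (c (a z2 z3) (a z2 z3)) (a z2 z3)))) (a z2 (b z3 (d (c (a z2 z3) (a z2 z3)) (c (a z2 z3) (a z2 z3)))))) (a z2 (c (b (d (a (c (b z3 (d (a z2 z3) (a z2 z3))) z3) z3) (a (b z3 (d (a z2 z3) z0)) z3)) (d (a z2 z3) (a z2 z3))) (b (d z3 (a (c (b z3 (d z3 (a z2 z3))) z3) z3)) (d (a z2 z3) (a z2 z3)))))) (d (c (a z2 (b (d z2 z2) z2)) z2) (a z2 (c (b (d z2 z2) z2) z2)))) (b z3 (d (c (a (b z3 (d z3 z3)) z3) z3) (a (c (b z3 (d z3 z3)) z3)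 z3)))) (a (b (d z2 (c (a z2 (b z3 (d (c (a z2 z3) (a z2 z3)) (c (a z2 z3) (a z2 z3))))) z2)) z2) z3)) (a (c (b (d (a z2 (c (b (d (a (c (b z3 (d (a z2 z3) (a z2 z3))) z3) z3) (a (b z3 (d (a z2 z3) z0)) z3)) (d (a z2 z3) (a z2 z3))) (b (d z3 (a (c (b z3 (d z3 (a z2 z3))) z3) z3)) (d (a z2 z3) (a z2 z3))))) (a z2 (b (d (a (b z3 (d (a z2 z3) (a z2 z3))) z3) z0) (d (a z2 z3) z0)))) (d (a z2 (c (b (d z2 z2) z2) z2)) (a z2 (b (d z2 z0) z2)))) (b (d (a z2 (c (b z3 (d (a z2 z3) (a z2 z3))) (b z3 (d (a z2 z3) (a z2 z3))))) (a z2 (c (b (d (a (c (b z3 (d z3 (a z2 z3))) z3) z3) (a (b z3 (d (c (a z2 z3) z3) (a z2 z3))) z3)) (d (a z2 z3) (a z2 z3))) (b z3 (d (a z2 z3) (a z2 z3)))))) (d z2 (a z2 (c (b (d z2 z2) z2) z2))))) (c (b z3 (d (a (c (b z3 (d z3 z3)) z3) z3) (a (b z3 (d z3 z0)) z3))) (b z3 (d z3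 (a (c (b z3 (d z3 z3)) z3) z3)))))) _ _ (by decide +kernel)

theorem okB1228 : CKB ⟨13483, 14081, 6976, 7040⟩ ⟨0, 2064, 5632, 5760⟩ :=
  ckB_sound (d (c (a (b (d z2 z2) z2) (b (d (c (a (b (d (c (a z2 z3) (a z2 z3)) (a z2 z3)) (d (c (a z2 (b z3 (d z3 z3))) z2) (a z2 (c (b z3 (d z3 z3)) z3)))) z3) (a (b (d (c (a z2 z3) z3) (c (a z2 z3) (a z2 z3))) z2) z3)) (a (c (b (d (a z2 z3) (a z2 z3)) (d (a z2 (c (b z3 (d z3 z3)) z3)) (a z2 (b z3 (d z3 z0))))) (b (d (a z2 z3) (a z2 z3)) z2)) z3)) (d (c (a z2 (b z3 (d (c (a z2 z3) z3) (c (a z2 z3) (a z2 z3))))) (a z2 z3)) (a (c (b (d z2 z2) z2) z2) (c (b (d z3 z3) (d (a z2 z3) (a z2 z3))) (b z3 (d z3 (a z2 z3)))))))) (a z2 (b (d (c (a z2 z3) (a z2 z3)) (c (a (b (d (c (a z2 z3) z3) (c (a z2 z3) z3)) z2) z3) (a z2 z3))) (d (c (a z2 z3) z2) (c (a z2 z3)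 (a z2 z3)))))) (a (c (b (d z2 z2) z2) z2) (c (b (d (a (c (b (d (a z2 z3) (a z2 z3)) (d (a z2 (c (b z3 (d z3 z3)) z3)) (a z2 (b z3 (d z3 z0))))) (b (d (a z2 z3) (a z2 z3)) z2)) z3) (a (b (d (a z2 z3) z0) (d (a z2 (b z3 (d z3 z3))) z0)) z3)) (d (a (c (b (d z2 z2) z2) z2) (c (b (d z3 z3) (d (a z2 z3) (a z2 z3))) (b z3 (d z3 (a z2 z3))))) (a (b (d z2 z0) z2) (b (d z3 z0) (d (a z2 z3) z0))))) (b (d (a (c (b (d (a z2 z3) (a z2 z3)) z2) z2) z3) (a (c (b (d (a z2 z3) (a z2 z3)) (d z2 (a z2 (b z3 (d z3 z3))))) (b (d (a z2 z3) (a z2 z3)) z2)) z3)) (d (a z2 z3) (a z2 (c (b z3 (d (a z2 z3) (a z2 z3))) (b z3 (d z3 (a z2 z3)))))))))) _ _ (by decide +kernel)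

theorem okB1229 : CKB ⟨14081, 14678, 6912, 7040⟩ ⟨0, 2064, 5632, 5760⟩ :=
  ckB_sound (b z3 (d z3 z3)) _ _ (by decide +kernel)

end Vale.Agent.Lib.P154Q5
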