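import Vale.Agent.Lib.P154Q5.CkBDefs

namespace Vale.Agent.Lib.P154Q5

set_option maxRecDepth 100000
set_option exponentiation.threshold 1000

open Tr

theorem okB1230 : CKB ⟨13483, 14678, 6912, 7040⟩ ⟨2064, 2400, 5632, 5760⟩ :=
  ckB_sound (a (b (d (c (a z2 z3) (a z2 z3)) (c (a (b (d z2 (c (a z2 (b z3 (d (c (a z2 z3) (a z2 z3)) (c (a z2 z3) (a z2 z3))))) z2)) z2) z3) (a z2 z3))) (d (c (a z2 (b (d z3 (c (a z2 z3) z3)) z2)) z2) (c (a z2 (b (d (c (a z2 z3) (a z2 z3)) (c (a z2 z3) (a z2 z3))) (d (c (a z2 z3) z2) (c (a z2 z3) (a z2 z3))))) (a z2 (b (d z3 (c (a z2 z3) z3)) z2))))) z3) _ _ (by decide +kernel)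

theorem okB1231 : CKB ⟨13483, 14081, 6912, 6976⟩ ⟨0, 2400, 5760, 5888⟩ :=
  ckB_sound (d (c (a (b (d (c (a z2 (b (d (c (a (c (b z3 (d (a z2 z3) (a z2 z3))) z3) z3) z3) (c (a (b z3 (d (c (a z2 z3) z3) (a z2 z3))) z3) z3)) (d (c (a z2 z3) (a z2 z3)) (c (a z2 z3) (a z2 z3))))) (a z2 (b z3 (d (c (a z2 z3) (a z2 z3)) (c (a z2 z3) (a z2 z3)))))) (c (a z2 (b (d (c (a (b z3 (d (c (a z2 z3) z3) (a z2 z3))) z3) z3) (a (b z3 (d (a z2 z3) z0)) z3)) (d (c (a z2 z3) (a z2 z3)) (a z2 z3)))) (a z2 (b (d z3 (c (a (b z3 (d z3 (a z2 z3))) z3) z3)) (d (c (a z2 z3) (a z2 z3)) (c (a z2 z3) (a z2 z3))))))) (d (c (a z2 (b (d z2 z2) z2)) z2) (c (a z2 (b (d z2 z2) z2)) z2))) (b z3 (d (c (a (b z3 (d z3 z3)) z3) z3) (c (a (b z3 (d z3 z3)) z3) z3)))) (a (b (d z2 (c (a z2 (b z3 (d (c (a z2 z3) (a z2 z3)) (c (a z2 z3)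 (a z2 z3))))) z2)) z2) z3)) (a (c (b (d (c (a z2 (b (d (c (a (b z3 (d (c (a z2 z3) z3) (a z2 z3))) z3) z3) (a (b z3 (d (a z2 z3) z0)) z3)) (d (c (a z2 z3) (a z2 z3)) (a z2 z3)))) (a z2 (b (d z3 (c (a (b z3 (d z3 (a z2 z3))) z3) z3)) (d (c (a z2 z3) (a z2 z3)) (c (a z2 z3) (a z2 z3)))))) (a z2 (b (d (a (b z3 (d (a z2 z3) z3)) z3) z0) (d (a z2 z3) z0)))) (d (c (a z2 (b (d z2 z2) z2)) z2) (a z2 (b (d z2 z0) z2)))) (b (d (a z2 (c (b z3 (d (a z2 z3) (a z2 z3))) (b z3 (d z3 (a z2 z3))))) (a z2 (c (b (d z3 (a (b z3 (d z3 z3)) z3)) (d (a z2 z3) (a z2 z3))) (b z3 (d (a z2 z3) (a z2 z3)))))) (d z2 (a z2 (c (b (d z2 z2) z2) z2))))) (c (b z3 (d (c (a (b z3 (d z3 z3)) z3) z3) (a (b z3 (d z3 z0)) z3))) (b z3 (d z3 (a (c (b z3 (d z3 z3)) z3) z3)))))) _ _ (by decide +kernel)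

theorem okB1232 : CKB ⟨13483, 14081, 6976, 7040⟩ ⟨0, 2400, 5760, 5888⟩ :=
  ckB_sound (d (c (a (b (d z2 z2) z2) (b (d (c (a (b (d (c (a z2 z3) (a z2 z3)) (c (a z2 z3) (a z2 z3))) (d (c (a z2 (c (b z3 (d z3 z3)) z3)) z2) (c (a z2 (b z3 (d z3 z3))) z2))) z3) (a (b (d (c (a z2 z3) z3) (c (a z2 z3) z3)) z2) z3)) (c (a (b (d (c (a z2 z3) (a z2 z3)) (a z2 z3)) (d (c (a z2 (b z3 (d z3 z3))) z2) (a z2 (b z3 (d z3 z0))))) z3) (a (b (d (c (a z2 z3) (a z2 z3)) (c (a z2 z3) (a z2 z3))) z2) z3))) (d (c (a (b (d z2 z2) z2) (b (d z3 z3) (d (c (a z2 z3) z3) (c (a z2 z3) (a z2 z3))))) (a z2 z3)) (c (a (b (d z2 z2) z2) (b (d z3 z3) (d (c (a z2 z3) (a z2 z3)) (a z2 z3)))) (a z2 (b z3 (d z3 (c (a z2 z3) z3)))))))) (a z2 (b (d (c (a z2 z3) (a z2 z3)) (c (a z2 z3) (a z2 z3))) (d (c (a z2 z3) z2) (c (a z2 z3)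 (a z2 z3)))))) (a (c (b (d z2 z2) z2) z2) (c (b (d (c (a (b (d (c (a z2 z3) (a z2 z3)) (a z2 z3)) (d (c (a z2 (b z3 (d z3 z3))) z2) (a z2 (b z3 (d z3 z0))))) z3) (a (b (d (c (a z2 z3) (a z2 z3)) (c (a z2 z3) (a z2 z3))) z2) z3)) (a (b (d (a z2 z3) z0) (d (a z2 (b z3 (d z3 z3))) z0)) z3)) (d (c (a (b (d z2 z2) z2) (b (d z3 z3) (d (c (a z2 z3) (a z2 z3)) (a z2 z3)))) (a z2 (b z3 (d z3 (c (a z2 z3) z3))))) (a (b (d z2 z0) z2) (b (d z3 z0) (d (a z2 z3) z0))))) (b (d (a z2 z3) (a (c (b (d (c (a z2 z3) (a z2 z3)) (a z2 z3)) (d z2 (a z2 (b z3 (d z3 z3))))) (b (d (a z2 z3) (a z2 z3)) z2)) z3)) (d (a z2 z3) (a z2 (c (b z3 (d (c (a z2 z3) z3) (a z2 z3))) z3))))))) _ _ (by decide +kernel)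

theorem okB1233 : CKB ⟨14081, 14678, 6912, 7040⟩ ⟨0, 2400, 5760, 5888⟩ :=
  ckB_sound (b z3 (d z3 z3)) _ _ (by decide +kernel)

theorem okB1234 : CKB ⟨13483, 14081, 7040, 7168⟩ ⟨0, 2064, 5632, 5760⟩ :=
  ckB_sound (b (d (c (a z2 (b (d (c (a z2 (b (d (c (a z2 z3) z2) (c (a z2 z3) z2)) (d z2 z2))) z2) (a z2 (c (b (d (a z2 z3) (a z2 z3)) (d z2 z2)) (b (d z2 (a z2 z3)) z2)))) (d z2 z2))) z2) (a z2 (c (b (d (a z2 (c (b (d (a z2 z3) (a z2 z3)) (d z2 z2)) (b (d z2 (a z2 z3)) z2))) (a z2 (b (d (a z2 z3) z0) (d z2 z0)))) (d z2 z2)) (b (d z2 (a z2 (c (b (d z2 (a z2 z3)) z2) z2))) z2)))) (d z2 z2)) _ _ (by decide +kernel)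

theorem okB1235 : CKB ⟨14081, 14678, 7040, 7168⟩ ⟨0, 2064, 5632, 5760⟩ :=
  ckB_sound (b (d (c (a (b (d z3 z3) (d (c (a (b (d (c (a (b z3 z2) z3) z3) (c (a (b z3 z2) z3) z3)) (d (c (a z2 z3) (a z2 z3)) (c (a z2 z3) (a z2 z3)))) z3) (a (b z3 (d (c (a z2 z3) (a z2 z3)) (c (a z2 z3) (a z2 z3)))) z3)) (a (c (b (d (c (a (b z3 z2) z3) z3) (a (b z3 z2) z3)) (d (c (a z2 z3) (a z2 z3)) (a z2 z3))) (b (d z3 (a (c (b z3 z2) z3) z3)) (d (a z2 z3) (a z2 z3)))) z3))) z3) (a (b z3 (d (c (a (b z3 (d z3 (c (a z2 z3) z3))) z3) z3) (c (a (b z3 (d (c (a z2 z3) (a z2 z3)) (c (a z2 z3) (a z2 z3)))) z3) (a (b z3 (d z3 (c (a z2 z3) z3))) z3)))) z3)) (a (c (b (d z3 z3) (d (a (c (b (d (a (c (b z3 z2) z3) z3) (a (b z3 z2) z3)) (d (a z2 z3) (a z2 z3))) (b (d z3 (a (c (b z3 z2) z3) z3)) (d (a z2 z3) (a z2 z3)))) z3)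 (a (b (d (a (b z3 z2) z3) z0) (d (a z2 z3) z0)) z3))) (b z3 (d (a (c (b z3 (d (a z2 z3) (a z2 z3))) (b z3 (d (a z2 z3) (a z2 z3)))) z3) (a (c (b (d z3 (a (b z3 z2) z3)) (d (a z2 z3) (a z2 z3))) (b z3 (d (a z2 z3) (a z2 z3)))) z3)))) z3)) (d (c (a (b (d (c (a (b (d z2 z2) z2) (b z3 (d z3 z3))) (a z2 z3)) (a (c (b (d z2 z2) z2) z2) (c (b z3 (d z3 z3)) z3))) (d (c (a z2 (b (d (c (a z2 z3) (a z2 z3)) (c (a z2 z3) (a z2 z3))) (d z2 z2))) z2) (a z2 (c (b (d (c (a z2 z3) (a z2 z3)) (a z2 z3)) (d z2 z2)) (b (d (c (a z2 z3) (a z2 z3)) (c (a z2 z3) (a z2 z3))) z2))))) (b z3 (d z3 z3))) (a (b (d (c (a z2 z3) (a z2 z3)) (c (a z2 z3) (a z2 z3))) z2) z3)) (a (c (b (d (a (c (b (d z2 z2) z2) z2) (c (b z3 (d z3 z3)) z3)) (a (b (d z2 z0) z2) (b z3 (d z3 z0)))) (d (a z2 (c (b (d (c (a z2 z3) (a z2 z3)) (a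 z2 z3)) (d z2 z2)) (b (d (a z2 z3) (a z2 z3)) z2))) (a z2 (b (d (a z2 z3) z0) (d z2 z0))))) (b (d (a z2 z3) (a (c (b (d z2 z2) z2) z2) (c (b z3 (d z3 z3)) z3))) (d z2 (a z2 (c (b (d (a z2 z3) (a z2 z3)) (d z2 z2)) z2))))) (c (b z3 (d z3 z3)) z3)))) _ _ (by decide +kernel)

theorem okB1236 : CKB ⟨13483, 14678, 7040, 7168⟩ ⟨2064, 2400, 5632, 5760⟩ :=
  ckB_sound (a z2 (b (d z3 (c (a (b z3 (d z3 (c (a (b z3 (d (c (a z2 z3) z3) (c (a z2 z3) (a z2 z3)))) z3) z3))) z3) z3)) (d (c (a z2 z3) (a z2 z3)) (c (a (b (d (c (a z2 z3) (a z2 z3)) (c (a z2 z3) (a z2 z3))) z2) z3) (a z2 z3))))) _ _ (by decide +kernel)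

theorem okB1237 : CKB ⟨13483, 14081, 7040, 7168⟩ ⟨0, 2400, 5760, 5888⟩ :=
  ckB_sound (b (d (c (a z2 (b (d (c (a z2 (b (d (c (a z2 z3) z2) (c (a z2 z3) z2)) (d z2 z2))) z2) (c (a z2 (b (d (c (a z2 z3) z2) (a z2 z3)) (d z2 z2))) (a z2 (b (d z2 (c (a z2 z3) z2)) z2)))) (d z2 z2))) z2) (a z2 (c (b (d (c (a z2 (b (d (c (a z2 z3) z2) (a z2 z3)) (d z2 z2))) z2) (a z2 (b (d (a z2 z3) z0) (d z2 z0)))) (d z2 z2)) (b (d z2 (a z2 (c (b (d z2 (a z2 z3)) z2) z2))) z2)))) (d z2 z2)) _ _ (by decide +kernel)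

theorem okB1238 : CKB ⟨14081, 14678, 7040, 7168⟩ ⟨0, 2400, 5760, 5888⟩ :=
  ckB_sound (b (d (c (a (b (d z3 z3) (d (c (a (b (d (c (a (c (b z3 z2) z3) z3) z3) (c (a (b z3 z2) z3) z3)) (d (c (a z2 z3) (a z2 z3)) (c (a z2 z3) (a z2 z3)))) z3) (a (b z3 (d (c (a z2 z3) z3) (c (a z2 z3) (a z2 z3)))) z3)) (c (a (b (d (c (a (b z3 z2) z3) z3) (a (b z3 z2) z3)) (d (c (a z2 z3) (a z2 z3)) (a z2 z3))) z3) (a (b z3 (d (c (a z2 z3) (a z2 z3)) (c (a z2 z3) (a z2 z3)))) z3)))) z3) (a (b z3 (d z3 (c (a (b z3 (d (c (a z2 z3) z3) (c (a z2 z3) (a z2 z3)))) z3) z3))) z3)) (c (a (b (d z3 z3) (d (c (a (b (d (c (a (b z3 z2) z3) z3) (a (b z3 z2) z3)) (d (c (a z2 z3) (a z2 z3)) (a z2 z3))) z3) (a (b z3 (d (c (a z2 z3) (a z2 z3)) (c (a z2 z3) (a z2 z3)))) z3)) (a (b (d (a (b z3 z2) z3) z0) (d (a z2 z3) z0)) z3)))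 z3) (a (b z3 (d (c (a (b z3 (d (c (a z2 z3) z3) (c (a z2 z3) (a z2 z3)))) z3) (a (b z3 (d z3 (c (a z2 z3) z3))) z3)) (c (a (b (d z3 (a (b z3 z2) z3)) (d (c (a z2 z3) (a z2 z3)) (a z2 z3))) z3) (a (b z3 (d (c (a z2 z3) (a z2 z3)) (c (a z2 z3) (a z2 z3)))) z3)))) z3))) (d (c (a (b (d (c (a (b (d z2 z2) z2) (b z3 (d z3 z3))) (a z2 z3)) (c (a (b (d z2 z2) z2) (b z3 (d z3 z3))) (a z2 z3))) (d (c (a z2 (b (d (c (a z2 z3) (a z2 z3)) (c (a z2 z3) (a z2 z3))) (d z2 z2))) z2) (c (a z2 (b (d (c (a z2 z3) (a z2 z3)) (a z2 z3)) (d z2 z2))) (a z2 (b (d (c (a z2 z3) (a z2 z3)) (c (a z2 z3) (a z2 z3))) z2))))) (b z3 (d z3 z3))) (a (b (d (c (a z2 z3) (a z2 z3)) (c (a z2 z3) (a z2 z3))) z2) z3)) (c (a (b (d (c (a (b (d z2 z2) z2) (b z3 (d z3 z3))) (a z2 z3)) (a (b (d z2 z0) z2) (b z3 (d z3 z0)))) (d (c (a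 z2 (b (d (c (a z2 z3) (a z2 z3)) (a z2 z3)) (d z2 z2))) (a z2 (b (d (c (a z2 z3) z3) (c (a z2 z3) (a z2 z3))) z2))) (a z2 (b (d (a z2 z3) z0) (d z2 z0))))) (b z3 (d z3 z3))) (a (b (d (c (a z2 z3) (a z2 z3)) (c (a z2 z3) (a z2 z3))) (d z2 (c (a z2 (b (d (c (a z2 z3) (a z2 z3)) (a z2 z3)) z2)) z2))) z3)))) _ _ (by decide +kernel)

theorem okB1239 : CKB ⟨12288, 14678, 6912, 7168⟩ ⟨2400, 3072, 5632, 5888⟩ :=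
  ckB_sound (a z2 (b (d (c (a (b (d (c (a z2 z3) (a z2 z3)) (c (a z2 z3) (a z2 z3))) z2) z3) (a (b (d (c (a z2 z3) (a z2 z3)) (c (a z2 z3) (a z2 z3))) z2) z3)) (c (a (b (d (c (a z2 z3) (a z2 z3)) (c (a (b (d z2 (c (a z2 (b z3 (d (c (a z2 z3) z3) (c (a z2 z3) (a z2 z3))))) z2)) z2) z3) (a z2 z3))) (d (c (a z2 (b (d z3 (c (a z2 z3) z3)) z2)) z2) (c (a z2 (b (d (c (a z2 z3) z3) (c (a z2 z3) (a z2 z3))) (d z2 (c (a z2 z3) z2)))) (a z2 (b z3 z2))))) z3) (a (b (d (c (a z2 z3) (a z2 z3)) (c (a z2 z3) (a z2 z3))) z2) z3))) (d (c (a z2 (b z3 (d (c (a z2 z3) (a z2 z3)) (c (a z2 z3) (a z2 z3))))) (a z2 (b z3 (d z3 (c (a z2 z3) z3))))) (c (a z2 (b (d z3 (c (a (b z3 (d z3 (c (a (b z3 (d z3 (c (a z2 z3) z3))) z3) z3))) z3) z3)) (d (c (a z2 z3) (a z2 z3)) (c (a (b (d (c (a z2 z3) (a z2 z3)) (c (a z2 z3)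 (a z2 z3))) z2) z3) (a z2 z3))))) (a z2 (b z3 (d (c (a z2 z3) (a z2 z3)) (c (a z2 z3) (a z2 z3))))))))) _ _ (by decide +kernel)

theorem okB1240 : CKB ⟨12288, 13483, 6912, 7168⟩ ⟨0, 3072, 5888, 6144⟩ :=
  ckB_sound (b (d (c (a z2 (b (d z2 z2) z2)) z2) (a z2 (b (d z2 z2) z2))) (d z2 z2)) _ _ (by decide +kernel)

theorem okB1241 : CKB ⟨13483, 14678, 6912, 7040⟩ ⟨0, 3072, 5888, 6016⟩ :=
  ckB_sound (c (a (b (d (c (a (b (d (c (a z2 (b (d (c (a (b z3 (d z3 z3)) z3) z3) (a (b z3 (d z3 z3)) z3)) (d (c (a z2 z3) (a z2 z3)) (a z2 z3)))) (a z2 (b z3 (d (c (a z2 z3) (a z2 z3)) (c (a z2 z3) (a z2 z3)))))) (a z2 (b (d (c (a (b z3 (d z3 z3)) z3) z3) (a (c (b z3 (d z3 z3)) z3) z3)) (d (c (a z2 z3) (a z2 z3)) (a z2 z3))))) (d (c (a z2 (b (d z2 z2) z2)) z2) (a z2 (b (d z2 z2) z2)))) (b z3 (d (c (a (b z3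 (d z3 z3)) z3) z3) (a (b z3 (d z3 z3)) z3)))) (a (b (d z2 (c (a z2 (b z3 (d (c (a z2 z3) z3) (c (a z2 z3) (a z2 z3))))) z2)) z2) z3)) (a (b (d (c (a z2 (b (d (c (a (b z3 (d z3 z3)) z3) z3) (a (c (b z3 (d z3 z3)) z3) z3)) (d (c (a z2 z3) (a z2 z3)) (a z2 z3)))) (a z2 (b z3 (d (c (a z2 z3) z3) (c (a z2 z3) (a z2 z3)))))) (a z2 (b (d (c (a (b z3 (d z3 z3)) z3) z3) (c (a (b z3 (d z3 z3)) z3) z3)) (d (c (a z2 z3) (a z2 z3)) (c (a z2 z3) (a z2 z3)))))) (d (c (a z2 (b (d z2 z2) z2)) z2) (a z2 (b (d z2 z2) z2)))) (b z3 (d (c (a (b z3 (d z3 z3)) z3) z3) (a (b z3 (d z3 z3)) z3))))) (d (c (a (b (d z2 z2) z2) (b (d (c (a (b (d (c (a z2 z3) (a z2 z3)) (a z2 z3)) (d z2 z2)) z3) (a z2 z3)) (a (b (d (c (a z2 z3) (a z2 z3)) (a z2 z3)) (d z2 z2)) z3)) (d (c (a (b (d z2 z2) z2) (b z3 (d (c (a z2 z3) z3) (a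 z2 z3)))) (a z2 z3)) (a z2 (b z3 (d (c (a z2 z3) z3) (a z2 z3))))))) (a z2 (b (d (c (a z2 z3) (a z2 z3)) (c (a z2 z3) (a z2 z3))) (d (c (a z2 z3) z2) (c (a z2 z3) z2))))) (a (b (d z2 z2) z2) (b (d (c (a (b (d (c (a z2 z3) (a z2 z3)) (a z2 z3)) (d z2 z2)) z3) (a z2 z3)) (a (b (d (c (a z2 z3) z3) (c (a z2 z3) (a z2 z3))) (d z2 z2)) z3)) (d (c (a z2 (b z3 (d (c (a z2 z3) z3) (a z2 z3)))) (a z2 z3)) (a z2 (b z3 (d (c (a z2 z3) z3) (c (a z2 z3) z3))))))))) (b z3 (d z3 z3))) (a (b (d (c (a z2 z3) (a z2 z3)) (c (a z2 z3) (a z2 z3))) (d (c (a z2 (b z3 z2)) z2) (c (a z2 (b (d (c (a z2 z3) z3) (c (a z2 z3) (a z2 z3))) (d z2 (c (a z2 z3) z2)))) (a z2 (b z3 z2))))) z3)) _ _ (by decide +kernel)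

theorem okB1242 : CKB ⟨13483, 14678, 6912, 7040⟩ ⟨0, 3072, 6016, 6144⟩ :=
  ckB_sound (a (b (d (c (a (b (d (c (a z2 (b (d z3 z3) (d (c (a z2 z3) (a z2 z3)) (a z2 z3)))) z2) (a z2 (b (d z3 z3) (d (c (a z2 z3) (a z2 z3)) (a z2 z3))))) (d (c (a z2 (b (d z2 z2) z2)) z2) (a z2 (b (d z2 z2) z2)))) (b z3 (d (c (a (b z3 (d z3 z3)) z3) z3) (a (b z3 (d z3 z3)) z3)))) (a z2 z3)) (a (b (d (c (a z2 (b (d z3 z3) (d (c (a z2 z3) (a z2 z3)) (a z2 z3)))) z2) (a z2 (b (d z3 z3) (d (c (a z2 z3) z3) (a z2 z3))))) (d z2 z2)) (b z3 (d z3 z3)))) (d (c (a (b (d z2 z2) z2) (b (d (c (a (b (d (c (a z2 z3) z3) (a z2 z3)) (d z2 z2)) z3) (a z2 z3)) (a (b (d (c (a z2 z3) z3) (a z2 z3)) (d z2 z2)) z3)) (d (c (a z2 (b z3 (d (c (a z2 z3) z3) (a z2 z3)))) (a z2 z3)) (a z2 (b z3 (d (c (a z2 z3) z3) z3)))))) (a z2 (b (d (c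 (a z2 z3) z3) (c (a z2 z3) (a z2 z3))) (d z2 (c (a z2 z3) z2))))) (a (b (d z2 z2) z2) (b (d (c (a (b (d (c (a z2 z3) z3) (a z2 z3)) (d z2 z2)) z3) (a z2 z3)) (a (b (d (c (a z2 z3) z3) (a z2 z3)) z2) z3)) (d (c (a z2 (b z3 (d z3 z3))) z2) (a z2 (b z3 (d z3 z3)))))))) (b z3 (d z3 z3))) _ _ (by decide +kernel)

theorem okB1243 : CKB ⟨13483, 14678, 7040, 7168⟩ ⟨0, 3072, 5888, 6016⟩ :=
  ckB_sound (c (a (b (d (c (a z2 (b (d (c (a z2 (b (d (c (a z2 z3) z2) (a z2 z3)) (d z2 z2))) z2) (a z2 (b (d (c (a z2 z3) z2) (a z2 z3)) (d z2 z2)))) (d z2 z2))) z2) (a z2 (b (d (c (a z2 (b (d z2 z2) z2)) z2) (a z2 (b (d z2 z2) z2))) (d z2 z2)))) (d z2 z2)) (b (d (c (a (b (d z3 z3) (d (c (a (b (d (c (a (b z3 z2) z3) z3) (a (b z3 z2) z3)) (d (c (a z2 z3) (a z2 z3)) (a z2 z3))) z3) (a (b z3 (d (c (a z2 z3) z3)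 (c (a z2 z3) (a z2 z3)))) z3)) (a (b (d (c (a (b z3 z2) z3) z3) z3) (d (c (a z2 z3) (a z2 z3)) (a z2 z3))) z3))) z3) (a (b z3 (d z3 (c (a (b z3 (d (c (a z2 z3) z3) (c (a z2 z3) z3))) z3) z3))) z3)) (a (b (d z3 z3) (d (c (a (b (d z3 z3) (d (c (a z2 z3) (a z2 z3)) (a z2 z3))) z3) (a (b z3 (d z3 (c (a z2 z3) z3))) z3)) (a (b (d z3 z3) (d (c (a z2 z3) (a z2 z3)) (c (a z2 z3) (a z2 z3)))) z3))) z3)) (d (c (a (b (d (c (a (b (d z2 z2) z2) (b z3 (d z3 z3))) (a z2 z3)) (a (b (d z2 z2) z2) (b z3 (d z3 z3)))) (d (c (a z2 (b (d (c (a z2 z3) (a z2 z3)) (a z2 z3)) (d z2 z2))) z2) (a z2 (b (d (c (a z2 z3) z3) (c (a z2 z3) (a z2 z3))) (d z2 z2))))) (b z3 (d z3 z3))) (a (b (d (c (a z2 z3) (a z2 z3)) (c (a z2 z3) (a z2 z3))) z2) z3)) (a (b (d (c (a (b (d z2 z2) z2) (b z3 (d z3 z3))) (a z2 z3)) (a z2 (b z3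 (d z3 z3)))) (d (c (a z2 (b (d (c (a z2 z3) z3) (a z2 z3)) (d z2 z2))) z2) (a z2 (b (d (c (a z2 z3) z3) (c (a z2 z3) (a z2 z3))) z2)))) (b z3 (d z3 z3)))))) (a z2 (b (d z3 (c (a (b z3 (d z3 (c (a (b z3 (d z3 (c (a z2 z3) z3))) z3) z3))) z3) z3)) (d (c (a z2 z3) (a z2 z3)) (c (a (b (d (c (a z2 z3) (a z2 z3)) (c (a z2 z3) (a z2 z3))) z2) z3) (a z2 z3)))))) _ _ (by decide +kernel)

theorem okB1244 : CKB ⟨13483, 14678, 7040, 7168⟩ ⟨0, 3072, 6016, 6144⟩ :=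
  ckB_sound (a (b (d (c (a z2 (b (d (c (a z2 (b (d z2 z2) z2)) z2) (a z2 (b (d z2 z2) z2))) (d z2 z2))) z2) (a z2 (b (d (c (a z2 (b (d z2 z2) z2)) z2) (a z2 (b (d z2 z2) z2))) (d z2 z2)))) (d z2 z2)) (b (d (c (a (b (d z3 z3) (d (c (a (b (d z3 z3) (d (c (a z2 z3) (a z2 z3)) (a z2 z3))) z3) (a (b z3 (d z3 (c (a z2 z3) z3))) z3)) (a (b (d z3 z3) (d (c (a z2 z3) z3) (a z2 z3))) z3))) z3) z3) (a (b (d z3 z3) (d (c (a (b (d z3 z3) (d (c (a z2 z3) z3) (a z2 z3))) z3) z3) (a (b (d z3 z3) (d (c (a z2 z3) z3) (a z2 z3))) z3))) z3)) (d (c (a (b (d (c (a z2 (b z3 (d z3 z3))) (a z2 z3)) (a z2 z3)) (d (c (a z2 (b (d (c (a z2 z3) z3) (a z2 z3)) z2)) z2) (a z2 (b (d (c (a z2 z3) z3) (a z2 z3)) z2)))) (b z3 (d z3 z3))) (a (b (d (c (a z2 z3) (a z2 z3)) (c (a z2 z3) (a z2 z3))) z2) z3)) (a (b (d (c (a z2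 z3) (a z2 z3)) (a z2 z3)) (d (c (a z2 (b (d (c (a z2 z3) z3) (a z2 z3)) z2)) z2) (a z2 (b (d (c (a z2 z3) z3) z3) z2)))) z3)))) _ _ (by decide +kernel)

end Vale.Agent.Lib.P154Q5
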