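import Vale.Agent.Lib.P154Q5.CkBDefs

namespace Vale.Agent.Lib.P154Q5

set_option maxRecDepth 100000
set_option exponentiation.threshold 1000

open Tr

theorem okB1245 : CKB ⟨14678, 17067, 6656, 7168⟩ ⟨0, 3072, 5632, 6144⟩ :=
  ckB_sound (b z3 (d (c (a (b z3 (d z3 z3)) z3) z3) (a (b z3 (d z3 z3)) z3))) _ _ (by decide +kernel)

theorem okB1246 : CKB ⟨17067, 24576, 6144, 7168⟩ ⟨0, 3072, 5120, 6144⟩ :=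
  ckB_sound (b (d z3 (b z3 z3)) (d (c (b z3 z3) z3) (b (d z3 z3) (d z3 (a z3 (b z3 z3)))))) _ _ (by decide +kernel)

theorem okB1247 : CKB ⟨12288, 18432, 7168, 7680⟩ ⟨0, 1536, 4096, 4608⟩ :=
  ckB_sound (c (a (b (d (c (a z2 (b (d (c (a z2 z3) (a z2 z3)) (c (a z2 z3) (a z2 z3))) (d z2 (c (a z2 (b (d z3 z3) z2)) z2)))) (a z2 (b (d (c (a z2 z3) (a z2 z3)) (c (a z2 z3) (a z2 z3))) z2))) (a z2 (c (b (d (c (a z2 z3) (a z2 z3)) (a z2 z3)) (d (c (a z2 (b (d (c (a z2 z3) z3) (a z2 z3)) z2)) (a z2 (b z3 z2))) (a z2 (c (b (d (a z2 z3) (a z2 z3)) (d (a z2 z3) (a z2 z3))) (b (d (a z2 z3) (a z2 z3)) z2))))) (b (d (a z2 z3) (a z2 z3)) (d (a z2 (c (b z3 z2) (b z3 z2))) (a z2 (c (b (d z3 (a z2 z3)) z2) (b z3 z2)))))))) z2) (b z3 (d (c (a (b z3 (d (c (a z2 z3) (a z2 z3)) (c (a (b (d (c (a z2 z3) z3) (c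 (a z2 z3) (a z2 z3))) z2) z3) (a z2 z3)))) z3) (a (b z3 (d (c (a z2 z3) (a z2 z3)) (c (a z2 z3) (a z2 z3)))) z3)) (c (a (b (d z3 z3) (d (c (a (b (d (c (a z2 z3) (a z2 z3)) (a z2 z3)) z2) z3) (a (b (d (c (a z2 z3) z3) (c (a z2 z3) (a z2 z3))) z2) z3)) (a (c (b (d (a z2 z3) (a z2 z3)) (d z2 z2)) (b (d (a z2 z3) (a z2 z3)) z2)) z3))) z3) (a (b z3 (d (c (a z2 z3) (a z2 z3)) (c (a (b (d (c (a z2 z3) z3) (c (a z2 z3) (a z2 z3))) z2) z3) (a z2 z3)))) z3))))) (a (b (d (a z2 (c (b (d (a z2 z3) (a z2 z3)) z2) z2)) (a z2 (c (b (d (a z2 z3) (a z2 z3)) z2) (b (d (a z2 z3) (a z2 z3)) z2)))) z2) (b z3 (d (c (a (b z3 (d (c (a z2 z3) z3) (c (a z2 z3) z3))) z3) z3) (c (a (b z3 (d (c (a z2 z3) (a z2 z3)) (c (a z2 z3) (a z2 z3)))) z3) (a (b z3 (d z3 (a z2 z3))) z3)))))) _ _ (by decide +kernel)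

theorem okB1248 : CKB ⟨12288, 15360, 7168, 7680⟩ ⟨0, 864, 4608, 5120⟩ :=
  ckB_sound (b (d (a z2 (c (b (d (a z2 z3) (a (b (d z2 z2) z2) (b z3 (d z3 z3)))) (d (a z2 (c (b (d (a z2 z3) (a z2 z3)) (d (a z2 z3) (a z2 z3))) (b (d (a z2 z3) (a z2 z3)) (d z2 (a z2 z3))))) (a z2 (b (d (c (a z2 z3) (a z2 z3)) (a z2 z3)) (d (c (a z2 z3) (a z2 z3)) (a z2 (c (b z3 (d z3 z3)) z3))))))) (b (d (a z2 z3) (a z2 z3)) (d (a z2 (c (b (d (a z2 z3) (a z2 z3)) z2) (b (d z3 (a z2 z3)) z2))) (a z2 (c (b (d (a z2 z3) (a z2 z3)) (d (a z2 z3) (a z2 z3))) (b (d (a z2 z3) (a z2 z3)) z2))))))) (a z2 (b (d (c (a (b (d (c (a z2 (b (d z2 z2) z2)) z2) (a z2 (b (d z2 (c (a z2 z3) z2)) z2))) z2) (b z3 (d (c (a (b z3 (d z3 z3)) z3) z3) (a (b z3 (d (c (a z2 z3) z3) (c (a z2 z3) z3))) z3)))) (a z2 z3)) (a (b (d (c (a z2 (b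 (d (c (a z2 z3) z2) (a z2 z3)) z2)) z2) (a z2 (c (b (d (a z2 z3) (a z2 z3)) (d z2 z2)) (b (d z2 (a z2 z3)) z2)))) z2) (b z3 (d (c (a (b z3 (d (c (a z2 z3) z3) (a z2 z3))) z3) z3) (a (c (b z3 (d (a z2 z3) (a z2 z3))) (b z3 (d z3 (a z2 z3)))) z3))))) (d (c (a z2 (b (d (c (a (b (d z2 z2) z2) z3) (a z2 z3)) (a (b (d z2 (c (a z2 z3) z2)) z2) z3)) (d (c (a z2 (b z3 (d z3 z3))) (a z2 z3)) (a z2 (b z3 (d (c (a z2 z3) z3) (c (a z2 z3) z3))))))) (a z2 (b (d (c (a z2 z3) (a z2 z3)) (c (a z2 z3) (a z2 z3))) (d (c (a z2 z3) (a z2 z3)) (c (a z2 z3) (a z2 z3)))))) (a z2 (b (d (c (a (b (d (c (a z2 z3) z2) (a z2 z3)) z2) z3) (a z2 z3)) (a (c (b (d (a z2 z3) (a z2 z3)) z2) (b (d z2 (a z2 z3)) z2)) z3)) (d (c (a z2 (b z3 (d (c (a z2 z3) z3) (c (a z2 z3) (a z2 z3))))) (a z2 z3)) (a z2 (c (b z3 (d (a z2 z3)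 (a z2 z3))) (b z3 (d z3 (a z2 z3)))))))))))) (d (a z2 (c (b (d z2 (a z2 (b (d z2 z2) z2))) z2) z2)) (a z2 (b (d (c (a z2 (b (d z2 (a z2 (b (d z2 z2) z2))) z2)) z2) (a z2 (b (d (c (a z2 (b (d z2 (c (a z2 z3) z2)) z2)) z2) (a z2 (c (b (d (a z2 z3) (a z2 z3)) z2) z2))) z2))) z2)))) _ _ (by decide +kernel)

theorem okB1249 : CKB ⟨12288, 15360, 7168, 7680⟩ ⟨864, 1536, 4608, 5120⟩ :=
  ckB_sound (b (d (a z2 (c (b (d (a z2 z3) (a z2 z3)) (d (a z2 (c (b z3 z2) (b z3 z2))) (a z2 (c (b (d z3 (a z2 z3)) z2) (b z3 z2))))) (b (d (a z2 z3) (a z2 z3)) z2))) (a z2 (c (b (d (a z2 z3) (a z2 z3)) (d (a z2 (c (b (d (a z2 z3) (a z2 z3)) (d z2 (a z2 z3))) (b (d (a z2 z3) (a z2 z3)) z2))) (a z2 (c (b (d (a z2 z3) (a z2 z3)) (d (a z2 z3) (a z2 z3))) (b (d (a z2 z3) (a z2 z3)) (d (a z2 z3) (a z2 z3))))))) (b (d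 (a z2 z3) (a z2 z3)) (d (a z2 (c (b (d z3 (a z2 z3)) z2) (b z3 z2))) (a z2 (c (b (d (a z2 z3) (a z2 z3)) z2) (b (d z3 (a z2 z3)) z2)))))))) z2) _ _ (by decide +kernel)

theorem okB1250 : CKB ⟨15360, 18432, 7168, 7680⟩ ⟨0, 1536, 4608, 5120⟩ :=
  ckB_sound (c (b (d z3 z3) (d (a (c (b (d (a (c (b z3 (d z3 z3)) z3) z3) (a (b z3 (d z3 (a (c (b z3 (d z3 z3)) z3) z3))) z3)) (d (a (c (b (d (a z2 z3) (a z2 z3)) (d (a z2 z3) (a z2 (b z3 (d z3 z3))))) (b (d (a z2 z3) (a z2 z3)) z2)) z3) (a (b (d (c (a z2 z3) (a z2 z3)) (a z2 z3)) (d (c (a z2 (b z3 (d z3 (a z2 z3)))) z2) (a z2 (c (b z3 (d (a z2 z3) (a z2 z3))) z3)))) z3))) (b z3 (d (a (c (b (d (a z2 z3) (a z2 z3)) z2) (b (d z3 (a z2 z3)) z2)) z3) (a (c (b (d (a z2 z3) (a z2 z3)) z2) (b (d (a z2 z3) (a z2 z3)) z2)) z3)))) z3) (a (b (d (c (a (b z3 (d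 (c (a (b z3 (d (c (a z2 z3) z3) (a z2 z3))) z3) z3) (a (b z3 (d (c (a z2 z3) z3) (c (a z2 z3) z3))) z3))) z3) z3) (a (b z3 (d (c (a (b z3 (d (c (a z2 z3) z3) (c (a z2 z3) (a z2 z3)))) z3) z3) (c (a (b z3 (d (c (a z2 z3) (a z2 z3)) (a z2 z3))) z3) (a (b z3 (d z3 (a z2 z3))) z3)))) z3)) (d (c (a (b (d (c (a z2 z3) (a z2 z3)) (a z2 z3)) (d (c (a z2 (b z3 (d (c (a z2 z3) z3) (a z2 z3)))) (a z2 z3)) (a z2 (b z3 (d (c (a z2 z3) z3) (c (a z2 z3) (a z2 z3))))))) z3) (a (b (d (c (a z2 z3) (a z2 z3)) (c (a z2 z3) (a z2 z3))) (d z2 (c (a z2 z3) z2))) z3)) (a (b (d (c (a z2 z3) (a z2 z3)) (c (a (b (d z2 z2) z2) z3) (a z2 z3))) (d (c (a z2 (b z3 (d (c (a z2 z3) (a z2 z3)) (c (a z2 z3) (a z2 z3))))) (a z2 (b z3 (d z3 (c (a z2 z3) z3))))) (c (a z2 (b (d z3 z3) (d (c (a z2 z3) (a z2 z3)) (a z2 z3))))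 (a z2 (b z3 (d (c (a z2 z3) z3) (c (a z2 z3) (a z2 z3)))))))) z3))) z3))) (b z3 (d (a (c (b z3 (d (a z2 z3) (a (c (b (d (a z2 z3) (a z2 z3)) z2) z2) z3))) (b z3 (d (a z2 z3) (a z2 z3)))) z3) (a (c (b z3 (d (a (c (b (d (a z2 z3) (a z2 z3)) z2) (b (d (a z2 z3) (a z2 z3)) z2)) z3) (a (c (b (d (a z2 z3) (a z2 z3)) (d z2 (a z2 z3))) (b (d (a z2 z3) (a z2 z3)) z2)) z3))) (b z3 (d (a z2 z3) (a (c (b (d (a z2 z3) (a z2 z3)) z2) (b (d z3 (a z2 z3)) z2)) z3)))) z3)))) _ _ (by decide +kernel)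

theorem okB1251 : CKB ⟨12288, 18432, 7680, 8192⟩ ⟨0, 1536, 4096, 4608⟩ :=
  ckB_sound (c (a z2 (b (d (c (a (b (d (c (a z2 z3) (a z2 z3)) (c (a z2 z3) (a z2 z3))) z2) z3) (a (b (d (c (a z2 z3) (a z2 z3)) (c (a z2 z3) (a z2 z3))) z2) z3)) (c (a (b (d (c (a z2 z3) (a z2 z3)) (a z2 (c (b z3 (d z3 z3)) z3))) (d (c (a z2 (b (d z2 z2) z2)) z2) (a z2 (c (b (d (a z2 z3) (a z2 z3)) z2) z2)))) z3) (a (b (d (c (a z2 z3) (a z2 z3)) (c (a z2 z3) (a z2 z3))) z2) z3))) (d (c (a z2 (b (d z3 (c (a (b z3 (d (c (a z2 z3) z3) (c (a z2 z3) z3))) z3) z3)) (d (c (a z2 z3) (a z2 z3)) (c (a z2 z3) (a z2 z3))))) (a z2 (b z3 (d (c (a z2 z3) (a z2 z3)) (c (a z2 z3) (a z2 z3)))))) (c (a z2 (b (d (c (a (b z3 (d (c (a z2 z3) z3) (c (a z2 z3) (a z2 z3)))) z3) z3) (a (c (b z3 (d (a z2 z3) (a z2 z3))) (b z3 (d z3 (a z2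 z3)))) z3)) (d (c (a z2 z3) (a z2 z3)) (a z2 z3)))) (a z2 (b z3 (d (c (a z2 z3) (a z2 z3)) (c (a z2 z3) (a z2 z3))))))))) (a z2 (b (d (c (a (b (d z2 (c (a z2 z3) z2)) z2) z3) (a z2 z3)) (c (a (b (d (c (a z2 z3) (a z2 z3)) (c (a z2 z3) (a z2 z3))) z2) z3) (a (b (d z2 (a z2 z3)) z2) z3))) (d (c (a z2 (b z3 (d (c (a z2 z3) (a z2 z3)) (c (a z2 z3) (a z2 z3))))) (a z2 (b z3 (d (c (a z2 z3) (a z2 z3)) (c (a z2 z3) (a z2 z3)))))) (c (a z2 (b z3 (d (c (a z2 z3) (a z2 z3)) (c (a z2 z3) (a z2 z3))))) (a z2 (b z3 (d (c (a z2 z3) (a z2 z3)) (c (a z2 z3) (a z2 z3)))))))))) _ _ (by decide +kernel)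

theorem okB1252 : CKB ⟨12288, 18432, 7680, 8192⟩ ⟨0, 1536, 4608, 5120⟩ :=
  ckB_sound (a z2 (c (b (d (a (c (b (d (a z2 (c (b z3 (d (c (a z2 z3) z3) (a z2 z3))) z3)) (a z2 (b z3 (d (c (a z2 z3) z3) (a z2 z3))))) (d (a z2 (c (b (d (c (a z2 z3) (a z2 z3)) (a z2 z3)) z2) (b (d z2 (a z2 z3)) z2))) (a z2 (b (d (c (a z2 z3) (a z2 z3)) (a z2 z3)) z2)))) (b (d (a z2 z3) (a z2 z3)) (d z2 (a z2 (c (b (d z2 (a z2 z3)) z2) z2))))) z3) (a (b (d (c (a z2 (b z3 (d (c (a (b z3 z2) z3) (a z2 z3)) (a (b z3 z2) z3)))) (a z2 (b z3 (d z3 (c (a z2 z3) z3))))) (a (b (d z2 z2) z2) (b z3 (d (c (a (b (d z3 z3) z2) z3) (a z2 z3)) (c (a (b (d z3 z3) z2) z3) (a z2 z3)))))) (d (c (a z2 (b (d (c (a z2 z3) (a z2 z3)) (a z2 z3)) (d z2 z2))) (a z2 (b (d (c (a z2 z3) z2) (c (a z2 z3) (a z2 z3))) z2))) (a z2 (b (d (c (a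 z2 z3) (a z2 z3)) (c (a z2 z3) (a z2 z3))) (d z2 z2))))) z3)) (d (a z2 (c (b (d (c (a (b z3 (d (c (a z2 z3) (a z2 z3)) (a z2 z3))) z3) (a (b z3 (d (c (a z2 z3) z3) (c (a z2 z3) (a z2 z3)))) z3)) (a (b z3 (d (c (a z2 z3) (a z2 z3)) (c (a z2 z3) (a z2 z3)))) z3)) (d (c (a z2 z3) (a z2 z3)) (a z2 z3))) (b (d z3 (a (c (b z3 (d (a z2 z3) (a z2 z3))) z3) z3)) (d (a z2 z3) (a z2 z3))))) (a z2 (b (d (c (a (b (d z3 z3) (d (c (a z2 z3) (a z2 z3)) (a z2 z3))) z3) (a (b z3 (d (c (a z2 z3) z3) (c (a z2 z3) (a z2 z3)))) z3)) (a (b (d z3 z3) (d (c (a z2 z3) (a z2 z3)) (c (a z2 z3) (a z2 z3)))) z3)) (d (c (a z2 z3) (a z2 z3)) (a z2 z3)))))) (b (d (a (c (b (d (a z2 z3) (a z2 z3)) z2) (b (d (a z2 z3) (a z2 z3)) z2)) z3) (a (c (b (d (a z2 z3) (a z2 (c (b z3 (d z3 (a z2 z3))) z3))) (d z2 (a z2 (c (b (d (a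 z2 z3) (a z2 z3)) z2) z2)))) (b (d (a z2 z3) (a z2 z3)) z2)) z3)) (d (a z2 (c (b z3 (d (a z2 z3) (a z2 z3))) (b z3 (d (a z2 z3) (a z2 z3))))) (a z2 (c (b (d z3 (a (c (b z3 (d (a z2 z3) (a z2 z3))) z3) z3)) (d (a z2 z3) (a z2 z3))) (b z3 (d (a z2 z3) (a z2 z3))))))))) _ _ (by decide +kernel)

theorem okB1253 : CKB ⟨18432, 24576, 7168, 8192⟩ ⟨0, 1536, 4096, 5120⟩ :=
  ckB_sound (b z3 (d z3 (c (a z3 (b z3 z3)) z3))) _ _ (by decide +kernel)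

theorem okB1254 : CKB ⟨12288, 24576, 7168, 8192⟩ ⟨1536, 3072, 4096, 5120⟩ :=
  ckB_sound (a (b (d (a (c (b (d z2 (a z2 (c (b (d z2 (a z2 z3)) z2) z2))) z2) z2) z3) (a (c (b (d (a z2 (c (b (d (a z2 z3) (a z2 z3)) z2) (b (d z2 (a z2 z3)) z2))) (a z2 (c (b (d (a z2 z3) (a z2 z3)) (d z2 (a z2 (c (b z3 z2) (b z3 z2))))) (b (d (a z2 z3) (a z2 z3)) z2)))) z2) (b (d z2 (a z2 (b (d (c (a z2 z3) z2) (c (a z2 z3) z2)) z2))) z2)) (c (b z3 (d (a (c (b z3 (d z3 (a z2 z3))) z3) z3) (a (c (b z3 (d (a z2 z3) (a z2 z3))) (b z3 (d z3 (a z2 z3)))) z3))) z3))) (d (a z2 (c (b (d (a z2 z3) (a z2 z3)) (d (a z2 z3) (a z2 (c (b z3 (d (a z2 z3) (a z2 z3))) z3)))) (b (d (a z2 z3) (a z2 z3)) z2))) (a z2 (c (b (d (a (c (b (d z2 (a z2 z3)) z2) z2) z3) (a (c (b (d (a z2 z3) (a z2 z3)) z2) (b (d z2 (a z2 z3)) z2)) z3))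 (d (a z2 (c (b z3 (d (a z2 z3) (a z2 z3))) z3)) (a z2 (c (b z3 (d (a z2 z3) (a z2 z3))) (b z3 (d (a z2 z3) (a z2 z3))))))) (b (d (a z2 z3) (a z2 z3)) (d (a z2 z3) (a z2 z3))))))) (b z3 z3)) _ _ (by decide +kernel)

theorem okB1255 : CKB ⟨12288, 13824, 7168, 7424⟩ ⟨0, 1344, 5120, 5376⟩ :=
  ckB_sound z2 _ _ (by decide +kernel)

theorem okB1256 : CKB ⟨13824, 15360, 7168, 7296⟩ ⟨0, 1344, 5120, 5376⟩ :=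
  ckB_sound (d (c (a (b (d (c (a z2 (b (d (c (a z2 z3) (a z2 z3)) (a z2 z3)) (d z2 z2))) (a z2 (b (d z2 (c (a z2 z3) z2)) z2))) (a z2 (c (b (d (a z2 z3) (a z2 z3)) (d z2 (a z2 (b (d (a z2 z3) (a z2 z3)) z2)))) (b (d (a z2 z3) (a z2 z3)) z2)))) (d z2 z2)) (b z3 (d (c (a (b z3 (d (c (a z2 z3) (a z2 z3)) (a z2 z3))) z3) (a (b z3 (d z3 (c (a z2 z3) z3))) z3)) (a (c (b (d z3 z3) (d (a z2 z3) (a (b (d (a z2 z3) (a z2 z3)) z2) z3))) (b z3 (d (a z2 z3) (a z2 z3)))) z3)))) (a (b (d z2 (c (a z2 (b (d z2 (c (a z2 z3) z2)) z2)) z2)) z2) (b z3 (d z3 (c (a (b z3 (d z3 (c (a z2 z3) z3))) z3) z3))))) (a (c (b (d (a z2 (c (b (d (a z2 z3) (a z2 z3)) (d (a z2 (c (b (d (a z2 z3) (a z2 z3)) z2) z2)) (a z2 (b (d (a z2 z3) (a z2 z3)) z2)))) (b (d (a z2 z3) (a z2 z3)) z2))) (a z2 (b (d (a z2 z3) (a z2 (b z3 (d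 z3 z0)))) (d (a z2 (b (d (c (a z2 z3) (a z2 z3)) (a z2 z3)) z2)) (a z2 (b (d (a z2 z3) z0) z2)))))) (d z2 (a z2 (b (d z2 z2) z2)))) (b (d (a z2 (c (b (d z2 (a z2 z3)) z2) z2)) (a z2 (c (b (d (a z2 z3) (a z2 z3)) (d z2 (a z2 (c (b (d (a z2 z3) (a z2 z3)) z2) z2)))) (b (d (a z2 z3) (a z2 z3)) z2)))) z2)) (c (b (d z3 z3) (d (a (c (b (d z3 z3) (d (a (c (b (d (a z2 z3) (a z2 z3)) z2) z2) z3) (a (b (d (a z2 z3) (a z2 z3)) z2) z3))) (b z3 (d (a z2 z3) (a z2 z3)))) z3) (a (b (d z3 z3) (d (a (b (d (c (a z2 z3) z3) (a z2 z3)) z2) z3) (a (b (d (a z2 z3) z0) z2) z3))) z3))) (b z3 (d (a (c (b z3 (d (a z2 z3) (a z2 z3))) z3) z3) (a (c (b z3 (d (a z2 z3) (a (c (b (d (a z2 z3) (a z2 z3)) z2) z2) z3))) (b z3 (d (a z2 z3) (a z2 z3)))) z3)))))) _ _ (by decide +kernel)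

theorem okB1257 : CKB ⟨13824, 15360, 7296, 7424⟩ ⟨0, 1344, 5120, 5376⟩ :=
  ckB_sound (d (c (a z2 (b (d (c (a (b (d (c (a z2 z3) (a z2 z3)) (a z2 z3)) (d z2 z2)) z3) (a (b (d z2 (c (a z2 z3) z2)) z2) z3)) (a (c (b (d (a z2 z3) (a z2 z3)) (d z2 z2)) (b (d (a z2 z3) (a z2 z3)) z2)) z3)) (d (c (a z2 (b z3 (d (c (a z2 z3) (a z2 z3)) (a z2 z3)))) (a z2 (b z3 (d z3 (c (a z2 z3) z3))))) (a z2 (c (b (d z3 z3) (d (a z2 z3) (a z2 z3))) (b z3 (d (a z2 z3) (a z2 z3)))))))) (a z2 (b (d (c (a z2 z3) (a z2 z3)) (c (a (b (d z2 (c (a z2 z3) z2)) z2) z3) (a z2 z3))) (d (c (a z2 z3) (a z2 z3)) (c (a z2 (b z3 (d z3 (c (a z2 z3) z3)))) (a z2 z3)))))) (a z2 (c (b (d (a (c (b (d (a z2 z3) (a z2 z3)) (d z2 (a z2 (b (d (a z2 z3) (a z2 z3)) z2)))) (b (d (a z2 z3) (a z2 z3)) z2)) z3) (a (b (d (a z2 z3) (a z2 z3))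 (d (a z2 (b (d (c (a z2 z3) z3) (a z2 z3)) z2)) (a z2 (b (d (a z2 z3) z0) z2)))) z3)) (d (a z2 (c (b (d z3 z3) (d (a z2 z3) (a z2 z3))) (b z3 (d (a z2 z3) (a z2 z3))))) (a z2 (b (d z3 z3) (d (a z2 z3) (a (b (d (a z2 z3) z0) z2) z3)))))) (b (d (a (c (b (d z2 (a z2 z3)) z2) z2) z3) (a (c (b (d (a z2 z3) (a z2 z3)) (d z2 (a z2 (c (b (d (a z2 z3) (a z2 z3)) z2) z2)))) (b (d (a z2 z3) (a z2 z3)) z2)) z3)) (d (a z2 (c (b z3 (d z3 (a z2 z3))) z3)) (a z2 (c (b z3 (d (a z2 z3) (a z2 z3))) (b z3 (d (a z2 z3) (a z2 z3)))))))))) _ _ (by decide +kernel)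

theorem okB1258 : CKB ⟨12288, 15360, 7168, 7424⟩ ⟨1344, 1920, 5120, 5376⟩ :=
  ckB_sound (a z2 (b (d (c (a z2 z3) (a z2 z3)) (c (a (b (d z2 (c (a z2 (b (d z2 (c (a z2 z3) z2)) z2)) z2)) z2) (b z3 (d z3 (c (a (b z3 (d z3 (c (a z2 z3) z3))) z3) z3)))) (a z2 z3))) (d (c (a z2 (b (d (c (a z2 z3) (a z2 z3)) (c (a z2 z3) (a z2 z3))) (d z2 (c (a z2 z3) z2)))) (a z2 (b (d z3 (c (a z2 z3) z3)) z2))) (c (a z2 (b (d (c (a z2 z3) (a z2 z3)) (c (a z2 z3) (a z2 z3))) (d (c (a z2 z3) (a z2 z3)) (c (a z2 (b z3 (d z3 (c (a z2 z3) z3)))) (a z2 z3))))) (a z2 (b (d (c (a z2 z3) (a z2 z3)) (c (a z2 z3) (a z2 z3))) (d z2 (c (a z2 z3) z2)))))))) _ _ (by decide +kernel)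

theorem okB1259 : CKB ⟨12288, 13824, 7168, 7424⟩ ⟨0, 1920, 5376, 5632⟩ :=
  ckB_sound z2 _ _ (by decide +kernel)

end Vale.Agent.Lib.P154Q5
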