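import Vale.Agent.Lib.P154Q5.CkBDefs

namespace Vale.Agent.Lib.P154Q5

set_option maxRecDepth 100000
set_option exponentiation.threshold 1000

open Tr

theorem okB1260 : CKB ⟨13824, 15360, 7168, 7296⟩ ⟨0, 1560, 5376, 5632⟩ :=
  ckB_sound (d (a (c (b (d (a z2 (c (b (d (a z2 (c (b z3 (d z3 z3)) z3)) (a z2 (b z3 (d z3 z0)))) (d (a z2 (c (b (d (a z2 z3) (a z2 z3)) z2) (b (d (a z2 z3) (a z2 z3)) z2))) (a z2 (b (d (a z2 z3) z0) (d z2 z0))))) (b (d (a z2 z3) (a z2 z3)) (d z2 (a z2 (c (b (d (a z2 z3) (a z2 z3)) z2) z2)))))) (a z2 (b (d (a z2 (b z3 (d z3 z3))) z0) (d (a z2 (b (d (c (a z2 z3) (a z2 z3)) (a z2 z3)) (d z2 z2))) z0)))) (d (a z2 (c (b (d z2 z2) z2) z2)) (a z2 (b (d z2 z0) z2)))) (b (d (a z2 (c (b (d (a z2 z3) (a z2 z3)) z2) (b (d z2 (a z2 z3)) z2))) (a z2 (c (b (d (a z2 z3) (a z2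 (b z3 (d z3 z3)))) (d (a z2 (c (b (d (a z2 z3) (a z2 z3)) z2) z2)) (a z2 (b (d (c (a z2 z3) (a z2 z3)) (a z2 z3)) (d z2 z2))))) (b (d (a z2 z3) (a z2 z3)) z2)))) z2)) (c (b (d z3 z3) (d (a (c (b (d (a (c (b z3 (d z3 z3)) z3) z3) (a (b z3 (d z3 z0)) z3)) (d (a (c (b (d (a z2 z3) (a z2 z3)) z2) z2) z3) (a (b (d (a z2 z3) z0) z2) z3))) (b z3 (d (a z2 z3) (a (c (b (d (a z2 z3) (a z2 z3)) z2) z2) z3)))) z3) (a (b (d (a (b z3 (d z3 z3)) z3) z0) (d (a (b (d (c (a z2 z3) (a z2 z3)) (a z2 z3)) (d z2 z2)) z3) z0)) z3))) (b z3 (d (a (c (b z3 (d (a z2 z3) (a z2 z3))) (b z3 (d z3 (a z2 z3)))) z3) (a (c (b (d z3 (a (b z3 (d z3 z3)) z3)) (d (a z2 z3) (a (b (d (c (a z2 z3) (a z2 z3)) (a z2 z3)) (d z2 z2)) z3))) (b z3 (d (a z2 z3) (a z2 z3)))) z3))))) (a (b (d (a z2 (b (d (a z2 (c (b z3 (d z3 (a (b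 z3 (d z3 z3)) z3))) z3)) (a z2 (b z3 (d (a (b z3 (d z3 z3)) z3) (a (b z3 (d z3 z0)) z3))))) (d (a z2 (c (b (d (a z2 z3) (a z2 z3)) (d z2 z2)) (b (d (a z2 z3) (a z2 z3)) z2))) (a z2 (b (d (a z2 z3) (a z2 z3)) (d z2 z2)))))) z0) (d (a z2 (b (d z2 z2) z2)) z0)) (b (d z3 z0) (d (a (b (d (a (c (b z3 (d z3 z3)) z3) z3) (a (b z3 (d z3 z3)) z3)) (d (a (c (b (d (a z2 z3) (a z2 z3)) (d z2 z2)) (b (d (a z2 z3) (a z2 z3)) z2)) z3) (a (b (d (a z2 z3) (a z2 z3)) (d z2 z2)) z3))) z3) z0)))) _ _ (by decide +kernel)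

theorem okB1261 : CKB ⟨13824, 15360, 7296, 7424⟩ ⟨0, 1560, 5376, 5632⟩ :=
  ckB_sound (d (a z2 (c (b (d (a (c (b (d (a z2 z3) (a z2 (b z3 (d z3 z0)))) (d (a z2 (c (b (d (a z2 z3) (a z2 z3)) z2) z2)) (a z2 (b (d (a z2 z3) z0) z2)))) (b (d (a z2 z3) (a z2 z3)) (d z2 (a z2 (c (b (d (a z2 z3) (a z2 z3)) z2) z2))))) z3) (a (b (d (a z2 (b z3 (d z3 z3))) z0) (d (a z2 (b (d (c (a z2 z3) (a z2 z3)) (a z2 z3)) z2)) z0)) z3)) (d (a z2 (c (b (d z3 (a (b z3 (d z3 z0)) z3)) (d (a (c (b (d (a z2 z3) (a z2 z3)) z2) z2) z3) (a (b (d (a z2 z3) z0) z2) z3))) (b z3 (d (a z2 z3) (a z2 z3))))) (a (b (d z2 z0) z2) (b (d (a (b z3 (d z3 z3)) z3) z0) (d (a (b (d (c (a z2 z3) (a z2 z3)) (a z2 z3)) z2) z3) z0))))) (b (d (a (c (b (d (a z2 z3) (a z2 z3)) z2) z2) z3) (a (c (b (d (a z2 z3) (a z2 (b z3 (d z3 z3))))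 (d z2 (a z2 (b (d (c (a z2 z3) (a z2 z3)) (a z2 z3)) z2)))) (b (d (a z2 z3) (a z2 z3)) z2)) z3)) (d (a z2 (c (b z3 (d (a z2 z3) (a z2 z3))) (b z3 (d z3 (a z2 z3))))) (a z2 (c (b (d z3 (a (b z3 (d z3 z3)) z3)) (d (a z2 z3) (a (b (d (c (a z2 z3) (a z2 z3)) (a z2 z3)) z2) z3))) (b z3 (d (a z2 z3) (a z2 z3))))))))) (a (b (d z2 z0) z2) (b (d (a (b (d (a z2 (c (b z3 (d z3 z3)) z3)) (a z2 (b z3 (d z3 z3)))) (d (a z2 (c (b (d (a z2 z3) (a z2 z3)) z2) z2)) (a z2 (b (d (a z2 z3) (a z2 z3)) z2)))) z3) z0) (d (a (b (d z2 z2) z2) (b (d (a (c (b z3 (d z3 z3)) z3) z3) (a (b z3 (d z3 z3)) z3)) (d (a (c (b (d (a z2 z3) (a z2 z3)) z2) z2) z3) (a (b (d (a z2 z3) (a z2 z3)) z2) z3)))) z0)))) _ _ (by decide +kernel)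

theorem okB1262 : CKB ⟨13824, 15360, 7168, 7296⟩ ⟨1560, 1920, 5376, 5632⟩ :=
  ckB_sound (d (a (c (b (d z2 (a z2 (c (b (d (a z2 z3) (a z2 z3)) z2) (b (d z2 (a z2 z3)) z2)))) z2) z2) (c (b z3 (d z3 (a (c (b z3 (d (a z2 z3) (a z2 z3))) (b z3 (d z3 (a z2 z3)))) z3))) z3)) (a (c (b (d (a z2 (c (b (d (a z2 z3) (a z2 z3)) (d z2 (a z2 (c (b (d (a z2 z3) (a z2 z3)) z2) z2)))) (b (d (a z2 z3) (a z2 z3)) z2))) (a z2 (b (d (c (a z2 (b z3 (d (c (a (b z3 (d z3 z3)) z3) z3) (a (b z3 (d z3 z3)) z3)))) (a z2 z3)) (a z2 (b z3 (d (c (a (b z3 (d z3 z3)) z3) z3) (a (c (b z3 (d z3 z3)) z3) z3))))) (d (c (a z2 (b (d (c (a z2 z3) (a z2 z3)) (a z2 z3)) (d z2 z2))) (a z2 (b (d (c (a z2 z3) (a z2 z3)) (c (a z2 z3) (a z2 z3))) z2))) (a z2 (b (d (c (a z2 z3) (a z2 z3)) (a z2 z3)) (d z2 z2))))))) (d z2 (a z2 (b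 (d z2 z2) z2)))) (b (d (a z2 (b (d z2 (c (a z2 z3) z2)) z2)) (a z2 (b (d (c (a z2 z3) (a z2 z3)) (c (a z2 z3) (a z2 z3))) z2))) z2)) (c (b z3 (d (a (c (b z3 (d (a z2 z3) (a (c (b (d (a z2 z3) (a z2 z3)) z2) z2) z3))) (b z3 (d (a z2 z3) (a z2 z3)))) z3) (a (b (d (c (a (b z3 (d z3 z3)) z3) z3) (a (b z3 (d z3 z3)) z3)) (d (c (a (b (d (c (a z2 z3) (a z2 z3)) (a z2 z3)) (d z2 z2)) z3) (a z2 z3)) (a (b (d (c (a z2 z3) (a z2 z3)) (a z2 z3)) (d z2 z2)) z3))) z3))) (b z3 (d (a (b z3 (d z3 (c (a z2 z3) z3))) z3) (a (b z3 (d (c (a z2 z3) (a z2 z3)) (c (a z2 z3) (a z2 z3)))) z3)))))) _ _ (by decide +kernel)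

theorem okB1263 : CKB ⟨13824, 15360, 7296, 7424⟩ ⟨1560, 1920, 5376, 5632⟩ :=
  ckB_sound (d (a z2 (c (b (d (a z2 z3) (a (c (b (d z2 (a z2 z3)) z2) z2) z3)) (d (a z2 z3) (a z2 (c (b z3 (d z3 (a z2 z3))) z3)))) (b (d (a z2 z3) (a z2 z3)) (d (a z2 z3) (a z2 z3))))) (a z2 (c (b (d (a (c (b (d (a z2 z3) (a z2 z3)) (d z2 (a z2 (c (b (d (a z2 z3) (a z2 z3)) z2) z2)))) (b (d (a z2 z3) (a z2 z3)) z2)) z3) (a (b (d (c (a z2 (b z3 (d z3 z3))) (a z2 z3)) (a z2 (b z3 (d z3 z3)))) (d (c (a z2 (b (d (c (a z2 z3) (a z2 z3)) (a z2 z3)) z2)) z2) (a z2 (b (d (c (a z2 z3) (a z2 z3)) (a z2 z3)) (d z2 z2))))) z3)) (d (a z2 (c (b z3 (d (a z2 z3) (a z2 z3))) (b z3 (d (a z2 z3) (a z2 z3))))) (a (b (d z2 z2) z2) (b (d (c (a (b z3 (d z3 z3)) z3) z3) (a (b z3 (d z3 z3)) z3)) (d (c (a (b (d (c (a z2 z3) (a z2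 z3)) (a z2 z3)) z2) z3) (a z2 z3)) (a (b (d (c (a z2 z3) (a z2 z3)) (a z2 z3)) z2) z3)))))) (b (d (a (b (d z2 (c (a z2 z3) z2)) z2) z3) (a (b (d (c (a z2 z3) z2) (c (a z2 z3) (a z2 z3))) z2) z3)) (d (a z2 (b z3 (d z3 (c (a z2 z3) z3)))) (a z2 (b z3 (d (c (a z2 z3) (a z2 z3)) (c (a z2 z3) (a z2 z3)))))))))) _ _ (by decide +kernel)

theorem okB1264 : CKB ⟨12288, 15360, 7424, 7680⟩ ⟨0, 1920, 5120, 5632⟩ :=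
  ckB_sound (d (c (a z2 (b (d (c (a z2 (b (d (c (a z2 (b (d (c (a z2 z3) z2) (a z2 z3)) z2)) z2) (a z2 (c (b (d (a z2 z3) (a z2 z3)) (d z2 z2)) (b (d z2 (a z2 z3)) z2)))) (d z2 z2))) z2) (a z2 (c (b (d (a z2 (c (b (d (a z2 z3) (a z2 z3)) (d z2 z2)) (b (d z2 (a z2 z3)) z2))) (a z2 (b (d (a z2 z3) (a z2 z3)) (d z2 z2)))) (d z2 z2)) (b (d z2 (a z2 (c (b (d (a z2 z3) (a z2 z3)) z2) z2))) z2)))) (d z2 z2))) z2) (a z2 (c (b (d (a z2 (c (b (d (a z2 (c (b (d (a z2 z3) (a z2 (b z3 (d z3 z0)))) (d z2 z2)) (b (d (a z2 z3) (a z2 z3)) z2))) (a z2 (b (d (a z2 (b z3 (d z3 z3))) z0) (d z2 z0)))) (d z2 z2)) (b (d z2 (a z2 (c (b (d (a z2 z3) (a z2 (b z3 (d z3 z3)))) z2) (b (d z2 (a z2 z3)) z2)))) z2))) (a z2 (b (d (a z2 (b (d (a z2 (c (b z3 (d z3 z3)) z3)) (a z2 (b z3 (d z3 z3)))) (d z2 z2))) z0) (d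 z2 z0)))) (d z2 z2)) (b (d z2 (a z2 (c (b (d (a z2 (c (b (d (a z2 z3) (a z2 z3)) z2) z2)) (a z2 (b (d (c (a z2 (b z3 (d z3 z3))) (a z2 z3)) (a z2 (b z3 (d z3 z3)))) (d z2 z2)))) (d z2 z2)) (b (d z2 (a z2 (b (d z2 (c (a z2 z3) z2)) z2))) z2)))) z2)))) _ _ (by decide +kernel)

theorem okB1265 : CKB ⟨15360, 18432, 7168, 7424⟩ ⟨0, 1920, 5120, 5632⟩ :=
  ckB_sound (d z3 (a (c (b z3 (d z3 z3)) z3) z3)) _ _ (by decide +kernel)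

theorem okB1266 : CKB ⟨15360, 18432, 7424, 7680⟩ ⟨0, 1920, 5120, 5376⟩ :=
  ckB_sound (c (a (b (d (c (a (b z3 (d (c (a (b (d z3 z3) (d (c (a z2 z3) (a z2 z3)) (a z2 z3))) z3) (a (b z3 (d z3 (c (a z2 z3) z3))) z3)) (a (c (b (d z3 z3) (d (a z2 z3) (a z2 z3))) (b z3 (d (a z2 z3) (a z2 z3)))) z3))) z3) (a (b z3 (d z3 (c (a (b z3 (d z3 (c (a z2 z3) z3))) z3) z3))) z3)) (a (c (b (d z3 z3) (d (a (c (b (d z3 z3) (d (a z2 z3) (a z2 z3))) (b z3 (d (a z2 z3) (a z2 z3)))) z3) (a (b (d z3 z3) (d (a z2 z3) (a z2 z3))) z3))) (b z3 (d (a (c (b z3 (d z3 (a z2 z3))) z3) z3) (a (c (b z3 (d (a z2 z3) (a z2 z3))) (b z3 (d (a z2 z3) (a z2 z3)))) z3)))) z3)) (d (c (a (b (d (c (a (b (d z2 z2) z2) z3) (a z2 z3)) (a (c (b (d z2 z2) z2) z2) z3)) (d (c (a z2 (b (d z3 z3) (d (c (a z2 z3) (a z2 z3)) (c (a z2 z3)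 (a z2 z3))))) (a z2 (b z3 (d (c (a z2 z3) z3) (c (a z2 z3) z3))))) (a z2 (c (b (d z3 z3) (d (a z2 z3) (a z2 z3))) (b z3 (d (a z2 z3) (a z2 z3))))))) z3) (a (b (d (c (a z2 z3) (a z2 z3)) (c (a z2 z3) (a z2 z3))) (d z2 (c (a z2 (b z3 (d z3 (c (a z2 z3) z3)))) z2))) z3)) (a (c (b (d (a (c (b (d (a z2 z3) (a z2 z3)) z2) z2) z3) (a (b (d (a z2 z3) (a z2 z3)) z2) z3)) (d (a z2 (c (b (d z3 z3) (d (a z2 z3) (a z2 z3))) (b z3 (d (a z2 z3) (a z2 z3))))) (a z2 (b (d z3 (a (b z3 z2) z3)) (d (a z2 z3) (a z2 z3)))))) (b (d (a z2 z3) (a z2 z3)) (d (a z2 (c (b z3 (d (a z2 z3) (a z2 z3))) z3)) (a z2 (c (b z3 (d (a z2 z3) (a z2 z3))) (b z3 (d (a z2 z3) (a z2 z3)))))))) z3))) z3) (a (b z3 (d (c (a (b (d (c (a z2 z3) (a z2 z3)) (c (a z2 z3) (a z2 z3))) z2) z3) (a (b (d z3 (c (a z2 z3) z3)) z2) z3)) (c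 (a (b (d (c (a z2 z3) (a z2 z3)) (c (a z2 z3) (a z2 z3))) (d z2 (c (a z2 (b z3 (d z3 (c (a z2 z3) z3)))) z2))) z3) (a (b (d (c (a z2 z3) (a z2 z3)) (c (a z2 z3) (a z2 z3))) z2) z3)))) z3)) _ _ (by decide +kernel)

theorem okB1267 : CKB ⟨15360, 16896, 7424, 7680⟩ ⟨0, 1560, 5376, 5632⟩ :=
  ckB_sound (b (d (a (c (b (d z3 z3) (d (a (c (b (d z3 (a (b z3 (d z3 z0)) z3)) (d (a z2 z3) (a z2 z3))) (b z3 (d (a z2 z3) (a z2 z3)))) z3) (a (b (d (a (b z3 (d z3 z3)) z3) z0) (d (a z2 z3) z0)) z3))) (b z3 (d (a (c (b z3 (d (a z2 z3) (a z2 z3))) (b z3 (d z3 (a z2 z3)))) z3) (a (c (b (d z3 (a (b z3 (d z3 z3)) z3)) (d (a z2 z3) (a z2 z3))) (b z3 (d (a z2 z3) (a z2 z3)))) z3)))) z3) (a (b (d z3 z0) (d (a (b (d (a (c (b z3 (d z3 z3)) z3) z3) (a (b z3 (d z3 z3)) z3)) (d (a z2 z3) (a z2 z3))) z3) z0)) z3))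 (d (a (c (b (d (a (c (b (d (a z2 z3) (a z2 (b z3 (d z3 z0)))) z2) z2) z3) (a (b (d (a z2 (b z3 (d z3 z3))) z0) z2) z3)) (d (a z2 (c (b (d (a (c (b z3 z2) z3) z3) (a (b z3 z2) z3)) (d (a z2 z3) (a z2 z3))) (b z3 (d (a z2 z3) (a z2 z3))))) (a z2 (b (d (a (b z3 z2) z3) z0) (d (a z2 z3) z0))))) (b (d (a z2 z3) (a (c (b (d z2 (a z2 (b z3 (d z3 z3)))) z2) z2) z3)) (d (a z2 (c (b z3 (d (a z2 z3) (a z2 z3))) (b z3 (d z3 (a z2 z3))))) (a z2 (c (b (d z3 (a (b z3 z2) z3)) (d (a z2 z3) (a z2 z3))) (b z3 (d (a z2 z3) (a z2 z3)))))))) z3) (a (b (d (a (b (d (a z2 (c (b z3 (d z3 z3)) z3)) (a z2 (b z3 (d z3 z3)))) z2) z3) z0) (d (a z2 (b (d (c (a (b z3 z2) z3) z3) (a (b z3 z2) z3)) (d (c (a z2 z3) (a z2 z3)) (a z2 z3)))) z0)) z3))) _ _ (by decide +kernel)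

theorem okB1268 : CKB ⟨15360, 16896, 7424, 7680⟩ ⟨1560, 1920, 5376, 5632⟩ :=
  ckB_sound (b (d (a (c (b z3 (d z3 (a (c (b z3 (d z3 (a z2 z3))) z3) z3))) z3) z3) (a (c (b z3 (d (a (c (b z3 (d (a z2 z3) (a z2 z3))) (b z3 (d (a z2 z3) (a z2 z3)))) z3) (a (b (d (c (a (b z3 (d z3 z3)) z3) z3) (a (b z3 (d z3 z3)) z3)) (d (c (a z2 z3) (a z2 z3)) (a z2 z3))) z3))) (b z3 (d (a (b z3 (d z3 (c (a z2 z3) z3))) z3) (a (b z3 (d (c (a z2 z3) z3) (c (a z2 z3) (a z2 z3)))) z3)))) z3)) (d (a (c (b (d (a z2 z3) (a z2 z3)) (d z2 (a z2 (c (b z3 (d z3 (a z2 z3))) z3)))) (b (d (a z2 z3) (a z2 z3)) z2)) z3) (a (c (b (d (a z2 z3) (a (b (d (c (a z2 (b z3 (d z3 z3))) z2) (a z2 (b z3 (d z3 z3)))) (d z2 z2)) z3)) (d (a z2 (c (b z3 (d (a z2 z3) (a z2 z3))) (b z3 (d (a z2 z3) (a z2 z3))))) (a z2 (b (d (c (a (b z3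 z2) z3) z3) (a (b z3 z2) z3)) (d (c (a z2 z3) (a z2 z3)) (a z2 z3)))))) (b (d (a z2 z3) (a z2 z3)) (d (a z2 z3) (a z2 (b z3 (d (c (a z2 z3) z3) (c (a z2 z3) (a z2 z3)))))))) z3))) _ _ (by decide +kernel)

theorem okB1269 : CKB ⟨16896, 18432, 7424, 7680⟩ ⟨0, 1920, 5376, 5632⟩ :=
  ckB_sound z3 _ _ (by decide +kernel)

theorem okB1270 : CKB ⟨12288, 18432, 7168, 7680⟩ ⟨1920, 3072, 5120, 5632⟩ :=
  ckB_sound (a (b (d (c (a z2 (b (d (c (a z2 z3) (a z2 z3)) (c (a z2 z3) (a z2 z3))) (d z2 (c (a z2 (b (d z3 (c (a z2 z3) z3)) z2)) z2)))) (a z2 (b (d (c (a z2 z3) (a z2 z3)) (c (a z2 z3) (a z2 z3))) z2))) (c (a z2 (b (d (c (a z2 z3) (a z2 z3)) (c (a (b (d z2 (c (a z2 (b (d z2 (c (a z2 z3) z2)) z2)) z2)) z2) (b z3 (d z3 (c (a (b z3 (d z3 (c (a z2 z3) z3))) z3) z3)))) (a z2 z3))) (d (c (a z2 (b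 (d (c (a z2 z3) (a z2 z3)) (c (a z2 z3) (a z2 z3))) (d z2 (c (a z2 z3) z2)))) (a z2 (b (d z3 (c (a z2 z3) z3)) z2))) (c (a z2 (b (d (c (a z2 z3) (a z2 z3)) (c (a z2 z3) (a z2 z3))) (d (c (a z2 z3) (a z2 z3)) (c (a z2 z3) (a z2 z3))))) (a z2 (b (d (c (a z2 z3) (a z2 z3)) (c (a z2 z3) (a z2 z3))) (d z2 (c (a z2 z3) z2)))))))) (a z2 (b (d (c (a z2 z3) (a z2 z3)) (c (a z2 z3) (a z2 z3))) (d z2 (c (a z2 (b (d z3 (c (a z2 z3) z3)) z2)) z2)))))) z2) (b z3 (d (c (a (b z3 (d (c (a z2 z3) (a z2 z3)) (c (a z2 z3) (a z2 z3)))) z3) (a (b z3 (d z3 (c (a z2 z3) z3))) z3)) (c (a (b z3 (d (c (a (b (d (c (a z2 z3) (a z2 z3)) (c (a z2 z3) (a z2 z3))) z2) z3) (a z2 z3)) (c (a (b (d (c (a z2 z3) (a z2 z3)) (c (a z2 z3) (a z2 z3))) z2) z3) (a (b (d (c (a z2 z3) z3) (c (a z2 z3) (a z2 z3))) z2) z3)))) z3)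 (a (b z3 (d (c (a z2 z3) (a z2 z3)) (c (a z2 z3) (a z2 z3)))) z3))))) _ _ (by decide +kernel)

theorem okB1271 : CKB ⟨12288, 13824, 7168, 7424⟩ ⟨0, 2400, 5632, 5888⟩ :=
  ckB_sound (b (d z2 z2) z2) _ _ (by decide +kernel)

theorem okB1272 : CKB ⟨13824, 15360, 7168, 7296⟩ ⟨0, 2400, 5632, 5760⟩ :=
  ckB_sound (c (a (b (d (c (a z2 (b (d (c (a z2 (b z3 (d (c (a (b z3 (d z3 z3)) z3) z3) (a (c (b z3 (d z3 z3)) z3) z3)))) (a z2 z3)) (a z2 (c (b z3 (d (a (c (b z3 (d z3 z3)) z3) z3) (a (b z3 (d z3 z0)) z3))) (b z3 (d z3 (a (c (b z3 (d z3 z3)) z3) z3)))))) (d (c (a z2 (b (d (c (a z2 z3) (a z2 z3)) (a z2 z3)) (d z2 z2))) z2) (a z2 (c (b (d (a z2 z3) (a z2 z3)) (d z2 z2)) (b (d (a z2 z3) (a z2 z3)) z2)))))) (a z2 (b (d (c (a z2 z3) (a z2 z3)) (c (a z2 z3) (a z2 z3))) z2))) (a z2 (c (b (d (a z2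 (c (b z3 (d (a (c (b z3 (d z3 z3)) z3) z3) (a (b z3 (d z3 z0)) z3))) (b z3 (d z3 (a (c (b z3 (d z3 z3)) z3) z3))))) (a z2 (b z3 (d (a (b z3 (d z3 z3)) z3) z0)))) (d (a z2 (c (b (d (a z2 z3) (a z2 z3)) (d z2 z2)) (b (d (a z2 z3) (a z2 z3)) z2))) (a z2 (b (d (a z2 z3) z0) (d z2 z0))))) (b (d (a z2 z3) (a z2 (c (b z3 (d z3 (a (b z3 (d z3 z3)) z3))) z3))) (d z2 (a z2 (c (b (d (a z2 z3) (a z2 z3)) (d z2 z2)) (b (d (a z2 z3) (a z2 z3)) z2)))))))) (d (c (a z2 (b (d z2 z2) z2)) z2) (a z2 (c (b (d z2 z2) z2) z2)))) (b (d z3 z3) (d (c (a (b (d (c (a (b z3 (d z3 z3)) z3) z3) (a (c (b z3 (d z3 z3)) z3) z3)) (d (c (a (b (d (c (a z2 z3) (a z2 z3)) (a z2 z3)) (d z2 z2)) z3) (a z2 z3)) (a (c (b (d (a z2 z3) (a z2 z3)) (d z2 z2)) (b (d (a z2 z3) (a z2 z3)) z2)) z3))) z3) (a (b z3 (d (c (a z2 z3) (a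 z2 z3)) (c (a z2 z3) (a z2 z3)))) z3)) (a (c (b (d (a (c (b z3 (d z3 z3)) z3) z3) (a (b z3 (d z3 z0)) z3)) (d (a (c (b (d (a z2 z3) (a z2 z3)) (d z2 z2)) (b (d (a z2 z3) (a z2 z3)) z2)) z3) (a (b (d (a z2 z3) z0) (d z2 z0)) z3))) (b (d z3 (a (c (b z3 (d z3 z3)) z3) z3)) (d (a z2 z3) (a (c (b (d (a z2 z3) (a z2 z3)) z2) z2) z3)))) z3)))) (a (b (d (c (a z2 (b (d z2 (c (a z2 z3) z2)) z2)) z2) (c (a z2 (b (d (c (a z2 z3) (a z2 z3)) (c (a z2 z3) (a z2 z3))) z2)) z2)) z2) (b z3 (d (c (a (b z3 (d z3 (c (a z2 z3) z3))) z3) z3) (c (a (b z3 (d (c (a z2 z3) (a z2 z3)) (c (a z2 z3) (a z2 z3)))) z3) (a (b z3 (d z3 (c (a z2 z3) z3))) z3)))))) _ _ (by decide +kernel)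

theorem okB1273 : CKB ⟨13824, 15360, 7168, 7296⟩ ⟨0, 2400, 5760, 5888⟩ :=
  ckB_sound (a (b (d (c (a z2 (b (d (c (a z2 (b z3 (d (c (a (c (b z3 (d z3 z3)) z3) z3) z3) (a (c (b z3 (d z3 z3)) z3) z3)))) (a z2 z3)) (a z2 (c (b z3 (d (a (c (b z3 (d z3 z3)) z3) z3) (a (b z3 (d z3 z0)) z3))) z3))) (d (c (a z2 (b (d (c (a z2 z3) (a z2 z3)) (a z2 z3)) (d z2 z2))) z2) (a z2 (c (b (d (a z2 z3) (a z2 z3)) (d z2 z2)) (b (d (a z2 z3) (a z2 z3)) z2)))))) (a z2 (b (d (c (a z2 z3) z2) (c (a z2 z3) (a z2 z3))) z2))) (a z2 (c (b (d (a z2 (c (b z3 (d (a (c (b z3 (d z3 z3)) z3) z3) (a (b z3 (d z3 z0)) z3))) z3)) (a z2 (b z3 (d (a (b z3 (d z3 z3)) z3) z0)))) (d (a z2 (c (b (d (a z2 z3) (a z2 z3)) (d z2 z2)) (b (d (a z2 z3) (a z2 z3)) z2))) (a z2 (b (d (a z2 z3) z0) (d z2 z0))))) (b (d (a z2 z3) (a z2 (c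 (b z3 (d z3 (a (b z3 (d z3 z3)) z3))) z3))) (d z2 (a z2 (c (b (d (a z2 z3) (a z2 z3)) z2) z2))))))) (d (c (a z2 (b (d z2 z2) z2)) z2) (a z2 (c (b (d z2 z2) z2) z2)))) (b (d z3 z3) (d (c (a (b (d (c (a (b z3 (d z3 z3)) z3) z3) (a (c (b z3 (d z3 z3)) z3) z3)) (d (c (a (b (d (c (a z2 z3) (a z2 z3)) (a z2 z3)) (d z2 z2)) z3) (a z2 z3)) (a (c (b (d (a z2 z3) (a z2 z3)) (d z2 z2)) (b (d (a z2 z3) (a z2 z3)) z2)) z3))) z3) (a (b z3 (d (c (a z2 z3) z3) (c (a z2 z3) (a z2 z3)))) z3)) (a (c (b (d (a (c (b z3 (d z3 z3)) z3) z3) (a (b z3 (d z3 z0)) z3)) (d (a (c (b (d (a z2 z3) (a z2 z3)) (d z2 z2)) (b (d (a z2 z3) (a z2 z3)) z2)) z3) (a (b (d (a z2 z3) z0) (d z2 z0)) z3))) (b (d z3 (a (c (b z3 (d z3 z3)) z3) z3)) (d (a z2 z3) (a (c (b (d (a z2 z3) (a z2 z3)) z2) z2) z3)))) z3)))) _ _ (by decide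 +kernel)

theorem okB1274 : CKB ⟨13824, 15360, 7296, 7424⟩ ⟨0, 2400, 5632, 5760⟩ :=
  ckB_sound (c (a (b (d z2 z2) z2) (b (d (c (a (b (d (c (a z2 (b z3 (d z3 z3))) (a z2 z3)) (a z2 (c (b z3 (d z3 z3)) z3))) (d (c (a z2 (b (d (c (a z2 z3) (a z2 z3)) (a z2 z3)) (d z2 z2))) z2) (a z2 (c (b (d (a z2 z3) (a z2 z3)) (d z2 z2)) (b (d (a z2 z3) (a z2 z3)) z2))))) z3) (a (b (d (c (a z2 z3) z2) (c (a z2 z3) (a z2 z3))) z2) z3)) (a (c (b (d (a z2 (c (b z3 (d z3 z3)) z3)) (a z2 (b z3 (d z3 z0)))) (d (a z2 (c (b (d (a z2 z3) (a z2 z3)) (d z2 z2)) z2)) (a z2 (b (d (a z2 z3) z0) (d z2 z0))))) (b (d (a z2 z3) (a z2 (c (b z3 (d z3 z3)) z3))) (d z2 (a z2 (c (b (d (a z2 z3) (a z2 z3)) z2) z2))))) z3)) (d (c (a (b (d z2 z2) z2) (b (d (c (a (b z3 (d z3 z3)) z3) z3) (a (c (b z3 (d z3 z3)) z3) z3)) (d (c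 (a (b (d (c (a z2 z3) (a z2 z3)) (a z2 z3)) z2) z3) (a z2 z3)) (a (c (b (d (a z2 z3) (a z2 z3)) z2) z2) z3)))) (a z2 (b z3 (d (c (a z2 z3) z3) (c (a z2 z3) (a z2 z3)))))) (a (c (b (d z2 z2) z2) z2) (c (b (d (a (c (b z3 (d z3 z3)) z3) z3) (a (b z3 (d z3 z0)) z3)) (d (a (c (b (d (a z2 z3) (a z2 z3)) z2) z2) z3) (a (b (d (a z2 z3) z0) z2) z3))) (b z3 (d (a z2 z3) (a (c (b (d (a z2 z3) (a z2 z3)) z2) z2) z3)))))))) (a z2 (b (d (c (a z2 z3) (a z2 z3)) (c (a (b (d (c (a z2 z3) z2) (c (a z2 z3) (a z2 z3))) z2) z3) (a z2 z3))) (d (c (a z2 z3) (a z2 z3)) (c (a z2 (b z3 (d (c (a z2 z3) z3) (c (a z2 z3) (a z2 z3))))) (a z2 z3)))))) _ _ (by decide +kernel)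

end Vale.Agent.Lib.P154Q5
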