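import Vale.Agent.Lib.P154Q5.CkBDefs

namespace Vale.Agent.Lib.P154Q5

set_option maxRecDepth 100000
set_option exponentiation.threshold 1000

open Tr

theorem okB1275 : CKB ⟨13824, 15360, 7296, 7424⟩ ⟨0, 2400, 5760, 5888⟩ :=
  ckB_sound (a (b (d z2 z2) z2) (b (d (c (a (b (d (c (a z2 (b z3 (d z3 z3))) (a z2 z3)) (a z2 (c (b z3 (d z3 z3)) z3))) (d (c (a z2 (b (d (c (a z2 z3) (a z2 z3)) (a z2 z3)) z2)) z2) (a z2 (c (b (d (a z2 z3) (a z2 z3)) z2) z2)))) z3) (a (b (d (c (a z2 z3) z2) (c (a z2 z3) z2)) z2) z3)) (a (c (b (d (a z2 (c (b z3 (d z3 z3)) z3)) (a z2 (b z3 (d z3 z0)))) (d (a z2 (c (b (d (a z2 z3) (a z2 z3)) z2) z2)) (a z2 (b (d (a z2 z3) z0) z2)))) (b (d (a z2 z3) (a z2 z3)) (d z2 (a z2 (c (b (d (a z2 z3) (a z2 z3)) z2) z2))))) z3)) (d (c (a (b (d z2 z2) z2) (b (d (c (a (b z3 (d z3 z3))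 z3) z3) (a (c (b z3 (d z3 z3)) z3) z3)) (d (c (a (b (d (c (a z2 z3) z3) (a z2 z3)) z2) z3) (a z2 z3)) (a (c (b (d (a z2 z3) (a z2 z3)) z2) z2) z3)))) (a z2 (b z3 (d (c (a z2 z3) z3) (c (a z2 z3) (a z2 z3)))))) (a (c (b (d z2 z2) z2) z2) (c (b (d (a (c (b z3 (d z3 z3)) z3) z3) (a (b z3 (d z3 z0)) z3)) (d (a (c (b (d (a z2 z3) (a z2 z3)) z2) z2) z3) (a (b (d (a z2 z3) z0) z2) z3))) (b z3 (d (a z2 z3) (a z2 z3)))))))) _ _ (by decide +kernel)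

theorem okB1276 : CKB ⟨12288, 15360, 7168, 7424⟩ ⟨2400, 3072, 5632, 5888⟩ :=
  ckB_sound (a z2 (b (d (c (a z2 z3) (a z2 z3)) (c (a (b (d z2 (c (a z2 (b (d (c (a z2 z3) z2) (c (a z2 z3) (a z2 z3))) z2)) z2)) z2) (b z3 (d z3 (c (a (b z3 (d (c (a z2 z3) z3) (c (a z2 z3) (a z2 z3)))) z3) z3)))) (a z2 z3))) (d (c (a z2 (b (d (c (a z2 z3) (a z2 z3)) (c (a z2 z3) (a z2 z3))) (d z2 (c (a z2 z3) z2)))) (a z2 (b (d z3 (c (a z2 z3) z3)) z2))) (c (a z2 (b (d (c (a z2 z3) (a z2 z3)) (c (a (b (d z2 (c (a z2 z3) z2)) z2) z3) (a z2 z3))) (d (c (a z2 z3) (a z2 z3)) (c (a z2 (b z3 (d z3 (c (a z2 z3) z3)))) (a z2 z3))))) (a z2 (b (d (c (a z2 z3) (a z2 z3)) (c (a z2 z3) (a z2 z3))) z2)))))) _ _ (by decide +kernel)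

theorem okB1277 : CKB ⟨12288, 13824, 7168, 7424⟩ ⟨0, 3072, 5888, 6144⟩ :=
  ckB_sound (b (d z2 z2) z2) _ _ (by decide +kernel)

theorem okB1278 : CKB ⟨13824, 15360, 7168, 7296⟩ ⟨0, 3072, 5888, 6144⟩ :=
  ckB_sound (d (c (a (b (d (c (a z2 (b (d (c (a z2 (b z3 (d z3 z3))) (a z2 z3)) (a z2 (b z3 (d z3 z3)))) (d (c (a z2 (b (d (c (a z2 z3) (a z2 z3)) (a z2 z3)) (d z2 z2))) z2) (a z2 (b (d (c (a z2 z3) (a z2 z3)) (a z2 z3)) (d z2 z2)))))) (a z2 (b (d (c (a z2 z3) z2) (c (a z2 z3) (a z2 z3))) z2))) (a z2 (b (d (c (a z2 (b z3 (d z3 z3))) (a z2 z3)) (a z2 (b z3 (d z3 z3)))) (d (c (a z2 (b (d (c (a z2 z3) (a z2 z3)) (a z2 z3)) (d z2 z2))) z2) (a z2 (b (d (c (a z2 z3) z3) (a z2 z3)) (d z2 z2))))))) (d (c (a z2 (b (d z2 z2) z2)) z2) (a z2 (b (d z2 z2) z2)))) (b (d z3 z3) (d (c (a (b (d (c (a (b z3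 (d z3 z3)) z3) z3) (a (b z3 (d z3 z3)) z3)) (d (c (a (b (d (c (a z2 z3) (a z2 z3)) (a z2 z3)) (d z2 z2)) z3) (a z2 z3)) (a (b (d (c (a z2 z3) z3) (a z2 z3)) (d z2 z2)) z3))) z3) (a (b z3 (d (c (a z2 z3) z3) (c (a z2 z3) (a z2 z3)))) z3)) (a (b (d (c (a (b z3 (d z3 z3)) z3) z3) (a (b z3 (d z3 z3)) z3)) (d (c (a (b (d (c (a z2 z3) z3) (a z2 z3)) z2) z3) (a z2 z3)) (a (b (d (c (a z2 z3) z3) (a z2 z3)) z2) z3))) z3)))) (a (b (d z2 (c (a z2 (b (d z2 (c (a z2 z3) z2)) z2)) z2)) z2) (b z3 (d z3 (c (a (b z3 (d (c (a z2 z3) z3) (c (a z2 z3) (a z2 z3)))) z3) z3))))) (a (b (d (c (a z2 (b (d (c (a z2 (b z3 (d z3 z3))) (a z2 z3)) (a z2 (b z3 (d z3 z3)))) (d (c (a z2 (b (d (c (a z2 z3) z3) (a z2 z3)) z2)) z2) (a z2 (b (d (c (a z2 z3) z3) (a z2 z3)) z2))))) (a z2 (b (d z2 (c (a z2 z3) z2)) z2))) (a z2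 (b (d (c (a z2 (b z3 (d z3 z3))) (a z2 z3)) (a z2 z3)) (d (c (a z2 (b (d (c (a z2 z3) z3) (a z2 z3)) z2)) z2) (a z2 (b (d (c (a z2 z3) z3) (a z2 z3)) z2)))))) (d (c (a z2 (b (d z2 z2) z2)) z2) (a z2 (b (d z2 z2) z2)))) (b (d z3 z3) (d (c (a (b (d (c (a (b z3 (d z3 z3)) z3) z3) z3) (d (c (a (b (d (c (a z2 z3) z3) (a z2 z3)) z2) z3) (a z2 z3)) (a (b (d (c (a z2 z3) z3) (a z2 z3)) z2) z3))) z3) (a (b z3 (d z3 (c (a z2 z3) z3))) z3)) (a (b (d z3 z3) (d (c (a (b (d (c (a z2 z3) z3) (a z2 z3)) z2) z3) (a z2 z3)) (a z2 z3))) z3))))) _ _ (by decide +kernel)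

theorem okB1279 : CKB ⟨13824, 15360, 7296, 7424⟩ ⟨0, 3072, 5888, 6144⟩ :=
  ckB_sound (d (c (a (b (d z2 z2) z2) (b (d (c (a (b (d (c (a z2 (b z3 (d z3 z3))) (a z2 z3)) (a z2 (b z3 (d z3 z3)))) (d (c (a z2 (b (d (c (a z2 z3) z3) (a z2 z3)) z2)) z2) (a z2 (b (d (c (a z2 z3) z3) (a z2 z3)) z2)))) z3) (a (b (d z2 (c (a z2 z3) z2)) z2) z3)) (a (b (d (c (a z2 (b z3 (d z3 z3))) (a z2 z3)) (a z2 z3)) (d (c (a z2 (b (d (c (a z2 z3) z3) (a z2 z3)) z2)) z2) (a z2 (b (d (c (a z2 z3) z3) (a z2 z3)) z2)))) z3)) (d (c (a (b (d z2 z2) z2) (b (d (c (a (b z3 (d z3 z3)) z3) z3) z3) (d (c (a (b (d (c (a z2 z3) z3) (a z2 z3)) z2) z3) (a z2 z3)) (a z2 z3)))) (a z2 (b z3 (d z3 (c (a z2 z3) z3))))) (a (b (d z2 z2) z2) (b (d z3 z3) (d (c (a z2 z3) (a z2 z3)) (a z2 z3))))))) (a z2 (b (d (c (a z2 z3) (a z2 z3)) (c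 (a z2 z3) (a z2 z3))) (d (c (a z2 z3) z2) (c (a z2 (b z3 (d z3 (c (a z2 z3) z3)))) (a z2 z3)))))) (a (b (d z2 z2) z2) (b (d (c (a (b (d (c (a z2 z3) z2) (a z2 z3)) (d (c (a z2 (b (d (c (a z2 z3) z3) (a z2 z3)) z2)) z2) z2)) z3) (a z2 z3)) (a (b (d (c (a z2 z3) z2) (a z2 z3)) (d z2 z2)) z3)) (d (c (a (b (d z2 z2) z2) (b (d z3 z3) (d (c (a z2 z3) (a z2 z3)) (a z2 z3)))) (a z2 z3)) (a z2 (b (d z3 z3) (d (c (a z2 z3) z3) (a z2 z3)))))))) _ _ (by decide +kernel)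

theorem okB1280 : CKB ⟨12288, 15360, 7424, 7680⟩ ⟨0, 3072, 5632, 6144⟩ :=
  ckB_sound (d (c (a z2 (b (d (c (a z2 (b (d (c (a z2 (b (d (c (a z2 (b z3 (d z3 z3))) (a z2 z3)) (a z2 (c (b z3 (d z3 z3)) z3))) (d z2 z2))) (a z2 (b (d z2 (c (a z2 z3) z2)) z2))) (a z2 (c (b (d (a z2 (c (b z3 (d z3 z3)) z3)) (a z2 (b z3 (d z3 z0)))) (d z2 z2)) (b (d (a z2 z3) (a z2 z3)) z2)))) (d z2 z2))) z2) (a z2 (b (d (c (a z2 (b (d (c (a z2 (b z3 (d z3 z3))) z2) (a z2 (c (b z3 (d z3 z3)) z3))) (d z2 z2))) z2) (a z2 (c (b (d (a z2 (c (b z3 (d z3 z3)) z3)) (a z2 (b z3 (d z3 z0)))) (d z2 z2)) (b (d z2 (a z2 z3)) z2)))) (d z2 z2)))) (d z2 z2))) z2) (a z2 (b (d (c (a z2 (b (d (c (a z2 (b (d (c (a z2 z3) z2) (a z2 z3)) (d z2 z2))) z2) (a z2 (b (d (c (a z2 z3) z2) (a z2 z3)) (d z2 z2)))) (d z2 z2))) z2) (a z2 (b (d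 (c (a z2 (b (d (c (a z2 z3) z2) (a z2 z3)) (d z2 z2))) z2) (a z2 (b (d (c (a z2 z3) z2) (a z2 z3)) (d z2 z2)))) (d z2 z2)))) (d z2 z2)))) _ _ (by decide +kernel)

theorem okB1281 : CKB ⟨15360, 18432, 7168, 7424⟩ ⟨0, 3072, 5632, 6144⟩ :=
  ckB_sound (d (c (a (b z3 (d z3 z3)) z3) z3) (a (b z3 (d z3 z3)) z3)) _ _ (by decide +kernel)

theorem okB1282 : CKB ⟨15360, 18432, 7424, 7680⟩ ⟨0, 3072, 5632, 5888⟩ :=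
  ckB_sound (c (a (b (d (c (a (b (d z3 z3) (d (c (a (b (d (c (a (b z3 (d z3 z3)) z3) z3) (a (c (b z3 (d z3 z3)) z3) z3)) (d (c (a z2 z3) (a z2 z3)) (a z2 z3))) z3) (a (b z3 (d (c (a z2 z3) z3) (c (a z2 z3) (a z2 z3)))) z3)) (a (c (b (d (a (c (b z3 (d z3 z3)) z3) z3) (a (b z3 (d z3 z0)) z3)) (d (a z2 z3) (a z2 z3))) (b z3 (d (a z2 z3) (a z2 z3)))) z3))) z3) (a (b z3 (d z3 (c (a (b z3 (d (c (a z2 z3) z3) (c (a z2 z3) z3))) z3) z3))) z3)) (a (b (d z3 z3) (d (c (a (b (d (c (a (b z3 (d z3 z3)) z3) z3) (a (c (b z3 (d z3 z3)) z3) z3)) (d (c (a z2 z3) (a z2 z3)) (a z2 z3))) z3) (a (b z3 (d z3 (c (a z2 z3) z3))) z3)) (a (c (b (d z3 z3) (d (a z2 z3) (a z2 z3))) (b z3 (d (a z2 z3) (a z2 z3)))) z3))) z3)) (d (c (a (b (d (c (a (b (d (c (a z2 (b z3 (d z3 z3))) z2) (a z2 (c (b z3 (d z3 z3)) z3))) (d z2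 z2)) z3) (a z2 z3)) (a (c (b (d (a z2 (c (b z3 (d z3 z3)) z3)) (a z2 (b z3 (d z3 z0)))) (d z2 z2)) z2) z3)) (d (c (a z2 (b (d (c (a (b z3 z2) z3) z3) (a (c (b z3 z2) z3) z3)) (d (c (a z2 z3) (a z2 z3)) (a z2 z3)))) (a z2 (b z3 (d (c (a z2 z3) z3) (c (a z2 z3) (a z2 z3)))))) (a z2 (c (b (d (a (c (b z3 z2) z3) z3) (a (b z3 z2) z3)) (d (a z2 z3) (a z2 z3))) (b z3 (d (a z2 z3) (a z2 z3))))))) z3) (a (b (d (c (a z2 z3) (a z2 z3)) (c (a z2 z3) (a z2 z3))) (d z2 (c (a z2 (b z3 (d z3 (c (a z2 z3) z3)))) z2))) z3)) (a (b (d (c (a (b (d (c (a z2 (b z3 (d z3 z3))) z2) (a z2 (c (b z3 (d z3 z3)) z3))) z2) z3) (a z2 z3)) (a (c (b (d (a z2 z3) (a z2 z3)) z2) z2) z3)) (d (c (a z2 (b (d (c (a (b z3 z2) z3) z3) z3) (d (c (a z2 z3) (a z2 z3)) (a z2 z3)))) (a z2 (b z3 (d z3 (c (a z2 z3) z3))))) (a z2 (c (b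 (d z3 z3) (d (a z2 z3) (a z2 z3))) (b z3 (d (a z2 z3) (a z2 z3))))))) z3))) z3) (a (b (d z3 (c (a (b z3 (d z3 (c (a (b z3 (d z3 (c (a z2 z3) z3))) z3) z3))) z3) z3)) (d (c (a (b (d (c (a z2 z3) (a z2 z3)) (c (a z2 z3) (a z2 z3))) z2) z3) (a z2 z3)) (c (a (b (d (c (a z2 z3) (a z2 z3)) (c (a z2 z3) (a z2 z3))) z2) z3) (a (b (d (c (a z2 z3) z3) (c (a z2 z3) (a z2 z3))) z2) z3)))) z3)) _ _ (by decide +kernel)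

theorem okB1283 : CKB ⟨15360, 18432, 7424, 7680⟩ ⟨0, 3072, 5888, 6144⟩ :=
  ckB_sound (a (b (d (c (a (b (d z3 z3) (d (c (a (b (d z3 z3) (d (c (a z2 z3) (a z2 z3)) (a z2 z3))) z3) (a (b z3 (d z3 (c (a z2 z3) z3))) z3)) (a (b (d z3 z3) (d (c (a z2 z3) (a z2 z3)) (a z2 z3))) z3))) z3) z3) (a (b (d z3 z3) (d (c (a (b (d z3 z3) (d (c (a z2 z3) z3) (a z2 z3))) z3) z3) (a (b (d z3 z3) (d (c (a z2 z3) z3) (a z2 z3))) z3))) z3)) (d (c (a (b (d (c (a (b (d z2 z2) z2) z3) (a z2 z3)) (a (b (d z2 z2) z2) z3)) (d (c (a z2 (b (d z3 z3) (d (c (a z2 z3) (a z2 z3)) (a z2 z3)))) z2) (a z2 (b (d z3 z3) (d (c (a z2 z3) z3) (a z2 z3)))))) z3) (a (b (d (c (a z2 z3) (a z2 z3)) (c (a z2 z3) (a z2 z3))) z2) z3)) (a (b (d (c (a (b (d z2 z2) z2) z3) (a z2 z3)) (a (b (d z2 z2) z2) z3)) (d (c (a z2 (b (d z3 z3) (d (c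 (a z2 z3) z3) (a z2 z3)))) z2) (a z2 (b (d z3 z3) (d (c (a z2 z3) z3) (a z2 z3)))))) z3))) z3) _ _ (by decide +kernel)

theorem okB1284 : CKB ⟨12288, 15360, 7680, 8192⟩ ⟨0, 1920, 5120, 5632⟩ :=
  ckB_sound (b (d z2 z2) z2) _ _ (by decide +kernel)

theorem okB1285 : CKB ⟨15360, 18432, 7680, 7936⟩ ⟨0, 1920, 5120, 5632⟩ :=
  ckB_sound (d (c (a (b (d (c (a (b (d z2 z2) z2) (b (d z3 z3) (d (c (a (b (d z3 z3) z2) z3) (a z2 z3)) (c (a (b (d z3 z3) z2) z3) (a z2 z3))))) (a z2 (b z3 (d z3 (c (a z2 z3) z3))))) (a (c (b (d z2 z2) z2) z2) (c (b (d z3 z3) (d (a (c (b (d (a z2 z3) (a z2 z3)) z2) (b z3 z2)) z3) (a (b (d (a z2 z3) (a z2 z3)) z2) z3))) (b z3 (d (a z2 z3) (a (c (b z3 z2) z2) z3)))))) (d (c (a z2 (b (d (c (a z2 z3) (a z2 z3)) (c (a z2 z3) (a z2 z3))) (d z2 z2))) (a z2 (b (d (c (a z2 z3) z2)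 (c (a z2 z3) z2)) z2))) (a z2 (c (b (d (a z2 z3) (a z2 z3)) (d z2 z2)) (b (d (a z2 z3) (a z2 z3)) z2))))) (b z3 (d z3 z3))) (a (b (d (c (a z2 z3) (a z2 z3)) (c (a z2 (b z3 (d z3 (c (a z2 z3) z3)))) (a z2 z3))) (d z2 (c (a z2 (b (d z2 (c (a z2 z3) z2)) z2)) z2))) z3)) (a (c (b (d (a (c (b (d (a z2 (c (b (d z2 z2) z2) z2)) (a z2 (b (d z2 z0) z2))) z2) z2) (c (b (d z3 z3) (d (a (c (b (d (a z2 z3) (a z2 z3)) (d z2 z2)) (b z3 z2)) z3) (a (b (d (a z2 z3) z0) (d z2 z0)) z3))) (b z3 (d (a z2 z3) (a (c (b (d z3 (a z2 z3)) z2) z2) z3))))) (a (b (d (a z2 (b (d z2 z2) z2)) z0) z2) (b (d z3 z0) (d (a (b (d (c (a z2 z3) z3) (a z2 z3)) (d z2 z2)) z3) z0)))) (d (a z2 (c (b (d (a z2 z3) (a z2 z3)) (d z2 z2)) (b (d (a z2 z3) (a z2 z3)) z2))) (a z2 (b (d (a z2 z3) z0) (d z2 z0))))) (b (d (a z2 (c (b z3 (d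 z3 (a z2 z3))) z3)) (a (c (b (d z2 (a z2 (b (d z2 z2) z2))) z2) z2) (c (b z3 (d (a (c (b z3 z2) z2) z3) (a (b (d (c (a z2 z3) z3) (a z2 z3)) (d z2 z2)) z3))) (b z3 (d z3 (a z2 z3)))))) (d (a z2 (c (b (d z2 (a z2 z3)) z2) z2)) (a z2 (c (b (d (a z2 z3) (a z2 z3)) (d z2 z2)) (b (d (a z2 z3) (a z2 z3)) z2)))))) (c (b z3 (d z3 z3)) z3))) _ _ (by decide +kernel)

theorem okB1286 : CKB ⟨15360, 18432, 7936, 8192⟩ ⟨0, 1920, 5120, 5632⟩ :=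
  ckB_sound (d (c (a (b (d z2 z2) z2) (b (d (c (a (b (d z3 z3) (d (c (a z2 z3) (a z2 z3)) (c (a z2 z3) (a z2 z3)))) z3) (a (b z3 (d (c (a z2 z3) z3) (c (a z2 z3) z3))) z3)) (c (a (b (d z3 z3) (d (c (a z2 z3) (a z2 z3)) (a z2 z3))) z3) (a (b z3 (d (a z2 z3) (a z2 z3))) z3))) (d (c (a (b (d z2 z2) z2) z3) (a z2 z3)) (c (a (b (d z2 z2) z2) z3) (a z2 z3))))) (a z2 (b (d z3 (c (a (b z3 (d z3 (c (a z2 z3) z3))) z3) z3)) (d (c (a z2 z3) (a z2 z3)) (c (a z2 z3) (a z2 z3)))))) (a (c (b (d z2 z2) z2) z2) (c (b (d (a (c (b (d z3 z3) (d (a z2 z3) (a z2 z3))) (b z3 (d (a z2 z3) (a z2 z3)))) z3) (a (b (d z3 z0) (d (a z2 z3) z0)) z3)) (d (a (c (b (d z2 z2) z2) z2) z3) (a (b (d z2 z0) z2) z3))) (b (d (a (c (b z3 (d z3 (a z2 z3))) z3) z3) (a (c (b (d z3 z3) (d (a z2 z3) (a z2 z3))) (b z3 (d z3 (a z2 z3))))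 z3)) (d (a z2 z3) (a z2 z3)))))) _ _ (by decide +kernel)

theorem okB1287 : CKB ⟨12288, 18432, 7680, 8192⟩ ⟨1920, 3072, 5120, 5632⟩ :=
  ckB_sound (a z2 (b (d (c (a (b (d (c (a z2 z3) (a z2 z3)) (c (a z2 z3) (a z2 z3))) z2) z3) (a z2 z3)) (c (a (b (d (c (a z2 z3) (a z2 z3)) (c (a z2 z3) (a z2 z3))) z2) z3) (a (b (d (c (a z2 z3) z2) (c (a z2 z3) (a z2 z3))) z2) z3))) (d (c (a z2 (b z3 (d (c (a z2 z3) (a z2 z3)) (c (a z2 z3) (a z2 z3))))) (a z2 (b z3 (d z3 (c (a z2 z3) z3))))) (c (a z2 (b z3 (d (c (a z2 z3) (a z2 z3)) (c (a z2 z3) (a z2 z3))))) (a z2 (b z3 (d (c (a z2 z3) z3) (c (a z2 z3) (a z2 z3))))))))) _ _ (by decide +kernel)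

theorem okB1288 : CKB ⟨12288, 18432, 7680, 8192⟩ ⟨0, 3072, 5632, 6144⟩ :=
  ckB_sound (a (b (d z2 (a z2 (b (d z2 z2) z2))) (d z2 z2)) (b (d (c (a (b (d (c (a (b (d (c (a z2 (b (d z2 z2) z2)) z2) (a z2 (c (b (d z2 z2) z2) z2))) z2) (b (d z3 z3) (d (c (a (b (d (c (a z2 z3) z3) (a z2 z3)) (d z2 z2)) z3) (a z2 z3)) (a (c (b (d (a z2 z3) (a z2 z3)) z2) (b z3 z2)) z3)))) (a z2 (b z3 (d z3 (c (a z2 z3) z3))))) (a (b (d (c (a z2 (b (d z2 z2) z2)) z2) z2) z2) (b (d z3 z3) (d (c (a (b (d z3 z3) z2) z3) (a z2 z3)) (a (c (b (d z3 z3) z2) z2) z3))))) (d (c (a z2 (b (d (c (a z2 z3) (a z2 z3)) (a z2 z3)) (d z2 z2))) (a z2 (b (d z2 (c (a z2 z3) z2)) z2))) (a z2 (b (d (c (a z2 z3) (a z2 z3)) (a z2 z3)) (d z2 z2))))) (b z3 (d z3 z3))) (a (b (d (c (a z2 z3) (a z2 z3)) (c (a z2 z3) (a z2 z3))) z2) z3)) (a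 (b (d (c (a (b (d z2 z2) z2) (b (d z3 z3) (d (c (a (b (d z3 z3) z2) z3) z3) (a (b (d z3 z3) z2) z3)))) (a z2 z3)) (a (b (d z2 z2) z2) (b (d z3 z3) (d (c (a (b (d z3 z3) z2) z3) z3) (a (b (d z3 z3) z2) z3))))) (d (c (a z2 (b (d (c (a z2 z3) z2) (a z2 z3)) (d z2 z2))) z2) (a z2 (b (d (c (a z2 z3) z2) (a z2 z3)) (d z2 z2))))) (b z3 (d z3 z3)))) (d (c (a (b (d z2 z2) z2) (b (d (c (a (b (d z3 z3) (d (c (a z2 z3) (a z2 z3)) (a z2 z3))) z3) z3) (a (b (d z3 z3) (d (c (a z2 z3) z3) (a z2 z3))) z3)) (d (c (a (b (d z2 z2) z2) z3) (a z2 z3)) (a (b (d z2 z2) z2) z3)))) (a z2 (b z3 (d (c (a z2 z3) (a z2 z3)) (c (a z2 z3) (a z2 z3)))))) (a (b (d z2 z2) z2) (b (d (c (a (b (d z3 z3) (d (c (a z2 z3) z3) (a z2 z3))) z3) z3) (a (b (d z3 z3) (d (c (a z2 z3) z3) (a z2 z3))) z3)) (d (c (a (b (d z2 z2) z2) z3)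 (a z2 z3)) (a z2 z3))))))) _ _ (by decide +kernel)

theorem okB1289 : CKB ⟨18432, 24576, 7168, 8192⟩ ⟨0, 3072, 5120, 6144⟩ :=
  ckB_sound (b (d (c (b (d z3 z3) (d z3 (a z3 (c (b z3 z3) z3)))) (b z3 z3)) (b (d (c (a z3 (b z3 z3)) z3) (a z3 (b z3 (d z3 z3)))) (d (c (a z3 (b (d z3 z3) (d z3 z3))) z3) (a z3 (b (d z3 z3) (d z3 (a z3 (b z3 z3)))))))) (d (c (a z3 (b (d z3 (c (b z3 (d z3 z3)) (b z3 z3))) (d (c (b z3 z3) z3) (c (b (d z3 z3) (d z3 (a z3 (b z3 z3)))) (b z3 z3))))) (a z3 (b z3 z3))) (a (b z3 (d z3 z3)) (b (d (c (b (d z3 z3) (d z3 (a z3 (b z3 z3)))) (b z3 z3)) (b (d (c (a z3 (b z3 z3)) z3) (a z3 (b z3 z3))) (d (c (a z3 (b z3 (d z3 z3))) z3) (a z3 (b (d z3 z3) (d z3 z3)))))) (d (c (b (d (c (a z3 (b z3 z3)) z3) (a z3 (b z3 z3))) (d (a z3 (c (b z3 z3) z3)) (a z3 (b (d z3 z3) (d z3 z3)))))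 (b z3 z3)) (b (d (c (a z3 (b (d z3 z3) (d z3 z3))) z3) (a z3 (b (d z3 z3) (d z3 z3)))) (d (a z3 (c (b (d z3 z3) (d z3 z3)) z3)) (a z3 (b (d z3 z3) (d z3 (a z3 (b z3 z3)))))))))))) _ _ (by decide +kernel)

end Vale.Agent.Lib.P154Q5
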