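import Vale.Agent.Lib.P154Q5.CkBDefs

namespace Vale.Agent.Lib.P154Q5

set_option maxRecDepth 100000
set_option exponentiation.threshold 1000

open Tr

theorem okB1290 : CKB ⟨12288, 24576, 6144, 7168⟩ ⟨3072, 6144, 4096, 5120⟩ :=
  ckB_sound (a (b (d z3 (c (a (b z3 (d z3 (c (a (b z3 (d (c (a z2 z3) z3) (c (a z2 z3) (a z2 z3)))) z3) z3))) z3) z3)) (d (c (a (b (d (c (a z2 z3) (a z2 z3)) (c (a z2 z3) (a z2 z3))) z2) z3) (a z2 z3)) (c (a (b (d (c (a z2 z3) (a z2 z3)) (c (a z2 z3) (a z2 z3))) z2) z3) (a (b (d (c (a z2 z3) (a z2 z3)) (c (a z2 z3) (a z2 z3))) z2) z3)))) z3) _ _ (by decide +kernel)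

theorem okB1291 : CKB ⟨12288, 17067, 6144, 6656⟩ ⟨3072, 6144, 5120, 6144⟩ :=
  ckB_sound (d (c (a (b z3 (d (c (a (b z3 (d (c (a z2 z3) (a z2 z3)) (c (a z2 z3) (a z2 z3)))) z3) (a (b z3 (d (c (a z2 z3) z3) (c (a z2 z3) z3))) z3)) (c (a (b z3 (d (c (a z2 z3) (a z2 z3)) (c (a z2 z3) (a z2 z3)))) z3) (a (b z3 (d (c (a z2 z3) (a z2 z3)) (c (a z2 z3) (a z2 z3)))) z3)))) z3) (a (b z3 (d z3 (c (a (b z3 (d z3 (c (a z2 z3) z3))) z3) z11))) z3)) (c (a (b z3 (d (c (a (b (d (c (a (b z3 (d (c (a z2 z3) z3) (c (a z2 z3) (a z2 z3)))) z3) z3) (c (a (b z3 (d (c (a z2 z3) (a z2 z3)) (c (a z2 z3) (a z2 z3)))) z3) (a (b z3 (d (c (a z2 z3) z3) (c (a z2 z3) (a z2 z3)))) z3))) (d (c (a z2 z3) (a z2 z3)) (c (a z2 z3) (a z2 z3)))) z3) (a (b z3 (d (c (a z2 z3) (a z2 z3)) (c (a z2 z3) (a z2 z3)))) z3)) (c (a (b (d (c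 (a (b (d (c (a (b z3 z2) z3) z3) (c (a (b z3 z2) z3) z3)) (d (c (a z2 z3) (a z2 z3)) (c (a z2 z3) (a z2 z3)))) z3) (a (b z3 (d (c (a z2 z3) (a z2 z3)) (c (a z2 z3) (a z2 z3)))) z3)) (c (a (b (d (c (a (b z3 z2) z3) (a (b z3 z2) z3)) (c (a (b (d (c (a z2 z3) z3) (c (a z2 z3) (a z2 z3))) z2) z3) (a (b z3 z2) z3))) (d (c (a z2 z3) (a z2 z3)) (c (a z2 z3) (a z2 z3)))) z3) (a (b (d z3 (c (a (b z3 z2) z3) z3)) (d (c (a z2 z3) (a z2 z3)) (c (a z2 z3) (a z2 z3)))) z3))) (d (c (a z2 z3) (a z2 z3)) (c (a (b (d z2 (c (a z2 (b (d (c (a z2 z3) (a z2 z3)) (c (a z2 z3) (a z2 z3))) z2)) z2)) z2) z3) (a z2 z3)))) z3) (a (b (d (c (a (b z3 (d z3 (c (a z2 z3) z3))) z3) z3) (c (a (b z3 (d (c (a z2 z3) (a z2 z3)) (c (a z2 z3) (a z2 z3)))) z3) (a (b z3 (d z3 (c (a z2 z3) z3))) z3))) (d (c (a z2 z3) (a z2 z3)) (c (a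 z2 z3) (a z2 z3)))) z3)))) z3) (a (b z3 (d (c (a (b z3 (d (c (a z2 z3) (a z2 z3)) (c (a z2 z3) (a z2 z3)))) z3) (a (b z11 (d z11 (c (a z10 z11) z11))) z11)) (c (a (b z3 (d (c (a z2 z3) (a z2 z3)) (c (a z2 z3) (a z2 z3)))) z3) (a (b z11 (d (c (a z10 z11) z11) (c (a z2 z3) (a z10 z11)))) z11)))) z3))) _ _ (by decide +kernel)

theorem okB1292 : CKB ⟨12288, 17067, 6656, 7168⟩ ⟨3072, 6144, 5120, 6144⟩ :=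
  ckB_sound (d (c (a (b (d (c (a z2 z3) (a z2 z3)) (c (a z2 z3) (a z2 z3))) (d (c (a z2 (b z3 z2)) z2) (c (a z2 (b (d (c (a z2 z3) z3) (c (a z2 z3) (a z2 z3))) z2)) z2))) z3) (a (b (d (c (a z2 z3) (a z2 z3)) (c (a z2 z3) (a z10 z11))) z2) z3)) (c (a (b (d (c (a (b (d z2 (c (a z2 (b (d z3 (c (a z2 z3) z3)) z2)) z2)) z2) z3) (a z2 z3)) (c (a (b (d (c (a z2 (b (d (c (a z2 z3) z3) (c (a z2 z3) (a z2 z3))) (d z2 (c (a z2 z3) z2)))) (a z2 (b z3 z2))) (c (a z2 (b (d (c (a z2 z3) (a z2 z3)) (c (a (b (d (c (a z2 z3) (a z2 z3)) (c (a z2 z3) (a z2 z3))) z2) z3) (a z2 z3))) (d (c (a z2 z3) (a z2 z3)) (c (a z2 (b z3 (d (c (a (b z3 z2) z3) z3) (c (a (b z3 z2) z3) z3)))) (a z2 z3))))) (a z2 (b (d (c (a z2 z3) z3) (c (a z2 z3) (a z2 z3))) z2)))) (d z2 (c (a z2 (b (d z2 (c (a z2 (b (d z2 (c (a z2 z3) z2)) z2))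 z2)) z2)) z2))) (b z3 (d z3 (c (a (b z3 (d (c (a (b z3 (d (c (a z2 z3) z3) (c (a z2 z3) z3))) z3) z3) (c (a (b z3 (d (c (a z2 z3) (a z2 z3)) (c (a z2 z3) (a z2 z3)))) z3) (a (b z3 (d z3 (c (a z2 z3) z3))) z3)))) z3) z3)))) (a z2 z3))) (d (c (a z2 (b (d (c (a z2 z3) (a z2 z3)) (c (a z2 z3) (a z2 z3))) (d (c (a z2 z3) z2) (c (a z2 z3) z2)))) (a z2 (b (d z3 (c (a z2 z3) z3)) z2))) (c (a z2 (b (d (c (a (b (d (c (a z2 z3) (a z2 z3)) (c (a z2 z3) (a z2 z3))) z2) z3) (a z2 z3)) (c (a (b (d (c (a z2 z3) (a z2 z3)) (c (a z2 z3) (a z2 z3))) (d z2 (c (a z2 (b (d z3 (c (a z2 z3) z3)) z2)) z2))) z3) (a (b (d (c (a z2 z3) (a z2 z3)) (c (a z2 z3) (a z2 z3))) z2) z3))) (d (c (a z2 (b z3 (d (c (a z2 z3) z3) (c (a z2 z3) (a z2 z3))))) (a z2 z3)) (c (a z2 (b z3 (d (c (a z2 z3) (a z2 z3)) (c (a z2 z3) (a z2 z3)))))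 (a z2 (b z3 (d (c (a z2 z3) z3) (c (a z2 z3) z3)))))))) (a z2 (b (d (c (a z2 z3) (a z2 z3)) (c (a z2 z3) (a z2 z3))) (d z2 (c (a z2 z3) z2))))))) z3) (a (b (d (c (a z2 z3) (a z10 z11)) (c (a z2 z3) (a z10 z11))) (d z2 (c (a z2 (b z3 z2)) z10))) z3))) _ _ (by decide +kernel)

theorem okB1293 : CKB ⟨17067, 24576, 6144, 7168⟩ ⟨3072, 6144, 5120, 6144⟩ :=
  ckB_sound (b z3 (d z3 (c z3 (b z3 z3)))) _ _ (by decide +kernel)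

theorem okB1294 : CKB ⟨12288, 24576, 7168, 8192⟩ ⟨3072, 6144, 4096, 6144⟩ :=
  ckB_sound (d (a (b (d (c (a z2 z3) (a z2 z3)) (c (a z2 z3) (a z2 z3))) (d (c (a z2 (b (d (c (a z2 z3) (a z2 z3)) (c (a z2 z3) (a z2 z3))) z2)) z2) (c (a z2 (b (d (c (a z2 z3) (a z2 z3)) (c (a z2 z3) (a z2 z3))) z2)) (a z2 (b (d (c (a z2 z3) z3) (c (a z2 z3) (a z2 z3))) z2))))) (b z3 z3)) (a (b (d (c (a (b (d z2 (c (a z2 (b (d (c (a z2 z3) z2) (c (a z2 z3) (a z2 z3))) z2)) z2)) z2) z3) (a z2 z3)) (c (a (b (d (c (a z2 (b (d (c (a z2 z3) (a z2 z3)) (c (a z2 z3) (a z2 z3))) (d z2 (c (a z2 (b (d z3 (c (a z2 z3) z3)) z2)) z2)))) (a z2 (b (d z2 (c (a z2 z3) z2)) z2))) (c (a z2 (b (d (c (a z2 z3) (a z2 z3)) (c (a z2 (b z3 (d z3 (c (a (b z3 (d z3 (c (a z2 z3) z3))) z3) z3)))) (a z2 z3))) (d (c (a z2 (b (d (c (a z2 z3) z3)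 (c (a z2 z3) (a z2 z3))) z2)) z2) (c (a z2 (b (d (c (a z2 z3) (a z2 z3)) (c (a z2 z3) (a z2 z3))) (d (c (a z2 z3) z2) (c (a z2 z3) z2)))) (a z2 (b (d (c (a z2 z3) z3) (c (a z2 z3) (a z2 z3))) z2)))))) (a z2 (b (d (c (a z2 z3) z2) (c (a z2 z3) (a z2 z3))) z2)))) z2) (b z3 (d (c (a (b z3 (d (c (a z2 z3) z3) (c (a z2 z3) (a z2 z3)))) z3) z3) (c (a (b z3 (d (c (a z2 z3) (a z2 z3)) (c (a (b (d (c (a z2 z3) (a z2 z3)) (c (a z2 z3) (a z2 z3))) z2) z3) (a z2 z3)))) z3) (a (b z3 (d z3 (c (a z2 z3) z3))) z3))))) (a z2 z3))) (d (c (a z2 (b (d (c (a z2 z3) (a z2 z3)) (c (a z2 z3) (a z2 z3))) (d (c (a z2 z3) z2) (c (a z2 z3) z2)))) (a z2 (b (d (c (a z2 z3) (a z2 z3)) (c (a z2 z3) (a z10 z11))) z2))) (c (a z2 (b (d (c (a (b (d z2 (c (a z2 z3) z2)) z2) z3) (a z2 z3)) (c (a (b (d (c (a z2 z3) (a z2 z3)) (c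 (a z2 z3) (a z2 z3))) z2) z3) (a z2 z3))) (d (c (a z2 (b z3 (d (c (a z2 z3) z3) (c (a z2 z3) z3)))) (a z2 z3)) (c (a z2 (b z3 (d (c (a z2 z3) (a z2 z3)) (c (a z2 z3) (a z2 z3))))) (a z2 z3))))) (a z2 (b (d (c (a z2 z3) (a z10 z11)) (c (a z2 z3) (a z10 z11))) z2))))) (b (d z3 (c (b z3 (d z3 (c (a z3 (b z3 z3)) z3))) (b z3 z3))) (d (c (a z3 (b z3 z3)) z3) (c (a z3 (b (d z3 (c (b z3 z3) z3)) (d z3 (c (b z3 (d z3 (a z3 (c (b z3 z3) z3)))) z3)))) (a z3 (b z3 z3))))))) _ _ (by decide +kernel)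

theorem okB1295 : CKB ⟨12288, 14678, 6144, 6400⟩ ⟨0, 4608, 6144, 6656⟩ :=
  ckB_sound (d (c (a (b z3 (d (c (a (b z3 (d (c (a (b z3 (d z3 z3)) z3) z3) (a (b z3 (d z3 z3)) z3))) z3) z3) (a (b z3 (d (c (a (b z3 (d z3 z3)) z3) z3) (a (b z3 (d z3 z3)) z3))) z3))) z3) z3) (a (b z3 (d (c (a (b z3 (d z3 z3)) z3) z3) (a (b z3 (d z3 z3)) z3))) z3)) _ _ (by decide +kernel)

theorem okB1296 : CKB ⟨12288, 13483, 6400, 6528⟩ ⟨0, 3840, 6144, 6400⟩ :=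
  ckB_sound (d (c (a (b (d (c (a (b (d (c (a (b (d (c (a z2 z3) z3) (a z2 z3)) z2) z3) (a z2 z3)) (a (b (d (c (a z2 z3) z3) (a z2 z3)) z2) z3)) (d (c (a z2 z3) z2) (a z2 z3))) z3) (a (b (d (c (a z2 z3) z3) (c (a z2 z3) z3)) z2) z3)) (a (b (d (c (a z2 z3) (a z2 z3)) (a z2 z3)) (d (c (a z2 z3) z2) (a z2 z3))) z3)) (d (c (a (b (d (c (a z2 (b (d (c (a z2 z3) z3) (a z2 z3)) z2)) z2) (a z2 (b (d (c (a z2 z3) z3) (a z2 z3)) z2))) (d z2 z2)) (b z3 (d (c (a (b z3 (d z3 z3)) z3) z3) (a (b z3 (d z3 z3)) z3)))) (a z2 z3)) (a (b (d z2 z2) (d z2 z2)) (b z3 (d (c (a (b z3 (d z3 z3)) z3) z3) z3))))) z3) (a (b (d (c (a (b z3 z2) z3) (a (b z3 z2) z3)) (c (a (b (d z3 (c (a z2 z3) z3)) z2) z3) (a (b z3 z2) z3))) (d (c (a z2 z3) (a z2 z3)) (c (a z2 z3) (a z2 z3)))) z3)) (a (b (d (c (a (b (d (c (a z2 z3) (a z2 z3))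 (a z2 z3)) (d (c (a z2 z3) z2) (a z2 z3))) z3) (a (b (d z3 (c (a z2 z3) z3)) z2) z3)) (a (b (d (c (a z2 z3) z3) (a z2 z3)) (d (c (a z2 z3) z2) z2)) z3)) (d (c (a (b (d z2 z2) z2) (b z3 (d z3 z3))) (a z2 z3)) (a (b (d z2 z2) z2) (b z3 (d z3 z3))))) z3)) _ _ (by decide +kernel)

theorem okB1297 : CKB ⟨12288, 13483, 6528, 6656⟩ ⟨0, 3840, 6144, 6400⟩ :=
  ckB_sound (d (c (a (b (d (c (a z2 (b (d (c (a (b (d (c (a z2 z3) (a z2 z3)) (a z2 z3)) z2) z3) (a z2 z3)) (a (b (d (c (a z2 z3) z3) (a z2 z3)) z2) z3)) (d (c (a z2 (b z3 (d z3 z3))) z2) (a z2 (b z3 (d z3 z3)))))) (a z2 (b (d (c (a z2 z3) z3) (c (a z2 z3) (a z2 z3))) z2))) (a z2 (b (d (c (a z2 z3) (a z2 z3)) (a z2 z3)) (d (c (a z2 (b z3 (d z3 z3))) z2) (a z2 (b z3 (d z3 z3))))))) (d (c (a z2 (b (d (c (a z2 (b (d z2 z2) z2)) z2) z2) (d z2 z2)))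 z2) (a z2 (b (d z2 z2) (d z2 z2))))) (b (d z3 z3) (d (c (a (b (d z3 z3) (d (c (a (b z3 (d (c (a z2 z3) z3) (a z2 z3))) z3) z3) (a (b z3 (d (c (a z2 z3) z3) (a z2 z3))) z3))) z3) z3) (a (b z3 (d (c (a (b z3 (d (c (a z2 z3) z3) z3)) z3) z3) (a (b z3 (d z3 z3)) z3))) z3)))) (a (b (d z2 (c (a z2 (b (d (c (a z2 z3) z3) (c (a z2 z3) (a z2 z3))) z2)) z2)) z2) z3)) (a (b (d (c (a z2 (b (d (c (a z2 z3) (a z2 z3)) (a z2 z3)) (d (c (a z2 (b z3 (d z3 z3))) z2) (a z2 z3)))) (a z2 (b (d z3 (c (a z2 z3) z3)) z2))) (a z2 (b (d (c (a z2 z3) (a z2 z3)) (a z2 z3)) (d (c (a z2 z3) z2) z2)))) (d (c (a z2 (b (d z2 z2) z2)) z2) (a z2 (b (d z2 z2) z2)))) (b z3 (d (c (a (b z3 (d (c (a (b z3 (d z3 z3)) z3) z3) (a (b z3 (d z3 z3)) z3))) z3) z3) (a (b z3 (d (c (a (b z3 (d z3 z3)) z3) z3) z3)) z3))))) _ _ (by decide +kernel)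

theorem okB1298 : CKB ⟨13483, 14678, 6400, 6656⟩ ⟨0, 3840, 6144, 6400⟩ :=
  ckB_sound z3 _ _ (by decide +kernel)

theorem okB1299 : CKB ⟨12288, 14678, 6400, 6656⟩ ⟨3840, 4608, 6144, 6400⟩ :=
  ckB_sound (a (b (d (c (a (b z3 (d (c (a z2 z3) (a z2 z3)) (c (a z2 z3) (a z2 z3)))) z3) (a (b z3 (d (c (a z2 z3) z3) (c (a z2 z3) (a z2 z3)))) z3)) (c (a (b (d (c (a (b z3 z2) z3) z3) (c (a (b (d z3 (c (a z2 z3) z3)) z2) z3) (a (b z3 z2) z3))) (d (c (a z2 z3) (a z2 z3)) (c (a z2 z3) (a z2 z3)))) z3) (a (b z3 (d (c (a z2 z3) (a z2 z3)) (c (a z2 z3) (a z2 z3)))) z3))) (d (c (a z2 z3) (a z2 z3)) (c (a z2 z3) (a z2 z3)))) z3) _ _ (by decide +kernel)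

theorem okB1300 : CKB ⟨12288, 14678, 6400, 6656⟩ ⟨0, 4608, 6400, 6656⟩ :=
  ckB_sound (a (b (d (c (a (b (d (c (a (b (d (c (a z2 z3) z3) (a z2 z3)) (d z2 z2)) z3) (a (b z3 z2) z3)) (a (b (d (a z2 z3) z3) (d z2 z2)) z3)) (d (c (a (b (d z2 z2) z2) (b z3 (d z3 z3))) (a z2 z3)) (a z2 z3))) z3) (a (b (d (c (a (b z3 z2) z3) z3) (c (a (b z3 z2) z3) z3)) (d (c (a z2 z3) (a z2 z3)) (c (a z2 z3) (a z2 z3)))) z3)) (a (b (d (a (c (b (d z3 z3) z2) (b z3 z2)) z3) (a (b (d z3 z0) z2) z3)) (d (a z2 z3) (a z2 z3))) z3)) (d (c (a (b (d (c (a z2 (b (d (c (a z2 z3) z3) (a z2 z3)) (d z2 z2))) z2) (a z2 (b (d (a z2 z3) (a z2 z3)) (d z2 z2)))) (d (c (a z2 (b (d z2 z2) z2)) z2) z2)) (b z3 (d (c (a (b z3 (d z3 z3)) z3) z3) (a (b z3 (d z3 z3)) z3)))) (a z2 z3)) (a (b (d (a z2 (c (b (d (a z2 z3) z3) z2) (b z3 z2))) (a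 z2 (b (d z3 z0) z2))) (d z2 z2)) (b z3 (d (a (c (b z3 (d z3 z3)) z3) z3) z3))))) z3) _ _ (by decide +kernel)

theorem okB1301 : CKB ⟨14678, 17067, 6144, 6656⟩ ⟨0, 4608, 6144, 6656⟩ :=
  ckB_sound z3 _ _ (by decide +kernel)

theorem okB1302 : CKB ⟨12288, 17067, 6144, 6656⟩ ⟨4608, 6144, 6144, 6656⟩ :=
  ckB_sound (a (b z3 (d (c (a (b (d z3 (c (a (b z3 (d (c (a z2 z3) z3) (c (a z2 z3) (a z2 z3)))) z3) z3)) (d (c (a z2 z3) (a z2 z3)) (c (a z2 z3) (a z2 z3)))) z3) (a (b z3 (d (c (a z2 z3) (a z10 z11)) (c (a z2 z3) (a z2 z3)))) z3)) (c (a (b (d (c (a (b z3 (d (c (a z2 z3) (a z2 z3)) (c (a z2 z3) (a z2 z3)))) z3) (a (b z3 (d z3 (c (a z2 z3) z3))) z3)) (c (a (b (d z3 (c (a (b z3 z2) z3) z3)) (d (c (a z2 z3) (a z2 z3)) (c (a z2 z3) (a z2 z3)))) z3) (a (b z3 (d (c (a z2 z3) z3) (c (a z2 z3) (a z2 z3))))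 z3))) (d (c (a z2 z3) (a z2 z3)) (c (a z2 z3) (a z2 z3)))) z3) (a (b z3 (d (c (a z2 z3) (a z2 z3)) (c (a z2 z3) (a z2 z3)))) z3)))) z3) _ _ (by decide +kernel)

theorem okB1303 : CKB ⟨12288, 17067, 6144, 6656⟩ ⟨0, 6144, 6656, 7168⟩ :=
  ckB_sound (a (b (d (c (a (b z3 (d (c (a (b z3 (d z3 z3)) z3) z3) z3)) z3) z3) (a (b z3 (d z3 z0)) z3)) (d (c (a (b (d (c (a (b (d (c (a (b (d z3 z3) z2) z3) z3) (a (b z3 z2) z3)) (d (c (a z2 z3) (a z2 z3)) (a z2 z3))) z3) (a (b z3 (d (a z2 z3) (a z2 z3))) z3)) (a (b (d (a (b z3 z2) z3) z0) (d (a z2 z3) z0)) z3)) (d (c (a (b (d z2 z2) (d z2 z2)) (b z3 (d z3 z3))) (a z2 z3)) (a (b (d z2 z0) z2) (b z3 (d z3 z0))))) z3) (a (b (d (a (c (b z3 (d z3 (a z2 z3))) z3) z3) (a (c (b (d z3 z3) (d (a z2 z3) (a z2 z3))) z3) z3)) (d (a z2 z3) (a z2 z3))) z3)) (a (b (d (a (b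 (d z3 z3) (d (a z2 z3) (a z2 z3))) z3) z0) (d (a z2 z3) z0)) z3))) z3) _ _ (by decide +kernel)

theorem okB1304 : CKB ⟨12288, 13483, 6656, 6912⟩ ⟨0, 3840, 6144, 6400⟩ :=
  ckB_sound (b (d (c (a (b (d z2 z2) (d z2 z2)) (b (d (c (a (b (d (c (a (b (d z2 z2) z2) z3) (a z2 z3)) (a z2 z3)) (d (c (a z2 (b (d z3 z3) (d (c (a z2 z3) z3) (a z2 z3)))) z2) (a z2 (b (d z3 z3) (d (c (a z2 z3) z3) (a z2 z3)))))) z3) (a (b (d (c (a z2 z3) (a z2 z3)) (c (a z2 z3) (a z2 z3))) z2) z3)) (a (b (d (c (a z2 z3) (a z2 z3)) (a z2 z3)) (d (c (a z2 (b (d z3 z3) (d (c (a z2 z3) z3) (a z2 z3)))) z2) (a z2 (b z3 (d (c (a z2 z3) z3) (a z2 z3)))))) z3)) (d (c (a (b (d z2 z2) (d z2 z2)) (b (d z3 z3) (d (c (a (b (d (c (a z2 z3) z3) (a z2 z3)) (d z2 z2)) z3) (a (b z3 z2) z3)) (a (b (d z3 z3) (d z2 z2)) z3)))) (a z2 (b z3 (d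 z3 (c (a (b z3 z2) z3) z3))))) (a (b (d z2 z2) z2) (b (d z3 z3) (d (c (a (b (d z3 z3) z2) z3) (a (b z3 z2) z3)) (a (b (d z3 z3) z2) z3))))))) (a z2 (b (d (c (a z2 z3) (a z2 z3)) (c (a (b (d (c (a z2 z3) (a z2 z3)) (c (a z2 z3) (a z2 z3))) z2) z3) (a z2 z3))) (d (c (a z2 z3) z2) (c (a z2 z3) (a z2 z3)))))) (a (b (d z2 z2) (d z2 z2)) (b (d (c (a (b (d (c (a z2 z3) (a z2 z3)) (a z2 z3)) (d (c (a z2 (b z3 (d (c (a z2 z3) z3) z3))) z2) (a z2 (b z3 (d z3 z3))))) z3) (a z2 z3)) (a (b (d (c (a z2 z3) (a z2 z3)) (a z2 z3)) (d z2 z2)) z3)) (d (c (a (b (d z2 z2) z2) (b (d z3 z3) (d (c (a (b (d z3 z3) z2) z3) z3) (a (b z3 z2) z3)))) (a z2 z3)) (a (b (d z2 z2) z2) (b (d z3 z3) (d (c (a (b z3 z2) z3) z3) (a (b z3 z2) z3)))))))) (d (c (a z2 (b (d (c (a z2 (b (d (c (a z2 (b z3 (d z3 z3))) (a z2 z3)) (a z2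 (b z3 (d z3 z3)))) (d (c (a z2 (b (d (c (a z2 z3) z3) (a z2 z3)) z2)) z2) (a z2 (b (d (c (a z2 z3) z3) (a z2 z3)) z2))))) z2) (a z2 (b (d (c (a z2 z3) z2) (a z2 z3)) (d (c (a z2 (b (d (c (a z2 z3) z3) (a z2 z3)) z2)) z2) z2)))) (d (c (a z2 (b (d z2 z2) z2)) z2) (a z2 (b (d z2 z2) z2))))) z2) (a z2 (b (d (c (a z2 (b (d (c (a z2 z3) z2) (a z2 z3)) (d z2 z2))) z2) (a z2 (b (d (c (a z2 z3) z2) (a z2 z3)) (d z2 z2)))) (d (c (a z2 (b (d z2 z2) z2)) z2) z2))))) _ _ (by decide +kernel)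

end Vale.Agent.Lib.P154Q5
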