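import Vale.Agent.Lib.P154Q5.CkBDefs

namespace Vale.Agent.Lib.P154Q5

set_option maxRecDepth 100000
set_option exponentiation.threshold 1000

open Tr

theorem okB1305 : CKB ⟨13483, 14678, 6656, 6912⟩ ⟨0, 3840, 6144, 6400⟩ :=
  ckB_sound (b (d z3 z3) (d (c (a (b (d z3 z3) (d (c (a (b (d (c (a (b z3 (d (c (a z2 z3) z3) z3)) z3) z3) (a (b z3 (d z3 z3)) z3)) (d (c (a (b (d z2 z2) z2) z3) (a z2 z3)) (a z2 z3))) z3) (a (b z3 (d (c (a z2 z3) (a z2 z3)) (c (a z2 z3) (a z2 z3)))) z3)) (a (b (d (c (a (b z3 (d z3 z3)) z3) z3) (a (b z3 (d z3 z3)) z3)) (d (c (a z2 z3) (a z2 z3)) (a z2 z3))) z3))) z3) (a (b z3 (d z3 (c (a (b z3 (d (c (a z2 z3) z3) (c (a z2 z3) (a z2 z3)))) z3) z3))) z3)) (a (b (d z3 z3) (d (c (a (b (d (c (a (b z3 (d z3 z3)) z3) z3) z3) (d (c (a z2 z3) (a z2 z3)) (a z2 z3))) z3) (a (b z3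 (d z3 (c (a z2 z3) z3))) z3)) (a (b (d z3 z3) (d (c (a z2 z3) (a z2 z3)) (a z2 z3))) z3))) z3))) _ _ (by decide +kernel)

theorem okB1306 : CKB ⟨12288, 14678, 6656, 6912⟩ ⟨3840, 4608, 6144, 6400⟩ :=
  ckB_sound (a (b (d (c (a z2 (b (d z3 (c (a z2 z3) z3)) z2)) z2) (c (a z2 (b (d (c (a z2 z3) (a z2 z3)) (c (a z2 z3) (a z2 z3))) (d z2 (c (a z2 z3) z2)))) (a z2 (b (d z3 (c (a z2 z3) z3)) z2)))) z2) (b z3 (d z3 (c (a (b z3 (d z3 (c (a (b z3 (d z3 (c (a z2 z3) z3))) z3) z3))) z3) z3)))) _ _ (by decide +kernel)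

theorem okB1307 : CKB ⟨12288, 14678, 6656, 6912⟩ ⟨0, 4608, 6400, 6656⟩ :=
  ckB_sound (a (b (d (c (a (b (d z2 z2) z2) (b (d (c (a (b (d (c (a z2 z3) (a z2 z3)) (a z2 z3)) (d z2 z2)) z3) (a z2 z3)) (a (b (d (a z2 z3) (a z2 z3)) (d z2 z2)) z3)) (d (c (a z2 (b z3 (d (c (a (b z3 z2) z3) z3) (a (b z3 z2) z3)))) (a z2 z3)) (a z2 (b z3 (d z3 z3)))))) (a z2 (b (d (c (a z2 z3) z3) (c (a z2 z3) (a z2 z3))) (d z2 (c (a z2 z3) z2))))) (a (b (d z2 z2) z2) (b (d (a (c (b (d (a z2 z3) (a z2 z3)) z2) z2) z3) (a z2 z3)) (d (a z2 (c (b z3 (d z3 z3)) z3)) (a z2 (b z3 (d z3 z0))))))) (d (c (a z2 (b (d (c (a z2 (b (d z2 z2) (d z2 z2))) z2) (a z2 (b (d z2 z2) z2))) (d z2 z2))) z2) (a z2 (b (d (a z2 (c (b (d z2 z2) z2) z2)) z2) (d z2 z2))))) (b (d z3 z3) (d (c (a (b (d z3 z3) (d (c (a (b (d z3 z3) (d (c (a z2 z3)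 z3) (a z2 z3))) z3) z3) (a (b (d z3 z3) (d (c (a z2 z3) z3) (a z2 z3))) z3))) z3) z3) (a (b (d z3 z3) (d (a (c (b z3 (d (a z2 z3) z3)) z3) z3) (a (b z3 (d z3 z0)) z3))) z3)))) _ _ (by decide +kernel)

theorem okB1308 : CKB ⟨12288, 14678, 6912, 7168⟩ ⟨0, 3840, 6144, 6400⟩ :=
  ckB_sound (a (b (d (c (a z2 (b (d z2 z2) z2)) z2) (a z2 (b (d z2 z2) z2))) (d z2 z2)) (b (d (c (a (b (d (c (a (b (d (c (a z2 (b (d z3 z3) (d (c (a z2 z3) z3) (a z2 z3)))) z2) (a z2 (b (d z3 z3) (d (c (a z2 z3) z3) (a z2 z3))))) (d z2 z2)) (b z3 (d z3 z3))) (a z2 z3)) (a (b (d (c (a z2 (b z3 (d (c (a z2 z3) z3) (a z2 z3)))) z2) (a z2 (b z3 (d (c (a z2 z3) z3) z3)))) (d z2 z2)) (b z3 (d z3 z3)))) (d (c (a z2 (b (d (c (a (b (d (c (a z2 z3) z3) (a z2 z3)) z2) z3) (a z2 z3)) (a (b (d z3 z3) z2) z3)) (d (c (a z2 (b z3 (d z3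 z3))) z2) (a z2 (b z3 (d z3 z3)))))) (a z2 (b (d z3 (c (a z2 z3) z3)) z2))) (a z2 (b (d (c (a (b (d z3 z3) z2) z3) z3) (a z2 z3)) (d (c (a z2 (b z3 (d z3 z3))) z2) (a z2 z3)))))) (b z3 (d z3 z3))) (a (b (d (c (a z2 z3) (a z2 z3)) (c (a z2 z3) (a z2 z3))) (d z2 (c (a z2 (b z3 z2)) z2))) z3)) (a (b (d (c (a (b (d (c (a z2 (b z3 (d z3 z3))) z2) z2) (d z2 z2)) (b z3 (d z3 z3))) (a z2 z3)) (a (b (d z2 z2) (d z2 z2)) (b z3 (d z3 z3)))) (d (c (a z2 (b (d (c (a z2 z3) z3) (a z2 z3)) (d (c (a z2 z3) z2) (a z2 z3)))) z2) (a z2 (b (d (c (a z2 z3) z3) (a z2 z3)) (d z2 z2))))) (b z3 (d z3 z3)))) (d (c (a (b (d (c (a z2 (b (d z2 z2) (d z2 z2))) z2) (a z2 (b (d z2 z2) z2))) (d z2 z2)) (b (d (c (a (b (d z3 z3) (d (c (a (b z3 (d (c (a z2 z3) z3) (a z2 z3))) z3) z3) (a (b z3 (d (c (a z2 z3) z3) (a z2 z3)))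 z3))) z3) z3) (a (b (d z3 z3) (d (c (a (b z3 (d z3 z3)) z3) z3) (a (b z3 (d z3 z3)) z3))) z3)) (d (c (a (b (d (c (a z2 z3) (a z2 z3)) (a z2 z3)) (d z2 z2)) z3) (a z2 z3)) (a (b (d (c (a z2 z3) (a z2 z3)) (a z2 z3)) (d z2 z2)) z3)))) (a z2 (b z3 (d (c (a z2 z3) (a z2 z3)) (c (a z2 z3) (a z2 z3)))))) (a (b (d (c (a z2 (b (d z2 z2) z2)) z2) (a z2 (b (d z2 z2) z2))) (d z2 z2)) (b (d (c (a (b z3 (d (c (a (b z3 (d z3 z3)) z3) z3) (a (b z3 (d z3 z3)) z3))) z3) z3) (a (b z3 (d z3 z3)) z3)) (d (c (a (b (d (c (a z2 z3) (a z2 z3)) (a z2 z3)) (d z2 z2)) z3) (a z2 z3)) (a (b (d (c (a z2 z3) (a z2 z3)) (a z2 z3)) (d z2 z2)) z3))))))) _ _ (by decide +kernel)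

theorem okB1309 : CKB ⟨12288, 14678, 6912, 7168⟩ ⟨3840, 4608, 6144, 6400⟩ :=
  ckB_sound (a z2 (b (d (c (a z2 z3) (a z2 z3)) (c (a (b (d (c (a z2 z3) (a z2 z3)) (c (a z2 z3) (a z2 z3))) z2) z3) (a z2 z3))) (d (c (a z2 (b z3 (d z3 (c (a z2 z3) z3)))) z2) (c (a z2 (b z3 (d (c (a z2 z3) z3) (c (a z2 z3) (a z2 z3))))) (a z2 z3))))) _ _ (by decide +kernel)

theorem okB1310 : CKB ⟨12288, 14678, 6912, 7168⟩ ⟨0, 4608, 6400, 6656⟩ :=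
  ckB_sound (a (b (d (c (a z2 (b (d z2 z2) z2)) z2) z2) (d z2 z2)) (b (d (c (a (b (d (c (a (b (d z2 z2) z2) z3) (a z2 z3)) (a (b (d z2 z2) z2) z3)) (d (c (a z2 (b (d (c (a z2 z3) z3) (a z2 z3)) (d z2 z2))) z2) (a z2 (b (d z3 z3) (d z2 z2))))) z3) (a (b (d (c (a z2 z3) (a z2 z3)) (c (a z2 z3) (a z2 z3))) z2) z3)) (a (b (d (a z2 z3) (a z2 z3)) (d (a z2 (c (b (d z3 z3) z2) (b z3 z2))) z2)) z3)) (d (c (a (b (d z2 z2) (d z2 z2)) (b (d (c (a (b z3 (d z3 z3)) z3) z3) (a (b z3 (d z3 z3)) z3)) (d (c (a (b (d (c (a z2 z3) z3) (a z2 z3)) z2) z3) (a z2 z3)) (a (b (d (c (a z2 z3) z3) (a z2 z3)) z2) z3)))) (a z2 (b z3 (d (c (a z2 z3) z3) (c (a z2 z3) z3))))) (a (b (d z2 z2) (d z2 z2)) (b (d z3 z3) (d (a z2 z3) (a z2 z3))))))) _ _ (by decide +kernel)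

theorem okB1311 : CKB ⟨14678, 17067, 6656, 7168⟩ ⟨0, 4608, 6144, 6656⟩ :=
  ckB_sound (b z3 (d (c (a (b z3 (d z3 z3)) z3) z3) (a (b z3 (d z3 z3)) z3))) _ _ (by decide +kernel)

theorem okB1312 : CKB ⟨12288, 17067, 6656, 7168⟩ ⟨4608, 6144, 6144, 6656⟩ :=
  ckB_sound (a (b (d (c (a z2 z3) (a z2 z3)) (c (a (b (d z2 (c (a z2 (b (d (c (a z2 z3) z3) (c (a z2 z3) z3)) (d z2 (c (a z2 z3) z2)))) z2)) z2) (b z3 (d z3 (c (a (b z3 (d z3 (c (a (b z3 (d z3 z3)) z3) z3))) z3) z3)))) (a z2 z3))) (d (c (a z2 (b (d (c (a z2 z3) z3) (c (a z2 z3) (a z2 z3))) z2)) z2) (c (a z2 (b (d (c (a z2 z3) (a z2 z3)) (c (a (b (d (c (a z2 z3) (a z2 z3)) (c (a z2 z3) (a z2 z3))) z2) z3) (a z2 z3))) (d z2 (c (a z2 (b z3 (d z3 (c (a z2 z3) z3)))) z2)))) (a z2 (b (d z3 (c (a z2 z3) z3)) z2))))) z3) _ _ (by decide +kernel)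

theorem okB1313 : CKB ⟨12288, 17067, 6656, 7168⟩ ⟨0, 6144, 6656, 7168⟩ :=
  ckB_sound (a (b (d (c (a (b (d (c (a z2 (b (d (c (a z2 z3) (a z2 z3)) (a z2 z3)) (d (c (a z2 z3) z2) z2))) z2) (a z2 (b (d (a z2 z3) z0) (d z2 z0)))) (d (c (a z2 (b (d z2 z2) (d z2 z2))) z2) (a z2 (b (d z2 z0) z2)))) (b (d z3 z3) (d (c (a (b z3 (d (c (a (b z3 (d z3 z3)) z3) z3) z3)) z3) z3) (a (b z3 (d z3 z0)) z3)))) (a (b (d z2 (a z2 (c (b (d z3 (a z2 z3)) z2) (b z3 z2)))) z2) z3)) (a (b (d (a z2 (b (d z3 z3) (d z2 z2))) z0) (d z2 z0)) (b z3 (d (a (b z3 (d z3 z3)) z3) z0)))) (d (c (a (b (d z2 z2) (d z2 z2)) (b (d (c (a (b (d (c (a z2 z3) (a z2 z3)) (a z2 z3)) (d z2 z2)) z3) (a z2 z3)) (a (b (d (a z2 z3) z0) (d z2 z0)) z3)) (d (c (a (b (d z2 z2) z2) (b (d z3 z3) (d (c (a z2 z3) z3) (a z2 z3)))) (a z2 (b z3 (d z3 (c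 (a z2 z3) z3))))) (a z2 (b (d z3 z0) (d (a z2 z3) z0)))))) (a z2 (b (d (c (a z2 z3) z3) (c (a z2 z3) (a z2 z3))) (d z2 (c (a z2 (b z3 (d z3 (a z2 z3)))) z2))))) (a (b (d z2 z0) (d z2 z0)) (b (d (a (b (d (a z2 z3) (a z2 z3)) z2) z3) z0) (d (a z2 (b z3 (d z3 z3))) z0))))) (b z3 (d z3 z3))) _ _ (by decide +kernel)

theorem okB1314 : CKB ⟨17067, 24576, 6144, 7168⟩ ⟨0, 6144, 6144, 7168⟩ :=
  ckB_sound (b (d (c (b (d z3 z3) (d z3 z3)) (b z3 z3)) (b (d z3 z3) (d z3 z3))) (d (c (b (d z3 (a z3 (b z3 z3))) (d (a z3 (c (b z3 (d z3 z3)) z3)) (a z3 (b (d z3 z3) (d z3 z3))))) (b z3 z3)) (b (d (a z3 (c (b z3 z3) z3)) (a z3 (b z3 z3))) (d (a z3 (c (b (d z3 z3) (d z3 z3)) z3)) (a z3 (b (d z3 z0) (d z3 z0))))))) _ _ (by decide +kernel)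

theorem okB1315 : CKB ⟨12288, 24576, 6144, 7168⟩ ⟨0, 6144, 7168, 8192⟩ :=
  ckB_sound z0 _ _ (by decide +kernel)

theorem okB1316 : CKB ⟨12288, 15360, 7168, 7424⟩ ⟨0, 4608, 6144, 6656⟩ :=
  ckB_sound (d (c (a (b (d z2 z2) (d z2 z2)) (b (d (c (a (b (d (c (a z2 (b (d (c (a z2 z3) z2) (a z2 z3)) (d z2 z2))) z2) (a z2 (b (d (c (a z2 z3) z2) (a z2 z3)) (d z2 z2)))) (d (c (a z2 (b (d z2 z2) z2)) z2) z2)) (b (d z3 z3) (d (c (a (b (d z3 z3) (d (c (a z2 z3) z3) (a z2 z3))) z3) z3) (a (b (d z3 z3) (d (c (a z2 z3) z3) (a z2 z3))) z3)))) (a z2 z3)) (a (b (d (c (a z2 (b (d (c (a z2 z3) z2) (a z2 z3)) (d z2 z2))) z2) (a z2 (b (d z2 z2) (d z2 z2)))) (d z2 z2)) (b (d z3 z3) (d (c (a (b (d z3 z3) (d (c (a z2 z3) z3) (a z2 z3))) z3) z3) (a (b z3 (d (c (a z2 z3) z3) (a z2 z3))) z3))))) (d (c (a (b (d z2 z2)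 z2) (b (d (c (a (b (d (c (a z2 z3) z2) (a z2 z3)) (d z2 z2)) z3) (a z2 z3)) (a (b (d (c (a z2 z3) z2) (a z2 z3)) (d z2 z2)) z3)) (d (c (a z2 (b (d z3 z3) (d (c (a z2 z3) z3) (a z2 z3)))) (a z2 z3)) (a z2 (b (d z3 z3) (d (c (a z2 z3) z3) (a z2 z3))))))) (a z2 (b (d (c (a z2 z3) (a z2 z3)) (c (a z2 z3) (a z2 z3))) (d z2 (c (a z2 z3) z2))))) (a (b (d z2 z2) z2) (b (d (c (a (b (d z2 z2) (d z2 z2)) z3) (a z2 z3)) (a (b (d z2 z2) z2) z3)) (d (c (a z2 (b z3 (d (c (a z2 z3) z3) (a z2 z3)))) z2) (a z2 (b z3 (d z3 z3))))))))) (a z2 (b (d (c (a z2 z3) (a z2 z3)) (c (a z2 z3) (a z2 z3))) (d (c (a z2 (b (d z3 (c (a z2 z3) z3)) z2)) z2) (c (a z2 (b (d (c (a z2 z3) (a z2 z3)) (c (a z2 z3) (a z2 z3))) z2)) z2))))) (a (b (d z2 z2) (d z2 z2)) (b (d (c (a (b (d (c (a z2 (b (d z2 z2) z2)) z2) (a z2 (b (d z2 z2)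 z2))) (d z2 z2)) (b (d z3 z3) (d (c (a (b z3 (d z3 z3)) z3) z3) (a (b z3 (d z3 z3)) z3)))) (a z2 z3)) (a (b (d z2 z2) (d z2 z2)) (b z3 (d (a (c (b z3 (d z3 z3)) z3) z3) z3)))) (d (c (a z2 (b (d (c (a (b (d z2 z2) z2) z3) (a z2 z3)) (a z2 z3)) (d (c (a z2 (b z3 (d z3 z3))) z2) (a z2 (b z3 (d z3 z3)))))) (a z2 (b (d (c (a z2 z3) z3) (c (a z2 z3) (a z2 z3))) z2))) (a z2 (b (d (a z2 z3) (a z2 z3)) (d (a z2 z3) z2))))))) _ _ (by decide +kernel)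

theorem okB1317 : CKB ⟨12288, 15360, 7424, 7680⟩ ⟨0, 4608, 6144, 6656⟩ :=
  ckB_sound (d (c (a z2 (b (d (c (a z2 (b (d (c (a z2 (b (d z2 z2) z2)) z2) (a z2 (b (d z2 z2) z2))) (d z2 z2))) z2) (a z2 (b (d (c (a z2 (b (d z2 z2) z2)) z2) (a z2 (b (d z2 z2) z2))) (d z2 z2)))) (d z2 z2))) z2) (a z2 (b (d (c (a z2 (b (d z2 z2) (d z2 z2))) z2) (a z2 (b (d z2 z2) z2))) (d z2 z2)))) _ _ (by decide +kernel)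

theorem okB1318 : CKB ⟨15360, 18432, 7168, 7680⟩ ⟨0, 4608, 6144, 6656⟩ :=
  ckB_sound (b (d (c (a (b z3 (d z3 z3)) z3) z3) (a (b z3 (d z3 z3)) z3)) (d (c (a (b (d (c (a (b (d z3 z3) (d (c (a (b (d z3 z3) (d (c (a z2 z3) z3) (a z2 z3))) z3) z3) (a (b (d z3 z3) (d (c (a z2 z3) z3) (a z2 z3))) z3))) z3) z3) (a (b (d z3 z3) (d (c (a (b z3 (d z3 z3)) z3) z3) (a (b z3 (d z3 z3)) z3))) z3)) (d (c (a (b (d (c (a (b (d z2 z2) z2) z3) (a z2 z3)) (a z2 z3)) (d (c (a z2 (b (d z3 z3) (d (c (a z2 z3) z3) (a z2 z3)))) z2) (a z2 (b z3 (d (c (a z2 z3) z3) z3))))) z3) (a (b (d (c (a z2 z3) z3) (c (a z2 z3) (a z2 z3))) z2) z3)) (a (b (d (c (a z2 z3) (a z2 z3)) (a z2 z3)) (d (c (a z2 (b z3 (d z3 z3))) z2) (a z2 (b z3 (d z3 z3))))) z3))) z3) (a (b z3 (d (c (a z2 z3) (a z2 z3)) (c (a z2 z3) (a z2 z3)))) z3)) (a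 (b (d (c (a (b (d z3 z3) (d (c (a (b z3 (d z3 z3)) z3) z3) (a (b z3 (d z3 z3)) z3))) z3) z3) (a (b z3 (d z3 z3)) z3)) (d (c (a (b (d (c (a z2 z3) (a z2 z3)) (a z2 z3)) (d z2 z2)) z3) (a z2 z3)) (a (b (d (a z2 z3) (a z2 z3)) (d z2 z2)) z3))) z3))) _ _ (by decide +kernel)

theorem okB1319 : CKB ⟨12288, 18432, 7168, 7680⟩ ⟨4608, 6144, 6144, 6656⟩ :=
  ckB_sound (a (b (d (a z2 (c (b (d z2 (c (a z2 z3) z2)) z2) z2)) (a z2 (c (b (d (c (a z2 z3) z2) (c (a z2 z3) (a z2 z3))) (d z2 (c (a z2 (b (d z3 (c (a z2 z3) z3)) z2)) z2))) z2))) z2) (b z3 (d z3 (c (a (b z3 (d (c (a z2 z3) z3) (c (a z2 z3) (a z2 z3)))) z3) z3)))) _ _ (by decide +kernel)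

end Vale.Agent.Lib.P154Q5
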