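import Vale.Agent.Lib.P154Q5.CkBDefs

namespace Vale.Agent.Lib.P154Q5

set_option maxRecDepth 100000
set_option exponentiation.threshold 1000

open Tr

theorem okB1320 : CKB ⟨12288, 18432, 7168, 7680⟩ ⟨0, 6144, 6656, 7168⟩ :=
  ckB_sound (a (b (d (a (c (b (d z2 z2) (d z2 z2)) z2) (c (b (d (a (c (b (d z2 z2) z2) z2) (c (b z3 (d z3 z3)) z3)) (a (b (d z2 z0) z2) (b z3 (d z3 z0)))) (d (a z2 (c (b (d (a z2 z3) (a z2 z3)) (d z2 z2)) (b (d z3 (a z2 z3)) z2))) (a z2 (b (d (a z2 z3) z0) (d z2 z0))))) (b (d z2 (a z2 z3)) z2))) (a (b (d z2 z0) (d z2 z0)) (b (d (a z2 (b z3 (d z3 z3))) z0) (d (a z2 (b (d z3 z3) z2)) z0)))) (d (a (c (b (d z2 z2) (d z2 z2)) z2) (c (b (d (a z2 (c (b (d z2 z2) z2) z2)) z2) (d z2 z2)) z2)) (a (b (d z2 z0) (d z2 z0)) (b (d z2 z0) (d z2 z0))))) (b (d (a (c (b z3 (d z3 z3)) z3) z3) (a (b z3 (d z3 z0)) z3)) (d (a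 (c (b (d (a (c (b z3 (d z3 z3)) z3) z3) (a (b z3 (d z3 z0)) z3)) (d (a (c (b (d (a z2 z3) (a z2 z3)) (d z2 z2)) z2) z3) (a (b (d (a z2 z3) z0) z2) z3))) (b z3 (d z3 (a z2 z3)))) z3) (a (b (d z3 z0) (d (a z2 z3) z0)) z3)))) _ _ (by decide +kernel)

theorem okB1321 : CKB ⟨12288, 18432, 7680, 8192⟩ ⟨0, 6144, 6144, 7168⟩ :=
  ckB_sound (d (c (a (b (d (c (a z2 (b (d z2 z2) z2)) z2) (a z2 (b (d z2 z2) z2))) (d z2 (a (b (d z2 z2) (d z2 z2)) z2))) (b (d (c (a (b (d (c (a (b (d z2 z2) z2) (b (d z3 z3) (d (c (a z2 z3) z3) (a z2 z3)))) (a z2 z3)) (a (b (d z2 z2) z2) (b (d z3 z3) (d (c (a z2 z3) z3) (a z2 z3))))) (d (c (a z2 (b (d (c (a z2 z3) z2) (a z2 z3)) (d z2 z2))) z2) (a z2 (b (d (c (a z2 z3) z2) z2) (d z2 z2))))) (b z3 (d z3 z3))) (a (b (d (c (a z2 z3) z2) (c (a z2 z3) z2)) z2) z3)) (a (b (d (c (a (b (d z2 z2) z2) (b (d z3 z3) (d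 (c (a z2 z3) z3) z3))) (a z2 z3)) (a z2 (b z3 (d z3 z3)))) (d (c (a z2 (b (d z2 z2) z2)) z2) (a z2 (b (d z2 z2) z2)))) (b z3 (d z3 z3)))) (d (c (a (b (d z2 z2) z2) (b (d (c (a (b (d z3 z3) (d (c (a z2 z3) z3) (a z2 z3))) z3) z3) (a (b (d z3 z3) (d (c (a z2 z3) z3) (a z2 z3))) z3)) (d (c (a z2 z3) (a z2 z3)) (a z2 z3)))) (a z2 (b z3 (d (c (a z2 z3) z3) (c (a z2 z3) z3))))) (a (b (d z2 z2) z2) (b (d (c (a (b (d z3 z3) (d z3 z3)) z3) z3) (a (b z3 (d z3 z3)) z3)) (d (c (a z2 z3) (a z2 z3)) (a z2 z3))))))) (a z2 (b (d (c (a z2 z3) (a z2 z3)) (c (a (b (d z2 (c (a z2 z3) z2)) z2) z3) (a z2 z3))) (d (c (a z2 z3) z2) (c (a z2 (b z3 (d z3 (c (a z2 z3) z3)))) z2))))) (a (b (d (a (c (b (d z2 z2) (d z2 z2)) z2) (c (b (d z2 z2) z2) z2)) (a (b (d z2 z0) (d z2 z0)) (b (d z2 z0) (d z2 z0)))) (d (a (c (b (d z2 z2) (d z2 z2)) z2) z2) (a (b (d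 z2 z0) (d z2 z0)) (b (d z2 z0) (d z2 z0))))) (b (d (a (c (b (d (a z2 (c (b z3 (d z3 z3)) z3)) (a z2 (b z3 (d z3 z0)))) (d z2 z2)) z2) (c (b z3 (d z3 z3)) z3)) (a (b (d (a z2 z3) z0) (d z2 z0)) (b z3 (d z3 z0)))) (d (a (c (b (d z2 z2) z2) z2) (c (b (d (c (a (b z3 (d z3 z3)) z3) z3) (a (b z3 (d z3 z0)) z3)) (d (c (a z2 z3) (a z2 z3)) (a z2 z3))) (b z3 (d z3 (a z2 z3))))) (a (b (d z2 z0) z2) (b (d z3 z0) (d (a z2 z3) z0))))))) _ _ (by decide +kernel)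

theorem okB1322 : CKB ⟨18432, 24576, 7168, 7680⟩ ⟨0, 6144, 6144, 7168⟩ :=
  ckB_sound (d (c (b (d (c (a z3 (b (d z3 z3) (d z3 z3))) z3) (a z3 (b (d z3 z3) (d z3 z3)))) (d (c (a z3 (b (d (c (a z3 (b z3 z3)) z3) (a z3 (b z3 z3))) (d (c (a z3 (b z3 z3)) z3) (a z3 (b z3 z3))))) (a z3 (b z3 z3))) (a z3 (b (d (c (a z3 (b z3 z3)) z3) (a z3 (b z3 z3))) (d (a z3 (c (b z3 (d z3 z3)) z3)) (a z3 (b z3 z3))))))) (b (d z3 (a z3 (c (b z3 z3) z3))) (d z3 (a z3 (c (b z3 z3) z3))))) (b (d (a z3 (c (b (d z3 z3) (d z3 z3)) (b z3 z3))) (a z3 (b (d z3 z0) (d z3 z0)))) (d (a z3 (c (b (d (a z3 (c (b z3 z3) z3)) (a z3 (b z3 z3))) (d (a z3 (c (b z3 z3) z3)) (a z3 (b z3 z3)))) (b z3 z3))) (a z3 (b (d z3 z0) (d (a z3 (b z3 z3)) z0)))))) _ _ (by decide +kernel)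

theorem okB1323 : CKB ⟨18432, 24576, 7680, 8192⟩ ⟨0, 6144, 6144, 7168⟩ :=
  ckB_sound (d (c (a (b z3 (d z3 z3)) (b (d (c (b (d (c (a z3 (b z3 (d z3 z3))) z3) (a z3 (b (d z3 z3) (d z3 z3)))) (d (c (a z3 (b (d z3 z3) (d z3 z3))) z3) (a z3 (b (d z3 z3) (d z3 z3))))) (b z3 z3)) (b (d (c (a z3 (b (d z3 z3) (d z3 z3))) z3) (a z3 (b (d z3 z3) (d z3 z3)))) (d (a z3 (c (b (d z3 z3) (d z3 z3)) z3)) (a z3 (b (d z3 z3) (d z3 z3)))))) (d (c (b (d (c (a z3 (b (d z3 z3) (d z3 z3))) z3) (a z3 (b (d z3 z3) (d z3 z3)))) (d (a z3 (c (b (d z3 (a z3 (b z3 z3))) (d (a z3 (c (b z3 z3) z3)) (a z3 (b z3 z3)))) (b z3 z3))) (a z3 (b (d (a z3 (c (b z3 z3) z3)) (a z3 (b z3 z3))) (d (a z3 (c (b z3 z3) z3)) (a z3 (b z3 z3))))))) (b (d z3 (a z3 (c (b z3 z3) z3))) (d z3 (a z3 (c (b z3 z3) z3))))) (b (d (a z3 (c (b (d z3 z3) (d z3 z3)) (b z3 z3))) (a z3 (b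 (d z3 z3) (d z3 z3)))) (d (a z3 (c (b (d z3 z3) (d (a z3 (c (b z3 z3) z3)) z3)) (b z3 z3))) (a z3 (b (d z3 z3) (d z3 z3)))))))) (a z3 (b (d z3 (c (b z3 (d z3 (a z3 (c (b z3 z3) z3)))) z3)) (d (c (b z3 z3) z3) (c (b (d z3 (a z3 (c (b z3 z3) z3))) (d z3 (a z3 (c (b z3 z3) z3)))) (b z3 z3)))))) (a (b z3 (d z3 z3)) (b (d (c (b (d (a z3 (c (b z3 (d z3 z3)) z3)) (a z3 (b z3 z3))) (d (a z3 (c (b (d z3 z3) (d z3 z3)) z3)) (a z3 (b z3 (d z3 z0))))) (b z3 (d z3 (a z3 (c (b z3 z3) z3))))) (b (d (a z3 (b z3 z3)) z0) (d (a z3 (b z3 z3)) z0))) (d (c (b (d (a z3 (c (b (d z3 z3) (d z3 z3)) z3)) (a z3 (b (d z3 z0) (d z3 z0)))) (d (a z3 (c (b (d z3 z3) (d z3 z3)) z3)) (a z3 (b (d z3 z0) (d z3 z0))))) (b (d z3 (a z3 (c (b z3 z3) z3))) (d z3 (a z3 (c (b z3 z3) z3))))) (b (d (a z3 (b z3 z3)) z0) (d (a z3 (b z3 z3)) z0)))))) _ _ (by decide +kernel)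

theorem okB1324 : CKB ⟨12288, 24576, 7168, 8192⟩ ⟨0, 6144, 7168, 8192⟩ :=
  ckB_sound z0 _ _ (by decide +kernel)

theorem okB1325 : CKB ⟨12288, 24576, 4096, 6144⟩ ⟨6144, 12288, 4096, 8192⟩ :=
  ckB_sound (d (b (d (c (b (d z3 z11) (d z3 z11)) (b (d (a (b (d (c z7 (a (b z5 z7) (b (d z7 z15) (d z7 z15)))) z15) z15) z15) z15) (d (a z15 z15) z15))) z11) (d (c (b (d z3 z11) z3) z15) (c (b z11 z11) (b z11 (d (a (b z15 (d (c z11 z15) (c z11 z15))) z15) z11))))) (b (d (c (b z11 z11) (b z11 z11)) (b (d z11 (a z3 (b (d (c z3 z11) z3) (d (c z3 z11) z3)))) (d z11 (a z3 (b (d (c z3 z11) z3) (d (c z3 z11) z3)))))) (d (c (b (d z11 (a z11 (c (b z3 z3) z11))) (d (a z11 (c (b z11 z11) z11)) (a z11 (c (b z3 z3) (b z11 z11))))) (b z11 z11)) (b (d (c (a z3 (b (d (c z3 z11) z3) (d (c z3 z11) z3))) z11) (a z3 (b (d (c z3 z11) z3) (d (c z3 z11) z3))))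 (d (c (a z3 (b (d (c z3 z11) z3) (d z3 z3))) z11) (a z3 (b (d (c z3 z11) z3) (d (c z3 z11) z3)))))))) _ _ (by decide +kernel)

theorem okB1326 : CKB ⟨12288, 24576, 6144, 7168⟩ ⟨6144, 12288, 4096, 5120⟩ :=
  ckB_sound (c (a (b (d (c (a (b z3 (d (c z3 (a (b z3 (d (a z2 z3) (a z2 z3))) z3)) z3)) z3) (a (b (d (a (c z3 z7) z7) z3) (d (a (c (b (d (a (c z3 (b z3 (d (a z6 z7) z3))) z3) z3) (d (a z2 z3) (a z2 z3))) (b (d z7 (a (b z7 (d z7 (c (a z6 z7) z7))) z7)) (d (a z6 z7) (a z6 z7)))) z7) (a (c (b z3 (d (a z2 z3) (a z2 z3))) (b (d (a (b (d (c (a (b (d z7 (c z3 z7)) z6) z7) z7) (c z3 z7)) (d (c (a z6 z7) z7) (c (a z2 z3) z7))) z7) (a (b z11 (d (c z3 z15) (c z11 (a z14 z15)))) z11)) (d (a (b (d z6 (c z2 z6)) z6) (b z7 (d z7 (c z3 z7)))) (a z10 z11)))) z3))) z3)) (c z3 (a (b z11 (d (a (c (b z11 (d (a z10 z11) (a z10 z11))) (b (d (a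 (b z11 (d (c z11 (a z14 z15)) (c z11 (a z10 z11)))) z11) (a (b z11 (d (c z11 (a z10 z11)) z11)) z11)) (d (a z10 z11) (a z10 z11)))) z11) (a (c (b z11 (d (a z10 z11) z11)) (b z11 (d (a z10 z11) (a z10 z11)))) z11))) z11))) (d (c (a z2 z3) (a (b (d (a (c z2 z6) (c z3 z7)) (a z2 z3)) z2) z3)) (c (a z2 z3) (a (b (d (a z10 z11) (a z10 z11)) z10) z11)))) z3) (a (b (d z15 (a (b (d z15 (c (a (b (d z15 (c z11 z15)) (d (c (a (b z15 (d z15 (c z11 z15))) z15) z15) (c z11 z15))) z15) z15)) (d (c (a (b (d z15 (c (a (b z15 (d z15 (c (a z14 z15) z15))) z15) z15)) (d (c (a z14 z15) z15) (c (a z14 z15) z15))) z15) z15) (c (a (b (d (c (a (b (d (c (a (b (d z15 (c z11 z15)) z14) z15) z15) (c z11 z15)) (d (c (a z14 z15) z15) (c (a z10 z11) z15))) z15) z15) (c (a (b (d (c z11 z15) z11) (d (c (a z10 z11) (a z14 z15)) (c z11 (a z14 z15)))) z11) z15))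 (d (c (a (b (d z14 (c z10 z14)) (d z14 (c z10 z14))) (b z15 (d z15 (c z11 z15)))) z15) (c (a z10 z11) z15))) z15) z15))) z15)) (d (a z14 z15) (a (b (d (c (a z14 z15) z15) (c (a (b (d (c (a z14 (b (d (c (a z14 z15) z15) (c z11 z15)) (d z14 (c z10 z14)))) z14) (c z10 z14)) (d z14 (c z10 z14))) (b z15 (d (c (a (b z15 (d z15 (c z11 z15))) z15) z15) (c z11 z15)))) z15)) (d z14 (c (a (b (d z14 (c z10 z14)) z14) (b (d (c (a z14 z15) z15) (c (a z10 z11) z15)) (d z14 (c z10 z14)))) z14))) z15))) z15)) _ _ (by decide +kernel)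

theorem okB1327 : CKB ⟨12288, 24576, 6144, 7168⟩ ⟨6144, 9216, 5120, 6144⟩ :=
  ckB_sound (a (b (d (c z11 (a (b z11 (d (a (c z11 (b z11 (d (a z10 z11) (a z10 z11)))) z11) (a (c z11 (b z11 (d (a z10 z11) z11))) z11))) z11)) z11) (d (c (a z10 z11) (a (b (d (a z10 z11) (a z10 z11)) z10) z11)) (c (a (b (d (c (a z10 z11) (a z10 z11)) (c (a z10 z11) (a z10 z11))) z10) z11) (a z10 z11)))) (b z11 z11)) _ _ (by decide +kernel)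

theorem okB1328 : CKB ⟨12288, 24576, 6144, 7168⟩ ⟨9216, 12288, 5120, 6144⟩ :=
  ckB_sound (a (b (d (a (b (d (c (a (b z11 (d (c z11 z15) z11)) z11) z15) (c z11 z15)) (d (c (a (b (d (c (a (b z11 (d (c z11 (a z10 z11)) (c z11 (a z10 z11)))) z11) z15) (c z11 (a (b (d z15 (c (a (b (d z15 (c z11 z15)) z14) z15) z15)) (d (c (a z14 z15) z15) (c (a z14 z15) z15))) z15))) (d (c (a z10 z11) (a z14 z15)) (c (a z10 z11) (a z14 z15)))) z11) z15) (c (a (b (d (c z11 (a (b (d (c z11 z15) z11) (d (c (a z10 z11) z15) (c z11 (a z14 z15)))) z15)) (c z11 (a (b z11 (d (c z11 (a z14 z15)) (c z11 (a z10 z11)))) z11))) (d (c (a z10 z11) (a (b (d (c z10 z14) z10) (d (c z10 z14) z10)) (b (d z15 z11) (d (c z11 z15) z11)))) (c (a z10 z11) (a z10 z11)))) z11) (a (b z15 (d z15 (c (a z14 z15) z15))) z15)))) z15) (a (b (d (c z11 (a (b z15 (d z15 (c (a (b z15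 (d (c z11 z15) (c z11 z15))) z15) z15))) z15)) (c z11 (a (b (d (c z11 z15) z11) (d (c z11 z15) z11)) z15))) (d (c (a (b z11 (d (c (a z10 z11) (a z10 z11)) (c z11 (a z10 z11)))) z11) (a (b (d (c (a (b (d z15 (c (a (b z15 z14) z15) z15)) (d (c (a z14 z15) z15) (c (a z14 z15) z15))) z15) z15) (c (a (b (d (c z11 z15) (c z11 z15)) (d (c (a z10 z11) z15) (c z11 z15))) z15) z15)) (d (c (a z14 z15) z15) (c (a (b (d z14 (c z10 z14)) (d z14 (c z10 z14))) (b z15 (d z15 (c z11 z15)))) z15))) z15)) (c (a (b z11 (d (c z11 (a z10 z11)) (c z11 (a z10 z11)))) z11) (a (b (d (c (a (b z11 (d (c z11 (a z14 z15)) z11)) z11) z15) (c z11 (a (b z15 (d z15 (c (a z14 z15) z15))) z15))) (d (c (a z10 z11) (a z14 z15)) (c (a z10 z11) (a z14 z15)))) z15)))) z11)) (d (a (b (d (c (a (b (d (c z10 z14) z10) z10) z11) z15) (c (a z10 z11) (a z14 z15))) (d (c (a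 z10 (b (d (c z11 z15) (c z11 (a z14 z15))) z10)) z14) (c z10 z14))) (b z15 (d (c z11 z15) (c z11 z15)))) (a (b (d (c (a z10 z11) (a (b (d z14 (c (a z14 (b (d (c z11 z15) (c z11 z15)) (d z14 (c z10 z14)))) z14)) (d z14 (c (a z14 (b (d z14 (c z10 z14)) z14)) z14))) (b z15 (d z15 (c (a (b z15 (d z15 (c z11 z15))) z15) z15))))) (c (a z10 z11) (a (b (d (c z10 z14) z10) (d (c z10 z14) z10)) (b (d z15 z11) (d (c z11 z15) z11))))) (d (c z10 (a z14 (b (d (c (a z14 z15) z15) (c (a (b (d (c z11 z15) (c z11 z15)) z14) z15) z15)) (d z14 (c (a z14 (b z15 (d z15 (c z11 z15)))) z14))))) (c z10 (a (b (d (c z10 z14) z10) (d z14 z10)) (b (d (c z11 z15) (c z11 (a z14 z15))) (d (c z10 z14) z10)))))) z11))) z11) _ _ (by decide +kernel)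

theorem okB1329 : CKB ⟨12288, 24576, 7168, 8192⟩ ⟨6144, 12288, 4096, 6144⟩ :=
  ckB_sound (d (a (c (b (d (a z2 z3) (a z10 z11)) z2) (b (d (a z14 z15) (a (b (d z14 (c (a z14 (b (d z14 (c z10 z14)) (d z14 (c z10 z14)))) z14)) z14) (b z15 (d z15 (c (a (b z15 (d z15 (c z11 z15))) z15) z15))))) (d z14 (a z14 (b (d (c (a z14 z15) z15) (c (a z14 z15) z15)) z14))))) z11) (a (c (b (d (a z10 z11) (a z10 z11)) (d z10 (a z10 (c (b (d (a z10 z11) (a z10 z11)) z10) z10)))) (b (d (a (b (d (c z10 z14) (c z10 z14)) (d (c z10 z14) (c z10 z14))) (b (d (c z11 z15) (c z11 z15)) (d (c z11 z15) (c z11 z15)))) (a (b (d (c z10 (a z14 (b (d z14 (c (a z14 z15) z14)) z14))) z10) z10) z11)) (d (a (b (d (c z10 z14) (c z10 z14)) (d z14 (c z10 z14))) (b (d (c (a z10 z11) z15) (c (a z10 z11) z15)) (d (c z10 z14) (c z10 z14)))) (a z10 (b (d (c (a z10 z11)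 (a z14 z15)) (c z11 (a (b (d z14 z10) z14) z15))) z10))))) (c (b z11 z11) z11))) _ _ (by decide +kernel)

theorem okB1330 : CKB ⟨12288, 24576, 6144, 7168⟩ ⟨6144, 12288, 6144, 7168⟩ :=
  ckB_sound (c (a (b (d (c (a (b z11 (d (c (a (b z11 (d z11 (c (a z10 z11) z11))) z11) z11) (c (a (b z11 (d (c (a z10 z11) z11) (c (a z2 z3) (a z10 z11)))) z11) z11))) z11) z11) (c (a (b (d z3 (c (a (b z3 (d z3 z3)) z3) z3)) (d (c (a (b z3 (d (c (a z2 z3) (a z2 z3)) (c (a z2 z3) (a z2 z3)))) z3) (a (b z11 (d z11 (a z10 z11))) z11)) (c (a (b (d (c (a (b z3 (d z3 (c (a z2 z3) z3))) z3) z3) (a (b (d z3 z3) (d (c (a z2 z3) z3) (a z2 z3))) z3)) (d (c (a z2 z3) (a z2 z3)) (a z2 z3))) z3) (a (b z3 (d (a z2 z3) (a z2 z3))) z3)))) z3) z11)) (d (c (a (b (d (c (a z10 z11) (a z10 z11)) (c (a z10 z11) (a z10 z11))) z10) z11) (a z10 z11)) (c (a (b (d (c (a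 z2 z3) (a z10 z11)) (c (a (b (d z2 z2) (d z2 z2)) (b z3 (d z3 z3))) (a z2 z3))) (d z2 (c (a z2 (b (d (c (a z2 z3) z3) (a z2 z3)) (d z2 (a z2 (b z3 (d z3 z3)))))) z2))) z3) (a z10 z11)))) (b (d (c (b z11 z11) z11) (c (b z3 z3) (b z11 z11))) (d (c (b z11 z11) z11) (c (b z3 (d z3 (a z3 (c (b z3 z3) z3)))) (b z11 z11))))) (a (b (d (a (b z11 (d (c z11 (a (b (d (c z11 (a (b (d (c z11 z15) z11) (d (c z11 z15) z11)) z15)) z11) (d (c (a z10 z11) (a (b (d z14 z10) (d z14 z10)) (b z15 (d z15 z11)))) (c z11 (a z10 z11)))) z11)) (c z11 (a (b z11 (d (c z11 (a z10 z11)) z11)) z11)))) z11) z11) (d (a (b (d (c (a z10 z11) (a z10 z11)) (c (a z10 z11) (a z10 z11))) z10) z11) (a z10 z11))) (b z11 z11))) _ _ (by decide +kernel)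

theorem okB1331 : CKB ⟨12288, 24576, 6144, 7168⟩ ⟨6144, 12288, 7168, 8192⟩ :=
  ckB_sound (a (b (d (c (a (b (d (c (a (b z3 (d z3 z3)) z3) z11) z3) (d (c (a (b (d (c (a (b z3 (d z3 z3)) z3) z3) (a (c (b z3 (d z3 z3)) z3) z3)) (d (c (a z2 z3) z3) (a z2 z3))) z3) z11) (a (b (d z3 z3) (d (c (a z2 z3) z3) (a z2 z3))) z3))) z3) z11) (a (b (d z3 z3) (d (c (a (b (d z3 z3) (d (c (a z2 z3) z3) z3)) z3) z11) (a (b (d z3 z3) (d z3 z3)) z3))) z3)) (d (c (a (b (d (c (a (b (d z2 z2) (d z2 z2)) (b z3 (d z3 z3))) (a z10 z11)) (a (b (d z2 z2) z2) (b z3 (d z3 z3)))) (d (c (a (b (d z2 z2) (d z2 z2)) (b (d (c (a z2 z3) z3) (a z2 z3)) (d z2 z2))) z10) (a z2 (b (d (c (a z2 z3) z3) z3) (d z2 z2))))) (b z3 (d z3 z3))) (a z10 z11)) (a (b (d (c (a z2 z3) z11) (a z2 z3)) (d z2 z2)) (b z3 (d z3 z3))))) (b (d (c (b (d z3 z3) (d z3 z3)) (b z11 z11)) (b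 (d z3 z3) (d z3 z3))) (d (c (b (d (c (a z3 (b z3 z3)) z11) z3) (d (c (a z3 (b z3 z3)) z11) (a z3 (b z3 z3)))) (b z11 z11)) (b (d z3 z3) (d z3 z3))))) _ _ (by decide +kernel)

theorem okB1332 : CKB ⟨12288, 24576, 7168, 8192⟩ ⟨6144, 12288, 6144, 7168⟩ :=
  ckB_sound (a (c (b (d (a z10 z11) (a z10 z11)) (d (a z10 (c (b (d (a z10 z11) (a z10 z11)) z10) z10)) (a z10 (c (b (d (a z2 z3) (a (c (b (d z2 z2) z2) z2) z3)) (d z2 (a z2 (c (b (d z3 z3) (d z3 (a z2 z3))) z3)))) z10)))) (b (d (a z10 z11) (a z10 z11)) z10)) (c (b (d (c (b z11 z11) z11) (c (b (d z3 (a z3 (c (b z3 z3) z3))) (d z3 (a z3 (c (b (d z3 z3) (d z3 z3)) z3)))) (b z11 z11))) (d (c (a z11 (b z11 z11)) z11) (c (a z3 (b (d z3 (c (b (d z3 z3) (d z3 (a z3 (b z3 z3)))) z3)) (d (c (b z3 z3) z11) (c (b (d z3 (a z3 (b z3 z3))) (d z3 (a z3 (b z3 z3)))) z3)))) (a z11 (b z11 z11)))))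 (b z11 z11))) _ _ (by decide +kernel)

theorem okB1333 : CKB ⟨12288, 24576, 7168, 8192⟩ ⟨6144, 12288, 7168, 8192⟩ :=
  ckB_sound (a (b (d (c (a (b (d (c (a (b (d z2 z2) (d z2 z2)) (b (d z2 z2) (d z2 z2))) z10) (a (b z2 (d z2 z2)) (b (d z2 z2) (d z2 z2)))) (d (c (a (b (d z2 z2) (d z2 z2)) (b (d z2 z2) (d z2 z2))) z10) (a (b (d z2 z2) (d z2 z2)) z2))) (b (d z3 z3) (d (c (a (b (d z3 z3) (d (c (a z2 z3) z3) (a z2 z3))) z3) z11) (a (b (d z3 z3) (d z3 z3)) z3)))) (a z10 z11)) (a (b (d (c (a (b z2 (d z2 z2)) z2) z10) z2) (d (c (a (b (d z2 z2) (d z2 z2)) z2) z10) (a (b (d z2 z2) (d z2 z2)) z2))) (b (d z3 z3) (d (c (a (b z3 (d z3 z3)) z3) z11) (a (b z3 (d z3 z3)) z3))))) (d (c (a (b (d (c (a (b (d z2 z2) (d z2 z2)) (b (d z2 z2) (d z2 z2))) z10) (a (b (d z2 z2) (d z2 z2)) (b (d z2 z2) (d z2 z2)))) (d (c (a (b (d z2 z2) (d (c (a (b z2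 (d z0 z0)) z2) z2) (a (c (b (d z2 z2) (d z0 z0)) z2) z2))) (b (d z2 z2) (d z2 z2))) z10) (a (b (d z2 (a (c (b z2 (d z2 z2)) z2) z2)) (d (c (a (b (d z2 z2) (d z0 z0)) z2) z2) (a (c (b (d z2 z2) (d z0 z0)) z2) z2))) (b (d z2 z2) (d z2 z2))))) (b (d (c (a (b (d z2 z2) (d z2 z2)) z3) (a z10 z11)) (a (b (d z2 z2) z2) z3)) (d (c (a z2 (b (d z3 z3) (d (c (a z2 z3) z3) (a z2 z3)))) z10) (a z2 (b (d z3 z3) (d (c (a z2 z3) z3) z3)))))) z10) (a (b (d (c (a (b (d z2 z2) (d z2 z2)) (b (d z2 z2) (d z2 z2))) z10) (a (b (d z2 z2) (d z2 z2)) (b z2 (d z2 z2)))) (d (c (a (b (d (c (a (b z2 (d z2 z2)) z2) z2) (a (b z2 (d z2 z2)) z2)) (d (c (a (b (d z2 z2) (d z0 z0)) z2) z2) (a (b (d z2 z2) (d z0 z0)) z2))) (b (d z2 z2) (d z2 z2))) z10) (a (b (d (c (a (b z2 (d z2 z2)) z2) z10) z2) (d (c (a (b (d z2 z2) (d z0 z0)) z2) z10) (a (b (d z2 z2) (d z0 z0))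 z2))) (b (d z2 z2) (d z2 z2))))) (b (d (c (a z2 z3) z11) (a z2 z3)) (d z2 z2))))) (b (d (c (b (d (c (a z3 (b (d z3 z3) (d z3 z3))) z11) (a z3 (b z3 z3))) (d (c (a z3 (b (d z3 z3) (d z3 z3))) z11) (a z3 (b z3 z3)))) (b z11 z11)) (b (d z3 z3) (d z3 z3))) (d (c (a (b z3 (d z3 z3)) (b (d (c (b (d z3 z3) (d z3 z3)) z11) (b z3 z3)) (d (c (b (d z3 z3) (d z3 z3)) z11) (b z3 z3)))) (a z11 (b z11 z11))) (a (b z3 (d z3 z3)) (b (d z3 z3) (d z3 z3)))))) _ _ (by decide +kernel)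

theorem okB1334 : CKB ⟨12288, 24576, 4096, 8192⟩ ⟨0, 12288, 8192, 12288⟩ :=
  ckB_sound (b (d (b (d (b (d z3 z0) (d (a z3 (b z3 z3)) z0)) z0) (d (b (d (a z3 (b z3 z3)) z0) (d (a z3 (b z3 z3)) z0)) z0)) z0) (d (b (d (a (b (d (a (b (d z3 z0) (d (a (b z3 (d z3 z0)) z3) z0)) z3) z0) (d (a (b (d (a z2 z3) z0) (d z2 z0)) (b z3 (d z3 z0))) z0)) (b (d (b z3 z3) z0) (d (b z3 z3) z0))) z0) (d (a (b (d (a (b (d z2 z0) (d (a (b z2 (d z2 z0)) z2) z0)) (b (d z3 z0) (d (a (b z3 (d z3 z0)) z3) z0))) z0) (d (a (b (d (a (b (d z2 z0) (d z2 z0)) (b z2 (d z2 z0))) z0) (d (a (b (d z2 z0) (d (a (b (d z2 z0) (d z0 z0)) z2) z0)) (b (d z2 z0) (d z2 z0))) z0)) (b (d (a z2 z3) z0) (d z2 z0))) z0)) (b (d (b z3 z3) z0) (d (a (b z3 (d z3 z0)) (b z3 z3)) z0))) z0)) z0)) _ _ (by decide +kernel)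

end Vale.Agent.Lib.P154Q5
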