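import Vale.Agent.Lib.P154Q5.CkBDefs

namespace Vale.Agent.Lib.P154Q5

set_option maxRecDepth 100000
set_option exponentiation.threshold 1000

open Tr

theorem okB1335 : CKB ⟨12288, 24576, 8192, 9216⟩ ⟨0, 3072, 4096, 5120⟩ :=
  ckB_sound (c (a (b (d (c (a (b z2 (d (c (b z0 z0) (b z0 z0)) (c (b z0 z0) (b z0 z0)))) (b (d z2 (c (a z2 (b (d z2 (a z2 (c (b (d z3 z3) z2) z2))) z2)) z2)) z2)) z2) (a (c (b z2 (d (c (b z0 z0) (b z0 z0)) (b z0 z0))) (b z2 (d (c (b z0 z0) (b z0 z0)) (c (b z0 z0) (b z0 z0))))) (c (b (d (a z2 (c (b (d (c (a z2 (b (d z3 z3) z2)) z2) (a z2 (b (d z3 z3) z2))) z2) z2)) (a z2 (b (d (c (a z2 (b (d z3 (a z2 z3)) z2)) z2) (a z2 (b (d (c (a z2 z3) z3) (c (a z2 z3) z3)) z2))) z2))) z2) z2))) (d (c (b z2 (d (c (b z0 z0) (b z0 z0)) (c (b z0 z0) (b z0 z0)))) (b z2 (d (c (b z0 z0) (b z0 z0))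 (c (b z0 z0) (b z0 z0))))) (c (b z2 (d (c (b z0 z0) (b z0 z0)) (b z0 z0))) (b z2 (d (c (b z0 z0) (b z0 z0)) (c (b z0 z0) (b z0 z0))))))) (b (d (c (a (b (d z3 z3) (d (c (a (b (d (c (a z2 z3) (a z2 z3)) (c (a z2 z3) (a z2 z3))) z2) z3) (a (b (d (c (a z2 z3) z2) (c (a z2 z3) z2)) z2) z3)) (c (a (b (d (c (a z2 z3) (a z2 z3)) (c (a z2 z3) (a z2 z3))) z2) z3) (a (b (d (c (a z2 z3) z2) (c (a z2 z3) (a z2 z3))) z2) z3)))) z3) (a (b z3 (d (c (a z2 z3) (a z2 z3)) (c (a z2 z3) (a z2 z3)))) z3)) (c (a (b (d (c (a (b z3 (d z3 z3)) z3) z3) (a (b z3 (d z3 z3)) z3)) (d (c (a (b (d (c (a z2 z3) (a z2 z3)) (a z2 z3)) z2) z3) (a (b (d (c (a z2 z3) (a z2 z3)) (c (a z2 z3) (a z2 z3))) z2) z3)) (a (b (d (c (a z2 z3) (a z2 z3)) (a z2 z3)) z2) z3))) z3) (a (b z3 (d (a (c (b (d z2 (a z2 z3)) z2) z2) z3) (a (c (b (d (a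 z2 z3) (a z2 z3)) z2) z2) z3))) z3))) (d (c (a (b (d (c (a z2 (b z3 z2)) (a z2 z3)) (c (a z2 (b z3 z2)) (a z2 z3))) z2) z3) (a (b (d (c (a z2 z3) z2) (c (a z2 z3) z2)) z2) z3)) (c (a (b (d (c (a z2 (b z3 z2)) (a z2 z3)) (a z2 (b z3 z2))) z2) z3) (a (b (d (a z2 z3) (a z2 z3)) z2) z3))))) (a (b z2 (d (c (b z2 (d (c (b z0 z0) (b z0 z0)) (c (b z0 z0) (b z0 z0)))) (b z2 (d (b z0 z0) (b z0 z0)))) (c (b z2 (d (c (b z0 z0) (b z0 z0)) (c (b z0 z0) (b z0 z0)))) (b z2 z0)))) (b (d (c (a (b z3 (d (c (a z2 z3) (a z2 z3)) (c (a z2 z3) (a z2 z3)))) z3) z3) (c (a (b z3 (d (c (a z2 z3) (a z2 z3)) (c (a z2 z3) (a z2 z3)))) z3) z3)) (d (c (a z2 z3) (a z2 z3)) (c (a z2 z3) (a z2 z3)))))) _ _ (by decide +kernel)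

theorem okB1336 : CKB ⟨12288, 24576, 8192, 9216⟩ ⟨0, 3072, 5120, 6144⟩ :=
  ckB_sound (a (b (d (c (a (b z2 (d (c (b z0 z0) (b z0 z0)) (c (b (d z0 z0) z0) (b z0 z0)))) (b (d (c (a z2 (b (d (c (a z2 (b (d (c (a z2 z3) z3) (c (a z2 z3) z3)) z2)) z2) (c (a z2 (b (d (c (a z2 z3) z3) (a z2 z3)) z2)) z2)) z2)) z2) (a z2 (c (b (d (a z2 (c (b (d (a z2 z3) (a z2 z3)) z2) z2)) (a z2 (b (d z3 z0) z2))) z2) (b (d z2 (a z2 (c (b (d z3 z3) z2) z2))) z2)))) z2)) z2) (a (b (d z2 z2) (d (c (b (d z0 z0) (d z0 z0)) (b z0 z0)) (b (d (c (a (b z0 z0) z2) z0) (a (b z0 z0) z2)) (d z0 z0)))) (b (d (c (a z2 (b (d (c (a z2 (b (d z3 z3) z2)) z2) (a z2 (b (d z3 z3) z2))) z2)) z2) (a z2 (b (d (c (a z2 (b (d z3 z3) z2)) z2) (a z2 (b (d z3 z3) z2))) (d z2 z2)))) (d z2 z2)))) (d (c (b z2 (d (c (b z0 z0) (b z0 z0)) (c (b z0 z0)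 (b z0 z0)))) (b z2 (d (c (b z0 z0) z0) (c (b z0 z0) (b z0 z0))))) (b z2 (d (c (b z0 z0) (b z0 z0)) (b z0 z0))))) (b (d (c (a (b (d (c (a (b z3 (d z3 z3)) z3) z3) (a (c (b z3 (d z3 z3)) z3) z3)) (d (c (a (b (d (c (a z2 z3) (a z2 z3)) (c (a z2 z3) (a z2 z3))) z2) z3) (a (b (d z2 (c (a z2 z3) z2)) z2) z3)) (a (c (b (d (a z2 z3) (a z2 z3)) z2) (b (d (a z2 z3) (a z2 z3)) z2)) z3))) (b (d z3 z3) z3)) (a (b z3 (d (c (a z2 z3) z3) (c (a z2 z3) (a z2 z3)))) z3)) (a (b (d (c (a (b z3 (d z3 z3)) z3) z3) (a (b z3 (d z3 z3)) z3)) (d (c (a (b (d (c (a z2 z3) z2) (a z2 z3)) (d z2 z2)) z3) (a z2 z3)) (a (b (d (c (a z2 z3) z2) (a z2 z3)) z2) z3))) (b (d (c (b (d z3 z3) z3) z3) (b (d z3 z3) z3)) (d z3 z3)))) (d (c (a (b (d (c (a z2 (b z3 z2)) (a z2 z3)) (a z2 (c (b z3 z2) z3))) z2) z3) (a z2 z3)) (a (b (d (c (a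 z2 (b z3 z2)) z2) (a z2 (b z3 z2))) (d z2 z2)) (b z3 (d z3 z3)))))) _ _ (by decide +kernel)

theorem okB1337 : CKB ⟨12288, 24576, 9216, 10240⟩ ⟨0, 3072, 4096, 6144⟩ :=
  ckB_sound (d (c (b (d (c (b (d (a z2 (c (b z3 z2) (b z3 z2))) (a z2 (c (b z3 z2) (b z3 z2)))) z2) z2) (c (b (d (a z2 (c (b z3 z2) (b z3 z2))) (a z2 (b z3 z2))) z2) (b (d z2 (a z2 (c (b z3 z2) z2))) z2))) (d (c (b (d (c (b z2 z0) (b z2 z0)) (c (b z2 z0) (b z2 z0))) z0) (b (d (c (b z2 z0) (b z2 z0)) (c (b z2 z0) (b z2 z0))) z0)) (c (b (d (c (b z2 z0) (b z2 z0)) (b z2 z0)) z0) (b (d (c (b z2 z0) (b z2 z0)) z0) z0)))) (b z2 (d (c (b (d (c (b z2 z0) (b z2 z0)) (c (b z2 z0) (b z2 z0))) z0) (b (d (b z2 z0) (b z2 z0)) z0)) (c (b (d (c (b z2 z0) (b z2 z0)) z0) z0) (b z0 z0))))) (b (d (c (b (d (c (a z2 (b z3 z2)) z2) (a z2 (c (b z3 z2) z2)))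 z2) z2) (b (d (c (a z2 (b z3 z2)) z2) (a z2 (b z3 z2))) z2)) (d (c (b (d (c (b z2 z0) z0) (c (b z2 z0) z0)) z0) (b z0 z0)) (b (d z0 z0) z0)))) _ _ (by decide +kernel)

theorem okB1338 : CKB ⟨12288, 24576, 8192, 10240⟩ ⟨3072, 6144, 4096, 6144⟩ :=
  ckB_sound (b (d (a (b z2 (d (c (b z2 z0) (b z2 z0)) (c (b z2 z0) (b z2 z0)))) (b z3 (d (c (a z2 z3) (a z2 z3)) (c (a z2 z3) (a z2 z3))))) (a (b z2 (d (c (b z2 z0) (b z2 z0)) (c (b z2 (d (c (b z0 z0) z0) (c (b z0 z0) (b z0 z0)))) (b z2 z0)))) (b (d z3 (c (a (b z3 (d z3 (c (a z2 z3) z3))) z3) z3)) (d (c (a z2 z3) (a z2 z3)) (c (a z2 z3) (a z2 z3)))))) (d (b z2 (d (c (b (d (c (b z2 z0) (b z2 z0)) (c (b z2 z0) z0)) z0) (b (d (c (b z2 z0) z0) z0) z0)) (c (b z0 z0) (b z0 z0)))) (b z2 (d (c (b z0 z0) (b z0 z0)) (c (b z0 z0) (b z0 z0)))))) _ _ (by decide +kernel)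

theorem okB1339 : CKB ⟨12288, 18432, 8192, 9216⟩ ⟨0, 6144, 6144, 7168⟩ :=
  ckB_sound (b (d (c (a (b (d (c (a (b (d (c (a (b z0 z0) z2) z0) (a (b (d z0 z0) z0) z2)) (d (c (b z0 z0) z0) (b z0 z0))) z2) z2) (a (b (d (a (c (b (d z0 z0) (d z0 z0)) (b z0 z0)) z2) (a (b (d z0 z0) (d z0 z0)) z2)) (d (c (b z0 z0) (b z0 z0)) (b (d z0 z0) z0))) z2)) (d (c (b (d (c (a (b z0 z0) z2) z0) (a (b z0 z0) z2)) (d (c (b z0 z0) z0) (b z0 z0))) (b z0 z0)) (b (d (c (a (b z0 z0) z2) z0) (a (b z0 z0) z2)) (d (c (b z0 z0) z0) (b z0 z0))))) (b (d (c (a z2 (b (d (c (a z2 (b (d z3 z3) z2)) z2) z2) (d z2 z2))) z2) (a z2 (b (d z2 z2) z2))) (d z2 z2))) (a (b z2 (d (c (b z0 z0) (b z0 z0)) (c (b (d z0 (c (a (b z0 z0) z2) z0)) z0) (b z0 z0)))) z2)) (a (b (d (a (c (b (d (a (c (b (d z0 z0) (d z0 z0)) (b z0 z0)) z2) (a (b (d (a (b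 z0 z0) z0) z0) (d z0 z0)) z2)) (d (c (b (d z0 z0) (d z0 z0)) (b z0 z0)) (b (d z0 z0) (d z0 z0)))) (b (d (a (c (b z0 z0) (b z0 z0)) z2) (a (c (b (d z0 (a (b z0 z0) z0)) (d z0 z0)) (b z0 z0)) z2)) (d (c (b z0 z0) z0) (c (b (d z0 z0) z0) (b z0 z0))))) (c (b (d z2 z2) (d z2 z2)) z2)) (a (b (d (a (b (d (a (c (b z0 z0) z0) z0) (a (b z0 z0) z0)) (d (c (b z0 z0) z0) (b z0 z0))) z2) z0) (d (b (d z0 z0) (d z0 z0)) z0)) (b (d z2 z0) (d z2 z0)))) (d (c (b (d (a (c (b (d z0 z0) z0) (b z0 z0)) z2) (a (b (d z0 z0) z0) z2)) (d (c (b z0 z0) z0) (b z0 z0))) (b (d z0 (a (c (b z0 z0) z0) z2)) (d z0 (c (b z0 z0) z0)))) (b (d (a (b (d z0 z0) (d z0 z0)) z2) z0) (d (b z0 z0) z0)))) (b (d (a z2 (c (b (d z2 z2) z2) z2)) (a z2 (b (d z2 z0) z2))) (d z2 z2)))) (d (c (b (d z2 z2) (d (c (b (d z0 z0) z0) (b z0 z0)) (b (d z0 z0)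 (d z0 z0)))) (b z2 (d (c (b z0 z0) z0) (c (b z0 z0) (b z0 z0))))) (b (d z2 (a (b (d (a (b z0 z0) z2) z0) (d (b z0 z0) z0)) z2)) (d (c (b (d z0 z0) (d z0 z0)) (b z0 z0)) (b (d z0 z0) (d z0 z0)))))) _ _ (by decide +kernel)

theorem okB1340 : CKB ⟨18432, 24576, 8192, 9216⟩ ⟨0, 6144, 6144, 7168⟩ :=
  ckB_sound (b (d (c (a (b (d (c (a (b z3 (d z3 z3)) z3) z3) (a (b z3 (d z3 z3)) z3)) (d (c (a (b (d (c (a z2 z3) z2) (a z2 z3)) z2) z3) (a z2 z3)) (a (b (d z2 z2) z2) z3))) (b (d (c (b (d (a z3 (c (b (d z3 z3) z3) z3)) (a z3 (b (d z3 z3) z3))) z3) z3) (b (d z3 z3) z3)) (d z3 z3))) (a (b z3 (d z3 (c (a z2 z3) z3))) z3)) (a (b (d (c (a (b z3 (d z3 z3)) z3) z3) (a (b z3 (d z3 z0)) z3)) (d (c (a (b (d z2 z2) z2) z3) (a z2 z3)) (a (b (d z2 z0) z2) z3))) (b (d (c (b (d z3 z3) z3) z3) (b (d z3 z0) z3)) (d z3 z3))))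 (d (c (a (b (d (c (a z2 (b z3 z2)) z2) (a z2 (b z3 z2))) (d z2 z2)) (b (d z3 z3) (d z3 z3))) (a z2 z3)) (a (b (d (c (a z2 (b z3 z2)) z2) z2) (d z2 z2)) (b (d z3 z3) (d z3 z3))))) _ _ (by decide +kernel)

theorem okB1341 : CKB ⟨12288, 24576, 8192, 9216⟩ ⟨0, 6144, 7168, 8192⟩ :=
  ckB_sound z0 _ _ (by decide +kernel)

theorem okB1342 : CKB ⟨12288, 24576, 9216, 10240⟩ ⟨0, 6144, 6144, 8192⟩ :=
  ckB_sound (d (b (d (c (b (d (a z2 (c (b z3 z2) z2)) z2) z2) z2) (b (d z2 z2) z2)) (d (c (b (d z0 z0) z0) (b z0 z0)) (b (d (c (b z2 z0) z0) (b z2 z0)) z0))) z0) _ _ (by decide +kernel)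

theorem okB1343 : CKB ⟨12288, 24576, 10240, 12288⟩ ⟨0, 6144, 4096, 8192⟩ :=
  ckB_sound z0 _ _ (by decide +kernel)

theorem okB1344 : CKB ⟨12288, 24576, 8192, 10240⟩ ⟨6144, 12288, 4096, 6144⟩ :=
  ckB_sound (b (d (a (c (b z2 (d (c (b z2 z0) (b z2 z0)) (c (b z2 z0) (b z10 z8)))) (b z14 (d z12 (b z14 (d z12 (c (b z12 z12) z12)))))) (c (b z3 (d z2 (c (a z2 z3) z10))) (b (d z15 (a (b z15 (d z15 (c (a z14 z15) z15))) z15)) (d z14 (a z14 z15))))) (a (c (b z10 (d (c (b z10 z8) (b z10 z8)) (c (b z10 z8) (b z10 z8)))) (b z10 (d (b z14 (d (c z8 z12) (c z8 z12))) (b z10 z8)))) (c (b z11 (d (c (a z10 z11) z10) (c (a z10 z11) z10))) (b z11 (d (a (b (d z14 (c z10 z14)) z14) (b z15 (d z15 (c z11 z15)))) (a z10 z11)))))) (d (c (b z2 (d (c (b z0 z0) (b z0 z0)) (c (b z0 z0) (b z8 z0)))) (b z14 (d (b z12 z0) (b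 (d z12 (c (b z14 z12) z12)) z0)))) (c (b z10 (d (c (b z8 z0) (b z8 z0)) (c (b z8 z0) (b z8 z0)))) (b z10 (d (b (d (c z8 z12) (c z8 z12)) z0) (b z8 z0)))))) _ _ (by decide +kernel)

theorem okB1345 : CKB ⟨12288, 24576, 8192, 9216⟩ ⟨6144, 12288, 6144, 7168⟩ :=
  ckB_sound (a (c (b (d z10 (a (c (b (d z2 (a (c (b (d (a (c (b (d z0 (a (c (b z0 z0) z0) z0)) z0) (b z0 z0)) z2) (a (b (d (c (a (b z0 z0) z0) z0) (a (b z0 z0) z0)) (d (c (b z0 z0) z0) (b z0 z0))) z2)) (d (c (b z0 z0) (b z0 z0)) (b (d (c (a (b z0 z0) z0) z0) (a (b z0 z0) z0)) (d z0 z0)))) (b (d (a (c (b z0 z0) z0) z2) (a (c (b z0 z0) (b z0 z0)) z2)) (d z0 (c (b z0 z0) (b z0 z0))))) z2)) (d (c (b z0 z0) (b z8 z8)) (c (b (d (a (c (b z0 z0) z0) z2) (a (b (d z0 z0) (d z0 z0)) z2)) (d (c (b z0 z0) z0) (b (d z0 z0) z0))) (b (d z0 (a (c (b z0 z0)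 z0) z2)) z0)))) (b z10 (d (c (b z8 z8) (b z8 z8)) (c (b z8 z8) (b z8 z8))))) z10)) (d (c (b z10 z8) (b z10 z8)) (c (b z2 (d (c (b z0 z0) z8) (c (b (d z0 z0) z0) (b z0 z0)))) (b z10 (d z8 (c (b z8 z8) z8)))))) (b z10 (d (b z10 z8) (b z10 z8)))) (c (b (d z11 (c (a (b z3 (d z3 (c (a z2 z3) z3))) z3) z11)) (d (c (a z10 z11) z10) (c (a z2 z3) z10))) (b z11 (d (a z10 z11) z10)))) _ _ (by decide +kernel)

theorem okB1346 : CKB ⟨12288, 18432, 8192, 8704⟩ ⟨6144, 12288, 7168, 7680⟩ :=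
  ckB_sound (c (a (b (d (c (a (b (d (c (a (b (d (c (a (b z0 z0) z0) z0) (a (c (b z0 z0) z0) z0)) (d (c (b z0 z0) z0) (c (b z0 z0) z0))) z2) (a (b z0 z0) z2)) (a (c (b (d (a (c (b z0 z0) z0) z0) (a (b (d z0 z0) z0) z0)) (d (c (b z0 z0) z0) (b z0 z0))) (b (d z0 (a (c (b z0 z0) z0) z0)) (d z0 (c (b z0 z0) z0)))) z2)) (d (c (b (d (c (a (b z0 z0) z0) z0) (a (c (b z0 z0) z0) z0)) (d z0 (c (b z0 z0) z0))) (b z0 z0)) (c (b (d (a (c (b z0 z0) z0) z0) (a (b z0 z0) z0)) (d (c (b z0 z0) z0) (b z0 z0))) (b (d z0 (a (c (b z0 z0) z0) z0)) z0)))) (b (d z2 z2) (d z2 z2))) z10) (a (b (d (c (a (b (d (c (a (b (d z0 z0) z0) z0) z0) (a (c (b (d z0 z0) (d z0 z0)) (b z0 z0)) z0)) (d (c (b z0 z0) z0) (c (b z0 z0) z0))) (b z2 (d z2 z2))) (a (b z0 z0) z2)) (a (c (b (d (a (c (b (d z0 z0) (d z0 z0)) (b z0 z0)) z0) (a (b (d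 z0 z0) (d z0 z0)) z0)) (d (c (b z0 z0) z0) (b z0 z0))) (b (d z0 (a (c (b z0 z0) z0) z0)) (d z0 (c (b z0 z0) z0)))) (c (b z2 (d z2 z2)) z2))) (d (c (b (d (c (a (b z0 z0) z0) z0) (a (c (b z0 z0) z0) z0)) (d (c (b z0 z0) z0) (c (b z0 z0) z0))) (b z0 z0)) (c (b (d (a (c (b z0 z0) z0) z0) (a (b z0 z0) z0)) (d (c (b z0 z0) z0) (b z0 z0))) (b (d z0 (a (c (b z0 z0) z0) z0)) z0)))) (b (d z2 z2) (d z2 z2)))) (d (c (b (d (c (a (b (d z0 z0) (d z0 z0)) z2) (a (b z0 z0) z2)) (a (c (b (d z0 z0) (d z0 z0)) (b z0 z0)) z2)) (d (c (b (d z0 z0) (d z0 z0)) z0) (c (b (d z0 z0) (d z0 z0)) (b z0 z0)))) (b (d z8 (c (a (b z0 z0) z2) z8)) z8)) (b (d (c (a (b (d (c (a (b z0 z0) z0) z0) (a (c (b z0 z0) z0) z0)) (d z0 z0)) z2) (a (b z0 z0) z2)) (a (c (b (d (a (c (b z0 z0) z0) z0) (a (b z0 z0) z0)) (d z0 z0)) (b z0 z0)) z2))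 (d (c (b (d z0 z0) (d z0 z0)) z0) (c (b (d z0 z0) (d z0 z0)) (b z0 z0)))))) (b (d (c (a (b z2 (d z2 z2)) z2) z10) (a (b (d z2 z2) (d z2 z2)) z2)) (d (c (a (b (d z2 z2) (d z2 z2)) z2) z10) (a (b (d z2 z2) (d z2 z2)) z2)))) (a (b z10 (d (c (b z8 z8) (b z8 z8)) (c (b (d z8 (c (a (b z0 z0) z2) z8)) z8) (b z8 z8)))) z10)) _ _ (by decide +kernel)

theorem okB1347 : CKB ⟨12288, 18432, 8192, 8704⟩ ⟨6144, 12288, 7680, 8192⟩ :=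
  ckB_sound (a (b (d (c (a (b (d (c (a (b (d (c (a (b (d z0 z0) (d z0 z0)) z0) z0) (a (b (d z0 z0) (d z0 z0)) z0)) (d (c (b (d z0 z0) z0) z0) (b (d z0 z0) z0))) (b (d z2 z2) (d z2 z2))) (a (b z0 z0) z2)) (a (b (d (c (a (b (d z0 z0) (d z0 z0)) z0) z0) (a (b (d z0 z0) (d z0 z0)) z0)) (d (c (b (d z0 z0) z0) z0) (b (d z0 z0) z0))) (b (d z2 z2) (d z2 z2)))) (d (c (b (d (c (a (b z0 z0) z0) z0) (a (b z0 z0) z0)) (d (c (b z0 z0) z0) (b z0 z0))) (b z0 z0)) (b (d (c (a (b z0 z0) z0) z0) (a (b z0 z0) z0)) (d (c (b z0 z0) z0) (b z0 z0))))) (b (d z2 z2) (d z2 (a (b z2 (d z2 z2)) z2)))) z10) (a (b (d (c (a (b (d (c (a (b (d z0 z0) (d z0 z0)) z0) z0) (a (b (d z0 z0) (d z0 z0)) z0)) (d (c (b (d z0 z0) z0) z0) (b z0 z0))) (b (d z2 z2) (d z2 z2))) (a (b z8 z8) z10)) (a (b (d (c (a (b (d z0 z0) z0) z0) z0) (a (b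 z0 z0) z0)) (d (c (b z0 z0) z0) (b z0 z0))) (b (d z2 z2) (d z2 z2)))) (d (c (b (d (c (a (b z0 z0) z0) z0) (a (b z0 z0) z0)) (d (c (b z0 z0) z0) (b z0 z0))) (b z8 z8)) (b (d (c (a (b z0 z0) z0) z0) (a (b z0 z0) z0)) (d (c (b z0 z0) z0) (b z0 z0))))) (b (d z2 z2) (d (c (a (b z2 (d z2 z2)) z2) z10) (a (b z2 (d z2 z2)) z2))))) (d (c (b (d (c (a (b (d (c (a (b z0 z0) z0) z0) (a (b z0 z0) z0)) (d z0 (b z0 z0))) z2) (a (b z0 z0) z2)) (a (b (d (c (a (b z0 z0) z0) z0) (a (b z0 z0) z0)) (d (c (b z0 z0) z0) (b z0 z0))) z2)) (d (c (b (d z0 z0) (d z0 z0)) z0) (b (d z0 z0) (d z0 z0)))) (b (d z8 (c (a (b z8 z8) z10) z8)) z8)) (b (d (c (a (b (d (c (a (b z0 z0) z0) z0) (a (b z0 z0) z0)) (d (c (b z0 z0) z0) (b z0 z0))) z2) (a (b z8 z8) z10)) (a (b (d (c (a (b z0 z0) z0) z0) (a (b z0 z0) z0)) (d (c (b z0 z0) z0)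 (b z0 z0))) z2)) (d (c (b (d z0 z0) (d z0 z0)) z8) (b (d z0 z0) (d z0 z0)))))) (b (d (c (a (b (d z2 z2) (d z2 z2)) z2) z10) (a (b (d z2 z2) (d z2 z2)) z2)) (d (c (a (b (d z2 z2) (d z2 z2)) z2) z10) (a (b (d z2 z2) (d z2 z2)) z2)))) _ _ (by decide +kernel)

theorem okB1348 : CKB ⟨12288, 18432, 8704, 9216⟩ ⟨6144, 12288, 7168, 8192⟩ :=
  ckB_sound (d (c (b (d (c (a (b (d (c (a (b z0 z0) z2) z0) (a (c (b (d z0 z0) z0) (b z0 z0)) z2)) (d (c (b z0 z0) z0) (c (b z0 z0) z0))) z2) z10) (a (b (d (c (a (b (d z0 z0) z0) z2) z0) (a (c (b (d z0 z0) (d z0 z0)) (b z0 z0)) z2)) (d (c (b z0 z0) z0) (c (b z0 z0) z0))) z2)) (d (c (b (d (c (b z2 z0) z0) (c (b z2 z0) z0)) (d z0 z0)) (b z8 z8)) (b (d (c (b z2 z0) z0) (c (b z2 z0) z0)) (d z0 (c (b z0 z0) z0))))) (b z10 (d z8 (c (b z8 z8) z8)))) (b (d (c (a (b (d (c (a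 (b (d z0 z0) (d z0 z0)) z2) z0) (a (b (d z0 z0) (d z0 z0)) z2)) (d (c (b z0 z0) z0) (b (d z0 z0) z0))) (b (d z2 z2) (d z2 z2))) z10) (a (b (d (c (a (b (d z0 z0) (d z0 z0)) z2) z8) (a (b (d z0 z0) (d z0 z0)) z2)) (d (c (b (d z0 z0) z0) z8) (b (d z0 z0) (d z0 z0)))) (b (d z2 z2) (d z2 z2)))) (d (c (b (d (c (b z2 z0) z0) (b z2 z0)) (d (c (b z0 z0) z0) (b z0 z0))) (b z8 z8)) (b (d (c (b z2 z0) z8) (b z2 z0)) (d (c (b z0 z0) z8) (b z0 z0)))))) _ _ (by decide +kernel)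

theorem okB1349 : CKB ⟨18432, 24576, 8192, 9216⟩ ⟨6144, 12288, 7168, 8192⟩ :=
  ckB_sound (b (d (c (a (b (d (c (a (b z3 (d z3 z3)) z3) z11) (a (b z3 (d z3 z3)) z3)) (d (c (a z2 z3) z11) (a z2 z3))) (b (d z3 z3) z3)) z11) (a (b (d z3 z3) (d (c (a z2 z3) z11) (a z2 z3))) z3)) (d (c (a (b (d z2 z2) (d z2 z2)) (b (d z3 z3) (d z3 z3))) z10) (a (b (d z2 z2) (d z2 (a (b z2 (d z2 z2)) z2))) (b (d z3 z3) (d z3 z3))))) _ _ (by decide +kernel)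

end Vale.Agent.Lib.P154Q5
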