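import Vale.Agent.Lib.P154Q5.CkBDefs

namespace Vale.Agent.Lib.P154Q5

set_option maxRecDepth 100000
set_option exponentiation.threshold 1000

open Tr

theorem okB135 : CKB ⟨6145, 8193, 3584, 4096⟩ ⟨9216, 12288, 5632, 6144⟩ :=
  ckB_sound (b (d (c (a z8 (b (d (c (a z8 z9) (a z8 z9)) (c (a z8 z9) (a z8 z9))) z8)) (a z12 (b (d (c (a z12 z13) z13) (c (a (b (d (c z8 z12) (c z8 z12)) (d (c z8 z12) (c z8 z12))) (b (d z13 (c z9 z13)) (d (c z9 z13) (c z9 z13)))) z13)) (d (c (a z12 (b (d z13 (c (a (b z13 (d z13 (c z9 z13))) z13) z13)) (d (c (a z12 z13) z13) (c (a z12 z13) z13)))) z12) (c (a (b (d (c z8 z12) (c z8 z12)) (d z12 (c z8 z12))) (b (d (c z9 z13) (c z9 z13)) (d (c (a z8 z9) z13) (c z9 (a z12 z13))))) z12))))) (c z8 (a (b (d (c z8 z12) z8) (d (c z8 z12) z8)) (b (d (c (a z8 z9) (a z12 z13)) (c (a z8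 z9) (a z12 z13))) (d (c z8 z12) (c z8 (a z12 (b (d z13 (c (a (b z13 (d z13 (c z9 z13))) z13) z13)) (d z13 (c (a z12 z13) z13)))))))))) (d (c z8 (a z12 (b (d (c (a z12 (b (d (c (a z12 z13) z13) (c (a z12 z13) z13)) (d z12 (c (a z12 (b z13 (d z13 (c z9 z13)))) z12)))) z12) (c (a (b (d z12 (c z8 z12)) (d z12 (c z8 z12))) (b (d (c (a z8 z9) z13) (c (a z8 z9) (a z12 z13))) (d (c z8 z12) (c z8 z12)))) z12)) (d (c (a z12 (b (d z12 (c (a z12 (b (d (c (a z12 z13) z13) (c z9 z13)) z12)) z12)) z12)) z12) (c (a (b (d z12 (c z8 z12)) (d z12 (c z8 z12))) (b (d (c z8 z12) (c z8 z12)) (d (c z8 z12) (c z8 z12)))) z12))))) (c z8 (a (b (d (c z8 z12) z8) (d (c z8 z12) z8)) (b (d (c z8 z12) (c z8 (a z12 (b (d (c (a z12 z13) z13) (c (a z12 z13) z13)) z12)))) (d (c z8 z12) z8)))))) _ _ (by decide +kernel)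

theorem okB136 : CKB ⟨4097, 6145, 2048, 3072⟩ ⟨6144, 9216, 6144, 7168⟩ :=
  ckB_sound z8 _ _ (by decide +kernel)

theorem okB137 : CKB ⟨6145, 8193, 2048, 2560⟩ ⟨6144, 9216, 6144, 7168⟩ :=
  ckB_sound (d (c (b z9 (d (a (c (b z9 (d (a z8 z9) (a z8 z9))) (b z9 (d (a z8 z9) (a z8 z9)))) z9) (a (c (b (d z9 (a (c (b z1 (d z1 (a z0 z1))) z9) z9)) (d (a z8 z9) (a z8 z9))) (b z9 (d (a z8 z9) (a z8 z9)))) z9))) (b z9 (d (a (c (b z9 (d (a z8 z9) (a z8 z9))) (b z9 (d z9 (a z8 z9)))) z9) (a (c (b z9 (d (a z8 z9) (a z8 z9))) (b z9 (d (a z8 z9) (a z8 z9)))) z9)))) (c (b (d z1 (a (c (b z1 (d z1 (a (b z1 (d z1 z1)) z1))) z1) z0)) (d (a (c (b (d (a (c (b z1 (d (a z0 z1) (a z0 z1))) (b z1 (d z1 (a z0 z1)))) z1) (a (c (b z1 (d (a z0 z1) (a z0 z1))) (b z1 (d (a z0 z1) (a z0 z1)))) z1)) (d (a z0 z1) (a z0 z1))) (b (d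 z9 (a (c (b z1 (d (a z8 z9) (a z0 z1))) z9) z9)) (d (a z8 z9) (a z8 z9)))) z1) (a (c (b (d (a (c (b (d z1 (a (c (b z1 (d (a z0 z1) (a z0 z1))) z1) z1)) (d (a z0 z1) (a z0 z1))) (b z1 (d (a z0 z1) (a z0 z1)))) z1) (a (b (d (c (a (b (d z1 z1) (d (c (a z0 z1) z1) (a z0 z1))) z1) z1) (a (b (d z1 z1) (d (c (a z0 z1) z1) (a z0 z1))) z1)) (d (c (a z0 z1) (a z0 z1)) (a z0 z1))) z1)) (d (a z0 z1) (a z0 z1))) (b (d (a (c (b z1 (d (a z0 z1) (a z0 z1))) (b z1 (d (a z8 z9) (a z0 z1)))) z1) (a (c (b z1 (d (a z0 z1) (a z0 z1))) (b z1 (d (a z0 z1) (a z0 z1)))) z1)) (d (a z0 z1) (a z0 z1)))) z1))) (b z9 (d (a (c (b z9 (d (a z8 z9) (a z8 z9))) (b z9 (d (a z8 z9) (a z8 z9)))) z9) (a (c (b (d z9 (a (c (b z1 (d (a z8 z9) (a z0 z1))) (b z9 (d z9 (a z8 z9)))) z9)) (d (a z8 z9) (a z8 z9))) (b z9 (d (a z8 z9) (a z8 z9))))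 z9))))) _ _ (by decide +kernel)

theorem okB138 : CKB ⟨6145, 8193, 2560, 3072⟩ ⟨6144, 9216, 6144, 7168⟩ :=
  ckB_sound (d (c (b (d (a (c (b (d (a z8 z9) (a z8 z9)) z8) (b (d (a z8 z9) (a z8 z9)) z8)) z9) (a (c (b (d (a z8 z9) (a z8 z9)) z8) (b (d (a z8 z9) (a z8 z9)) z8)) z9)) (d (a z8 z9) (a z8 z9))) (b (d (a (c (b (d (a z8 z9) (a z8 z9)) z8) (b (d (a z8 z9) (a z8 z9)) z8)) z9) (a (c (b (d (a z8 z9) (a z8 z9)) z8) (b (d (a z8 z9) (a z8 z9)) z8)) z9)) (d (a z8 z9) (a z8 z9)))) (c (b (d (a (c (b (d (a z0 z1) (a z0 z1)) z0) (b (d (a z8 z9) (a z8 z9)) z8)) z1) (a (c (b (d (a z0 z1) (a z0 z1)) (d (a z0 z1) (a z0 z1))) (b (d (a z0 z1) (a z0 z1)) z0)) z1)) (d (a z0 z1) (a (c (b (d z0 (a z0 (b (d z1 z1) (d (c (a z0 z1) z1) (a z0 z1))))) z0) z0) z1))) (b (d (a (c (b (d (a z8 z9) (a z8 z9)) z8) (b (d (a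 z8 z9) (a z8 z9)) z8)) z9) (a (c (b (d (a z8 z9) (a z8 z9)) z8) (b (d (a z8 z9) (a z8 z9)) z8)) z9)) (d (a z8 z9) (a z8 z9))))) _ _ (by decide +kernel)

theorem okB139 : CKB ⟨4097, 8193, 2048, 3072⟩ ⟨9216, 12288, 6144, 7168⟩ :=
  ckB_sound (a z8 (b (d (b z9 (d z9 (c (a (b z9 (d z9 (c (a z8 z9) z9))) z9) z9))) (b z9 (d (c (a (b z9 (d (c (a z8 z9) z9) (c (a z8 z9) z9))) z9) z9) (c (a (b z9 (d (c (a z8 z9) (a z8 z9)) (c (a z8 z9) (a z8 z9)))) z9) z9)))) (d (b (d (c (a (b (d (c (a z8 z9) (a z8 z9)) (c (a z8 z9) (a z8 z9))) z8) z9) (a (b (d (c (a z8 z9) (a z12 z13)) (c (a z8 z9) (a z8 z9))) z8) z9)) (c (a (b (d (c (a z8 z9) (a z8 z9)) (c (a z8 z9) (a z8 z9))) z8) z9) (a (b (d (c (a z8 z9) (a z8 z9)) (c (a z8 z9) (a z8 z9))) z8) z9))) (d (c (a z8 z9) (a z8 z9)) (c (a z8 z9) (a z8 z9)))) (b (d (c (a (b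 (d (c (a z8 z9) (a z8 z9)) (c (a z8 z9) (a z8 z9))) z8) z9) (a (b (d (c (a z8 z9) (a z8 z9)) (c (a z8 z9) (a z8 z9))) z8) z9)) (c (a (b (d (c (a z8 z9) (a z8 z9)) (c (a z8 z9) (a z8 z9))) z8) z9) (a (b (d (c (a z8 z9) (a z8 z9)) (c (a z8 z9) (a z8 z9))) z8) z9))) (d (c (a z8 z9) (a z8 z9)) (c (a z8 z9) (a z8 z9))))))) _ _ (by decide +kernel)

theorem okB140 : CKB ⟨4097, 6145, 2048, 3072⟩ ⟨6144, 12288, 7168, 8192⟩ :=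
  ckB_sound (b (d z8 (a (b (d z0 z0) (d z0 z0)) (b (d (c (b (d z0 z0) (d z0 z0)) z8) (b (d z0 z0) (d z0 z0))) (d (c (b (d z0 z0) z0) z8) (b (d z0 z0) (d z0 z0)))))) (d z8 (a (b (d z0 z0) (d z0 z0)) (b (d z0 z0) (d z0 z0))))) _ _ (by decide +kernel)

theorem okB141 : CKB ⟨6145, 8193, 2048, 2560⟩ ⟨6144, 12288, 7168, 7680⟩ :=
  ckB_sound (c (b (d (c (a (b z1 (d (c (a (b z1 (d z1 z1)) z1) z1) (a (c (b z1 (d z1 z1)) z1) z1))) z0) z9) (a (b z1 (d (c (a (b z1 (d z1 z1)) z1) z1) (a (c (b z1 (d z1 z1)) z1) z1))) z0)) (d (c (a (b (d (c (a (b (d (c (a (b (d z1 z1) (d (c (a z0 z1) z1) (a z0 z1))) z1) z1) (a (c (b (d z1 z1) (d (a z0 z1) (a z0 z1))) (b z1 (d z1 (a z0 z1)))) z1)) (d (c (a z0 z1) (a z0 z1)) (a z0 z1))) z1) (a (b z1 (d (c (a z0 z1) (a z0 z1)) (c (a z0 z1) (a z0 z1)))) z1)) (a (c (b (d (a (c (b (d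 z1 z1) (d (a z0 z1) (a z0 z1))) (b z1 (d z1 (a z0 z1)))) z1) (a (b (d z1 z0) (d (a z0 z1) z0)) z1)) (d (a z0 z1) (a z0 z1))) (b (d z1 (a (c (b z1 (d z1 (a z0 z1))) z1) z1)) (d (a z0 z1) (a z0 z1)))) z1)) (d (c (a z0 z1) (a z0 z1)) (a z0 z1))) z1) (a (b (d (c (a (b z9 (d (c (a z8 z9) z9) (c (a z0 z1) z9))) z9) z9) (c (a (b z1 (d (c (a z0 z1) (a z0 z1)) (c (a z0 z1) (a z0 z1)))) z1) z9)) (d (c (a z8 z9) (a z8 z9)) (c (a z0 z1) (a z8 z9)))) z9)) (a (b (d (c (a (b (d (c (a (b (d z1 z1) (d (c (a z0 z1) z1) (a z0 z1))) z1) z1) (a (c (b z1 (d (a z0 z1) (a z0 z1))) z1) z1)) (d (c (a z0 z1) (a z0 z1)) (a z0 z1))) z1) (a (b z1 (d (c (a z0 z1) z9) (c (a z0 z1) (a z0 z1)))) z1)) (a (c (b (d (a (c (b z1 (d z1 z1)) z1) z1) (a (b z1 (d z1 z0)) z1)) (d (a z0 z1) (a z0 z1))) (b (d z1 (a (c (b z1 (d z1 z1)) z1) z1))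 (d (a z0 z1) (a z0 z1)))) z1)) (d (c (a z0 z1) (a z0 z1)) (a z0 z1))) z1))) (b z9 (d (a (c (b z9 (d (a z8 z9) (a z8 z9))) (b z9 (d z9 (a z8 z9)))) z9) (a (c (b (d z9 (a (c (b z1 (d z9 (a z0 z1))) z9) z9)) (d (a z8 z9) (a z8 z9))) (b z9 (d (a z8 z9) (a z8 z9)))) z9)))) _ _ (by decide +kernel)

theorem okB142 : CKB ⟨6145, 8193, 2048, 2560⟩ ⟨6144, 12288, 7680, 8192⟩ :=
  ckB_sound (b (d (c (a (b (d z1 z1) (d (c (a (b z1 (d z1 z1)) z1) z1) (a (b z1 (d z1 z1)) z1))) z0) z9) (a (b (d z1 z1) (d (a (c (b z1 (d z1 z1)) z9) z1) (a (b z1 (d z1 z1)) z1))) z0)) (d (c (a (b (d (c (a (b (d (c (a (b z1 (d z1 z1)) z1) z1) (a (b z1 (d z1 z1)) z1)) (d (c (a z0 z1) (a z0 z1)) (a z0 z1))) z1) z1) (a (b (d (c (a (b z1 (d z1 z1)) z1) z1) (a (b z1 (d z1 z1)) z1)) (d (c (a z0 z1) z1) (a z0 z1))) z1)) (d (c (a z0 z1) (a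 z0 z1)) (a z0 z1))) z1) (a (b z9 (d (a z8 z9) (a z8 z9))) z9)) (a (b (d (a (c (b (d (a (c (b z1 (d z1 z1)) z1) z1) z1) (d (a z0 z1) (a z0 z1))) z9) z1) (a (b (d z1 z1) (d (a z0 z1) (a z0 z1))) z1)) (d (a z0 z1) (a z0 z1))) z1))) _ _ (by decide +kernel)

theorem okB143 : CKB ⟨6145, 8193, 2560, 3072⟩ ⟨6144, 12288, 7168, 8192⟩ :=
  ckB_sound (d (c (b (d (c (a (b (d (c (a z0 z1) (a z0 z1)) (a z0 z1)) (d (c (a z0 z1) z0) (a z0 z1))) z1) (a (b (d (c (a z8 z9) (a z8 z9)) (c (a z0 z1) (a z8 z9))) z8) z9)) (a (b (d (c (a z0 z1) (a z0 z1)) (a z0 z1)) (d (c (a z0 z1) z0) z0)) z1)) (d (c (a (b (d z0 z0) (d z0 z0)) z1) (a z8 z9)) (a (b (d z0 z0) (d z0 z0)) z1))) (b (d (a (c (b (d (a z8 z9) (a z8 z9)) z8) (b (d (a z8 z9) (a z8 z9)) z8)) z9) (a (c (b (d (a z8 z9) (a z8 z9)) z8) (b (d (a z8 z9) (a z8 z9)) z8))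 z9)) (d (a z8 z9) (a z8 z9)))) (b (d (c (a (b (d (c (a z0 z1) (a z0 z1)) (a z0 z1)) (d z0 z0)) z1) (a (b (d (a z8 z9) (a z8 z9)) z8) z9)) (a (b (d (a z0 z1) (a z0 z1)) (d z0 z0)) z1)) (d (c (a (b (d z0 z0) (d z0 z0)) z1) (a z8 z9)) (a (b (d z0 z0) z0) z1)))) _ _ (by decide +kernel)

theorem okB144 : CKB ⟨4097, 8193, 3072, 4096⟩ ⟨6144, 12288, 6144, 8192⟩ :=
  ckB_sound (d (c (a z8 (b (d (c (b (d (a z8 z9) (a z8 z9)) (d (a z8 (c (b z9 (d (a z8 z9) (a z8 z9))) (b z9 (d z9 (a z8 z9))))) (a z8 (c (b z9 (d (a z8 z9) (a z8 z9))) (b z9 (d (a z8 z9) (a z8 z9))))))) (b (d (a z8 z9) (a z8 z9)) z8)) (c (b (d (a z0 z1) (a z0 z1)) (d (a z0 (c (b z1 (d (a z0 z1) (a z0 z1))) (b z9 (d (a z8 z9) (a z8 z9))))) (a z0 (c (b (d (a (c (b z1 (d z1 (a z0 z1))) z1) z1) (a (b (d z1 z1) (d (c (a z0 z1) z1) (a z0 z1))) z1))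 (d (a z0 z1) (a z0 z1))) (b z1 (d (a z0 z1) (a z0 z1))))))) (b (d (a z8 z9) (a z8 z9)) z8))) z8)) (a z8 (b (d (b (d (c (a z8 z9) (a z8 z9)) z8) (d (c z8 (a z8 (b (d (c z9 (a (b (d (c z9 z13) z9) (d (c z9 z13) z9)) z13)) z9) (d (c (a z8 z9) (a (b (d (c z8 z12) z8) (d (c z8 z12) z8)) z13)) (c (a z8 z9) (a z8 z9)))))) z8)) z8) z8))) (a (b (d z8 (a (b (d z0 z0) (d z0 z0)) (b (d z0 z0) (d z0 z0)))) (d z8 (a (b (d z0 z0) (d z0 z0)) (b (d z0 z0) (d z0 z0))))) (b (d (c (b (d (c (a z0 (b z1 (d z1 z1))) (a z8 z9)) (a z0 (b z1 (d z1 z1)))) (d (c (a z0 (b (d (c (a (b (d z1 z1) (d (c (a z0 z1) z1) (a z0 z1))) z1) z1) (a (c (b z1 (d (a z0 z1) (a z0 z1))) z1) z1)) (d (c (a z0 z1) (a z0 z1)) (a z0 z1)))) z8) (a z0 (b (d (c (a (b z1 (d z1 z1)) z1) z1) (a (c (b z1 (d z1 z1)) z1) z1)) (d (c (a z0 z1) (a z0 z1)) (a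 z0 z1)))))) z8) (b (d (c (a z0 (b z1 (d z1 z1))) z8) (a z0 (b z1 (d z1 z1)))) (d (c (a z0 (b (d (c (a (b z1 (d z1 z1)) z1) z1) (a (b z1 (d z1 z1)) z1)) (d (c (a z0 z1) z1) (a z0 z1)))) z8) (a z0 (b (d z1 z1) (d (c (a z0 z1) z9) (a z0 z1))))))) (d z8 (b (d z0 z0) (d z0 z0)))))) _ _ (by decide +kernel)

theorem okB145 : CKB ⟨0, 4097, 0, 4096⟩ ⟨0, 12288, 8192, 12288⟩ :=
  ckB_sound (b (d (b z0 (d (b z0 (d (b (d (b z0 (d z0 z0)) z0) (d (a (b (d z0 z0) (d z0 z0)) (b (d z0 z0) (d z0 z0))) z0)) z0)) z0)) z0) (d (a (b (d (b (d (b z0 (d (b (d z0 z0) z0) z0)) z0) (d (a (b (d (b z0 z0) z0) (d z0 z0)) (b (d z0 z0) (d z0 z0))) z0)) z0) (d (a (b (d (b (d z0 z0) (d z0 z0)) z0) (d (a (b (d z0 z0) (d z0 z0)) (b (d z0 z0) (d z0 z0))) z0)) (b (d (b (d z0 z0) (d z0 z0)) z0) (d (b (d z0 z0) (d z0 z0)) z0))) z0)) (b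 (d (b (d (a (b (d (b (d z0 z0) (d z0 z0)) z0) (d z0 z0)) (b (d (a z0 (b (d z0 z0) z0)) z0) (d z0 z0))) z0) (d (a (b (d z0 z0) (d z0 z0)) (b (d z0 z0) (d z0 z0))) z0)) z0) (d (b (d (a (b (d z0 z0) (d z0 z0)) (b (d z0 z0) (d z0 z0))) z0) (d (a (b (d z0 z0) (d z0 z0)) (b (d z0 z0) (d z0 z0))) z0)) z0))) z0)) _ _ (by decide +kernel)

theorem okB146 : CKB ⟨4097, 8193, 0, 4096⟩ ⟨0, 12288, 8192, 12288⟩ :=
  ckB_sound (b (d (b z0 (d (a (b (d (b z0 (d (a (b (d (b z0 (d (b (d (b z0 z0) z0) (d z0 z0)) z0)) z0) (d (a (b (d (b z0 z0) z0) (d z0 z0)) (b (d (a (b (d z0 z0) z0) (b (d z0 z0) (d z0 z0))) z0) (d z0 z0))) z0)) (b (d (a (b z0 (d (a (b (d (a (b z0 z1) z0) z0) (d (a (b z1 (d z1 z0)) z0) z0)) z0) z0)) z0) z0) (d (a (b (d (a (b (d (a (b (d (a z0 z1) z0) (d (a z0 z1) z0)) z1) z0) (d (a z0 z1) z0)) z0) z0)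 (d (a (b (d (a z0 z1) z0) (d z0 z0)) z1) z0)) z0) z0))) z0)) z0) (d (a (b (d (a (b (d (b (d z0 z0) z0) z0) (d z0 z0)) (b (d (b (d z0 z0) (d z0 z0)) z0) (d z0 z0))) z0) (d (a (b (d z0 z0) (d z0 z0)) (b (d z0 z0) (d z0 z0))) z0)) (b (d (b (d (a (b (d z0 z0) (d z0 z0)) (b (d z1 z0) (d (a (b (d z1 z0) (d z1 z0)) z0) z0))) z0) (d (a (b (d z0 z0) (d z0 z0)) (b (d (a (b (d (a z0 z1) z0) (d (a z0 z1) z0)) z1) z0) (d (a z0 z1) z0))) z0)) z0) (d (b (d (a (b (d z0 z0) z0) (b (d (a z0 z1) z0) (d (a z0 z1) z0))) z0) (d (a z0 (b (d z0 z0) z0)) z0)) z0))) z0)) (b z0 (d (b z0 (d z1 z0)) z0))) z0)) z0) (d (b (d (a (b (d (a (b (d (a (b (d z0 z0) (d z0 z0)) (b (d z0 z0) (d z0 z0))) z0) (d (a z0 (b (d z0 z0) z0)) z0)) (b (d (b (d z0 z0) (d z0 z0)) z0) (d (b (d z0 z0) (d z0 z0)) z0))) z0) (d (a (b (d z0 z0) (d z0 z0))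 (b (d (b (d z0 z0) z0) z0) (d z0 z0))) z0)) (b (d (b (d (a (b (d z1 z0) (d (a (b z1 (d z1 z0)) z1) z0)) z0) z0) (d (a (b (d (a (b (d z1 z0) (d (a z0 z1) z0)) z1) z0) (d (a z0 z1) z0)) z1) z0)) z0) (d (b (d (a (b (d (a z0 z1) z0) (d z0 z0)) z1) z0) (d (a (b (d z0 z0) z0) z1) z0)) z0))) z0) (d (a (b (d (a (b (d z0 z0) (d z0 z0)) (b (d z0 z0) (d z0 z0))) z0) (d (a (b (d z0 z0) (d z0 z0)) (b (d z0 z0) (d z0 z0))) z0)) (b (d (b (d (a z0 (b z1 (d z1 z0))) z0) (d z0 z0)) z0) (d (b (d z0 z0) (d z0 z0)) z0))) z0)) z0)) _ _ (by decide +kernel)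

theorem okB147 : CKB ⟨8193, 49152, 0, 4096⟩ ⟨0, 6144, 4096, 8192⟩ :=
  ckB_sound (b z0 (d (c (b (d (c (a (b z0 z1) z0) (a (b z0 (d (a z1 z0) (a z1 z0))) z0)) (a (b z0 (d (c z1 (a z1 z0)) (a z1 z0))) z0)) (d (c (a z1 (b z0 z1)) (a z1 (b z0 z1))) (a (b z1 (d z1 z1)) (b z0 (d z1 z1))))) (b (d (a (b z0 (d (c (a z1 z0) (a z1 z0)) (c (a z1 z0) (a z1 z0)))) z0) (a (b z0 (d (c (a z1 z0) (a z1 z0)) (c (a z1 z0) (a z1 z0)))) z0)) (d (a z1 (b z0 (d z1 (c z1 (a z1 (b z0 z1)))))) (a z1 (b z0 (d (c (a z1 (b z0 z1)) (a z1 (b z0 z1))) (c (a z1 (b z0 z1)) (a z1 (b z0 z1))))))))) (b (d (a (b z0 (d (c (a z1 z0) (a z1 z0)) (a z1 z0))) z0) z0) (d (a (b z1 (d (c (a (b z1 (d z1 z1)) z1) z1) (a (b z1 (d z1 z1)) z1))) (b z0 (d (c (a z1 (b z0 z1)) (a z1 (b z0 z1))) (a z1 (b z0 z1))))) z0)))) _ _ (by decide +kernel)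

theorem okB148 : CKB ⟨8193, 49152, 0, 4096⟩ ⟨6144, 12288, 4096, 8192⟩ :=
  ckB_sound (b z0 (d (b (d (c (a (b z0 (d (c (a z1 z0) (a z1 z0)) (c (a z1 z0) (a z9 z0)))) z0) (a (b z0 (d (a z13 z0) (a z13 z0))) z0)) (c (a (b z0 (d (c (a z9 z0) (a z9 z0)) (c (a z9 z0) (a z9 z0)))) z0) (a (b z0 (d (a z13 z0) (a z9 z0))) z0))) (d (a (c (b (d (a z1 (c (b z0 z1) (b z0 z1))) (a z9 (c (b z0 z1) (b z0 z9)))) (d (a (c z1 (b z1 (d (a (c z1 z5) z5) (a (c z1 (b (d z5 z9) (d (a (b (d z5 (c z1 z5)) (d (c (a (b (d z5 (c z1 z5)) (d (c z1 z5) (c z1 z5))) z5) z5) (c z1 z5))) z5) (a (b z9 (d (c z1 z13) (c z9 z13))) z9)))) z1)))) z1) z9)) (b (d (a z13 (b z0 (d (c z5 (a z5 z0)) z13))) (a z13 (b z0 z13))) (d z13 (a (b z13 (d z13 (c (a (b (d z13 (c z9 z13)) (d (c (a (b (d z13 (c z9 z13)) (d (c (a (b (d z13 (c z9 z13)) (d (c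 z9 z13) (c z9 z13))) z13) z13) (c z9 z13))) z13) z13) (c (a (b z9 (d (c z9 z13) z9)) z9) z13))) z13) z13))) z13)))) (c (b z0 (d (c (a z1 (b z0 z1)) (a (b z0 z1) (b z0 z1))) (c (a (b z0 z1) (b z0 (d z1 z9))) (a z9 (b z0 z9))))) (b z0 (d (a (b z0 (d (c z5 (a (b (d z5 z13) z5) (b (d (c z5 (b z0 z5)) z13) (d z5 z13)))) z13)) (b z0 (d (c z5 (b z0 (d z5 z13))) z13))) (a z13 (b z0 z13)))))) (a (c z9 (b (d z13 z9) (d (a (b (d (c z9 z13) (c z9 z13)) (d (c (a (b (d (c z9 z13) z9) (d (c z9 z13) (c z9 (a (b z13 (d z13 (c (a (b z13 (d z13 (c z9 z13))) z13) z13))) z13)))) z9) z13) (c (a (b z9 (d (c z9 (a (b (d (c z9 z13) z9) (d (c z9 z13) z9)) z13)) z9)) z9) z13))) z13) (a (b z9 (d (c z9 (a (b z13 (d z13 (c (a (b (d z13 (c z9 z13)) (d (c z9 z13) (c z9 z13))) z13) z13))) z13)) (c z9 (a (b (d (c z9 z13) z9) (d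 (c z9 z13) z9)) z13)))) z9)))) (c (b z0 (d (c (a z9 (b z0 z9)) (a z9 (b z0 z9))) (c (a z9 (b z0 z9)) (a z9 (b z0 z9))))) (b z0 (d (a z13 (b z0 z13)) (a z9 (b z0 z9)))))))) (b (d (c (a (b z0 (d (c (a z9 z0) (a z9 z0)) (c (a z1 z0) (a z9 z0)))) z0) (a (b z0 (d (a z9 z0) z9)) z0)) (a (b z0 (d z9 z1)) z0)) (d (a z9 (c (b z0 (d (c (a z9 (b z0 z9)) (a z9 (b z0 z9))) (c (a z1 (b z0 (d (c z1 z9) z1))) (a z9 (b z0 z9))))) (b z0 (d (a z9 (b z0 z9)) (a z9 (b z0 z9)))))) (a (b z1 (d z9 (a (b z1 (d z1 z1)) z1))) (b z0 (d (c (a z1 (b z0 (d (c z1 z9) z1))) (a z9 (b z0 z9))) (a z1 (b z0 (d (c z1 z9) z1)))))))))) _ _ (by decide +kernel)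

theorem okB149 : CKB ⟨8193, 49152, 0, 4096⟩ ⟨0, 12288, 8192, 12288⟩ :=
  ckB_sound (b z0 (d (b (d (a z1 z0) z0) (d (a (b z1 (d (a (b z1 (d z1 z0)) z1) z0)) (b z0 (d z1 z0))) z0)) z0)) _ _ (by decide +kernel)

end Vale.Agent.Lib.P154Q5
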