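import Vale.Agent.Lib.P154Q5.CkBDefs

namespace Vale.Agent.Lib.P154Q5

set_option maxRecDepth 100000
set_option exponentiation.threshold 1000

open Tr

theorem okB1350 : CKB ⟨12288, 24576, 9216, 10240⟩ ⟨6144, 12288, 6144, 8192⟩ :=
  ckB_sound (d (c (b z10 (d (c (b z8 z0) (b z8 z0)) (c (b z0 z0) (b z8 z0)))) (b z10 (d (b z8 z0) (b z8 z0)))) (b (d z10 (b (d z2 (a (b z2 z2) z2)) (d z2 z2))) (d (c (b (d (c (b z2 z0) z8) (b z2 z0)) z0) (b z8 z0)) (b (d (c (b z2 z0) z8) (b z2 z0)) z0)))) _ _ (by decide +kernel)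

theorem okB1351 : CKB ⟨12288, 24576, 10240, 12288⟩ ⟨6144, 12288, 4096, 8192⟩ :=
  ckB_sound z0 _ _ (by decide +kernel)

theorem okB1352 : CKB ⟨12288, 24576, 8192, 12288⟩ ⟨0, 12288, 8192, 12288⟩ :=
  ckB_sound (b (d (b (d (a (b (d (a (b (d (a (b (d (a (b (d (a (b z0 z0) z0) z0) (d (b z0 z0) z0)) (b z2 (d z2 z0))) z0) (d (b (d (a (b z0 z0) z0) z0) (d (b z0 z0) z0)) z0)) (b (d z2 z0) (d (a (b z2 (d z2 z0)) z2) z0))) z0) (d (b (d (a (b (d (a (b z0 z0) z0) z0) (d (b z0 z0) z0)) z2) z0) (d (b (d z0 z0) (d z0 z0)) z0)) z0)) (b (d (a (b (d z2 z0) (d z2 z0)) z2) z0) (d (a (b (d z2 z0) (d z2 z0)) (b z2 (d z2 z0))) z0))) z0) (d (b (d (a (b (d (a (b (d z0 z0) (d z0 z0)) z2) z0) (d (b (d z0 z0) (d z0 z0)) z0)) (b (d z2 z0) (d z2 z0))) z0) (d (b (d (b z2 z0) z0) (d (b z0 z0) z0)) z0)) z0)) (b (d (a (b (d z3 z0) (d (a z2 z3) z0)) z3) z0) (d (a (b (d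 z2 z0) (d (a (b z2 (d z2 z0)) z2) z0)) (b (d z3 z0) (d z3 z0))) z0))) z0) (d (b (d (b (d (a (b (d z2 z0) z2) z2) z0) (d (a (b z2 (d z0 z0)) z2) z0)) z0) (d (b (d (b z2 z0) z0) z0) z0)) z0)) z0) z0) _ _ (by decide +kernel)

theorem okB1353 : CKB ⟨12288, 13491, 4096, 4352⟩ ⟨12288, 14693, 4096, 4352⟩ :=
  ckB_sound (c (b (d (a (c z5 z13) (c z7 (b (d z5 z13) z15))) z13) z15) (b (d (a (c (b z13 z15) (b z13 z15)) (c (b (d (a z5 (c (b z5 (d z5 z13)) (b z5 (d z5 z13)))) z13) z15) (b (d (a z13 (c (b z13 (d (a z5 (c (b z5 z7) (b z5 z7))) z13)) (b z13 (d (a z5 (c (b z5 z7) (b z5 z7))) z13)))) z13) z15))) (a z13 z15)) z15)) _ _ (by decide +kernel)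

theorem okB1354 : CKB ⟨13491, 14693, 4096, 4352⟩ ⟨12288, 13491, 4096, 4352⟩ :=
  ckB_sound (b (d (c (a (b (d z5 z13) z7) (b (d z7 z15) z7)) (a (b (d (c z5 (a (b z5 z7) (b z5 z7))) (c z13 (a z13 (b z13 z15)))) z15) (b (d (c z7 (a (b (d z5 (c z5 (a (b z5 (d z5 z13)) (b z5 (d z5 z13))))) z7) (b (d z5 (c z5 (a (b z5 (d z7 z15)) (b z5 z7)))) z7))) z15) z15))) z15) z15) _ _ (by decide +kernel)

theorem okB1355 : CKB ⟨13491, 14092, 4096, 4224⟩ ⟨13491, 14693, 4096, 4224⟩ :=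
  ckB_sound (c (b (d (a (c (b (d z5 z13) (d z7 z15)) (b (d z5 z13) (d z7 z15))) (c (b (d z5 z13) (d z7 z15)) (b (d z5 z13) (d z7 z15)))) (a (c (b z13 z15) (b z13 z15)) (c (b z13 z15) (b z13 z15)))) (d (a (c (b (d z7 z15) z7) (b (d z7 z15) z7)) (c (b (d z7 z15) z7) (b (d z7 z15) (d z7 z15)))) z15)) (b (d (a (c (b z13 (d (a (c (b z5 z7) (b z5 z7)) (c z7 (b (d z5 (a (c (b z5 (d z5 z13)) (b z5 (d z5 z13))) (c (b z5 z7) (b z5 z7)))) z7))) z15)) (b z13 (d (a (c (b z5 z7) (b z5 z7)) (c (b (d z5 (a z13 (c (b z13 z15) z13))) z7) z7)) z15))) (c (b (d (a z5 (c z5 (b z5 (d z5 (a z5 (c (b z5 (d z5 z13)) (b z5 (d z5 z13)))))))) z13) (d (a (c (b (d z7 (a z7 z7)) z7) (b (d z7 (a (c (b (d z5 z13) z7) (b (d z5 z13) z7)) (c (b (d z5 z13) z7) (b (d z5 z13) z7)))) z7)) (c z7 (b (d z7 (a (c (b (d z7 z15) z7) (b (d z7 z15) z7)) (c (b (d z7 z15) z7) (b (d z7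 z15) z7)))) z7))) z15)) (b z13 (d (a (c (b (d z7 z15) z7) z7) (c (b (d z7 z15) z7) z7)) z15)))) (a (c (b z13 z15) (b z13 z15)) (c (b z13 z15) (b z13 z15)))) z15)) _ _ (by decide +kernel)

theorem okB1356 : CKB ⟨14092, 14693, 4096, 4224⟩ ⟨13491, 14693, 4096, 4224⟩ :=
  ckB_sound (c (b (d (c (a (b (d z5 (c (a (b (d z5 z13) (d z5 z13)) (b (d z5 z13) (d z5 z13))) (a z13 (b z13 (d (c (a (b z5 z7) (b z5 z7)) (a (b z5 (d z7 z15)) (b z5 (d z7 z15)))) z13))))) (d z7 z15)) (b (d z5 (c (a (b (d z5 z13) (d z7 z15)) (b (d z5 z13) (d z7 z15))) (a (b z13 z15) z13))) (d z7 z15))) (a (b (d (c z5 (a z5 (b z5 (d z5 (c z5 (a (b z5 z7) (b z5 z7))))))) (c (a (b z13 (d (c z13 z13) z13)) (b z13 (d (c (a (b z13 z15) (b z13 z15)) (a (b z13 z15) (b z13 z15))) z13))) (a z13 (b z13 (d (c (a (b z13 z15) (b z13 z15)) (a (b z13 z15) (b z13 z15))) z13))))) (d z7 z15))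 (b (d (c z5 (a (b z5 z7) (b z5 z7))) (c (a (b z13 z15) z13) (a (b z13 z15) z13))) (d z7 z15)))) z15) (d (c (a (b (d z7 z15) z7) (b (d z7 z15) z7)) (a (b (d z7 z15) (d z7 z15)) (b (d z7 z15) (d z7 z15)))) z15)) (b (d (a (c (b (d (a (c (b z5 (d z5 (a (c (b z5 (d z5 (a z5 (c z5 (b z5 z7))))) (b z5 (d z5 (a (c (b z5 (d z5 z13)) z13) (c (b z5 z7) z13))))) (c (b z5 (d z5 (c (a (b z5 z7) z7) (a (b z5 z7) z7)))) (b z5 (d z5 (a (c (b z5 z7) z13) z7))))))) (b z5 (d z5 (a (c (b z5 (d z5 z13)) (b z5 (d z5 z13))) (c (b z5 (d z5 z13)) (b z5 (d z5 z13))))))) (c (b z5 (d z5 (c (a (b z5 z7) (b z5 z7)) (a (b z5 z7) (b z5 z7))))) (b z5 (d z5 (a (c (b z5 z7) (b z5 (d z7 z15))) (c (b z5 z7) (b z5 z7))))))) z13) (d z7 z15)) (b (d (a (c (b z5 (d z5 z13)) (b z5 (d z5 z13))) (c (b z5 (d z5 z13)) (b z5 (d z5 z13)))) z13) z15)) (c (b (d (c (a (b z5 z7) (b z5 z7))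 (a (b z5 z7) (b z5 z7))) z13) z15) (b (d (a (c (b z5 z7) (b z5 z7)) (c (b z5 z7) (b z5 z7))) z13) z15))) z15) z15)) _ _ (by decide +kernel)

theorem okB1357 : CKB ⟨13491, 14693, 4096, 4224⟩ ⟨13491, 14693, 4224, 4352⟩ :=
  ckB_sound (a z15 z15) _ _ (by decide +kernel)

theorem okB1358 : CKB ⟨13491, 14693, 4224, 4352⟩ ⟨13491, 14693, 4096, 4352⟩ :=
  ckB_sound (d (a z15 z15) z15) _ _ (by decide +kernel)

theorem okB1359 : CKB ⟨12288, 14693, 4096, 4352⟩ ⟨12288, 14693, 4352, 4608⟩ :=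
  ckB_sound (a z15 z15) _ _ (by decide +kernel)

theorem okB1360 : CKB ⟨12288, 14693, 4352, 4608⟩ ⟨12288, 14693, 4096, 4608⟩ :=
  ckB_sound (d (a z15 z15) z15) _ _ (by decide +kernel)

theorem okB1361 : CKB ⟨12288, 14693, 4096, 4608⟩ ⟨14693, 24576, 4096, 4608⟩ :=
  ckB_sound (b (d (a z15 (b (d (c (a (b (d (c (a (b z13 z15) (b z13 z15)) (a z13 (b z13 z15))) (c (a z13 (b z13 z15)) z13)) z15) z15) z15) z15) z15)) z15) z15) _ _ (by decide +kernel)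

theorem okB1362 : CKB ⟨14693, 24576, 4096, 4608⟩ ⟨12288, 24576, 4096, 4608⟩ :=
  ckB_sound (c (b (d (c z15 (b (d (a (c (b (d (a (c (b (d z7 z15) (d z7 z15)) (b (d z7 z15) (d z7 z15))) (c z7 (b (d z7 z15) z7))) z15) z15) z15) z15) z15) z15)) z15) z15) z15) _ _ (by decide +kernel)

theorem okB1363 : CKB ⟨12288, 24576, 4096, 4608⟩ ⟨12288, 24576, 4608, 5120⟩ :=
  ckB_sound (c (a z15 z15) (a z15 z15)) _ _ (by decide +kernel)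

theorem okB1364 : CKB ⟨12288, 24576, 4608, 5120⟩ ⟨12288, 24576, 4096, 5120⟩ :=
  ckB_sound (d (a (c z15 z15) (c z15 z15)) (a z15 z15)) _ _ (by decide +kernel)

end Vale.Agent.Lib.P154Q5
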