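import Vale.Agent.Lib.P154Q5.CkBDefs

namespace Vale.Agent.Lib.P154Q5

set_option maxRecDepth 100000
set_option exponentiation.threshold 1000

open Tr

theorem okB1365 : CKB ⟨12288, 24576, 4096, 5120⟩ ⟨12288, 24576, 5120, 6144⟩ :=
  ckB_sound (b (d (c z15 z15) (c z15 z15)) (d (c z15 z15) z15)) _ _ (by decide +kernel)

theorem okB1366 : CKB ⟨12288, 24576, 5120, 6144⟩ ⟨12288, 24576, 4096, 6144⟩ :=
  ckB_sound (d (b (d (a z15 z15) (a z15 z15)) (d (a z15 z15) z15)) (b z15 z15)) _ _ (by decide +kernel)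

theorem okB1367 : CKB ⟨12288, 24576, 4096, 6144⟩ ⟨12288, 24576, 6144, 8192⟩ :=
  ckB_sound (b (d (c z15 z15) (c (b z11 z11) (b z15 z15))) (d (c (b z15 (d z15 (a (c z11 z15) z15))) z15) (c (b z11 (d (a (c z11 z15) z11) z11)) (b z15 z15)))) _ _ (by decide +kernel)

theorem okB1368 : CKB ⟨12288, 24576, 6144, 8192⟩ ⟨12288, 24576, 4096, 8192⟩ :=
  ckB_sound (d (b (d (a z15 z15) (a (b z15 (d z15 (c (a z14 z15) z15))) z15)) (d (a (b (d z14 z14) (d z14 z14)) (b (d z15 z15) (d z15 z15))) (a (b (d z14 (c (a z14 z15) z14)) (d z14 z14)) (b z15 z15)))) (b (d (a (c (b (d (a (c (b (d z15 (a (c (b z15 (d z15 (a (c z11 z15) z15))) z15) z15)) (d (a (c (b z15 (d z15 (a z14 z15))) z15) z15) (a (c (b (d (a (c (b (d z15 (a (c z11 z15) z15)) (d (a z14 z15) (a z14 z15))) z15) z15) (a (c z11 z15) z15)) (d (a z14 z15) (a (c z10 z14) (c z11 z15)))) z15) z15)))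 z15) z15) (a (c (b (d (a (c z11 z15) z15) z11) (d (a (c (b z11 (d (a z10 z11) z11)) (b z15 (d z15 (a z14 z15)))) z15) (a (c z11 (b (d (a (c z11 z15) z15) z11) (d (a z14 z15) (a z10 z11)))) z11))) z15) z15)) (d (a (c (b (d (a z14 z15) (a (c (b (d z14 (a z14 (c z11 z15))) z14) z14) (c (b z15 (d z15 (c z11 z15))) z15))) (d z14 (a z14 (c (b (d (c (a z14 z15) z15) (c z11 z15)) (d z14 (c z10 z14))) z15)))) z14) z15) (a (c (b (d (a (c z10 z14) (c z11 z15)) (a z10 z11)) (d (a (c z10 z14) (c (b z11 z10) z15)) z10)) z14) (c z11 z15)))) z15) (c z15 (b z15 z15))) (c (a (b (d (c (a (b z11 (d (c z11 (a (b z11 (d (c z11 z15) z11)) z11)) z11)) z11) (a (b z15 (d z15 (c (a (b z15 (d z15 (c z11 z15))) z15) z15))) z15)) (c z11 (a (b z11 (d (c z11 z15) z11)) z11))) (d (c (a z10 z11) (a z14 z15)) (c (a z10 z11) (a (b (d (c (a z10 z11) z15) (c z11 (a z14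 z15))) z10) z11)))) (b z11 z11)) (a z15 (b z15 z15)))) (d (a (c (b (d (a (c (b (d z14 (a z14 (c (b (d z14 (a z14 z15)) z14) z14))) z14) z14) (c (b z15 (d z15 (a (c (b z15 (d z15 (a z14 z15))) z15) z15))) z15)) (a (c z10 z14) (c z11 z15))) (d (a z14 (c (b (d z15 (a z14 z15)) z14) z14)) (a (c z10 z14) (c (b (d (a (c z10 z14) z15) z11) z10) z14)))) (b (d z14 z14) (d z14 z14))) (c z15 (b z15 z15))) (a (c (b (d (a (c z10 z14) (c z11 z15)) (a z10 z11)) (d (a z10 (c z10 z14)) z10)) (b (d z14 z14) (d z14 z14))) (c (b z11 z11) (b z15 z15)))))) _ _ (by decide +kernel)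

theorem okB1369 : CKB ⟨12288, 24576, 4096, 8192⟩ ⟨12288, 24576, 8192, 12288⟩ :=
  ckB_sound (b (d (b (d (c (b (d z11 (a z3 (b (d z11 z3) (d z11 z3)))) (d (c (a z3 (b (d z11 z3) (d z11 z3))) z11) (a z3 (b (d z11 z3) (d z11 z3))))) (b z15 z15)) (b (d (a z11 (b z11 z11)) (a z3 (b z3 z3))) (d z11 (a z3 (b z3 z3))))) (d (c (b (d (a z11 (c (b (d z11 z3) (d z11 z3)) z11)) (a z3 (b (d z11 z3) (d z11 z3)))) (d (a z11 (c (b (d z11 z3) (d z11 z3)) z11)) (a z3 (b z3 z3)))) (b z15 z15)) (b (d z11 z3) (d z11 (a (b z3 (d z3 z0)) z3))))) z0) (d (b (d (c (a (b (d z11 (a (b (d z11 z3) (d z11 z3)) z3)) (d (c (a (b (d z11 (a z2 z3)) (d z10 z2)) (b z3 (d z11 z3))) (a z10 z11)) (a (b (d z11 (a z2 z3)) (d z10 z2)) (b z3 (d z11 z3))))) (b (d (c (b z3 z3) z11) (b z3 z3)) (d (c (b z3 z3) z11) z3))) (a (b (d z15 (a (c z11 z15) z11)) (d (a z14 z15) (a (c z10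 z14) z11))) z15)) (a (b (d z11 (a (b (d z3 z0) (d z3 z0)) z3)) (d z11 (a (b (d (a z2 z3) z0) (d z2 z0)) (b z3 (d z3 z0))))) (b (d z11 z3) (d z11 z3)))) (d (a (c (b (d z10 (a (b (d z10 z2) (d z10 z2)) (b (d z11 z3) (d z11 z3)))) (d (a (c (b (d z10 (a (b (d z2 z2) (d z2 z2)) z2)) (d z10 (a (b (d z2 z2) (d (a (c (b z2 (d z0 z0)) z10) z2) z2)) (b (d z2 z2) (d z2 z2))))) z10) z10) (a (b (d z10 z2) (d z10 (a (b (d z2 z2) (d z2 z2)) z2))) (b (d z11 (a z2 z3)) (d z10 z2))))) (b (d z14 (a z10 z11)) (d z14 (a z10 (c z10 z14))))) (c (b (d (c (b z3 z3) z11) z3) (d (c (a (b z3 (d z11 z3)) (b z3 z3)) z11) (a (b z3 (d z11 z3)) z3))) z15)) (a (b (d z10 (a (b (d z2 z0) (d z2 z0)) (b (d z3 z0) (d z3 z0)))) (d z10 (a (b (d z2 z0) (d z2 z0)) (b (d (a z2 z3) z0) (d z2 z0))))) (b (d z11 z3) (d z11 (a (b z3 (d z3 z0)) z3)))))) z0)) _ _ (by decide +kernel)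

theorem okB1370 : CKB ⟨12288, 24576, 8192, 12288⟩ ⟨12288, 24576, 4096, 8192⟩ :=
  ckB_sound (b (d (b (d (a (b (d z14 (a (c z12 (b z14 (d z12 z12))) z14)) (d (c z12 (b z14 (d z12 z12))) (c z12 (b z14 z12)))) (b (d z15 z15) (d z14 z14))) (a (b (d (c z14 (a (b z14 (d z12 z12)) z14)) (c z14 (a (b z14 z12) z14))) (d (c z12 (b z14 z12)) (c z12 (b z14 z12)))) (b z15 (d z14 z14)))) (d (b (d (c z14 (b z14 z14)) z14) (d (c z12 (b (d z12 z12) z0)) (c z12 (b (d z12 z12) z0)))) (b (d z14 z14) (d z12 (c (b z12 z0) z12))))) (b (d (a (c (b (d z14 (a (c (b z10 z8) (b z14 z12)) (c z10 z14))) (d (c (b z14 z12) z12) (c (b z10 z8) (b z14 z12)))) (b (d (a (b z14 z12) z14) (a (b z14 z12) z14)) (d (b z14 z12) z12))) (c (b (d z15 (c z11 z15)) (d (c (a z14 z15) z14) (c (a z10 z11) z14))) z15)) (a (c (b (d z10 (a (c (b z10 (d (c (b z8 z8) z8) (c (b (d z8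 (c (a (b z8 z8) z10) z8)) z8) (b z8 z8)))) (b z10 z8)) z10)) (d (c (b z10 z8) (b z14 z12)) (c (b z10 (d z8 (c (b z8 z8) z8))) (b z10 z8)))) (b (d (a (b z14 z12) z14) (a (c (b z14 z12) (b z14 z12)) z14)) (d z12 (c (b z14 z12) z12)))) (c (b z11 (d (c z10 z14) (c z10 (a z10 z11)))) z15))) (d (c (b z14 (d (c (b z12 z0) z12) (c (b z8 z0) (b z12 z0)))) (b (d z14 z14) (d z12 z12))) (c (b z10 (d (c (b z8 z0) (b z12 z0)) (c (b z8 z0) (b z8 z0)))) (b (d z14 z14) (d z12 (c (b z12 z0) z12))))))) z0) _ _ (by decide +kernel)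

theorem okB1371 : CKB ⟨12288, 18432, 8192, 8704⟩ ⟨12288, 18432, 8192, 9216⟩ :=
  ckB_sound (d (a (c (b (d (a (c (b (d (a (c (b (d (a (c (b z0 z0) z0) z0) (a (b z0 z0) z0)) (d (c (b z0 z0) z0) (b z0 z0))) (b z8 z8)) (c (b z2 (d z2 z2)) z10)) (a (b (d (a (c (b z0 z0) z0) z0) (a (b z0 z0) z0)) (d (c (b z0 z0) z0) (b z0 z0))) (b z2 (d z2 z2)))) (d (c (b (d (c (a (b z0 z0) z0) z0) (a (b z0 z0) z0)) (d (c (b z0 z0) z0) (b z0 z0))) (b z8 z8)) (b (d (a (c (b z0 z0) z0) z0) (a (b z0 z0) z0)) (d (c (b z0 z0) z0) (b z0 z0))))) (b (d z8 (a (c (b z8 z8) z8) z10)) z8)) z10) (a (b (d (a (c (b (d (a (c (b z0 z0) z0) z0) (a (b z0 z0) z0)) (d (c (b z0 z0) z0) z0)) z8) z2) (a (b (d z0 z0) (d z0 z0)) z2)) (d (c (b (d (a (c (b z0 z0) z0) z0) z0) (d z0 z0)) z8) (b (d z0 z0) (d z0 z0)))) (b (d z2 z2) (d z2 z2)))) (d (c (b (d (c (a (b (d (c (a (b z0 z0)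 z0) z0) (a (b z0 z0) z0)) (d (c (b z0 z0) z0) z0)) z2) z8) (a (b (d (c (a (b z0 z0) z0) z0) z0) (d z0 z0)) z2)) (d (c (b (d z0 z0) (d z0 z0)) z8) (b (d z0 z0) (d z0 z0)))) (b z8 z8)) (b (d (a (c (b (d z0 z0) (d z0 z0)) z8) z2) (a (b (d z0 z0) (d z0 z0)) z2)) (d (c (b (d z0 z0) (d z0 z0)) z8) (b (d z0 z0) (d z0 z0)))))) (b z10 (d (c (b z8 z8) z8) (c (b z8 z8) z8)))) (c (b (d z10 (a (b z2 (d z2 z2)) z2)) (d z10 (a (b (d z2 z2) (d z2 z2)) z2))) z10)) (a (b (d (a (c (b (d (a (c (b (d z0 z0) (d z0 z0)) z8) z2) (a (b (d z0 z0) (d z0 z0)) z2)) (d (c (b (d z0 z0) (d z0 z0)) z8) (b (d z0 z0) (d z0 z0)))) (b z8 z8)) z10) (a (b (d (a (b z0 z0) z2) (a (b z0 z0) z2)) (d (b z0 (d z8 z0)) (b z0 z0))) (b z2 (d z2 z2)))) (d (c (b (d (a (c (b (d z0 z0) (d z0 z0)) z8) z2) (a (b (d z0 z0) (d z0 z0)) z2)) (d (c (b (d z0 z0) (d z0 z0)) z8) (b (d z0 z0)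 (d z0 z0)))) (b z8 z8)) (b (d (a (b (d z8 z0) (d z8 z0)) z2) (a (b z0 z0) z2)) (d (b z0 z0) (b z0 z0))))) (b (d z10 z2) (d z10 (a (b z2 (d z2 z2)) z2))))) _ _ (by decide +kernel)

theorem okB1372 : CKB ⟨12288, 18432, 8704, 9216⟩ ⟨12288, 18432, 8192, 9216⟩ :=
  ckB_sound (d (c (b (d (c (a (b (d (c (a (b (d z0 z0) (d z0 z0)) z2) z8) (a (b (d z0 z0) (d z0 z0)) z2)) (d (c (b (d z0 z0) (d z0 z0)) z8) (b (d z0 z0) (d z0 z0)))) (b (d z2 z2) (d z2 z2))) z10) (a (b (d (c (a (b (d z0 z0) (d z0 z0)) z2) z8) (a (b (d z0 z0) (d z0 z0)) z2)) (d (c (b (d z0 z0) (d z0 z0)) z8) (b (d z0 z0) (d z0 z0)))) (b (d z2 z2) (d z2 z2)))) (d (c (b (d (c (b z2 z0) z8) (b z2 z0)) (d (c (b z0 z0) z8) (b z0 z0))) (b z8 z8)) (b (d (c (b z2 z0) z8) (b z2 z0)) (d (c (b z0 z0) z8) (b z0 z0))))) (b z10 (d z8 (c (b z8 z8) z8)))) (b (d (a (c (b (d (a (c (b (d z0 z0)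 (d z0 z0)) z8) z2) (a (b (d z0 z0) (d z0 z0)) z2)) (d (c (b (d z0 z0) (d z0 z0)) z8) (b (d z0 z0) z0))) (b z8 z8)) (c (b (d z2 z2) (d z2 z2)) z10)) (a (b (d (a (b z0 z0) z2) (a (b z0 z0) z2)) (d (b z0 z0) (b z0 z0))) (b z2 (d z2 z2)))) (d (c (b (d (c (b z2 z0) z8) (b z2 z0)) (d (c (b z0 z0) z8) (b z0 z0))) (b z8 z8)) (b (d (b z2 z0) (b z2 z0)) (d (b z0 z0) (b z0 z0)))))) _ _ (by decide +kernel)

theorem okB1373 : CKB ⟨12288, 18432, 8192, 9216⟩ ⟨18432, 24576, 8192, 9216⟩ :=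
  ckB_sound (b (d z14 (a (c (b z10 (d z8 (c (b z8 z8) z8))) (b z14 z12)) z10)) (d (c (b z14 (d z12 (c z8 z12))) z12) (c (b (d z10 (a (c (b z8 z8) z8) z10)) (d z8 (c (b z8 (d z8 (c (b z0 z0) z8))) z8))) (b z14 z12)))) _ _ (by decide +kernel)

theorem okB1374 : CKB ⟨18432, 24576, 8192, 9216⟩ ⟨12288, 24576, 8192, 9216⟩ :=
  ckB_sound (c (b (d z11 (a (b (d z11 z3) (d z11 (a z2 z3))) z3)) (d (c (a (b (d z10 z2) (d z10 (a (b (d z2 z2) (d z2 z2)) z2))) (b (d z11 z3) (d z11 z3))) z10) (a (b (d z10 z2) (d (c (a (b z2 (d z2 z2)) z2) z10) (a (b (d z2 z2) (d z2 (a (b z2 z0) z2))) z2))) (b (d z11 z3) (d z11 z3))))) (b (d z15 z11) (d z14 (a z10 z11)))) _ _ (by decide +kernel)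

theorem okB1375 : CKB ⟨12288, 24576, 8192, 9216⟩ ⟨12288, 24576, 9216, 10240⟩ :=
  ckB_sound (a (b (d (a (b (d (c (a (b z8 z8) z10) z10) z10) (d (c (b (d z8 z8) (d z8 z8)) z8) (c (b (d z8 z0) (d z8 z0)) z8))) (b z10 (d z10 z10))) (a (b (d z2 z0) (d (b z0 (d z8 z0)) z0)) (b (d z2 z0) (d z2 z0)))) (d (b (d (c (a (b (d z8 z8) (d z8 z8)) (b z10 (d z10 z10))) z10) (a (c (b (d z8 z0) (d z8 z0)) z8) (c (b z2 (d z10 z2)) z10))) (d (c (b (d (c (b z2 z0) z8) (c (b z2 z0) z8)) (d (c (b z0 z0) z8) (c (b z0 z0) z8))) z8) (c (b (d (c (b z2 z0) z8) (b z2 z0)) (d (c (b z0 z0) z8) (b z0 z0))) (b z8 z8)))) (b (d (a (b (d z8 z0) (d z8 z0)) (b z2 (d z10 z2))) z0) (d (b (d (b z10 z8) (b z2 z0)) (d (b z8 z0) (b z0 z0))) z0)))) (b (d z11 (a (b (d z3 z0) (d (a z2 z3) z0)) z3)) (d (a (b (d z10 z10) (d (c (a (b (d z10 z10) (d (c (a (b z2 z0) z2) z10) (c (a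 (b z2 z0) z2) z10))) z10) z10) (a (c (b (d z10 z2) (d (a (c (b z2 (d z8 z0)) z8) z10) (a (b z2 (d z0 z0)) z2))) z10) (c (b z2 (d z10 z2)) z10)))) (b z11 (d z11 z11))) (a (b (d z2 z0) (d (a (b (d z10 z2) (d (a (b z10 (d z8 z8)) z10) (a (b z2 (d z0 z0)) z2))) (b z2 (d z10 z2))) z0)) (b (d z3 z0) (d z3 z0)))))) _ _ (by decide +kernel)

theorem okB1376 : CKB ⟨12288, 24576, 9216, 10240⟩ ⟨12288, 24576, 8192, 9216⟩ :=
  ckB_sound (c (b (d (c (b (d (a (c (b (d z2 z2) z2) z10) z10) (a (b (d z2 z2) (d z2 z2)) z2)) (d z10 (a (b z2 (d z0 z0)) z2))) (b z10 z10)) (b (d (a (c (b (d z2 z2) (d z2 z2)) (b z10 z10)) z10) (a (b (d (a (b z2 z0) z2) (a (b z2 z0) z2)) (d (a (b z2 z0) z2) (a (b z2 z0) z2))) z2)) (d (c (a (b (d z2 z2) (d z0 z0)) z2) (a (b z10 z8) z10)) (a (b (d (a (b z2 z0) z2) (a (b z2 z0) z2)) (d (b z0 z0) (b z0 z0))) (b z2 (d z2 z2))))))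 (d (c (b (d z8 (b z2 (d z0 z0))) z0) (b z8 z0)) (b (d (c (b (d z2 z2) (d z0 z0)) (b z10 z8)) (b (d (b z2 z2) (b z2 z2)) (d (b z0 z0) (b z0 z0)))) z0))) (b (d z14 (c (b (d z10 (a (c (b (d z10 (a (c (b z2 z0) z8) z10)) (d z10 (a (c (b z2 z0) z8) z10))) z10) z10)) (d z10 (c (a (b (d z10 (c (a (b z2 z0) z2) z10)) (d z8 (c (b z0 z0) z8))) z10) (a (b z10 z8) z10)))) (b z14 z14))) (d (c (b (d z12 (c z8 z12)) z0) z12) (c (b (d z8 (c (b (d z10 (c (b z2 z2) z10)) (d z8 (c (b z0 z0) z8))) (b z10 z8))) z0) (b z12 z0))))) _ _ (by decide +kernel)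

theorem okB1377 : CKB ⟨12288, 24576, 9216, 9728⟩ ⟨12288, 24576, 9216, 10240⟩ :=
  ckB_sound (d (b (d (a (c (b (d (a (c (b (d z10 z2) (d z8 z0)) z8) z10) (a (c (b (d z10 z2) (d z8 z0)) z8) z10)) (d (c (a (b (d z10 z2) (d z8 z0)) z2) z10) (a (c (b (d z10 z2) (d z8 z0)) (b z10 z8)) (c (b z2 (d z10 z2)) z10)))) (b z10 z10)) (c (b z11 (d z10 z10)) z10)) (a (c (b (d (a (c (b (d z10 z2) (d z8 z0)) z8) z10) (a (b (d z2 z2) (d z0 z0)) z2)) (d (a (c (b (d z10 z2) (d z8 z0)) (b z10 z8)) (c (b z2 (d z10 z2)) z10)) (a (b (d z2 z2) (d z0 z0)) (b z2 (d z2 z2))))) (b (d z10 (a (c (b z10 z8) z8) z10)) (d z10 (a (c (b z10 z8) z8) z10)))) (c (b z3 (d z10 z2)) z10))) (d (c (a (b (d (c (a (b (d z10 z2) (d z8 z0)) z2) z10) (c (a (b (d z10 z2) (d z8 z0)) (b z2 (d z10 z2))) (a (b z10 z8) z10))) (d (c (b (d z8 z0) (d z8 z0)) z8) (c (b (d z8 z0) (d z8 z0))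 (b z8 z8)))) (b (d z10 z10) (d (c (a (b z2 (d z10 z2)) z2) z10) (c (a (b z2 (d z10 z2)) z2) z10)))) (a (b z10 z8) z10)) (a (c (b (d (a (c (b (d z10 z2) (d z8 z0)) (b z10 z8)) (c (b z2 (d z10 z2)) z10)) (a (b (d (a z0 z2) (a z0 z2)) (d (b z0 z0) (b z0 z0))) (b z2 (d z2 z2)))) (d (c (b (d (c z0 z8) (b z2 z0)) (d (c z0 z8) (b z0 z0))) (b z8 z8)) (b (d (b z2 z0) (b z2 z0)) (d (b z0 z0) (b z0 z0))))) (b (d z10 (a (c (b z10 z8) z8) z10)) (d z8 (c (b (d z8 (c (b z2 z0) z8)) (d z8 (c (b z0 z0) z8))) z8)))) (c (b (d z10 z2) (d (c (a (b z2 (d z10 z2)) z2) z10) (a (b (d z2 z2) (d (a (b z2 z0) z2) (a (b z2 z0) z2))) z2))) z10)))) (b (d (a (b (d (a (b (d z10 z10) (d z8 z8)) z10) (a (b (d z2 z0) (d z0 z0)) z2)) (d (a (b (d z10 z10) (d z8 z8)) (b z10 (d z10 z10))) (a (b (d z2 z0) (d z0 z0)) (b z2 (d z2 z0))))) (b z3 (d z10 z2))) z0) (d (a (b (d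 (a (b (d (c (a (b z0 z0) z2) z10) (a (b z8 z8) z10)) (d (c (b z0 z0) z8) (b z8 z8))) (b (d z10 z10) (d z10 z10))) (a (b (d (a (b z0 z0) z2) z0) (d (b z0 z0) z0)) (b (d z2 z0) (d z2 z0)))) (d (b (d (c (b z2 (d z8 z0)) z8) (b (d z10 z10) z8)) (d (c (b z0 z0) z8) (b z8 z0))) (b (d (b (d z2 z2) z0) z0) (d (b z0 z0) z0)))) (b (d z10 z2) (d (a (b (d z10 z10) (d (c (a (b z2 (d z8 z0)) z2) z10) (a (b z10 z8) z10))) (b z10 (d z10 z10))) (a (b (d z2 z0) (d (a (b z2 (d z0 z0)) z2) z0)) (b z2 (d z2 z0)))))) z0))) _ _ (by decide +kernel)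

theorem okB1378 : CKB ⟨12288, 24576, 9728, 10240⟩ ⟨12288, 24576, 9216, 10240⟩ :=
  ckB_sound (d (b (d (c (b (d (c (b (d z10 z2) (d z10 z2)) z10) (c (b (d z10 z2) (d z10 z2)) (b z10 z10))) (d (c (b (d z8 z0) z0) z8) (c (b (d z8 z0) z0) (b z8 z0)))) (b z10 z8)) (c (b (d (c (b (d (a (c (b z2 z0) z8) z10) (a (b z2 z0) z2)) (d (c (b z2 z2) z10) (b z2 z2))) (b z10 z10)) (b (d (a (b z2 (d z8 z0)) z2) (a (b (d z2 z0) z0) z2)) (d (b z2 z2) (b (d z2 z0) (d z2 z0))))) (d (c (b (d (c (b z0 z0) z8) (b z0 z0)) z0) (b z8 z0)) (b (d (b z0 z0) (b z0 z0)) z0))) (b (d z10 (c (b (d z10 (a (c (b z2 (d z8 z0)) z8) z10)) (d z10 (c (b z2 z2) z10))) (b z10 z10))) (d z8 (c (b (d z8 (c (b z0 z0) z8)) z0) (b z8 z0)))))) z0) (b (d (b (d (b (d (a (c (b (d z10 z2) (d z8 z0)) z8) z10) (a (b (d z10 z10) (d z8 z8)) z10)) (d (c (b (d z10 z2) (d z10 z2)) z10) (b (d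 z10 z10) (d z10 z10)))) (b (d (a (b (d z2 z2) (d z0 z0)) z2) z0) (d (b (d z2 z2) (d z2 z2)) z0))) (d (b (d (c (b (d z8 z0) (d z8 z0)) z8) (b (d z8 z8) (d z8 z8))) z0) (b (d (b (d z0 z0) (d z0 z0)) z0) z0))) z0) z0)) _ _ (by decide +kernel)

theorem okB1379 : CKB ⟨12288, 24576, 8192, 10240⟩ ⟨12288, 24576, 10240, 12288⟩ :=
  ckB_sound z0 _ _ (by decide +kernel)

end Vale.Agent.Lib.P154Q5
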