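import Vale.Agent.Lib.P154Q5.CkBDefs

namespace Vale.Agent.Lib.P154Q5

set_option maxRecDepth 100000
set_option exponentiation.threshold 1000

open Tr

theorem okB1380 : CKB ⟨12288, 24576, 10240, 12288⟩ ⟨12288, 24576, 8192, 12288⟩ :=
  ckB_sound z0 _ _ (by decide +kernel)

theorem okB1381 : CKB ⟨0, 12288, 4096, 8192⟩ ⟨24576, 49152, 4096, 8192⟩ :=
  ckB_sound (a (b (d z0 (a (b (d z0 (a (b z12 (d z0 (a (b z12 (d z0 z12)) z12))) (b z12 (d z0 z12)))) (d z0 (b (d z0 (a (b (d z0 (a (b z12 (d z0 z12)) z12)) (d z0 (a (b (d z0 z12) (d z0 (b z12 z0))) (b z12 (d z0 z12))))) (b (d z0 z12) (d z0 z12)))) (d z0 (b (d z0 (a (b (d z0 (a (b z12 (d z0 z12)) z12)) (d z0 (b (d z0 z12) (d z0 z12)))) (b z12 (d z0 z12)))) (d z0 (b (d z0 (a (b (d z0 z12) (d z0 z12)) z12)) (d z0 (b (d z0 z12) (d z0 (b z12 z12))))))))))) (b (d z0 (b z12 (d z0 z12))) (d z0 (b (d z0 (a (b z12 (d z0 z12)) z12))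 (d z0 (a (b (d z0 z12) (d z0 (a (b (d z0 z12) (d z0 (a (b z12 (d z0 z12)) z12))) z12))) (b z12 (d z0 z12))))))))) (d z0 (b (d z0 (b (d z0 (a (b (d z0 (a (b (d z0 (a (b (d z0 (a (b z12 z12) z12)) (d z0 (b z12 z12))) (b z12 (d z0 z12)))) (d z0 (b (d z0 (a (b z12 z12) z12)) (d z0 (b z12 z12))))) (b (d z0 z12) (d z0 (a (b z12 (d z0 z12)) z12))))) (d z0 (b (d z0 (a (b (d z0 (a (b z12 z12) z12)) (d z0 z12)) (b z12 (d z0 z12)))) (d z0 (b (d z0 z12) (d z0 z12)))))) (b (d z0 (a (b z12 (d z0 z12)) z12)) (d z0 (a (b (d z0 z12) (d z0 (a (b z12 (d z0 z12)) z12))) (b z12 (d z0 z12))))))) (d z0 (b (d z0 (a (b (d z0 (a (b (d z0 z12) (d z0 z12)) (b z12 (d z0 z12)))) (d z0 (b (d z0 z12) z0))) (b (d z0 z12) (d z0 (a (b z12 (d z0 z12)) z12))))) (d z0 (b (d z0 (b z12 z12)) z0)))))) z0))) (b (d z0 (b (d z0 z14) (d z0 (a (b (d z0 z14) (d z0 z14)) z14)))) (d z0 (b (d z0 (a (b (d z0 (a (b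 (d z0 z14) (d z0 z14)) z14)) (d z0 (a (b (d z0 (a (b z12 (d z0 z12)) z14)) (d z0 (a (b (d z0 z12) (d z0 (b z12 z12))) z12))) (b (d z0 z14) (d z0 z14))))) (b (d z0 z14) (d z0 z14)))) (d z0 (b (d z0 (a (b (d z0 (a (b (d z0 z12) (d z0 z12)) z14)) (d z0 (b z12 z12))) (b z14 (d z0 z14)))) (d z0 (b (d z0 z12) (d z0 z12))))))))) _ _ (by decide +kernel)

theorem okB1382 : CKB ⟨0, 3072, 4096, 5120⟩ ⟨24576, 49152, 8192, 10240⟩ :=
  ckB_sound (d (a (b (d z12 (a (b z12 (d z12 z12)) z12)) (d (a (b (d z12 z12) (d z12 (b z12 (d z12 z12)))) (b z12 (d z12 z12))) (a (b (d z12 z12) (d (b z12 (d z12 z12)) (b z12 (d z12 z12)))) (b (d z12 z12) (d z12 z12))))) (b (d z12 z12) (d z12 (a (b z12 (d z12 z12)) z12)))) (a (b (d (a (b z12 (d z12 z12)) z12) (a (c (b (d z12 z8) (d z12 z8)) (b z12 (d z12 z12))) z12)) (d (a (b (d z12 z12) (d (c z12 (b z12 (d z12 z12))) (c z12 (b z12 z12)))) (b (d z12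 z12) (d z12 z12))) (a (c (b (d z12 z8) (d z12 z8)) (b (d z12 z12) (d z12 z12))) (c (b (d z12 z8) (d z12 z8)) (b (d z12 z12) (d z12 z12)))))) (b (d z12 z12) (d (a (b z12 (d z12 z12)) z12) (c (a (b z8 (d z12 z8)) z8) (a (b z12 (d z12 z12)) z12)))))) _ _ (by decide +kernel)

theorem okB1383 : CKB ⟨0, 3072, 5120, 5632⟩ ⟨24576, 49152, 8192, 9216⟩ :=
  ckB_sound (d (a (b (d (a (b (d z12 z12) (d z12 z12)) z12) (a (b (d z12 z12) (d z12 z12)) (b z12 (d z12 z12)))) (d (a (b (d z12 (a (b z12 z12) z12)) (d (b z12 z0) (b z12 z0))) (b (d z12 z12) (d z12 (a (b z12 (d z12 z12)) z12)))) (a (b (d (a (b z12 z12) z12) (a (b z12 z12) z12)) (d (b (d z12 z12) z0) (b (d z12 z12) z0))) (b (d z12 z12) (d (a (b z12 (d z12 z12)) z12) (a (b z12 (d z12 z12)) z12)))))) (b (d z12 z12) (d (a (b z12 (d z12 z12)) z12) (a (b z12 (d z12 z12)) z12)))) (a (b (d (a (b (d z12 z12) (d z12 z12)) (b z12 (d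 z12 z12))) (a (b (d z12 z12) (d z12 z12)) (b z12 (d z12 z12)))) (d (a (b (d (c z12 (a (b z12 z12) z12)) (c z12 (a (b z12 z12) z12))) (d (c z12 (b (d z12 z12) z0)) (c z12 (b (d z12 z12) z0)))) (b (d z12 z12) (d (c z12 (a (b z12 (d z12 z12)) z12)) (c z12 (a (b z12 (d z12 z12)) z12))))) (a (b (d (c z12 (a (b z12 z12) z12)) (c z12 (a (b z12 z12) z12))) (d (c z12 (b z12 z0)) (c z12 (b z12 z0)))) (b (d z12 z12) (d (c z12 (a (b z12 (d z12 z12)) z12)) z12))))) (b (d z12 z12) (d (a (b z12 (d z12 z12)) z12) (a (b z12 (d z12 z12)) z12))))) _ _ (by decide +kernel)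

theorem okB1384 : CKB ⟨0, 3072, 5632, 6144⟩ ⟨24576, 49152, 8192, 9216⟩ :=
  ckB_sound (d (b (d (a (b (d (a (b (d z12 z12) (d z12 z12)) z12) (a (b (d z12 z12) (d z12 z12)) z12)) (d (b (d z12 z12) (d z12 z12)) (b (d z12 z12) (d z12 z12)))) (b (d z12 z12) (d z12 z12))) (a (b (d (a (b (d z12 z12) (d z12 z12)) z12) (a (b (d z12 z12) (d z12 z12)) z12)) (d (b (d z12 z12) (d z12 z12)) (b (d z12 z12) (d z12 z12)))) (b (d z12 z12) (d (a (b z12 (d z12 z12)) z12) (a (b z12 (d z12 z12)) z12))))) (d (b (d (a (b (d z12 z12) (d z12 (b z12 z12))) (b z12 (d z12 z12))) (a (b (d z12 (a (b z12 z12) z12)) (d (b z12 z12) (b z12 z12))) (b z12 (d z12 z12)))) (d (b (d (a (b z12 z12) z12) (a (b z12 z12) z12)) (d (b z12 z12) (b z12 z12))) (b (d (a (b z12 z12) z12) (a (b z12 z12) z12)) (d (b z12 z12) (b z12 z12))))) (b (d (a (b (d (a (c z12 (b z12 z12)) z12) (a (c z12 (b z12 z12)) z12)) (d (c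 z12 (b z12 z12)) (c z12 (b z12 z12)))) (b z12 (d z12 z12))) (a (b (d (a (c z12 (b z12 z12)) z12) z12) (d (c z12 (b z12 z12)) (c z12 (b z12 z12)))) (b z12 (d z12 z12)))) (d (b (d (a (c z12 (b z12 z12)) z12) (a (c z12 (b z12 z12)) z12)) (d (c z12 (b z12 z12)) (c z12 (b z12 z12)))) (b (d (a (c z12 (b z12 z12)) z12) (c z12 (a (b z12 z12) z12))) (d (c z12 (b z12 z12)) (c z12 (b z12 z12)))))))) (b (d (a (b (d (a (c z12 (b (d z12 z12) (d z12 z12))) z12) (a (c z12 (b (d z12 z12) (d z12 z12))) z12)) (d (c z12 (b (d z12 z12) (d z12 z12))) (c z12 (b (d z12 z12) (d z12 z12))))) (b (d z12 z12) (d z12 z12))) (a (b (d (a (c z12 (b (d z12 z12) (d z12 z12))) z12) (c z12 (a (b z12 (d z12 z12)) z12))) (d (c z12 (b (d z12 z12) (d z12 z12))) (c z12 (b (d z12 z12) (d z12 z12))))) (b (d z12 z12) (d z12 z12)))) (d (b (d (a (c z12 (b (d z12 z12) (d z12 z12))) (c z12 (b z12 (d z12 z12))))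 (a (c z12 (b (d z12 z12) (d z12 z12))) (c z12 (b z12 (d z12 z12))))) (d (c z12 (b (d z12 z12) (d z12 z12))) (c z12 (b (d z12 z12) (d z12 z12))))) (b (d (a (c z12 (b (d z12 z12) (d z12 z12))) z12) (c z12 (a (b (d z12 z12) (d z12 z12)) z12))) (d (c z12 (b (d z12 z12) (d z12 z12))) (c z12 (b (d z12 z12) (d z12 z12)))))))) _ _ (by decide +kernel)

theorem okB1385 : CKB ⟨0, 3072, 5120, 6144⟩ ⟨24576, 49152, 9216, 10240⟩ :=
  ckB_sound (b (d (a (b (d (a (c z12 (b (d z12 z12) (d z12 z12))) (c z12 (b z12 (d z12 z12)))) (a (c z12 (b (d z12 z12) (d z12 z12))) z12)) (d (c z12 (a (b (d z12 z12) (d (b z12 z0) z12)) (b (d z12 z12) (d z12 z12)))) (c z12 (a (b (d z12 z12) (d z12 z12)) (b z12 (d z12 z12)))))) (b (d z12 z12) (d (a (c z12 (b z12 (d z12 z12))) z12) z12))) (a (c (b (d z12 z8) (d z12 z8)) (b (d (a (b z12 (d z12 z12)) z12) z12) (d (a (b (d z12 z12) (d z12 z12)) (b z12 (d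 z12 z12))) (a (c z12 (b z12 z12)) z12)))) (c (b z8 (d z12 z8)) (b (d z12 z12) (d z12 z12))))) (d (b (d (a (c z12 (b (d (a (b z12 z12) z12) z12) (d (b z12 z12) (c z12 (b z12 z12))))) (c z12 (b z12 (d z12 z12)))) (a (c z12 (b (d z12 z12) (d z12 z12))) (c z12 (b z12 (d z12 z12))))) (d (c z12 (b (d (a (b z12 z12) z12) (a (c z12 (b z12 z12)) z12)) (d (b z12 z12) (c z12 (b z12 z12))))) (c z12 (b (d z12 z12) (d z12 z12))))) (c (b (d z12 z8) (d z12 z8)) (b (d (a (b (d z12 z12) (d z12 z12)) z12) (a (c z12 (b z12 z12)) z12)) (d (b (d z12 z12) (d z12 z12)) (c z12 (b (d z12 z12) (d z12 z12)))))))) _ _ (by decide +kernel)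

theorem okB1386 : CKB ⟨3072, 6144, 4096, 6144⟩ ⟨24576, 49152, 8192, 10240⟩ :=
  ckB_sound (b (d (b z12 (d z12 z12)) (b z12 (d z12 z12))) (d (b (d (a (b z12 (d z12 z12)) z12) (a (b z12 (d z12 z12)) z12)) (d (a (b (d z12 z12) (d (a (b (d z12 z12) (d (a (b z12 (d z12 z12)) z12) (a (b z12 (d z12 z12)) z12))) (b z12 (d z12 z12))) (a (b (d z12 z12) (d (a (b z12 (d z12 z12)) z12) (a (b z12 (d z12 z12)) z12))) z12))) (b z12 (d z12 z12))) (a (b (d z12 z12) (d (a (b (d z12 z12) (d (a (c z12 (b z12 (d z12 z12))) z12) (a (c z12 (b z12 (d z12 z12))) z12))) z12) (a (b (d z12 z12) (d z12 z12)) z12))) (b z12 (d z12 z12))))) (b (d (a (b z12 (d z12 z12)) z12) z12) (d (a (b (d z12 z12) (d (a (c z12 (b (d z12 z12) (d z12 z12))) z12) (a (c z12 (b z12 (d z12 z12))) z12))) (b z12 (d z12 z12))) (a (c z8 (b (d z12 z12) (d z12 z12))) z12))))) _ _ (by decide +kernel)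

theorem okB1387 : CKB ⟨0, 3072, 4096, 6144⟩ ⟨24576, 49152, 10240, 12288⟩ :=
  ckB_sound (b (d (a (b (d (a (c (b (d z8 (a (b (d z8 z0) (d z8 z0)) (b (d z8 z0) (d z8 z0)))) (d z8 (a (b (d z8 z0) (d z8 z0)) (b (d z8 z0) (d z8 z0))))) (b z12 (d z12 z12))) z12) z12) (d (a (c (b (d z8 z0) (d z8 z0)) (b (d z12 z12) (d z12 z12))) (c (b (d z8 z0) (d z8 z0)) (b z12 (d z12 z12)))) (a (b (d z12 z12) (d z12 z12)) (b z12 (d z12 z12))))) (b (d z12 z12) (d z12 z12))) (a (b (d (a (b (d z12 z12) (d z12 z12)) (b (d z12 z12) (d z12 z12))) (a (b (d z4 z0) (d z4 z0)) (b (d z4 z0) (d z4 z0)))) (d (a (b (d z12 z12) (d z12 z12)) (b (d z12 z12) (d z12 z12))) (a (b (d z4 z0) (d z4 z0)) (b (d z4 z0) (d z4 z0))))) (b (d (a (b (d z12 z12) (d z12 z12)) z8) (a (b (d z4 z0) (d z4 z0)) (b (d z4 z0) (d z4 z0)))) (d (a (b (d z12 z12) (d z12 z12)) (b (d z12 z12) (d z12 z12))) (a (b (d z4 z0) (d z4 z0))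 (b (d z4 z0) (d z4 z0))))))) (d (b (d (a (c (b (d z8 z0) (d z8 z0)) (b (d z12 z12) (d z12 z12))) (c (b (d z8 z0) (d z8 z0)) (b (d z12 z12) (d z12 z12)))) (a (b (d z12 z12) (d z12 z12)) (b z12 (d z12 z12)))) (d (c (b (d z8 z0) (d z8 z0)) (b (d (a (b z12 z12) z12) z12) (d (b z12 z12) z12))) (b (d z12 z12) (d z12 z12)))) (b (d (a (b (d z12 z12) (d z12 z12)) (b (d z12 z12) (d z12 z12))) (a (b (d z4 z0) (d z4 z0)) (b (d z4 z0) (d z4 z0)))) (d (b (d z12 z12) (d z12 z12)) (b (d z4 z0) (d z4 z0)))))) _ _ (by decide +kernel)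

theorem okB1388 : CKB ⟨3072, 6144, 4096, 6144⟩ ⟨24576, 49152, 10240, 12288⟩ :=
  ckB_sound (b (d (b (d z12 z12) (d z12 z12)) (b (d z8 (a (b (d (a (b (d z12 z12) z4) (b (d z12 z12) (d z12 z12))) (a (b (d z4 z0) z0) (b (d z4 z0) (d z4 z0)))) (d (a z4 (b (d z12 z12) z4)) (a z0 (b (d z4 z0) z0)))) (b (d (a (b (d z12 z12) (d z12 z12)) (b (d z12 z12) (d z12 z12))) (a (b (d z4 z0) (d z4 z0)) (b (d z4 z0) (d z4 z0)))) (d (a (b (d z12 z12) (d z12 z12)) (b (d z12 z12) (d z12 z12))) (a (b (d z4 z0) (d z4 z0)) (b (d z4 z0) (d z4 z0))))))) (d (a (b z8 (d z12 z12)) z8) (a (b (d z4 z0) (d z4 z0)) (b (d (a (b (d z12 z12) z4) (b (d z12 z12) (d z12 z12))) (a (b (d z4 z0) z0) (b (d z4 z0) (d z4 z0)))) (d (a z4 (b (d z12 z12) z4)) (a z0 (b (d z4 z0) z0)))))))) (d (b (d z12 z12) (d (a (c (b (d z8 z0) (d z8 z0)) (b (d z12 z12) (d z12 z12))) z12) (a (b (d z12 z12) (d z12 z12)) z12))) (b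 (d (a (b (d z12 z12) (d z12 z12)) (b z8 (d z12 z12))) (a (b (d z4 z0) (d z4 z0)) (b (d z4 z0) (d z4 z0)))) (d (a (b (d z12 z12) (d z12 z12)) (b (d z12 z12) (d z12 z12))) (a (b (d z4 z0) (d z4 z0)) (b (d z4 z0) (d z4 z0))))))) _ _ (by decide +kernel)

theorem okB1389 : CKB ⟨0, 6144, 6144, 6656⟩ ⟨24576, 49152, 8192, 8704⟩ :=
  ckB_sound (a (b (d (a (b (d (a (b (d (a (b z12 z12) z12) (a (b z12 z12) z12)) (d (b z12 z12) (b z12 z12))) (b z12 (d z12 z12))) (a (b (d (a (b z12 z12) z12) (a (b z12 z12) z12)) (d (b z12 z12) (b z12 z12))) (b z12 (d z12 z12)))) (d (b (d (a (b z12 z12) z12) (a (b z12 z12) z12)) (d (b z12 z12) (b z12 z12))) (b (d (a (b z12 z12) z12) (a (b z12 z12) z12)) (d (b z12 z12) (b z12 z12))))) (b (d z12 z12) (d (a (b z12 (d z12 z12)) z12) (a (b z12 (d z12 z12)) z12)))) (a (b (d (a (b (d (a (c z12 (b z12 z12)) z12) (a (c z12 (b z12 z12)) z12)) (d (c z12 (b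 z12 z12)) (c z12 (b z12 z12)))) (b z12 (d z12 z12))) (a (b (d (a (c z12 (b z12 z12)) z12) (c z12 (a (b z12 z12) z12))) (d (c z12 (b z12 z12)) (c z12 (b z12 z12)))) (b z12 (d z12 z12)))) (d (b (d (a (c z12 (b z12 z12)) z12) (a (c z12 (b z12 z12)) z12)) (d (c z12 (b z12 z12)) (c z12 (b z12 z12)))) (b (d (c z12 (a (b z12 z12) z12)) z12) (d (c z12 (b z12 z12)) z12)))) (b (d z12 z12) (d (a (b z12 (d z12 z12)) z12) (a (b z12 (d z12 z12)) z12))))) (d (b (d (a (b (d (a (b z12 z12) z12) (a (b z12 z12) z12)) (d (b z12 z12) (b z12 z12))) (b z12 (d z12 z12))) (a (b (d (a (b z12 z12) z12) (a (b z12 z12) z12)) (d (b z12 z12) z12)) (b z12 (d z12 z12)))) (d (b (d z12 z12) (d z12 z12)) (b (d z12 z12) (d z12 z12)))) (b (d (a (b (d (a (c z12 (b z12 z12)) z12) z12) (d z12 z12)) (b z12 (d z12 z12))) (a (b (d z12 z12) (d z12 z12)) (b z12 (d z12 z12)))) (d (b (d z12 z12) (d z12 z12)) (b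 (d z12 z12) (d z12 z12)))))) (b (d (a (b z12 (d z12 z12)) z12) (a (b z12 (d z12 z12)) z12)) (d (a (b (d z12 z12) (d (a (b z12 (d z12 z12)) z12) (a (b z12 (d z12 z12)) z12))) (b z12 (d z12 z12))) (a (b (d z12 z12) (d (a (b z12 (d z12 z12)) z12) (a (b z12 (d z12 z12)) z12))) z12)))) _ _ (by decide +kernel)

theorem okB1390 : CKB ⟨0, 6144, 6144, 6656⟩ ⟨24576, 49152, 8704, 9216⟩ :=
  ckB_sound (a (b (d (a (b (d (a (c z12 (b (d z12 z12) (d z12 z12))) (c z12 (b z12 (d z12 z12)))) (a (c z12 (b (d z12 z12) (d z12 z12))) (c z12 (b z12 (d z12 z12))))) (d (c z12 (b (d z12 z12) (d z12 z12))) (c z12 (b (d z12 z12) (d z12 z12))))) (b (d z12 z12) (d (a (c z12 (b z12 (d z12 z12))) z12) z12))) (a (b (d (a (c z12 (b (d z12 z12) (d z12 z12))) z12) (c z12 (a (b (d z12 z12) (d z12 z12)) z12))) (d (c z12 (b (d z12 z12) (d z12 z12))) (c z12 (b (d z12 z12) z12)))) (b (d z12 z12) (d z12 z12))))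 (d (b (d (a (c z12 (b (d z12 z12) (d z12 z12))) (c z12 (b z12 (d z12 z12)))) (a (c z12 (b (d z12 z12) (d z12 z12))) z12)) (d (c z12 (b (d z12 z12) (d z12 z12))) (c z12 (b (d z12 z12) (d z12 z12))))) (b (d (c z12 (a (b (d z12 z12) (d z12 z12)) z12)) (c z12 (a (b z12 z12) z12))) (d (c z12 (b z12 z12)) (c z12 (b z12 z12)))))) (b (d z12 z12) (d (a (b (d z12 z12) (d (a (c z12 (b z12 (d z12 z12))) z12) z12)) z12) (a (b (d z12 z12) (d z12 z12)) z12)))) _ _ (by decide +kernel)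

theorem okB1391 : CKB ⟨0, 6144, 6656, 7168⟩ ⟨24576, 49152, 8192, 9216⟩ :=
  ckB_sound (d (b (d (a (b (d (a (b (d z12 z12) (d z12 z12)) (b z12 (d z12 z12))) (a (b (d z12 z12) (d z12 z12)) (b z12 (d z12 z12)))) (d (b (d z12 z12) z0) (b (d z12 z12) z0))) (b (d z12 z12) (d (a (b z12 (d z12 z12)) z12) (a (b z12 z12) z12)))) (a (b (d (a (b (d z12 z12) (d z12 z12)) z12) (a (b (d z12 z12) (d z12 z12)) z12)) (d (b (d z12 z12) z0) (b z12 z0))) (b (d z12 z12) (d (a (b z12 z12) z12) (a (b z12 z12) z12))))) (d (b (d (b z12 z12) (b z12 z12)) z0) (b (d (b z12 z12) (b z12 z12)) z0))) (b (d (a (b (d (a (c z12 (b (d z12 z12) z12)) z12) (c z12 (a (b z12 z12) z12))) (d (c z12 (b z12 z0)) (c z12 (b z12 z0)))) (b (d z12 z12) (d z12 z12))) (a (b (d (c z12 (a (b z12 z12) z12)) z12) (d z12 z12)) (b z12 (d z12 z12)))) (d (b (d (c z12 (b z12 z12)) z12) z0) (b (d z12 z12) z0)))) _ _ (by decide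 +kernel)

theorem okB1392 : CKB ⟨0, 6144, 6144, 7168⟩ ⟨24576, 49152, 9216, 10240⟩ :=
  ckB_sound (b (d (a (b (d (a (c z12 (b (d (a (b z12 z12) z12) (a (c z12 (b z12 z12)) z12)) (d (b z12 z12) z12))) (c z12 (b z12 (d z12 z12)))) (a (c z12 (b (d z12 z12) (d z12 z12))) (c z12 (b z12 (d z12 z12))))) (d (c z12 (b (d (a (b z12 z12) z12) z12) (d z12 z12))) (c z12 (b (d z12 z12) (d z12 z12))))) (b (d z12 z12) (d (a (c z12 (b z12 (d z12 z12))) z12) (c z12 (a (b z12 (d z12 z12)) z12))))) (a (c (b (d z12 z8) (d z12 z8)) (b (d (a (b (d z12 z12) (d z12 z12)) z12) (a (c z12 (b z12 z12)) z12)) (d (b (d z12 z12) (d z12 z12)) (c z12 (b z12 z12))))) (c z8 (b (d z12 z12) (d z12 z12))))) (d (b (d (c z12 (a (b (d z12 z12) (d z12 z12)) (b z12 (d z12 z12)))) (c z12 (a (b (d z12 z12) (d z12 z12)) z12))) (d (c z12 (b (d z12 z12) z0)) (c z12 (b z12 z0)))) (c (b z8 z8) (b (d (a (b z12 z12)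 z12) (a (c z12 (b z12 z12)) z12)) (d (b z12 z0) z12))))) _ _ (by decide +kernel)

theorem okB1393 : CKB ⟨0, 6144, 7168, 8192⟩ ⟨24576, 49152, 8192, 10240⟩ :=
  ckB_sound z0 _ _ (by decide +kernel)

theorem okB1394 : CKB ⟨0, 6144, 6144, 8192⟩ ⟨24576, 49152, 10240, 12288⟩ :=
  ckB_sound (b (d (b (d (a (c (b (d z8 z0) (d z8 z0)) (b (d (a (b z12 z12) z12) z12) (d (b z12 z12) z12))) (c (b (d z8 z0) z0) (b (d z12 z12) (d z12 z12)))) (a (b (d z12 z12) (d z12 z12)) (b (d z12 z12) (d z12 z12)))) (d (c (b (d z8 z0) (d z8 z0)) (b (d z12 z12) (d z12 z12))) (b (d z12 z12) (d z12 z12)))) (b (d (a (b (d z12 z12) (d z12 z12)) (b (d z12 z12) (d z12 z12))) (a (b (d z4 z0) (d z4 (b z0 z0))) (b (d z4 z0) (d z4 z0)))) (d (b (d z12 z12) (d z12 z12)) (b (d z4 (a (b z0 z0) z0)) (d z4 z0))))) z0) _ _ (by decide +kernel)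

end Vale.Agent.Lib.P154Q5
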