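import Vale.Agent.Lib.P154Q5.CkBDefs

namespace Vale.Agent.Lib.P154Q5

set_option maxRecDepth 100000
set_option exponentiation.threshold 1000

open Tr

theorem okB1395 : CKB ⟨6144, 12288, 4096, 6144⟩ ⟨24576, 49152, 8192, 10240⟩ :=
  ckB_sound (b (d z14 z14) (d (a (b z14 (d z14 z14)) z14) (a (b z14 (d z14 z14)) z14))) _ _ (by decide +kernel)

theorem okB1396 : CKB ⟨6144, 12288, 4096, 5120⟩ ⟨24576, 49152, 10240, 11264⟩ :=
  ckB_sound (a (b (d z12 z12) (d z14 z14)) (b (d z15 z15) (d z15 z15))) _ _ (by decide +kernel)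

theorem okB1397 : CKB ⟨6144, 9216, 4096, 5120⟩ ⟨24576, 49152, 11264, 12288⟩ :=
  ckB_sound (b (d (a z8 (b (d z13 z13) (d z12 z12))) (a (b (d (a (b (d z12 z12) (d z12 z12)) (b (d z12 z12) (d z12 z12))) (a (b (d z4 z0) (d z4 z0)) (b (d (a z4 (b (d z12 z12) (d z12 z12))) (a (b (d z4 z0) (d z4 z0)) (b (d z4 z0) (d z4 z0)))) (d (a z4 (b (d z12 z12) z4)) (a z0 (b (d z4 z0) (d z4 z0))))))) (d (a (b (d z12 z12) (d z12 z12)) (b (d z12 z12) (d z12 z12))) (a (b (d z4 z0) (d z4 z0)) (b (d z4 (a z0 (b (d z4 z0) z0))) (d z4 z0))))) (b (d (a (b (d z12 z12) (d z12 z12)) (b (d z13 z13) (d z13 z13))) (a (b (d (a (b (d z12 z12) (d z12 z12)) (b (d z13 z13) (d z12 z12))) (a (b (d z4 z0) (d z4 z0)) (b (d z5 z1) (d z4 z0)))) (d (a (b (d z12 z12) (d z12 z12)) (b (d z12 z12) (d z12 z12))) (a (b (d z4 z0) (d z4 z0)) (b (d z4 z0) (d z4 z0))))) (b (d (b (d z13 z13)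 (d z13 z13)) (b (d z5 z1) (d z5 z1))) (d (b (d z13 z13) (d z13 z13)) (b (d z5 z1) (d z5 z1)))))) (d (a (b (d z12 z12) (d z12 z12)) (b (d z13 z13) (d z14 z14))) (a (b (d (a (b (d z12 z12) (d z12 z12)) (b (d z12 z12) (d z12 z12))) (a (b (d z4 z0) (d z4 z0)) (b (d z4 z0) (d z4 z0)))) (d (a z4 (b (d z12 z12) (d z12 z12))) (a (b (d z4 z0) (d z4 z0)) (b (d z4 z0) (d z4 z0))))) (b (d (b (d z13 z13) (d z13 z13)) (b (d z5 z1) (d z5 z1))) (d (b (d z13 z13) (d z14 z14)) (b (d z5 (a z0 z3)) (d z6 z2))))))))) (d (a z8 (b (d z14 z14) (d z14 z14))) (a (b (d (a (b (d z12 z12) (d z12 z12)) (b (d z12 z12) (d z14 z14))) (a (b (d z4 z0) (d z4 z0)) (b (d z4 z0) (d z6 z2)))) (d (a (b (d z12 z12) (d z14 z14)) (b (d z14 z14) (d z14 z14))) (a (b (d z4 z0) (d z6 z2)) (b (d z6 z2) (d z6 z2))))) (b (d (a (b (d z14 z14) (d z14 z14)) (b (d z14 z14) (d z14 z14))) (a (b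 (d (a z6 (b (d z14 z14) (d z14 z14))) (a z2 (b (d z6 z2) (d z6 z2)))) (d z6 (a z2 (b (d z6 z2) (d z6 z2))))) (b (d (b (d z14 z14) (d z14 z14)) (b (d z6 z2) (d z6 z2))) (d (b (d z14 z14) (d z14 z14)) (b (d z6 z2) (d z6 z2)))))) (d (a (b (d z14 z14) (d z14 z14)) (b (d z14 z14) (d z14 z14))) (a (b (d z6 z2) (d z6 z2)) (b (d (b (d z14 z14) (d z14 z14)) (b (d z6 z2) (d z6 z2))) (d (b (d z14 z14) (d z14 z14)) (b (d z6 z2) (d z6 z2)))))))))) _ _ (by decide +kernel)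

theorem okB1398 : CKB ⟨9216, 12288, 4096, 5120⟩ ⟨24576, 49152, 11264, 12288⟩ :=
  ckB_sound (b (d z11 (b (d (a (b (d z13 z13) (d z13 z13)) z5) (a (b (d z5 z1) (d z5 z1)) z1)) (d (a (b (d z15 z15) (d z15 z15)) z7) (a (b (d z7 z3) (d z7 (a (b z3 (d z7 z3)) z3))) z3)))) (d (b (d z15 z15) (d z15 z15)) (b (d (a (b (d z15 z15) (d z15 z15)) z7) (a (b (d (a (b (d z15 z15) (d z15 z15)) z7) (a (b (d z7 z3) (d z7 z3)) z3)) (d (a (b (d z15 z15) (d z15 z15)) z7) (a (b (d z7 z3) (d z7 z3)) z3))) z3)) (d (a (b (d z15 z15) (d z15 z15)) (b z7 (d z15 z15))) (a (b (d (a (b (d z15 z15) (d z15 z15)) z7) (a (b (d z7 z3) (d z7 z3)) z3)) (d (a (b (d z15 z15) (d z14 z14)) z7) (a (b (d z7 z3) (d z6 z2)) (b z3 (d z7 z3))))) (b (d z7 z3) (d z7 z3))))))) _ _ (by decide +kernel)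

theorem okB1399 : CKB ⟨6144, 12288, 5120, 6144⟩ ⟨24576, 49152, 10240, 12288⟩ :=
  ckB_sound (d (a (b (d z14 z14) (d z14 z14)) (b (d z15 z15) (d z14 z14))) (a (b (d (a z10 (b (d z14 z14) z10)) (a (b (d (a (b (d z14 z14) z6) (b (d z14 z14) (d z14 z14))) (a (b (d z6 z2) (d z6 z2)) (b (d z6 z2) (d z6 z2)))) (d (a z6 (b (d z14 z14) z6)) (a z2 (b (d z6 z2) (d z6 z2))))) (b (d (a (b (d z14 z14) (d z14 z14)) (b (d z14 z14) (d z14 z14))) (a (b (d z6 z2) (d z6 z2)) (b (d z6 (b (d z6 z2) (d z6 z2))) (d z6 z2)))) (d (a (b (d z14 z14) (d z14 z14)) (b (d z14 z14) (d z14 z14))) (a (b (d z6 z2) (d z6 z2)) (b (d z6 z2) (d z6 z2))))))) (d z10 (a (b (d z6 z2) (d z6 z2)) (b (d (a (b (d z14 z14) z6) (b (d z14 z14) (d z14 z14))) (a (b (d z6 z2) (d z6 z2)) (b (d z6 z2) (d z6 z2)))) (d (a z6 (b (d z14 z14) (d z14 z14))) (a z2 (b (d z6 z2) (d z6 z2)))))))) (b (d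 (b (d z15 z15) (d z15 z15)) (b (d (a (b (d z15 z15) (d z14 z14)) (b (d z15 z15) (d z15 z15))) (a (b (d (a (b (d z14 z14) (d z14 z14)) (b (d z15 z15) (d z15 z15))) (a (b (d z6 z2) (d z6 z2)) (b (d z7 z3) (d z7 z3)))) (d (a (b (d z14 z14) (d z14 z14)) (b (d z15 z15) (d z15 z15))) (a (b (d z6 z2) (d z6 z2)) (b (d z7 z3) (d z7 z3))))) (b (d z7 z3) (d z7 z3)))) (d (a (b (d z14 z14) (d z14 z14)) (b (d z15 z15) (d z15 z15))) (a (b (d (a (b (d z14 z14) z6) (b (d z15 z15) (d z14 z14))) (a (b (d z6 z2) (d z6 z2)) (b (d z7 z3) (d z6 z2)))) (d (a z6 (b (d z14 z14) (d z14 z14))) (a (b (d z6 z2) (d z6 z2)) (b (d z6 z2) (d z6 z2))))) (b (d z7 z3) (d (a (b z7 (d z15 z15)) z7) (a (b (d z7 z3) (d z7 z3)) z3))))))) (d (b (d z14 z14) (d z14 z14)) (b (d (a (b (d z14 z14) (d z14 z14)) (b (d z15 z15) (d z15 z15))) (a (b (d (a z6 (b (d z14 z14) (d z14 z14))) (a z2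 (b (d z6 z2) (d z6 z2)))) (d (a z6 (b (d z14 z14) z6)) (a z2 (b (d z6 z2) (d z6 z2))))) (b (d (a (b (d z15 z15) (d z15 z15)) z7) (a (b (d z7 z3) (d z7 z3)) z3)) (d (a (b (d z15 z15) (d z15 z15)) z7) (a (b (d z7 z3) (d z7 z3)) z3))))) (d (a (b (d z14 z14) (d z14 z14)) (b (d z15 z15) (d z14 z14))) (a (b (d z6 (a z2 (b (d z6 z2) z2))) (d z6 z2)) (b (d (a (b (d z14 z14) (d z14 z14)) z7) (a (b (d z6 z2) (d z6 z2)) (b (d z7 z3) (d z7 z3)))) (d (a (b (d z14 z14) (d z14 z14)) (b (d z15 z15) (d z15 z15))) (a (b (d z6 z2) (d z6 z2)) (b (d z7 z3) (d z7 z3)))))))))))) _ _ (by decide +kernel)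

theorem okB1400 : CKB ⟨6144, 12288, 6144, 8192⟩ ⟨24576, 49152, 8192, 10240⟩ :=
  ckB_sound (b (d (a (b (d (a (b (d z14 z14) (d z14 z14)) z14) (a (b z14 (d z14 z14)) z14)) (d (a (b (d z12 z12) (d (a (b (d z12 z12) (d (b z12 z12) (b z12 z12))) z12) (a (b (d z12 z12) (d z12 z12)) z12))) (b z14 (d z14 z14))) (a (b (d z12 z12) (d (a (b (d z12 z12) (d z12 z12)) z12) (a (b (d z12 z12) (d z12 z12)) z12))) (b z14 (d z14 z14))))) (b z14 (d z14 z14))) (a (b (d (a (b z14 (d z14 z14)) z14) z14) (d (a (b (d z12 z12) (d (c z12 (a (b z12 (d z12 z12)) z12)) (c z12 (a (b z12 z12) z12)))) z14) (a (c z8 (b (d z12 z12) (d z12 z12))) z14))) (b z14 (d z14 z14)))) (d (b (d (a (b (d (a (b (d z12 z12) (d z12 z12)) z14) (a (b (d z12 z12) (d z12 z12)) z14)) (d (b z12 z12) (b z12 z12))) (b z14 (d z14 z14))) (a (b (d (a (b (d z12 z12) z12) z14) (a (b (d z12 z12) z12)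 z14)) (d (b z12 z12) (b z12 z12))) z14)) (d (b (d z12 z12) (d z12 z12)) (b (d z12 z12) (d z12 z12)))) (b (d (a (b (d (a (c z12 (b z12 z12)) z14) (a (c z12 (b z12 z12)) z14)) (d z12 z12)) z14) (a (c (b z8 z8) (b (d z12 z12) (d z12 z12))) z14)) (d (b (d z12 z12) z12) (c (b z8 z8) (b (d z12 z12) z12)))))) _ _ (by decide +kernel)

theorem okB1401 : CKB ⟨6144, 12288, 6144, 8192⟩ ⟨24576, 49152, 10240, 12288⟩ :=
  ckB_sound (b (d (a (b (d z14 z14) (d (a (c (b z0 (d z8 z0)) (b (d z12 z12) (d z12 z12))) z14) (a (b z12 (d z12 z12)) z14))) (b (d z14 z14) (d z14 z14))) (a (b (d (a (b z10 (d z14 z14)) z10) (a (b (d z6 z2) (d z6 z2)) (b (d z6 (a z2 (b (d z6 z2) z2))) (d z6 z2)))) (d (a (b (d z12 z12) (d z12 z12)) z10) (a (b (d z4 z0) (d z4 z0)) (b (d z6 z2) (d z6 z2))))) (b (d (b (d z14 z14) (d z14 z14)) (b (d (a (b (d z14 z14) (d z14 z14)) (b (d z14 z14)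 (d z14 z14))) (a (b (d z6 z2) (d z6 z2)) (b (d (a z6 (b (d z15 z15) (d z14 z14))) (a (b (d z6 z2) (d z6 z2)) (b (d z7 z3) (d z6 z2)))) (d (a z6 (b (d z14 z14) (d z14 z14))) (a z2 (b (d z6 z2) (d z6 z2))))))) (d (a (b (d z14 z14) (d z14 z14)) (b (d z14 z14) (d z14 z14))) (a (b (d z6 z2) (d z6 z2)) (b (d z6 (a z2 (b (d z6 z2) (d z6 z2)))) (d z6 z2)))))) (d z10 (b (d (a z6 (b (d z14 z14) (d z14 z14))) (a z2 (b (d z6 z2) (d z6 z2)))) (d (a z6 (b (d z14 z14) z6)) (a z2 (b (d z6 z2) (d z6 z2))))))))) (d (b (d (a (c (b (d z8 z0) (d z8 z0)) (b (d z12 z12) (d z12 z12))) z14) (a (b (d z12 z12) (d z12 z12)) z14)) (d (c (b (d z8 z0) (d z8 z0)) (b z12 z12)) (b z12 z12))) (b (d (a (b (d z12 z12) (d z12 z12)) z10) (a (b (d z4 (a z0 (b z2 (d z6 z2)))) (d (b z4 z4) (b (d z4 z0) (d z4 z0)))) (b (d z6 z2) (d (a (b z6 (d z14 z14)) z6) (a (b (d z6 z2) (d z6 z2))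 (b z2 (d z6 z2))))))) (d (b (d z12 z12) z8) (b (d (a (b (d z12 z12) (d z12 z12)) (b (d z14 z14) (d z14 z14))) (a (b (d z4 z0) (d z4 z0)) (b (d z6 z2) (d z6 z2)))) (d (b (d z12 z12) (d z12 z12)) (b (d z4 z0) (d z4 z0)))))))) _ _ (by decide +kernel)

theorem okB1402 : CKB ⟨0, 12288, 8192, 12288⟩ ⟨24576, 49152, 4096, 12288⟩ :=
  ckB_sound (d (b (d z0 (b (d z0 (b (d z0 (b z12 z0)) z0)) z0)) z0) (b (d (b (d (b (d (b z12 z0) (b z12 z0)) z0) (b (d (b z12 z0) (c (b z8 z0) z12)) z0)) z0) (b (d (b (d (c (b (d z8 z0) z0) z12) (b z12 z0)) z0) (b (d (b z8 z0) (b (d (b (d z12 z12) z0) (b (d z4 z0) z0)) z0)) z0)) z0)) z0)) _ _ (by decide +kernel)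

theorem okB1403 : CKB ⟨12288, 24576, 4096, 8192⟩ ⟨24576, 49152, 4096, 8192⟩ :=
  ckB_sound (b (d z0 (b z15 (d z0 (b z15 z15)))) (d z0 (b (d z0 (a z15 (b z15 z15))) (d z0 (a (b (d z0 z14) (d z0 z14)) (b z15 z15)))))) _ _ (by decide +kernel)

theorem okB1404 : CKB ⟨12288, 24576, 4096, 6144⟩ ⟨24576, 49152, 8192, 12288⟩ :=
  ckB_sound (d (b (d (b z15 z15) (b z15 z15)) (d (b z15 z15) (b z15 z15))) (b (d (b (d z15 (a z15 (b z15 z15))) (d z15 z15)) (b (d (a z11 (b z11 z11)) (a z3 (b (d (b (d z15 z15) (d z15 z15)) (b (d (a z7 (b (d z15 z15) (d z15 z15))) (a z3 (b (d z7 z3) (d z7 z3)))) (d (a z7 (b (d z15 z15) (d z15 z15))) (a z3 (b (d z7 z3) (d z7 z3)))))) (d (a z7 (b (d z15 z15) (d z15 z15))) (a z3 (b (d (b (d z15 z15) (d z15 z15)) (b (d z7 z3) (d z7 z3))) (d (b (d z15 z15) (d z15 z15)) (b (d z7 z3) (d z7 z3))))))))) (d (a z11 (b z11 z11)) (a z3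 (b (d (b (d z15 z15) (d z15 z15)) (b (d (a z7 (b z7 z7)) (a z3 (b (d z7 z3) (d z7 z3)))) (d (a z7 (b z7 z7)) (a z3 (b z3 z3))))) (d (a z7 (b (d z15 z15) (d z15 z15))) (a z3 (b (d z7 (b z3 z3)) (d z7 z3))))))))) (d (b (d z15 z15) (d z15 z15)) (b (d (a z11 (b z11 z11)) (a (b (d z7 z3) (d z7 (a (b z3 (d z7 z3)) z3))) (b (d (a z7 (b (d z15 z15) (d z15 z15))) (a z3 (b (d z7 z3) (d z7 z3)))) (d (a z7 (b (d z15 z15) (d z15 z15))) (a z3 (b (d z7 z3) (d z7 z3))))))) (d (a z11 (b z11 z11)) (a (b (d (a (b z7 (d z15 z15)) z7) (a (b (d z7 z3) (d z7 z3)) z3)) (d (a (b (d z15 z15) (d z15 z15)) z7) (a (b (d z7 z3) (d z7 z3)) z3))) (b (d (a z7 (b z7 z7)) (a z3 (b (d z7 z3) (d z7 z3)))) (d (a z7 (b z7 z7)) (a z3 (b (d z7 z3) z3)))))))))) _ _ (by decide +kernel)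

theorem okB1405 : CKB ⟨12288, 24576, 6144, 8192⟩ ⟨24576, 49152, 8192, 10240⟩ :=
  ckB_sound (b (d (a z15 (b z15 z15)) (a (b z15 (d z15 (a z14 z15))) (b (d z15 z15) (d z15 z15)))) (d (a (b z14 (d z14 z14)) (b z15 (d z15 z15))) (a (b z14 (d z14 z14)) (b (d z15 z15) (d z15 z15))))) _ _ (by decide +kernel)

theorem okB1406 : CKB ⟨12288, 24576, 6144, 7168⟩ ⟨24576, 49152, 10240, 12288⟩ :=
  ckB_sound (d (a (b (d z15 z15) (d z15 z15)) (b (d z15 z15) (d z15 z15))) (a (b (d (a (b (d z15 z15) (d z15 z15)) z11) (a (b (d (a (b (d z15 z15) (d z15 z15)) (b z7 (d z15 z15))) (a (b (d z7 z3) (d (a (b z7 (d z15 z15)) z7) (a (b (d z7 z3) (d z7 z3)) z3))) (b (d z7 z3) (d z7 z3)))) (d (a (b (d z15 z15) (d z15 z15)) (b (d z15 z15) (d z15 z15))) (a (b (d (a (b (d z15 z15) (d z15 z15)) z7) (a (b (d z7 z3) (d z7 z3)) z3)) (d (a (b (d z14 z14) z6) z7) (a (b (d z6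 z2) (d z6 z2)) (b (d z7 z3) (d z7 z3))))) (b (d z7 z3) (d z7 z3))))) (b (d z7 z3) (d z7 (a (b z3 (d z7 z3)) z3))))) (d (a (b (d z15 z15) (d z14 z14)) z11) (a (b (d (a (b (d z14 z14) (d z14 z14)) (b (d z15 z15) (d z15 z15))) (a (b (d (a z6 (b (d z15 z15) (d z14 z14))) (a (b (d z6 z2) z2) (b (d z7 z3) (d z6 z2)))) (d z6 (a z2 (b (d z6 z2) (d z6 z2))))) (b (d z7 z3) (d z7 (a (b (d z7 z3) (d z7 z3)) z3))))) (d (a (b (d z14 z14) (d z14 z14)) (b (d z15 z15) (d z14 z14))) (a (b (d z6 z2) (d z6 z2)) (b (d (a (b (d z15 z15) z6) z7) (a (b (d z7 z3) (d z6 z2)) z3)) (d (a z6 z7) (a (b (d z6 z2) z2) (b (d z7 z3) (d z7 z3)))))))) (b (d (a (b z7 (d z15 z15)) z7) (a (b (d z7 z3) (d z7 z3)) z3)) (d (a (b (d z15 z15) (d z15 z15)) z7) (a (b (d z7 z3) (d z7 z3)) (b z3 (d z7 z3)))))))) (b (d (b z11 z11) (b (d (a z7 (b z7 z7)) (a z3 (b z3 z3))) (d z7 (a z3 (b z3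 z3))))) (d (b z11 z11) (b (d z7 (a z3 (b z3 z3))) (d z7 (a z3 (b z3 z3)))))))) _ _ (by decide +kernel)

theorem okB1407 : CKB ⟨12288, 24576, 7168, 8192⟩ ⟨24576, 49152, 10240, 12288⟩ :=
  ckB_sound (d (a (b (d z14 z14) (d z14 z14)) (b (d z15 (b z15 z15)) (d z15 (a z15 (b z15 z15))))) (a (b (d (a (b (d z14 z14) z10) z11) (a (b (d (a (b (d z14 z14) (d z14 z14)) (b (d z14 z14) (d z14 z14))) (a (b (d z6 z2) (d z6 z2)) (b (d (a z6 z7) (a (b (d z6 z2) z2) (b z3 (d z7 z3)))) (d (a z6 (b z7 z6)) (a z2 (b (d z7 z3) (d z6 z2))))))) (d (a z6 (b (d z14 z14) (d z14 z14))) (a (b (d z6 z2) z2) (b (d z6 z2) (d z6 z2))))) (b (d (a (b (d z15 z15) (d z15 z15)) z7) (a (b (d z7 z3) (d z7 z3)) z3)) (d (a (b (d z15 z15) (d z15 z15)) (b z7 (d z15 z15))) (a (b (d z7 z3) (d z7 (a (b (d z7 z3) z2) z3))) (b (d z7 z3) (d z7 z3))))))) (d (a z10 (b (d z15 z15) z10)) (a (b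 (d (a (b z6 (d z14 z14)) (b (d z14 z14) z6)) (a (b (d z6 z2) (d z6 z2)) (b (d z6 z2) (d z6 z2)))) (d (a (b (d z14 z14) (d z14 z14)) (b (d z14 z14) (d z14 z14))) (a (b (d z6 z2) (d z6 z2)) (b (d z6 z2) (d z6 z2))))) (b (d (a (b (d z14 z14) (d z14 z14)) (b (d z15 z15) (d z15 z15))) (a (b (d (a z6 z7) (a z2 z3)) (d z6 z2)) (b (d z7 z3) (d z7 z3)))) (d (a (b (d z14 z14) (d z14 z14)) (b (d z15 z15) (d z15 z15))) (a (b (d z6 z2) (d z6 z2)) (b (d z7 z3) (d z7 (a z2 z3))))))))) (b (d (b z11 z11) (b (d z7 (a z3 (b z3 z3))) (d z7 (a z3 (b z3 z3))))) (d (a z11 (b z11 z11)) (a (b (d z7 z3) (d z7 (a (b z3 (d z7 z3)) z3))) (b (d (b z7 z7) (b z3 z3)) (d (b z7 z7) (b z3 (d z7 z3))))))))) _ _ (by decide +kernel)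

theorem okB1408 : CKB ⟨12288, 24576, 8192, 12288⟩ ⟨24576, 49152, 4096, 8192⟩ :=
  ckB_sound (b (d z0 (b (d z0 (a (b (d z0 (a (b z14 z12) z14)) (d z0 z12)) z15)) (d z0 (b (d z0 z14) z12)))) z0) _ _ (by decide +kernel)

theorem okB1409 : CKB ⟨12288, 24576, 8192, 9216⟩ ⟨24576, 49152, 8192, 10240⟩ :=
  ckB_sound (d (a (b (d (a (b z14 z12) z14) (a (b z14 z12) z14)) (d z12 z12)) z15) (a (b (d (a (b z14 z12) z14) (a (c (b z10 (d z12 z8)) z12) z14)) (d (b z14 z12) (c (b (d z14 (a (b (d z8 z8) (d z8 z8)) (b z10 (d z10 z10)))) (d (c (b z8 (d z8 (c (b z8 z0) z8))) z12) (b (d z8 z8) (d (c (b z8 z0) z12) (c (b z0 z0) z8))))) z12))) (b z15 (d z14 (c (a (b (d z14 z10) (d z14 (a (b (d z10 z10) (d (c (a (b z10 z8) z10) z14) (c (a (b z2 z0) z2) z10))) (b z10 (d z10 z10))))) (b z11 (d z15 z11))) z14))))) _ _ (by decide +kernel)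

end Vale.Agent.Lib.P154Q5
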