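import Vale.Agent.Lib.P154Q5.CkBDefs

namespace Vale.Agent.Lib.P154Q5

set_option maxRecDepth 100000
set_option exponentiation.threshold 1000

open Tr

theorem okB1410 : CKB ⟨12288, 24576, 9216, 10240⟩ ⟨24576, 49152, 8192, 9216⟩ :=
  ckB_sound (b (d z14 z14) z12) _ _ (by decide +kernel)

theorem okB1411 : CKB ⟨12288, 24576, 9216, 9728⟩ ⟨24576, 49152, 9216, 10240⟩ :=
  ckB_sound (d (b z14 (d z14 (c (a (b z14 z12) z14) z14))) (c (b (d (a (c (b (d z10 (a (c (b z10 z8) z8) z10)) (d z10 (c (a (b (d z10 z10) (d z8 z8)) (b z10 (d z10 z10))) z10))) z14) z14) (a (b (d (a (c (b (d z10 z10) (d z8 z8)) z12) z10) (a (c (b (d z10 z2) (d z8 z0)) z8) z10)) (d (c (a (b (d z10 z10) (d z8 z8)) (b z10 (d z10 z10))) z14) (c (a (b (d z10 z2) (d z8 z0)) (b z2 (d z10 z2))) z10))) (b z11 (d z10 z10)))) (d (c (a (b (d z10 (c (a (b (d z10 (a (b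 z8 z8) z10)) (d z8 (b z8 z8))) (b z10 (d z10 z10))) z10)) (d (c (b z8 z8) z12) (c (b (d z8 (b (d z10 z10) (d z8 z8))) (d (c (b z8 z0) z8) (b z8 z0))) (b z8 z8)))) (b z10 (d z10 (c (a (b (d z10 z10) (d z10 (a (b z10 (d z8 z8)) z10))) z10) z10)))) z14) (a (b (d (c (a (b (d (c (a (b z8 z8) z10) z10) (c (a (b z0 z0) z2) z10)) (d (c (b z8 z8) z8) (c (b z0 z0) z8))) (b (d z10 z10) (d z10 z10))) z14) (c (a (b (d (c (a z0 z2) z10) (a z0 z2)) (d (c (b z0 z0) z8) (b z0 z0))) (b (d z10 z2) (d z10 z2))) z10)) (d (c (b (d (c (b (d z10 z10) (d z8 z8)) z8) (c (b (d z10 z2) (d z8 z0)) z8)) (d (c (b z8 z0) z8) (c (b z0 z0) z8))) z12) (c (b (d (c (b (d z10 z2) (d z8 z0)) z8) (b (d z10 z2) (d z8 z0))) (d (c (b z0 z0) z8) (b z0 z0))) (b z8 z8)))) (b (d z10 z10) (d (c (a (b (d z10 z10) (d (c (a (b z10 (d z8 z8)) z10) z10) (c (a (b z2 (d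 z8 z0)) z2) z10))) (b z10 (d z10 z10))) z14) (c (a (b (d z10 z2) (d (c (a (b z2 (d z8 z0)) z2) z10) (a (b z2 (d z8 z0)) z2))) (b z2 (d z10 z2))) z10)))))) (b z14 z14))) _ _ (by decide +kernel)

theorem okB1412 : CKB ⟨12288, 24576, 9728, 10240⟩ ⟨24576, 49152, 9216, 10240⟩ :=
  ckB_sound (d (b (d z12 (c (b z14 z12) z12)) z0) (c (b (d (c (b (d (c (b z10 z10) z14) (c (b (d (a (c (b z10 z8) z8) z10) (a (b (d z10 z10) (d z8 z8)) z10)) (d (c (b z10 z10) z10) (b (d z10 z10) (d z10 z10)))) (b z10 z10))) (d (c (b z8 z0) z12) (c (b (d (c (b z8 z8) z8) (b (d z8 z8) (d z8 z8))) z0) (b z8 z0)))) (b z14 z12)) (b (d (c (b (d (c (a (b (d z10 z10) (d z8 z8)) z10) z10) (a (c (b (d z10 z2) (d z8 z0)) z8) z10)) (d (c (b (d z10 z10) (d z10 z10)) z10) (c (b (d z10 z2) (d z10 z2)) z10))) z14) (c (b (d (a (c (b (d z10 z2) (d z8 z0)) z8) z10)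 (a (b (d z10 z2) (d z8 z0)) z2)) (d (c (b (d z10 z2) (d z10 z2)) z10) (b (d z10 z2) (d z10 z2)))) (b z10 z10))) (d (c (b (d (c (b (d z8 z8) (d z8 z8)) z8) (c (b (d z8 z0) (d z8 z0)) z8)) z0) (b z12 z0)) (c (b (d (c (b (d z8 z0) (d z8 z0)) z8) (b (d z8 z0) (d z8 z0))) z0) (b z8 z0))))) z0) (b (d z12 (c (b z14 z12) z12)) z0))) _ _ (by decide +kernel)

theorem okB1413 : CKB ⟨12288, 24576, 8192, 9216⟩ ⟨24576, 49152, 10240, 11264⟩ :=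
  ckB_sound (a (b (d (a (c (b (d z10 z2) (d z8 z0)) z12) (c (b (d z10 z2) (d z10 z2)) z14)) (a (b z14 z12) z14)) (d (c (b (d (a (c (b (d z8 z0) (d z8 z0)) z12) (c (b z2 (d z10 z2)) z14)) (a (b (d z8 z0) (d z8 z0)) (b z2 (d z10 z2)))) (d (c (b (d z8 z0) (d (c (b z0 z0) z8) z0)) z12) (b (d z8 z0) (d z8 z0)))) z12) (b (d z14 z14) (d (c (b (d z8 (b z2 (d z8 z0))) (d z8 (b z0 z0))) z12) (b z12 z12))))) (b (d z15 z15) (d (a (c (b (d z10 z2) (d (a (c (b (d z10 z2) (d (a z8 z10) z2)) z14) (c (b z2 (d z10 z2)) z14)) (a (b (d z10 z2) (d z10 z2)) (b z2 (d z10 z2))))) z14) (c (b (d z11 z3) (d z11 z3)) z15)) (a (b (d z14 z14) (d (c (a (b (d z10 z2) (d z10 (a (b z2 (d z8 z0)) z2))) (b (d z10 z2) (d z10 z2))) z14) z14)) (b z15 (d z15 z15)))))) _ _ (by decide +kernel)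

theorem okB1414 : CKB ⟨12288, 24576, 8192, 9216⟩ ⟨24576, 49152, 11264, 12288⟩ :=
  ckB_sound (a (b (d (a (b z10 z8) (b z10 (d z14 z14))) (a (b (d (a (b (d z12 z12) (d z12 z12)) (b (d z14 z14) (d z14 z14))) (a (b (d z4 z0) (d z4 z0)) (b (d z6 z2) (d z6 z2)))) (d (b (d z12 z12) (d z12 z12)) (b (d (a z4 z6) (a z0 z2)) (d z4 z0)))) (b (d (a (b (d z14 z14) (d z14 z14)) (b (d z14 z14) (d z14 z14))) (a (b (d z6 z2) (d z6 z2)) (b (d z6 z2) (d z6 z2)))) (d (a (b (d z14 z14) (d z14 z14)) (b (d z14 z14) (d z14 z14))) (a (b (d z6 z2) (d z6 z2)) (b (d z6 z2) (d z6 z2))))))) (d (b (d z14 z14) (d z12 z12)) (b (d (a (b (d z12 z12) (d z12 z12)) (b (d z14 z14) (d z14 z14))) (a (b (d (a (b z4 z4) z6) (a (b (d z4 z0) z0) z2)) (d (b (d z12 z12) z4) (b (d z4 z0) z0))) (b (d z6 z2) (d (a (b z6 (d z12 z12)) z6) (a (b z2 (d z4 z0)) z2)))))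 (d (b (d z12 z12) (d z12 z12)) (b (d (b (d z14 z14) (d z12 z12)) (b (d z6 z2) (d z4 z0))) (d (b (d z12 z12) z0) (b (d z4 z0) z0))))))) (b (d z11 (a (b (d (a (b (d z15 z15) (d z15 z15)) z7) (a (b (d z7 z3) (d z7 z3)) z3)) (d (a (b (d z14 z14) (d z14 z14)) z7) (a (b (d z6 z2) (d z6 z2)) (b z3 (d z7 z3))))) (b (d z7 z3) (d z7 z3)))) (d (a (b (d z14 z14) (d z14 z14)) (b z11 (d z15 z15))) (a (b (d (a (b (d z14 z14) (d z14 z14)) (b (d z15 z15) (d z14 z14))) (a (b (d z6 z2) (d z6 z2)) (b (d z7 z3) (d z6 z2)))) (d (a (b (d z14 z14) (d z14 z14)) (b (d z14 z14) (d z14 z14))) (a (b (d (a (b z6 (d z14 z14)) z6) (a (b z2 (d z6 z2)) z2)) (d (a (b (d z14 z14) (d z12 z12)) (b z6 (d z14 z14))) (a (b (d z6 z2) (d z4 z0)) (b z2 (d z6 z2))))) (b (d z6 z2) (d z6 z2))))) (b (d (b z7 (d z15 z15)) (b z3 (d z7 z3))) (d (b (d z15 z15) (d z15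 z15)) (b (d z7 z3) (d z7 z3)))))))) _ _ (by decide +kernel)

theorem okB1415 : CKB ⟨12288, 24576, 9216, 9728⟩ ⟨24576, 49152, 10240, 11264⟩ :=
  ckB_sound (d (c (b (d (a (c (b (d (a (c (b (d z10 z2) (d z8 z0)) z8) z10) (a (b z2 (d z8 z0)) z2)) (d (a (c (b (d z10 z2) (d z8 z0)) z8) (c (b z2 (d z10 z2)) z10)) (a (b (d z10 z2) (d z8 z0)) (b z2 (d z10 z2))))) (b z14 z14)) (c (b (d z11 z3) (d z10 z2)) z14)) (a (b (d (a (b z10 (d z8 z8)) z10) (a (b z2 (d z0 z0)) z2)) (d (a (b (d z10 z10) (d z8 z8)) (b z10 (d z10 z10))) (a (b (d z2 z0) (d z0 z0)) (b z2 (d z2 z0))))) (b (d z11 z3) (d z10 z2)))) (d (a (c (b (d (a (c (b (d z10 z2) (d (c (b z0 z0) z8) z0)) z8) (c (b (d z10 z2) (d z10 z2)) z10)) (a (b (d z10 z2) (d z8 z0)) (b (d z10 z2) (d z10 z2)))) (d (c (b (d (c (b z2 (d z8 z0)) z8) (b z2 (d z8 z0))) (d (c (b z0 z0) z8) (b z0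 z0))) (b z8 z8)) (b (d (b z10 z8) (b z2 z0)) (d (b z8 z0) (b z0 z0))))) (b z14 (d z12 (b z12 z12)))) (c (b (d z10 z2) (d (c (a (b (d z10 z2) (d (c (a (b z2 (d z8 z0)) z2) z10) (a (b z2 z0) z2))) (b z2 (d z10 z2))) z10) (a (b (d z10 z2) (d (a (b z10 z8) z10) (a (b z2 z0) z2))) (b z2 (d z10 z2))))) z14)) (a (b (d (a (b (d z10 z10) (d z8 z8)) (b z10 (d z10 z10))) (a (b (d z2 z0) (d z0 z0)) (b z2 (d z2 z0)))) (d (b (d (c (b z10 z8) z8) (c (b z2 (d z8 z0)) z8)) (d (c (b z8 z0) z8) (c (b z0 z0) z8))) (b (d (b z2 z0) z0) (d (b z0 z0) z0)))) (b (d z10 z2) (d (a (b (d z10 z10) (d (c (a (b z10 z8) z10) z10) z10)) (b z10 (d z10 z10))) (a (b (d z2 z0) (d z2 z0)) (b z2 (d z2 z0)))))))) (b (d z14 (a (b z14 z14) z14)) (d z14 (a (b z14 (d z12 (c (b z12 z12) z12))) z14)))) (b (d (a (c (b (d z10 (a (b (d z10 z2) (d z8 z0)) (b z2 (d z10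 z2)))) (d (a (c (b (d z10 z2) (d z8 z0)) z12) z10) (a (b (d z10 z2) (d z8 z0)) (b (d z10 z2) (d z10 z2))))) z14) (c (b (d z11 z3) (d z10 (a (b z2 (d z10 z2)) z3))) z14)) (a (b (d z14 z14) (d z14 z14)) z14)) (d (c (a (b (d (c (a (b (d z10 z2) (d z8 z0)) (b (d z10 z2) (d z10 z2))) z14) (a (b (d z10 z2) (d z8 z0)) (b (d z10 z2) (d z10 z2)))) (d (c (b (d z8 (b z2 (d z8 z0))) (d z8 (b z0 z0))) z12) (b (d z8 (b z2 z0)) (d z8 z0)))) (b (d z10 (a (b z2 (d z10 z2)) z2)) (d (c (a (b (d z10 z2) (d z10 (a (b z2 (d z8 z0)) z2))) (b (d z10 z2) (d z10 z2))) z14) (a (b (d z10 z2) (d z10 z2)) (b (d z10 z2) (d z10 z2)))))) z14) (a (b (d z14 z14) (d (c (b (d z12 z8) (d z12 z8)) z12) z12)) (b (d z14 z14) (d z14 z14)))))) _ _ (by decide +kernel)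

theorem okB1416 : CKB ⟨12288, 24576, 9728, 10240⟩ ⟨24576, 49152, 10240, 11264⟩ :=
  ckB_sound (d (c (b (d (c (b (d (c (b (d (a (c (b (d z10 z2) (d z8 z0)) z8) z10) (a (b (d z10 z2) (d z8 z0)) z2)) (d (c (b (d z10 z2) (d z10 z2)) z10) (b (d z10 z2) (d z10 z2)))) (b z10 z10)) (b (d (a (b (d z10 z10) (d z8 z8)) z10) (a (b (d z2 z0) (d z0 z0)) z2)) (d (b (d z10 z10) (d z10 z10)) (b (d z2 z0) (d z2 z0))))) (d (c (b (d (c (b (d z8 z0) (d z8 z0)) z8) (b (d z8 z0) (d z8 z0))) z0) (b z8 z0)) (b (d (b (d z8 z8) (d z8 z8)) (b (d z0 z0) (d z0 z0))) z0))) (b (d z14 (b z14 z14)) (d z12 (b (d z12 (c (b z8 z8) z12)) z0)))) (b (d (b (d (c (a (b (d z10 z10) (d z8 z8)) z10) z10) (a (c (b (d z10 z2) (d z8 z0)) z8) z10)) (d (c (b (d z10 z10) (d z10 z10)) z10) (c (b (d z10 z2) (d z10 z2)) z10))) (b (d (a (b z2 (d z8 z0)) z2) z0) (d (b (d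 z10 z2) (d z10 z2)) z0))) (d (b (d (c (b (d z8 z8) (d z8 z8)) z8) (c (b (d z8 z0) (d z8 z0)) z8)) z0) (b (d (b (d z8 z0) (d z8 z0)) z0) z0)))) z0) (b (d z12 (b (d z14 (c (b z14 (d z14 (c (b z10 z10) z14))) z14)) (d z12 (c (b (d z12 (c (b z8 z8) z12)) z0) z12)))) z0)) (b (d (c (b (d (c (b (d z10 (a (b (d z10 z2) (d z8 z0)) z2)) (d (c (b (d z10 z2) (d z10 z2)) z10) (b (d z10 z2) (d z10 z2)))) z14) (b (d z10 (a (b z2 (d z8 z0)) z2)) (d z10 (b z2 (d z10 z2))))) (d (c (b (d (c (b (d z8 z0) (d z8 z0)) z8) (b (d z8 z0) (d z8 z0))) z0) z12) (b (d (c (b (d z8 z0) (d z8 z0)) z12) (b (d z8 z0) (d z8 z0))) z0))) (b z14 z12)) (b (d (c (b (d z14 z10) (d z14 z10)) z14) (c (b (d z14 z10) (d z14 z10)) z14)) (d (c (b (d z12 z8) z0) z12) (c (b (d z12 z8) z0) z12)))) z0)) _ _ (by decide +kernel)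

theorem okB1417 : CKB ⟨12288, 24576, 9216, 10240⟩ ⟨24576, 49152, 11264, 12288⟩ :=
  ckB_sound (b (d (b (d (a (b z14 (d z14 z14)) z14) (a (b z14 (d z14 z14)) z14)) (d (a (b (d z14 z14) (d z12 z12)) (b z14 (d z14 z14))) (a (b (d z14 z14) (d z12 z12)) (b z14 (d z14 z14))))) (b (d (a (b (d z14 z14) (d z14 z14)) (b (d z15 z15) (d z14 z14))) (a (b (d (a (b (d z14 z14) (d z12 z12)) (b z6 (d z14 z14))) (a (b (d z6 z2) (d z4 z0)) (b z2 (d z6 z2)))) (d (a (b (d z14 z14) (d z12 z12)) (b (d z14 z14) (d z14 z14))) (a (b (d z6 z2) (d z4 z0)) (b (d z6 z2) (d z6 z2))))) (b (d z7 z3) (d (a (b z6 (d z14 z14)) z7) (a (b z2 (d z6 z2)) z3))))) (d (a (b (d z14 z14) (d z12 z12)) (b (d z14 z14) (d z14 z14))) (a (b (d (a (b (d z14 z14) (d z12 z12)) (b (d z14 z14) (d z14 z14))) (a (b (d z6 z2) (d z4 z0)) (b (d z6 z2) (d z6 z2)))) (d (b (d z12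 z12) (d z12 z12)) (b (d z4 z0) (d z4 z0)))) (b (d (a (b z6 (d z14 z14)) z6) (a (b z2 (d z6 z2)) z2)) (d (a (b (d z14 z14) (d z14 z14)) (b (d z14 z14) (d z14 z14))) (a (b (d z6 z2) (d z6 z2)) (b (d z6 z2) (d z6 z2))))))))) (d (b (d (b (d (c (b (d z14 z2) (d z14 z2)) z14) z14) (d (c (b (d z12 z0) z0) z12) (b z12 z0))) (b (d z14 z14) (d z12 z12))) z0) (b (d (b (d z14 z14) (d z12 z12)) (b (d (b (d z14 z14) (d z14 z14)) (b (d z6 z2) (d z6 z2))) (d (b (d z12 z12) z0) (b (d z4 z0) z0)))) z0))) _ _ (by decide +kernel)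

theorem okB1418 : CKB ⟨12288, 24576, 10240, 12288⟩ ⟨24576, 49152, 8192, 12288⟩ :=
  ckB_sound z0 _ _ (by decide +kernel)

theorem okB1419 : CKB ⟨24576, 49152, 4096, 8192⟩ ⟨0, 12288, 4096, 12288⟩ :=
  ckB_sound (d (c (b z0 (d (c (b z0 (d (c (b z0 (d z3 (c (b z0 z3) z3))) (b z0 z3)) (b z0 (d (c (b z0 (d (c (b z0 z3) z3) (c (b z0 (d z3 (b z0 z3))) (b z0 z3)))) (b z0 z3)) (b z0 (d (c (b z0 (d (c (b z0 z3) z3) (b z0 (d z3 z3)))) (b z0 z3)) (b z0 (d (c (b z0 (d z3 z3)) z3) (b z0 (d z3 (b z0 z3))))))))))) (b z0 (d (b z0 z3) (b z0 (d (c (b z0 z3) z3) (c (b z0 (d z3 (c (b z0 (d z3 (c (b z0 z3) z3))) z3))) (b z0 z3))))))) (b z0 (d (b z0 (d (c (b z0 (d (c (b z0 (d (c (b z0 (d (c (b z0 z3) z3) (b z0 z3))) (b z0 z3)) (b z0 (d (c (b z0 z3) z3) (b z0 z3))))) (b z0 (d z3 (c (b z0 z3) z3)))) (b z0 (d (c (b z0 (d (c (b z0 z3) z3) z3))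 (b z0 z3)) (b z0 (d z3 z3)))))) (b z0 (d (c (b z0 z3) z3) (c (b z0 (d z3 (c (b z0 z3) z3))) (b z0 z3))))) (b z0 (d (c (b z0 (d (c (b z0 (d z3 z3)) (b z0 z3)) (b z0 (d z3 z0)))) (b z0 (d z3 (c (b z0 z3) z3)))) (b z0 (d (b z0 z3) z0)))))) z0)))) (b z0 (d (b z0 (d z11 (c (b z0 z11) z11))) (b z0 (d (c (b z0 (d (c (b z0 z11) z11) (c (b z0 (d (c (b z0 z3) z11) (c (b z0 (d z3 (b z0 z3))) z3))) (b z0 z11)))) (b z0 z11)) (b z0 (d (c (b z0 (d (c (b z0 (d z3 z3)) z11) (b z0 z3))) (b z0 z11)) (b z0 (d z3 z3))))))))) (b z0 (d (b z0 (d (b z0 (d (b z0 z3) z0)) z0)) z0))) _ _ (by decide +kernel)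

theorem okB1420 : CKB ⟨24576, 49152, 8192, 9216⟩ ⟨0, 3072, 4096, 5120⟩ :=
  ckB_sound (c (b (d z3 (c (b (d z3 z3) (d z3 (b z3 z3))) (b z3 z3))) (d (c (b z3 z3) z3) (c (b (d z3 (b z3 z3)) (d z3 (b z3 z3))) (b z3 z3)))) (b z3 (d z3 (c (b z3 z3) z3)))) _ _ (by decide +kernel)

theorem okB1421 : CKB ⟨24576, 49152, 8192, 8704⟩ ⟨0, 3072, 5120, 6144⟩ :=
  ckB_sound (d (c (b (d (c (b z3 (d z3 z3)) z3) (c (b (d z3 (b z3 z3)) (d (c (b z3 z3) z3) (b z3 z3))) (b z3 (d z3 (c (b z3 z3) z3))))) (d (c (b (d z3 z3) (d z3 z3)) (b z3 z3)) (c (b (d (c (b z3 z3) z3) (b z3 z3)) (d (c (b z3 z3) z3) (b z3 z3))) (b (d z3 (c (b z3 z3) z3)) (d z3 (c (b z3 z3) z3)))))) (b (d z3 (c (b z3 z3) z3)) (d z3 (c (b z3 z3) z3)))) (b (d (c (b (d (c (b z3 (d z3 z3)) z3) (b (d z3 z3) (d z3 z3))) (d (c (b (d z3 z3) (d z3 z3)) z3) (b (d z3 z3) (d z3 z3))))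 (b z3 z3)) (b (d (c (b (d z3 z3) (d z3 (b z3 z3))) (b z3 z3)) (b (d (c (b z3 z3) z3) (b z3 z3)) (d (c (b z3 z3) z3) (b z3 z3)))) (d (c (b (d z3 (b z3 z3)) (d (c (b z3 z3) z3) (b z3 z3))) (b z3 z3)) (b (d (c (b z3 z3) z3) (b z3 z3)) (d (c (b z3 z3) z3) (b z3 z3)))))) (d (c (b (d (c (b (d z3 z3) (d z3 z3)) z3) (b (d z3 z3) (d z3 z3))) (d (c (b (d z3 z3) (d z3 z3)) z3) (b (d z3 z3) (d z3 z3)))) (b (d z3 (c (b z3 z3) z3)) (d z3 (c (b z3 z3) z3)))) (b (d (c (b (d (c (a z3 (b z3 z3)) z3) (a z3 (b z3 z3))) (d (c (a z3 (b z3 z3)) z3) (a z3 (b z3 z3)))) (b z3 z3)) (b (d (c (a z3 (b z3 z3)) z3) (a z3 (b z3 z3))) (d (c (a z3 (b z3 z3)) z3) (a z3 (b z3 z3))))) (d (c (b (d (c (a z3 (b z3 z3)) z3) (a z3 (b z3 z3))) (d z3 (a z3 (b z3 z3)))) (b z3 z3)) (b (d (c (a z3 (b z3 z3)) z3) (a z3 (b z3 z3))) (d (a z3 (c (b z3 z3) z3)) (a z3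 (b z3 z3))))))))) _ _ (by decide +kernel)

theorem okB1422 : CKB ⟨24576, 49152, 8704, 9216⟩ ⟨0, 3072, 5120, 6144⟩ :=
  ckB_sound (d (c (b (d (c (b (d z3 z3) (d z3 z3)) (b z3 z3)) (c (b (d (a z3 (c (b z3 z3) z3)) (a z3 (b z3 z3))) (d (a z3 (c (b z3 z3) z3)) (a z3 (b z3 z3)))) (b (d z3 (a z3 (c (b z3 z3) z3))) (d z3 (a z3 (c (b z3 z3) z3)))))) (d (c (b (d z3 z3) (d z3 z3)) (b z3 z3)) (c (b (d (a z3 (c (b z3 z3) z3)) (a z3 (b z3 z3))) (d (a z3 (c (b z3 z3) z3)) (a z3 (b z3 z3)))) (b (d z3 (a z3 (c (b z3 z3) z3))) z3)))) (b (d z3 (c (b z3 z3) z3)) (d z3 (c (b z3 z3) z3)))) (b (d (c (b (d (c (a z3 (b (d z3 z3) (d z3 z3))) z3) (a z3 (b (d z3 z3) (d z3 z3)))) (d (c (a z3 (b (d z3 z3) z3)) z3) (a z3 (b (d z3 z3) (d z3 z3))))) (b z3 z3)) (b (d (c (a z3 (b (d z3 z3) (d z3 z3))) (a z3 (b z3 z3))) (a z3 (b (d z3 z3) (d z3 z3))))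 (d (c (a z3 (b (d z3 z3) (d z3 z3))) (a z3 (b z3 z3))) (a z3 (b (d z3 z3) (d z3 z3)))))) (d (c (b (d (c (a z3 (b z3 z3)) z3) (a z3 (b (d z3 z3) z3))) (d (a z3 (c (b z3 z3) z3)) (a z3 (b z3 z3)))) (b z3 z3)) (b (d (c (a z3 (b (d z3 z3) (d z3 z3))) z3) (a z3 (b (d z3 z3) (d z3 z3)))) (d (a z3 (c (b z3 z3) z3)) (a z3 (b z3 z3))))))) _ _ (by decide +kernel)

theorem okB1423 : CKB ⟨24576, 49152, 9216, 10240⟩ ⟨0, 3072, 4096, 6144⟩ :=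
  ckB_sound (d (c (b (d (c (b z3 z3) z3) (c (b (d z3 (a z3 (b z3 z3))) (d z3 (a z3 (b z3 z3)))) (b z3 z3))) (d (c (a (b z3 z2) (b z3 z3)) z3) (c (a (b z3 z2) (b (d z3 z3) z3)) (a (b z3 z2) (b z3 z3))))) (b (d z3 (c (b z3 z3) z3)) (d z3 (a (c (b z3 z2) z2) (c (b z3 z3) z3))))) (b (d (c (b (d (c (a z3 (b (d z3 z3) z3)) (a z3 (b z3 z3))) (a z3 (c (b (d z3 (b z3 z3)) (d z3 z3)) (b z3 z3)))) (d (c (a z3 (b z3 z3)) z3) (a z3 (c (b (d z3 z3) z3) (b z3 z3))))) (b (d z3 (c (a z3 (b z3 z3)) z3)) z3)) (b (d (c (a z3 (b (d (c (b z3 z3) z3) (b z3 z3)) (d z3 (a z3 (b z3 z3))))) (a z3 (b z3 z3))) (a z3 (b (d (c (b z3 z3) z3) (b z3 z3)) (d (c (a z3 (b z3 z3)) z3) (a z3 (b z3 z3)))))) (d (c (a z3 (b (d z3 z3) (d z3 z3))) (a z3 (b z3 z3))) (a z3 (b (d z3 z3) (d z3 z3)))))) (d (c (a (b z3 z2) (b (d (c (b z3 z3) z3) (c (b z3 z3) (b z3 z3)))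 (d z3 (c (a z3 (b z3 z3)) z3)))) (a (b z3 z2) (b z3 z3))) (a (b z3 z2) (b (d (c (b z3 z3) z3) (b (d z3 z3) z3)) (d (c (a z3 (b z3 z3)) z3) (a z3 (b z3 z3)))))))) _ _ (by decide +kernel)

theorem okB1424 : CKB ⟨24576, 49152, 8192, 10240⟩ ⟨3072, 6144, 4096, 6144⟩ :=
  ckB_sound (b (d (b z3 z3) (b (d (c (b z3 z3) z3) (c (b (d z3 (c (b (d z3 (c (b z3 z3) z3)) (d z3 (c (b z3 z3) z3))) (b z3 z3))) (d z3 (c (b (d z3 (c (b z3 z3) z3)) (d z3 (c (b z3 z3) z3))) z3))) (b z3 z3))) (d (c (b z3 z3) z3) (c (b (d z3 (c (b (d z3 (c (a z3 (b z3 z3)) z3)) (d z3 (c (a z3 (b z3 z3)) z3))) z3)) (d z3 (c (b z3 z3) z3))) (b z3 z3))))) (d (b z3 z3) (b (d (c (b z3 z3) z3) (c (b (d z3 (c (a z3 (b z3 z3)) z3)) (d z3 (c (a z3 (b z3 z3)) z3))) (b z3 z3))) (d z3 (c (a z2 (b z3 z3)) z3))))) _ _ (by decide +kernel)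

end Vale.Agent.Lib.P154Q5
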