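import Vale.Agent.Lib.P154Q5.CkBDefs

namespace Vale.Agent.Lib.P154Q5

set_option maxRecDepth 100000
set_option exponentiation.threshold 1000

open Tr

theorem okB1425 : CKB ⟨24576, 49152, 8192, 8704⟩ ⟨0, 6144, 6144, 7168⟩ :=
  ckB_sound (d (c (b (d (c (b (d (c (b (d (c (b z3 z3) z3) (b z3 z3)) (d (c (b z3 z3) z3) (b z3 z3))) (b z3 z3)) (b (d (c (b z3 z3) z3) (b z3 z3)) (d (c (b z3 z3) z3) (b z3 z3)))) (d (c (b (d (c (b z3 z3) z3) (b z3 z3)) (d (c (b z3 z3) z3) (b z3 z3))) (b z3 z3)) (b (d (c (b z3 z3) z3) (b z3 z3)) (d (c (b z3 z3) z3) (b z3 z3))))) (b (d z3 (c (b z3 z3) z3)) (d z3 (c (b z3 z3) z3)))) (b (d (c (b (d (c (b z3 z3) z3) (b z3 z3)) (d (c (b z3 z3) z3) (b z3 z3))) (b z3 z3)) (b (d z3 z3) (d z3 z3))) (d (c (b (d (c (b z3 z3) z3) (b z3 z3)) (d (c (b z3 z3) z3) z3)) (b z3 z3)) (b (d z3 z3) (d z3 z3))))) (d (c (b (d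 (c (b (d (c (a z3 (b z3 z3)) z3) (a z3 (b z3 z3))) (d (c (a z3 (b z3 z3)) z3) (a z3 (b z3 z3)))) (b z3 z3)) (b (d (c (a z3 (b z3 z3)) z3) (a z3 (b z3 z3))) (d (c (a z3 (b z3 z3)) z3) (a z3 (b z3 z3))))) (d (c (b (d (c (a z3 (b z3 z3)) z3) (a z3 (b z3 z3))) (d (a z3 (c (b z3 z3) z3)) (a z3 (b z3 z3)))) (b z3 z3)) (b (d (a z3 (c (b z3 z3) z3)) (a z3 (b z3 z3))) (d z3 z3)))) (b (d z3 (c (b z3 z3) z3)) (d z3 (c (b z3 z3) z3)))) (b (d (c (b (d (c (a z3 (b z3 z3)) z3) z3) (d z3 z3)) (b z3 z3)) (b (d z3 z3) (d z3 z3))) (d (c (b (d z3 z3) (d z3 z3)) (b z3 z3)) (b (d z3 z3) (d z3 z3)))))) (b (d (c (b z3 z3) z3) (c (b (d z3 (c (b z3 z3) z3)) (d z3 (c (b z3 z3) z3))) (b z3 z3))) (d (c (b z3 z3) z3) (c (b (d z3 (c (b z3 z3) z3)) (d z3 (c (b z3 z3) z3))) z3)))) (b (d (c (b (d (c (b (d z3 z3) (d z3 z3)) (b z3 z3)) (b (d z3 z0) (d z3 z0)))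 (d (c (b (d z3 z3) (d z3 z3)) (b z3 z3)) (b (d z3 z0) (d z3 z0)))) (b (d z3 (c (b z3 z3) z3)) (d z3 (c (b z3 z3) z3)))) (b (d (b z3 z3) z0) (d (b z3 z3) z0))) (d (c (b (d (c (b (d z3 z3) (d z3 z3)) z3) (b z3 z3)) (d (c (b (d z3 z3) (d z3 z3)) z3) (b z3 z3))) (b (d z3 (c (b z3 z3) z3)) (d z3 (c (b z3 z3) z3)))) (b (d (b z3 z3) z0) (d (b z3 z3) z0))))) _ _ (by decide +kernel)

theorem okB1426 : CKB ⟨24576, 49152, 8704, 9216⟩ ⟨0, 6144, 6144, 7168⟩ :=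
  ckB_sound (d (c (b (d (c (b (d (c (a z3 (b (d z3 z3) (d z3 z3))) (a z3 (b z3 z3))) (a z3 (b (d z3 z3) (d z3 z3)))) (d (c (a z3 (b (d z3 z3) (d z3 z3))) (a z3 (b z3 z3))) (a z3 (b (d z3 z3) (d z3 z3))))) (b (d z3 (c (a z3 (b z3 z3)) z3)) z3)) (b (d (c (a z3 (b (d z3 z3) (d z3 z3))) (a z3 (b z3 z3))) (a z3 (b (d z3 z3) (d z3 z3)))) (d (c (a z3 (b (d z3 z3) (d z3 z3))) z3) (a z3 (b z3 z3))))) (d (c (b (d (c (a z3 (b (d z3 z3) (d z3 z3))) z3) (a z3 (b (d z3 z3) z3))) (d (a z3 (c (b z3 z3) z3)) (a z3 (b z3 z3)))) (b z3 z3)) (b (d (a z3 (c (b z3 z3) z3)) (a z3 (b z3 z3))) (d (a z3 (c (b z3 z3) z3)) (a z3 (b z3 z3)))))) (b (d z3 (c (b (d z3 (c (a z3 (b z3 z3)) z3)) z3) z3)) (d z3 (c (b z3 z3) z3)))) (b (d (c (b (d (c (a z3 (b z3 z3)) z3) (a z3 (b z3 z3))) (d (a z3 (c (b z3 z3) z3)) (a z3 (b z3 z3)))) (b z3 z3)) (b (d (a z3 (b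 z3 z3)) z0) (d z3 z0))) (d (c (b (d (a z3 (c (b z3 z3) z3)) z3) (d z3 z3)) (b z3 z3)) (b (d z3 z0) (d z3 z0))))) _ _ (by decide +kernel)

theorem okB1427 : CKB ⟨24576, 49152, 8192, 9216⟩ ⟨0, 6144, 7168, 8192⟩ :=
  ckB_sound z0 _ _ (by decide +kernel)

theorem okB1428 : CKB ⟨24576, 49152, 9216, 10240⟩ ⟨0, 6144, 6144, 8192⟩ :=
  ckB_sound (d (b (d (c (b (d (c (a z3 (b (d (c (b z3 z3) z3) (b z3 z3)) (d (c (a z3 (b z3 z3)) z3) z3))) (a z3 (b z3 z3))) (a z3 (b (d (c (b z3 z3) z3) z3) (d z3 z3)))) (d (c (a z3 (b (d z3 z3) (d z3 z3))) (a z3 (b z3 z3))) (a z3 (b (d z3 z3) (d z3 z3))))) (b (d z3 (c (a z3 (b z3 z3)) z3)) (d z3 (a z3 (c (b z3 z3) z3))))) (b (d (a z3 (c (b (d z3 z3) (d z3 z3)) (b z3 z3))) (a z3 (b (d z3 z0) z3))) (d (a z3 (c (b (d z3 z3) z3) z3)) (a z3 (b z3 z3))))) (d (c (a (b z3 z2) (b (d (c (b (d z3 z3) z3) z3) (b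 z3 z3)) (d (c (a z3 (b z3 z3)) z3) (a z3 (b z3 z3))))) (a z2 (b z3 z3))) (a (b z3 z2) (b (d (c (b z3 z3) z3) (b z3 z3)) (d (c (a z3 (b z3 z3)) z3) z3))))) z0) _ _ (by decide +kernel)

theorem okB1429 : CKB ⟨24576, 49152, 10240, 12288⟩ ⟨0, 6144, 4096, 8192⟩ :=
  ckB_sound (d (c (b (d (c (b (d (c (a (b z2 (d (c (b z2 z0) (b z2 z0)) (c (b z2 z0) (b z2 z0)))) (b z3 z3)) z3) (c (a (b z2 z0) (b z3 z3)) (a (b z2 z0) (b z3 z3)))) (d z3 (c (b z3 z3) (b z3 z3)))) (b z3 z3)) (b (d (c (a (b (d z2 z2) z0) (b (d z3 z3) (d z3 z3))) (a (b z2 z0) (b z3 z3))) (a (b (d z2 z2) z0) (b (d (c (b z3 z3) z3) (b z3 z3)) (d z3 z3)))) (d (c (b z3 z3) (b z3 z3)) (b (d z3 z3) z3)))) (d (c (b (d (c (b z3 z3) (b z3 z3)) (c (b z3 z3) (b z3 z3))) (d (c (b z1 z0) (b z1 z0)) (c (b z1 z0) (b z1 z0)))) (b (d (c (b z3 z3) z2) (c (b z3 z3) (b z3 z3))) (d (c (b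 z1 z0) (b z1 z0)) (c (b z1 z0) (b z1 z0))))) (b (d (c (b z3 z3) (b z3 z3)) (b z3 z3)) (d (c (b z1 z0) (b z1 z0)) (b z1 (d z0 z0)))))) (b (d (b z3 z3) (b (d z3 (c (a (b z2 z0) (b z3 z3)) z3)) (d z3 (c (b z3 z3) z3)))) (d (b (d z2 (c (b z3 z3) z2)) (d (c (b (d (c (b z3 z3) (b z3 z3)) (c z1 (b z3 z3))) (d (c (b z1 z0) (b z1 z0)) (c z0 (b z1 z0)))) (b (d (c (b z3 z3) (b z3 z3)) (c (b z3 z3) (b z3 z3))) (d (c (b z1 z0) (b z1 z0)) (c (b z1 z0) (b z1 z0))))) (c (b z1 z0) (b (d (c (b z3 z3) (b z3 z3)) (c z1 (b z3 z3))) (d (c (b z1 z0) (b z1 z0)) (c z0 (b z1 z0))))))) (b (d (c (b z3 z3) (b z3 z3)) (c (b z3 z3) (b z3 z3))) (d (c (b z1 z0) (b z1 z0)) (c (b z1 z0) (b z1 z0))))))) (b (d (b (d (c (a (b (d z2 z2) z0) (b (d (c (b z3 z3) z3) (b z3 z3)) (d z3 z3))) (a (b z2 z0) (b z3 z3))) (a (b (d z2 z2) z0) (b (d z3 z3) (d z3 z3)))) (d (c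 (b (d z3 z3) (d z3 z3)) (b z3 z3)) (b (d z3 z3) (d z3 z3)))) z0) (d (b (d (c (b (d z3 z3) (d z3 z3)) (b z3 z3)) (b (d z3 z3) (d z3 z3))) (d (c (b (d z1 z1) (d z0 (b z1 z0))) (b z1 z0)) (b (d z1 z1) (d (c (b z1 z0) z0) z0)))) z0))) _ _ (by decide +kernel)

theorem okB1430 : CKB ⟨24576, 49152, 8192, 10240⟩ ⟨6144, 12288, 4096, 8192⟩ :=
  ckB_sound (d (b (d z11 (c (b z11 z11) z11)) (d z11 (c (b z11 z11) z11))) (b (d (c (b (d (c (b z11 z11) z11) (c (b (d z3 (c (b (d z3 (b z3 z3)) (d z3 (b z3 z3))) z3)) (d z3 (c (b (d z3 z3) (d z3 z3)) z3))) (b z11 z11))) (d (c (b z11 z11) z11) (c (b (d z3 (c (b (d z3 z3) z3) z3)) (d z3 (c (b z3 z3) z3))) (b z11 z11)))) (b z11 z11)) (b (d (c (b (d (c (b (d z3 z3) (d z3 z3)) z11) (b z3 z3)) (d (c (b (d z3 z3) (d z3 z3)) z11) (b z3 z3))) (b z11 z11)) (b (d z3 z3) (d z3 z3))) (d (c (b (d (c (b (d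 z3 z3) (d z3 z3)) z11) (b z3 z3)) (d (c (b z3 z3) z11) (b z3 z3))) z11) (b (d z3 z3) (d z3 z3))))) (d (c (b (d (c (b z11 z11) z11) (c (b (d z3 (a z3 (c (b z3 z3) z3))) (d z3 (a z3 (c (b z3 z3) z3)))) z11)) (d z11 (c (a z2 (b z3 z3)) z11))) (b z11 z11)) (b (d (c (b (d (c (a z3 (b z3 z3)) z11) z3) (d (c (a z3 (b z3 z3)) z11) z3)) z11) (b (d z3 z3) (d z3 z3))) (d (c (a (b (d z3 z3) z2) (b (d z3 z3) (d z3 z3))) z11) (a (b (d z3 z3) z2) (b z3 z3))))))) _ _ (by decide +kernel)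

theorem okB1431 : CKB ⟨24576, 49152, 10240, 11264⟩ ⟨6144, 12288, 4096, 6144⟩ :=
  ckB_sound (d (c (b z3 z3) (b z15 z15)) (c (b z11 z11) (b z11 z11))) _ _ (by decide +kernel)

theorem okB1432 : CKB ⟨24576, 49152, 11264, 12288⟩ ⟨6144, 12288, 4096, 5120⟩ :=
  ckB_sound (c (b (d (c z2 (b z3 z3)) (c z2 (b z11 z11))) (d (c (b (d (c (b z3 z3) (b z3 z3)) (c (b z3 z3) (b z3 z3))) (d (c (b z1 z0) (b (d (c z1 (b z3 z3)) (c z1 (b z3 z3))) (d (c (b z1 z0) (b z1 z0)) (c z0 (b z1 z0))))) (c (b z1 z0) (b z1 (d (c z0 (b z1 z0)) z0))))) (b (d (c (b z3 z3) (b z7 z7)) (c (b z3 z3) (b z7 z7))) (d (c (b (d (c (b z3 z3) (b z3 z3)) (c (b z3 z3) (b z3 z3))) (d (c (b z1 z0) (b z1 z0)) (c (b z1 z0) (b z1 z0)))) (b (d (b z7 z7) (b z7 z7)) (d (b z5 z4) (b z5 z4)))) (c (b (d (c (b z3 z3) (b z3 z3)) (c z1 (b z3 z3))) (d (c (b z1 z0) (b z1 z0)) (c (b z1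 z0) (b z1 z0)))) (b (d (b z7 z7) (b z11 z11)) (d (b z5 z4) (b z9 z8))))))) (c (b (d (c (b z3 z3) (b z3 z3)) (c (b z11 z11) (b z11 z11))) (d (c (b z1 z0) (b z1 z0)) (c (b z9 z8) (b z9 z8)))) (b (d (c (b z11 z11) (b z11 z11)) (c (b z11 z11) (b z11 z11))) (d (c (b (d (c z9 (b z11 z11)) z9) (d (c z8 (b z9 z8)) (c z8 (b z9 z8)))) (b (d (b z11 z11) (b z11 z11)) (d (b z9 z8) (b z9 z8)))) (c (b z9 z8) (b (d (b z11 z11) (b z11 z11)) (d (b z9 z8) (b z9 z8))))))))) (b (d z14 (b z15 z15)) (d (b (d (c (b z7 z7) z5) (c (b z15 z15) z13)) (d (c (b z5 z4) z4) (c (b z13 (d z12 (c (b z13 z12) z12))) z12))) (b (d (c (b z15 z15) z13) (c (b z15 z15) (b z15 z15))) (d (c (b (d (c (b z15 z15) z13) (c (b z15 z15) z13)) (d (c (b z13 z12) z12) (c (b z13 z12) z12))) z12) (c (b (d (c (b z15 z15) z13) (c (b z11 z11) z13)) (d (c (b z13 z12) z12) (c (b z9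 z8) (b z13 z12)))) (b z13 z12))))))) _ _ (by decide +kernel)

theorem okB1433 : CKB ⟨24576, 49152, 11264, 12288⟩ ⟨6144, 12288, 5120, 6144⟩ :=
  ckB_sound (c (b (d (c z10 (b z11 z11)) z10) (d (c (b (d (c (b z11 z11) (b z11 z11)) (c z9 (b z11 z11))) (d (c (b z9 z8) (b z9 z8)) (c z8 (b z9 z8)))) (b (d (c (b z11 z11) (b z11 z11)) (c (b z11 z11) (b z11 z11))) (d (c (b z9 z8) (b z9 (d (b z9 z8) z8))) (c (b z9 z8) (b z9 z8))))) (c (b z9 z8) (b (d (c (b z11 z11) (b z11 z11)) (c z9 (b z11 z11))) (d (c (b z9 z8) (b z9 z8)) (c z8 (b z9 z8))))))) (b (d (b z15 z15) (b z11 z11)) (d (b (d (c (b z11 z11) (b z15 z15)) (c (b z11 z11) (b z15 z15))) (d (c (b (d (c (b z11 z11) (b z15 z15)) (c (b z11 z11) (b z15 z15))) (d (c (b z9 z8) (b z13 z12)) (c (b z9 z8) (b z13 z12)))) (b z13 z12)) (c (b (d (c (b z11 z11) (b z15 z15)) (c z9 (b z11 z11)))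 (d (c (b z9 z8) (b z13 z12)) (c (b z9 z8) (b z9 z8)))) (b (d z13 (c (b z15 z15) z13)) (d z12 (c (b z13 z12) z12)))))) (b (d (c (b z11 z11) (b z15 z15)) (c (b z11 z11) (b z15 z15))) (d (c (b (d (c z9 (b z11 z11)) (c z9 (b z11 z11))) (d (c z8 (b z9 z8)) (c z8 (b z9 z8)))) (b (d (c (b z15 z15) z13) (c (b z15 z15) z13)) (d (c (b z13 z12) z12) (c (b z13 z12) z12)))) (c (b z9 (d (c z8 (b z9 z8)) z8)) (b (d (c (b z11 z11) z13) (c (b z11 z11) (b z15 z15))) (d (c (b z9 z8) (b z13 z12)) (c (b z9 z8) (b z13 z12)))))))))) _ _ (by decide +kernel)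

theorem okB1434 : CKB ⟨24576, 49152, 10240, 12288⟩ ⟨6144, 12288, 6144, 8192⟩ :=
  ckB_sound (b (d (c (b (d z11 (c (a (b z2 z0) (b z3 z3)) z11)) (d z11 (c (b z3 z3) z11))) (b z11 z11)) (b (d (c (a (b z2 (d z0 z0)) (b (d z3 z3) (d z3 z3))) z11) (a (b z2 (d z0 z0)) (b z3 z3))) (d (c (b (d z3 z3) (d z3 z3)) z11) (b z3 z3)))) (d (c (b (d (c (b z11 z11) z10) (c (b z3 z3) z10)) (d (c (b z9 z8) (b z9 (d (c z8 (b z9 z8)) z8))) (c (b z1 z0) (b z9 z8)))) (b (d (b z11 z11) z10) (d (b (d (c (b z11 z11) (b z11 z11)) (c (b z11 z11) (b z11 z11))) (d (c (b z9 z8) (b (d (c z9 (b z15 z15)) (c z9 (b z11 z11))) (d (c (b z9 z8) (b z13 z12)) (c z8 (b z9 z8))))) (c (b z9 z8) (b z9 (d (c z8 (b z9 z8)) z8))))) (b (d (c z9 (b z11 z11)) (c z9 (b z11 z11))) (d (c z8 (b z9 z8)) (c z8 (b z9 z8))))))) (b (d (c (b (d z3 z3) (d z3 z3)) z10) (b z3 z3)) (d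 (c (b (d z1 (b z3 z3)) (d (c z0 (b z9 z8)) (b z1 z0))) (b (d z9 (c (b z11 z11) z9)) (d z8 (c (b z9 z8) (b z9 z8))))) (b (d (c (b z3 z3) (b z11 z11)) (b z3 z3)) (d (c (b z1 z0) (b z9 z8)) (b z1 z0))))))) _ _ (by decide +kernel)

theorem okB1435 : CKB ⟨24576, 49152, 8192, 12288⟩ ⟨0, 12288, 8192, 12288⟩ :=
  ckB_sound (b (d (b (d (b (d (b z3 z3) z0) (d (b z3 z3) z0)) z0) (d (b (d (b z3 (d z3 z0)) z0) (d (a (b (d z3 z0) (d z2 z0)) z3) z0)) z0)) z0) (d (b (d (b (d (a (b z2 (d z0 z0)) z3) z0) (d (b z3 z3) z0)) z0) (d (b (d (b z3 z3) z0) (d (b (d (b z3 z3) z0) (d (b z1 (d z0 z0)) z0)) z0)) z0)) z0)) _ _ (by decide +kernel)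

theorem okB1436 : CKB ⟨24576, 49152, 4096, 8192⟩ ⟨12288, 24576, 4096, 12288⟩ :=
  ckB_sound (d (b z0 (d (b z0 (d z15 (b z0 z15))) (b z0 (d (c z15 (b z0 z15)) (c (b z0 z11) (b z0 z15)))))) (b z0 (d (b z0 (d (c (b z0 (d (c (b z0 z3) z11) z3)) z15) (b z0 z3))) z0))) _ _ (by decide +kernel)

theorem okB1437 : CKB ⟨24576, 49152, 8192, 10240⟩ ⟨12288, 24576, 4096, 8192⟩ :=
  ckB_sound (d (b (d (b (d z15 z15) (d z15 z15)) (b z15 (d z15 z15))) (d (b (d z15 z15) (d z15 z15)) (b (d z15 z15) (d z15 z15)))) (b (d (c z15 (b z15 (d z15 z15))) (c (b z11 z11) (b (d z15 z15) (d z15 z15)))) (d (c (b z15 (d z15 (c z11 z15))) (b (d z15 z15) (d z15 z15))) (c (b z11 z11) (b (d z15 z15) (d z15 z15)))))) _ _ (by decide +kernel)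

theorem okB1438 : CKB ⟨24576, 49152, 10240, 12288⟩ ⟨12288, 24576, 4096, 6144⟩ :=
  ckB_sound (b (d (b (d z15 z15) (d (c z15 (b z15 z15)) z15)) (b (d z15 z15) (d z15 z15))) (d (b (d (c z14 (b (d z15 z15) (d z15 z15))) (c z14 (b z15 (d z15 z15)))) (d (c z12 (b (d (b z15 z15) (c z13 (b z15 z15))) (d (b (d (c z13 (b z15 z15)) (c z13 (b z15 z15))) (d (c z12 (b (d z13 z13) (d z12 z12))) (c z12 (b (d z13 z13) (d z12 z12))))) (c z12 (b (d (b z15 z15) (b z15 z15)) (d (b z13 z12) (b z13 z12))))))) (c z12 (b (d (b z15 z15) (c z13 (b z15 z15))) (d (b (d (c z13 (b z15 z15)) (c z13 (b z15 z15))) (d (c z12 (b z13 z12)) (c z12 (b z13 z12)))) (c z12 (b (d z13 z13) (d (b z13 z12) z12)))))))) (b (d (c z14 (b z15 (d z15 z15))) (c z14 (b z15 z15))) (d (c (b z13 (d z12 (c (b z13 z12) z12))) (b (d (c z13 (b z15 z15)) (c z13 (b z15 z15))) (d (c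 z12 (b (d z13 z13) (d z12 z12))) (c z12 (b z13 (d z12 z12)))))) (c (b (d (c (b z15 z15) z13) (c (b z15 z15) z13)) (d (c (b z13 z12) z12) (c (b z13 z12) z12))) (b (d (c z13 (b z15 z15)) (c z13 (b z15 z15))) (d (c z12 (b z13 z12)) (c z12 (b z13 z12))))))))) _ _ (by decide +kernel)

theorem okB1439 : CKB ⟨24576, 49152, 10240, 12288⟩ ⟨12288, 24576, 6144, 8192⟩ :=
  ckB_sound (b (d (c (b z15 z15) (b (d z15 z15) (d z15 z15))) (c (b z11 z11) (b (d z15 z15) (d (b z15 z15) (c z15 (b z15 z15)))))) (d (c (b (d (c (b z15 z15) z14) (c (b z11 z11) z14)) (d (c (b (d (c (b z15 z15) (b z15 z15)) (c (b z15 z15) (b z15 z15))) (d (c (b (d z13 (c (b z15 z15) z13)) (d z12 (c (b z13 z12) z12))) (b z13 z12)) (c (b (d (c (b z15 z15) z13) (c (b z11 z11) z13)) (d (c (b z13 z12) z12) (c (b z9 z8) (b z13 z12)))) (b z13 z12)))) (b z13 (d z12 (c (b z13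 z12) z12)))) (c (b (d (c (b z11 z11) (b z15 z15)) (c (b z11 z11) (b z15 z15))) (d (c (b (d (c z9 (b z15 z15)) z9) (d (c (b z9 z8) (b z13 z12)) (c z8 (b z9 z8)))) (b z13 (d z12 (c (b z13 z12) z12)))) (c (b z9 z8) (b (d (c (b z11 z11) z13) (c z9 z13)) (d (c (b z9 z8) z12) (c (b z9 z8) (b z13 z12))))))) (b (d (c (b z15 z15) z13) (c (b z15 z15) z13)) (d (c (b z13 z12) z12) (c (b z13 z12) (b z13 z12))))))) (b (d (b z15 z15) (b z15 z15)) (d (b (d (c z13 (b z15 z15)) z13) (d (c z12 (b z13 z12)) (c z12 (b z13 z12)))) (b (d z13 z13) (d (c z12 (b z13 z12)) (c z12 (b z13 z12))))))) (c (b (d (c (b z11 z11) z14) (c z10 (b z11 z11))) (d (c (b (d (c (b z11 z11) (b z11 z11)) (c z9 (b z11 z11))) (d (c (b z9 z8) (b (d (c z9 z13) (c z9 (b z15 z15))) (d (c (b z9 z8) (b z13 z12)) (c z8 (b z13 z12))))) (c (b z9 z8) (b z9 z8)))) (b (d (c (b z15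 z15) z13) (c (b z15 z15) (b z15 z15))) (d (c (b z13 z12) z12) (c (b z13 (d z12 (c (b z9 z8) z12))) (b z13 z12))))) (c (b (d (c (b z11 z11) (b z11 z11)) (c (b z11 z11) (b z11 z11))) (d (c (b z9 z8) (b z9 z8)) (c (b z9 z8) (b z9 z8)))) (b (d (c (b z11 z11) (b z15 z15)) (c (b z11 z11) (b z15 z15))) (d (c (b (d (c z9 z13) z9) (d (c z8 z12) z8)) (b z13 z12)) (c (b z9 z8) (b z13 (d z12 (c z8 z12))))))))) (b (d (b z15 z15) (c z14 (b z15 z15))) (d (b (d z13 z13) (d (c z12 (b z13 z12)) (c z12 (b z13 z12)))) (c (b z13 (d z12 (c (b z13 z12) z12))) (b (d (b z15 z15) (b z15 z15)) (d (b z13 z12) (b z13 z12))))))))) _ _ (by decide +kernel)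

end Vale.Agent.Lib.P154Q5
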