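import Vale.Agent.Lib.P154Q5.CkBDefs

namespace Vale.Agent.Lib.P154Q5

set_option maxRecDepth 100000
set_option exponentiation.threshold 1000

open Tr

theorem okB1440 : CKB ⟨24576, 49152, 8192, 9216⟩ ⟨12288, 24576, 8192, 10240⟩ :=
  ckB_sound (d (c (b (d (c (b z3 z3) z11) z3) (d (c (b z3 z3) z11) z3)) z15) (b z3 (d z11 z3))) _ _ (by decide +kernel)

theorem okB1441 : CKB ⟨24576, 49152, 9216, 10240⟩ ⟨12288, 24576, 8192, 9216⟩ :=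
  ckB_sound (c (b (d (c (b z3 (d z11 z3)) z11) (b z3 (d z11 z3))) (d (c (a (b (d z11 z3) (d z10 z2)) z3) z11) (a (b (d z11 (a (b z2 (d z2 (a (b z2 z2) z2))) z3)) (d (c (b (d z2 z2) z2) (b z10 z10)) (b (d z2 (a (b z2 z2) z3)) (d z2 (a (b z2 z0) z2))))) z3))) (b z15 (d z15 (a (c (b z11 (d z10 (c (b (d z10 (a (c (b z2 z2) z10) z11)) (d z10 (a (c (b z2 z0) z8) z10))) (b z10 z10)))) (b z15 z14)) z11)))) _ _ (by decide +kernel)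

theorem okB1442 : CKB ⟨24576, 49152, 9216, 9728⟩ ⟨12288, 24576, 9216, 10240⟩ :=
  ckB_sound (d (b z11 (d z11 (a (c (b z3 (d z11 z3)) z11) z11))) (b (d z3 z0) (d (a (b z3 (d z11 z3)) z3) z0))) _ _ (by decide +kernel)

theorem okB1443 : CKB ⟨24576, 49152, 9728, 10240⟩ ⟨12288, 24576, 9216, 9728⟩ :=
  ckB_sound (a (b (d (c (a (b (d z10 z10) (d (c (a (b z2 (d z10 z2)) z2) z10) (a (c (b (d z10 z2) (d z10 z2)) (b z10 z10)) z10))) z11) z11) (a (c (b (d z10 (a (b z2 (d z2 z2)) z3)) (d (a (c (b (d z10 z2) (d (c (b z2 z2) z10) (b z2 z2))) (b z10 z10)) z10) (a (b (d z2 (a (b z2 (d z2 z0)) z2)) (d (b z2 z2) (b (d z2 z0) (d z2 z0)))) (b z2 (d z2 z2))))) (b z10 (d z10 (a (c (b z10 (d z10 (c (b z2 z2) z10))) z10) z10)))) z11)) (d (c (b (d (c (a (b (d z10 z2) (d z10 z2)) z3) z10) (a (c (b (d z10 z2) (d z10 z2)) (b z10 z10)) z11)) (d (c (a (b z2 (d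 z8 z0)) z2) z10) (a (c (b (d z10 z2) (d z8 z0)) (b z10 z8)) z10))) (b z10 z10)) (c (b (d (a (c (b (d (a (c (b z2 z2) z10) z10) (a (b z2 z2) z2)) (d (a (c (b z2 z0) z8) z10) (a (b z2 z0) z2))) (b z10 z10)) z11) (a (b (d (a (b z2 z2) z2) (a (b (d z2 z0) (d z2 z0)) z2)) (d (a (b z2 z0) z2) (a (b (d z2 z0) z0) z2))) z3)) (d (a (c (b (d (a (c z0 z8) z10) (a (b z2 z0) z2)) (d (c z0 z8) (b z2 z0))) (b z10 z8)) z10) (a (b (d (a (b z2 z0) z2) (a (b z2 z0) z2)) (d (b z2 z0) (b z2 z0))) (b z2 (d z2 z2))))) (b (d z10 (a (c (b (d z10 (a (c (b z2 z2) z10) z10)) (d z10 (a (c (b z2 z0) z8) z10))) (b z10 z10)) z11)) (d z10 (a (c (b (d z10 (a (c (b z2 z0) z8) z10)) (d z8 (c (b z2 z0) z8))) (b z10 z8)) z10)))))) (b z11 (d z11 z11))) _ _ (by decide +kernel)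

theorem okB1444 : CKB ⟨24576, 49152, 9728, 10240⟩ ⟨12288, 24576, 9728, 10240⟩ :=
  ckB_sound (a (b (d (a (b (d (a (b z10 (d z10 z10)) z11) (a (b z2 (d z2 z0)) z3)) (d (a (b (d (c (a (b z2 (d z10 z2)) z2) z10) (a (b z10 (d z10 z10)) z10)) (d (c (b (d z10 z2) (d z10 z2)) z10) (b (d z10 z10) (d z10 z10)))) (b z10 (d z10 z10))) (a (b (d (a (b z2 (d z2 z2)) z2) z0) (d (b (d z2 z2) (d z2 z2)) z0)) (b z2 (d z2 z0))))) (b z3 (d z11 z3))) z0) (d (b (d (a (b (d (a (c (b (d z10 z2) (d z10 z2)) z10) z10) (a (b (d z10 z10) (d z10 z10)) z10)) (d (c (a (b (d z10 z2) (d z8 z0)) z2) z10) (a (b (d z10 z10) (d z8 z8)) z10))) z11) (a (b (d (a (b (d z2 z2) (d z2 z2)) z2) z0) (d (a (b (d z2 z2) (d z0 z0)) z2) z0)) (b z3 (d z2 z0)))) (d (a (b (d (c (a (b (d z10 z2) (d z8 z0)) z2) z10) (a (b (d z10 z10) (d z8 z8)) z10)) (d (c (b (d z10 z2) (d z8 z0)) z8)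 (b (d z10 z10) (d z8 z8)))) (b z10 (d z10 z10))) (a (b (d (a (b (d z2 z2) (d z0 z0)) z2) z0) (d (b (d z2 z2) (d z0 z0)) z0)) (b (d z2 z0) (d z2 z0))))) z0)) (b (d z3 z0) (d (a (b z3 (d z11 z3)) z3) z0))) _ _ (by decide +kernel)

theorem okB1445 : CKB ⟨24576, 49152, 8192, 10240⟩ ⟨12288, 24576, 10240, 12288⟩ :=
  ckB_sound z0 _ _ (by decide +kernel)

theorem okB1446 : CKB ⟨24576, 49152, 10240, 11264⟩ ⟨12288, 24576, 8192, 9216⟩ :=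
  ckB_sound (c (b (d (c (a (b z2 (d z8 z0)) z3) (a (b z10 z8) z11)) (a (b (d (c (a (b z2 z0) z3) (a (b z10 z8) z11)) (a (b (d z2 (a (b z2 z0) z2)) (d z0 z0)) z3)) (d (c (b z2 z0) (b z10 z8)) (b (d z2 z2) (d z0 z0)))) z3)) (d (c (b z3 z3) z11) (b (d z11 (a (b (d z2 z2) (d (b z2 z0) (b z2 z0))) z3)) (d z11 (b z3 z3))))) (b (d z15 (c (a (b (d z10 (c (a (b (d z10 (c z2 z10)) z8) z11) (a (b z10 z8) z11))) (d z8 (c (b z10 z8) (b z10 z8)))) z11) (a (b z14 z12) z15))) (d z15 (c (b (d z11 (a (c (b z10 (d z8 (c (b z2 z0) z8))) (b z10 z8)) z11)) z11) (b z15 z15))))) _ _ (by decide +kernel)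

theorem okB1447 : CKB ⟨24576, 49152, 10240, 10752⟩ ⟨12288, 24576, 9216, 10240⟩ :=
  ckB_sound (d (a (b (d (c (a (b (d (c (a (b z2 (d z8 z0)) z2) z10) (c (a (b (d z10 z2) (d z8 z0)) z2) (a (b z10 z8) z10))) (d (c (b z2 z0) z8) (c (b (d z10 z2) (d z8 z0)) (b z10 z8)))) (b z11 (d z11 z11))) (a (b z10 z8) z11)) (c (a (b (d (c (a (b (d z10 (a (b z2 z0) z2)) (d z8 z0)) z2) (a (b z10 z8) z10)) (a (b (d (a (b z2 z0) z2) (a (b z2 z0) z2)) (d (b z2 z0) (b z2 z0))) (b z2 (d z2 z2)))) (d (c (b (d z10 z2) (d z8 z0)) (b z10 z8)) (b (d (b z2 z2) (b z2 z2)) (d (b z0 z0) (b z0 z0))))) (b z3 (d z11 (b z3 (d z2 z2))))) (a (b (d z10 (a (c (b (d z10 (a (c (b z2 z0) z8) z10)) (d z8 (c (b z2 z0) z8))) (b z10 z8)) z10)) (d z8 (c (b (d z10 (c (b z2 z2) z10)) (d z8 (c (b z0 z0) z8))) (b z10 z8)))) z11))) (d (c (b (d (c (b z2 z2) z10) (c (b z2 z2) (b z10 z10)))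 (d (c (b (d z8 z0) z0) z8) (c (b z0 z0) (b z8 z0)))) (b z10 z8)) (c (b (d (c (b (d z10 z2) (d z10 z2)) (b z10 z10)) (b (d (a (b z2 z2) z2) (a (b z2 z2) z2)) (d (a (b z2 z0) z2) (a (b z2 z0) z2)))) (d (c (b (d z8 z0) z0) (b z8 z0)) (b (d (b z2 z0) (b z2 z0)) z0))) (b (d z10 (c (b (d z10 (a (c (b z2 z2) z10) z10)) z10) (b z10 z10))) (d z8 (c (b z8 z0) (b z8 z0))))))) (b z11 (d (c (b z11 (d z11 z11)) z11) (c (b z3 (d z11 (a (b z3 (d z2 z2)) z3))) z11)))) (a (b (d (a (b (d (a (b (d (c (a (b (d z10 z2) (d z8 z0)) z2) z10) (a (b (d z10 z10) (d z8 z8)) z10)) (d (c (b (d z10 z2) (d z8 z0)) z8) (b (d z10 z10) (d z8 z8)))) (b z10 (d z10 z10))) (a (b (d (a (b (d z2 z2) (d z0 z0)) z2) z0) (d (b (d z2 z2) (d z0 z0)) z0)) (b (d z2 z0) (d z2 z0)))) (d (b (d (c (b z2 z2) z10) (b (d z10 z10) (d z10 z10))) (d (c (b (d z8 z0) z0) z8) (b (d z8 z8) z0)))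 (b (d (b (d z2 z2) (d z2 z2)) z0) (d (b (d z0 z0) z0) z0)))) (b (d z11 z3) (d (b z11 (d z10 z10)) (b (d z3 z0) (d (a (b z2 (d z2 z2)) z3) z0))))) z0) (d (b (d (b (d (a (c (b z2 z2) z10) z10) (a (b z10 z10) z10)) (d (c (a (b z2 (d z8 z0)) z2) z10) (a (b z10 z8) z10))) (b (d (a (b (d z2 z2) z2) z2) z0) (d (a (b z2 z0) z2) z0))) (d (b (d (c (b z2 z0) z8) (b z10 z8)) z0) (b (d (b z2 z0) z0) z0))) z0)) (b (d z3 z0) (d (b (d z11 z3) (d (a (b z11 (d (a (c (b z2 z2) z10) z11) (a (b z10 z10) z11))) z11) (a (b (d z3 z0) (d (a (b z2 z2) z3) z0)) z3))) z0)))) _ _ (by decide +kernel)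

theorem okB1448 : CKB ⟨24576, 49152, 10752, 11264⟩ ⟨12288, 24576, 9216, 10240⟩ :=
  ckB_sound (d (b (d (c (a (b (d z10 (c (a (b z2 (d z8 z0)) z3) z10)) (d (c (b z2 (d z8 z0)) (b z10 z8)) (c (b z2 z0) (b z10 z8)))) z11) (a (b z10 (d z12 (c (b z10 z8) z12))) z11)) (a (c (b (d (a (c (b z2 (d z8 z0)) (b z10 z8)) z11) (a (b (d z2 z2) (d (b z2 z0) (b z2 z0))) z3)) (d (c (b z2 (d z8 z0)) (b z10 z8)) (b (d z2 z2) (d (b z2 z0) z0)))) (b (d z10 (a (c (b z10 (d z8 (c (b z2 z0) z8))) (b z10 z8)) z11)) (d (c (b z10 z8) z8) (c (b z10 z8) (b z10 z8))))) z11)) (d (c (b (d z11 z11) z11) z11) (c (b (d z11 (a (b z3 z2) z3)) (d z11 z3)) (b z11 z11)))) (b (d (a (b (d (a (b (d z10 (a (b z10 z8) z10)) (d (c (b z2 z0) z8) (b z10 z8))) z11) (a (b (d (a (b z2 z0) z2) z0) (d (b z2 z0) z0)) z3)) (d (b (d z10 z10) (d (c (b z2 z0) z8) (b z10 z8))) (b (d (a (b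 z2 z0) z3) z0) (d (b z2 z0) z0)))) (b z3 (d z11 z3))) z0) (d (b (d (a (b z11 (d z10 z10)) z11) (a (b (d z3 z0) (d z2 z0)) z3)) (d (a (b z11 z10) z11) (a (b z3 (d z2 z0)) z3))) z0))) _ _ (by decide +kernel)

theorem okB1449 : CKB ⟨24576, 49152, 11264, 12288⟩ ⟨12288, 24576, 8192, 10240⟩ :=
  ckB_sound (d (c (b (d (c (b z3 z3) (b z11 z11)) (b (d z11 z3) z3)) (d (c (b (d (c (b z3 z3) (b z11 z11)) (b z3 z3)) (d (c (b z1 (d z0 z0)) (b z9 z8)) (b (d (c z1 z9) z1) (d (c z0 z8) z0)))) (b (d (c (b z11 z11) (b z11 z11)) (c (b z11 z11) (b z11 z11))) (d (c (b z9 z8) (b z9 z8)) (c (b z9 z8) (b z9 z8))))) (b (d (c (b z3 z3) (b z11 z11)) (b z3 z3)) (d (c (b (d (c (b z3 z3) z9) (b z3 z3)) (d (c (b z1 z0) z8) (b z1 z0))) (b (d z9 (c (b z11 z11) z9)) (d z8 (c (b z9 z8) z8)))) (b (d (b z3 z3) (b z3 z3)) (d (b z1 z0) (b z1 z0))))))) (b (d z14 (c (b z11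 z11) (b z15 z15))) (d (c (b (d (c (b z15 z15) z13) (c (b z11 z11) z13)) (d (c (b z13 z12) z12) (c (b z9 z8) (b z13 z12)))) (b z13 z12)) (c (b (d (c (b z11 z11) (b z15 z15)) (c (b z11 z11) (b z11 z11))) (d (c (b z9 z8) (b z13 z12)) (c (b (d (c (b z11 z11) z9) (c (b z3 z3) (b z11 z11))) (d (c (b z9 z8) z8) (c (b z1 z0) (b z9 z8)))) (b z9 z8)))) (b (d (b z15 z15) (b z15 z15)) (d (b z13 z12) (b z13 z12))))))) (b (d (b (d (c (b z11 z11) z11) (c (b (d z11 z3) (d z11 z3)) (b z11 z11))) (d (c (b z11 z11) z11) (c (b z3 z3) (b z11 z11)))) (b (d (b (d (a (b z11 (d z8 z8)) z11) (a (b z3 (d z0 z0)) z3)) (d z11 (b z3 z3))) z0) (d (b (d z11 z3) (d z11 z3)) z0))) (d (b (d (c (b z11 z11) (b z11 z11)) (c (b z3 z3) (b z11 z11))) (d (c (b (d (c (b z3 z3) (b z11 z11)) (c (b z3 z3) (b z11 z11))) (d (c (b z1 z0) (b z9 z8)) (c (b z1 z0) (b z9 z8)))) (b (d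 z13 (c (b z11 z11) z13)) (d z12 (c (b z9 z8) z12)))) (c (b (d (c (b z3 z3) (b z11 z11)) (b z3 z3)) (d (c (b z1 z0) (b z9 z8)) (b z1 z0))) (b (d (c (b z11 z11) z9) (c (b z11 z11) (b z11 z11))) (d (c (b z9 z8) z8) (c (b z9 z8) (b z9 z8))))))) (b (d (b z3 z3) z0) (d (b (d (b z11 z11) (b z3 z3)) (d (b z9 z8) (b z1 z0))) z0))))) _ _ (by decide +kernel)

theorem okB1450 : CKB ⟨24576, 49152, 10240, 12288⟩ ⟨12288, 24576, 10240, 12288⟩ :=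
  ckB_sound z0 _ _ (by decide +kernel)

theorem okB1451 : CKB ⟨24576, 49152, 4096, 8192⟩ ⟨24576, 49152, 4096, 12288⟩ :=
  ckB_sound (d (b z0 (d z0 (b z0 (d z0 (b z0 z15))))) (b z0 (d (b z0 (d (b z0 (d z15 z15)) (b z0 (d z15 z15)))) (b z0 (d (b z0 (d z15 (b z0 z15))) (b z0 (d (b z0 z11) (b z0 (d (b z0 z7) (b z0 (d z7 z3))))))))))) _ _ (by decide +kernel)

theorem okB1452 : CKB ⟨24576, 49152, 8192, 12288⟩ ⟨24576, 49152, 4096, 8192⟩ :=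
  ckB_sound (b (d z0 (b (d z0 (b (d z0 z15) (d z0 z15))) (d z0 (b (d z0 z15) (d z0 z15))))) (d z0 (b (d z0 (b (d z0 z15) (d z0 (b z15 z15)))) (d z0 (b (d z0 (b z15 z15)) (d z0 (b (d z0 (b z15 z15)) (d z0 (b z13 z12))))))))) _ _ (by decide +kernel)

theorem okB1453 : CKB ⟨24576, 49152, 8192, 9216⟩ ⟨24576, 49152, 8192, 10240⟩ :=
  ckB_sound (d (b (d z15 z15) (d z15 z15)) (b (d z15 z15) (d z15 z15))) _ _ (by decide +kernel)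

theorem okB1454 : CKB ⟨24576, 49152, 9216, 10240⟩ ⟨24576, 49152, 8192, 9216⟩ :=
  ckB_sound (b (d z15 z15) (d z15 z15)) _ _ (by decide +kernel)

end Vale.Agent.Lib.P154Q5
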