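import Vale.Agent.Lib.P154Q5.CkBDefs

namespace Vale.Agent.Lib.P154Q5

set_option maxRecDepth 100000
set_option exponentiation.threshold 1000

open Tr

theorem okB1455 : CKB ⟨24576, 49152, 9216, 9728⟩ ⟨24576, 49152, 9216, 10240⟩ :=
  ckB_sound (d z15 (c (b z11 (d z15 (a (b z11 (d z11 z11)) z11))) z15)) _ _ (by decide +kernel)

theorem okB1456 : CKB ⟨24576, 49152, 9728, 10240⟩ ⟨24576, 49152, 9216, 9728⟩ :=
  ckB_sound (a (b z15 (d z14 (c (b z14 z14) z14))) z15) _ _ (by decide +kernel)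

theorem okB1457 : CKB ⟨24576, 28673, 9728, 9984⟩ ⟨24576, 28673, 9728, 10240⟩ :=
  ckB_sound (d (a (c (b (d z10 (a (c (b z10 (d z10 z10)) z10) z11)) (d (a (c (b z10 z10) z14) z10) (a (c (b (d z10 (a (b (d z10 z10) (d z10 z10)) z10)) (d (c (b z10 z10) z10) (b (d (a (c (b z2 z0) z8) z10) (a (c z0 z8) z10)) (d (c (a z0 z2) z10) (a z8 z10))))) (b z10 z10)) (c (b z10 (d z10 z10)) z10)))) z14) z15) (a (b (d (c (a (b z10 (d z10 z10)) z11) z14) (a (c (b (d z10 z2) (d z10 z2)) z10) z11)) (d (c (a (b (d (c (a (b (d z10 z10) (d (c (a (b (d z8 z0) z0) z2) z10) (c z2 z10))) z10) z10) (c (a (b (d z10 z2) (d (c z2 z10) z2)) z2) z10)) (d (c (b (d (c (a (b z2 (d z8 z0)) z2) z10) (a (c (b z2 z0) z8) z10)) (d (c (a (b (d z8 z0) z0) z2) z10) (c z2 z10))) z10) (c (b (d (a (c (b z2 z0) z8) z10) z2) (d (c z2 z10) z2)) (b z10 z10)))) (b (d z10 z10) (d z10 z10))) z14)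 (a (c (b (d (a (c (b (d z10 z2) (d z10 z2)) z10) z10) (a (b (d z10 z2) (d z10 z2)) z2)) (d (c (b (d (a (c (b z2 z0) z8) z10) z2) (d (c z2 z10) (a z0 z2))) (b z10 z10)) (b (d (a (c (b z2 z0) z8) z10) z2) (d (a z8 z10) z2)))) (b z10 (d z10 (c (b z10 z10) z10)))) (c (b (d z10 z2) (d z10 z2)) z10)))) (b z11 (d z11 z11)))) _ _ (by decide +kernel)

theorem okB1458 : CKB ⟨24576, 28673, 9984, 10240⟩ ⟨24576, 28673, 9728, 9984⟩ :=
  ckB_sound (c (b (d (a (c (b z10 z10) z14) z11) (a (c (b (d (a (c (b (d z10 (a (c (b z2 z0) z8) z10)) (d z10 (a z8 z10))) z10) z10) (a (b (d (a (c (b z2 (d z8 z0)) z8) z10) (a (c (b z2 z0) z8) z10)) (d (c (a (b (d z8 z0) z0) z2) z10) (a z8 z10))) z10)) (d (a (c (b (d z10 (a z8 z10)) z8) z8) z10) (a (b (d (c (a (b (d z8 z0) z0) z2) z10) (a z8 z10)) (d z8 z8)) (b z10 (d z10 z10))))) (b z10 z10)) z11)) (d (c (a (b z10 z8) z10) z14)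 (c (a (b (d (c (a (b z10 z8) z10) z10) (a (b (d (c (a (b (d z8 z0) z0) z2) z10) (a z8 z10)) (d z8 (c z0 z8))) (b z10 (d z10 z10)))) (d (c (b z10 z8) z8) (b (d (c (a (b (d z8 z0) z0) z2) z10) (c z2 z10)) (d z8 z8)))) (b z10 (d z10 (a (b z10 (d z10 z10)) z10)))) (a (b z10 z8) z10)))) (b z14 z14)) _ _ (by decide +kernel)

theorem okB1459 : CKB ⟨24576, 28673, 9984, 10112⟩ ⟨24576, 28673, 9984, 10240⟩ :=
  ckB_sound (d (a (c (b (d (a (c (b (d (a (c (b (d z10 z2) (d z8 z0)) z8) z10) (a (c (b z2 z0) z8) z10)) (d (c (a (b (d z8 z0) z0) z2) z10) (a z8 z10))) z10) z10) (a (c (b (d (a (c (b z2 z0) z8) z10) (a (b z2 z0) z2)) (d (a (c z0 z8) z10) (a z0 z2))) (b z10 z10)) z10)) (d (c (a (b (d (c (a (b (d z8 z0) z0) z2) z10) (c (a z0 z2) z10)) (d (c (b (d z8 z0) z0) z8) (c z0 z8))) (b z10 (d z10 z10))) z10) (a (c (b (d (a (c (b (d (a z0 z2) z0) z0) z8) z10) (a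 (b (d (a z0 z2) z0) z0) z2)) (d (c (b (d (c z0 z8) z0) z0) z8) (b (d (a z0 z2) z0) z0))) (b z10 z8)) (c (b z2 (d z10 z2)) z10)))) (b z14 z14)) (c (b z11 (d z10 z10)) z15)) (a (c (b (d (a (c (b (d (a (c (b z2 z0) z8) z10) (a (b z2 z0) z2)) (d (a (c (b (d (a z0 z2) z0) z0) z8) z10) (a (b (d (a z0 z2) z0) z0) z2))) (b z10 z10)) z10) (a (b (d (a (c (b z2 z0) z8) z10) (a (b z2 z0) z2)) (d (a (c (b (d (a z0 z2) z0) z0) z8) z10) (a z0 z2))) z2)) (d (a (c (b (d (a (c (b (d (a z0 z2) z0) z0) z8) z10) (a (b (d (a z0 z2) z0) z0) z2)) (d (c (b (d (c z0 z8) z0) z0) z8) (b (d (a z0 z2) z0) z0))) (b z10 z8)) (c (b z2 (d z10 z2)) z10)) (a (b (d (a (c (b (d (a z0 z2) z0) z0) z8) z10) (a z0 z2)) (d (c (b (d (a z0 z2) z0) z0) z8) (b (d (a z0 z2) z0) z0))) (b z2 (d z10 z2))))) (b (d z10 (a (c (b z10 z10) z10) z10)) (d z10 (a (c (b z10 z8) z8) z10)))) (c (b z3 (d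 z10 z2)) z11))) _ _ (by decide +kernel)

theorem okB1460 : CKB ⟨24576, 28673, 10112, 10240⟩ ⟨24576, 28673, 9984, 10240⟩ :=
  ckB_sound (d (c (a (b (d (c (a (b (d (c (a (b (d z8 z0) z0) z2) z10) (c (a (b (d (c z0 z8) z0) z0) z2) z10)) (d (c (b (d z8 z0) z0) z8) (c (b (d (c z0 z8) z0) z0) z8))) (b z10 (d z10 z10))) z10) (c (a (b (d (c (a (b (d (c z0 z8) z0) z0) z2) z10) (a (b (d (a z0 z2) z0) z0) z2)) (d (c (b (d (c z0 z8) z0) z0) z8) (b (d (c z0 z8) z0) z0))) (b z2 (d z10 z2))) (a (b z10 z8) z10))) (d (c (b (d (c (a (b (d z8 z0) z0) z2) z10) (c (a (b (d (c z0 z8) z0) z0) z2) z10)) (d (c (b (d z8 z0) z0) z8) (c z0 z8))) z8) (c (b (d (c (a (b (d (c z0 z8) z0) z0) z2) z10) (a (b (d (c z0 z8) z0) z0) z2)) (d (c z0 z8) (b (d (c z0 z8) z0) z0))) (b z10 z8)))) (b (d z10 z10) (d (c (a (b z10 (d z10 z10)) z10) z10) (c (a (b z2 (d z10 z2)) z2) z10)))) (a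 (b z14 z12) z14)) (a (c (b (d (a (c (b (d (a (c (b (d (a z0 z2) z0) z0) z8) z10) (a (b (d (a z0 z2) z0) z0) z2)) (d (c (b (d (c z0 z8) z0) z0) z8) (b (d (a z0 z2) z0) z0))) (b z10 z8)) (c (b z2 (d z10 z2)) z10)) (a (b (d (a (c (b (d (a z0 z2) z0) z0) z8) z10) (a (b (d (a z0 z2) z0) z0) z2)) (d (c (b (d (a z0 z2) z0) z0) z8) (b (d (a z0 z2) z0) z0))) (b z2 (d z10 z2)))) (d (c (b (d (c (a (b (d (c z0 z8) z0) z0) z2) z10) (a (b (d (c z0 z8) z0) z0) z2)) (d (c (b (d (c z0 z8) z0) z0) z8) (b (d (c z0 z8) z0) z0))) (b z10 z8)) (b (d (a (c (b (d (a z0 z2) z0) z0) z8) z10) (a (b (d (a z0 z2) z0) z0) z2)) (d (c (b (d (c z0 z8) z0) z0) z8) (b (d (b z2 z0) z0) z0))))) (b (d z10 (a (c (b z10 z8) z8) z10)) (d z8 (c (b z10 z8) z8)))) (c (b (d z10 z2) (d (c (a (b z2 (d z10 z2)) z2) z10) (a (b z2 (d z10 z2)) z2))) z10))) _ _ (by decide +kernel)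

theorem okB1461 : CKB ⟨24576, 28673, 9728, 10240⟩ ⟨28673, 49152, 9728, 10240⟩ :=
  ckB_sound (b z15 (d z14 (c (b z14 z14) z14))) _ _ (by decide +kernel)

theorem okB1462 : CKB ⟨28673, 49152, 9728, 10240⟩ ⟨24576, 49152, 9728, 10240⟩ :=
  ckB_sound (c (b z11 (d z15 (a (b z11 (d z11 z11)) z11))) (b z15 z15)) _ _ (by decide +kernel)

theorem okB1463 : CKB ⟨24576, 49152, 8192, 9216⟩ ⟨24576, 49152, 10240, 12288⟩ :=
  ckB_sound (d (b (d z15 (b z15 z15)) (d z15 (b z15 z15))) (b (d (b z11 (d z15 z15)) (b (d (b z7 z7) (b (d z7 z3) (d z7 z3))) (d (b (d z15 z15) (d z15 z15)) (b (d z7 z3) (d z7 z3))))) (d (b (d z15 z15) (d z15 z15)) (b (d (b (d z15 z15) (d z15 z15)) (b (d z7 z3) (d z7 z3))) (d (b (d z15 z15) (d z15 z15)) (b (d z7 z3) (d z7 z3))))))) _ _ (by decide +kernel)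

theorem okB1464 : CKB ⟨24576, 49152, 9216, 9728⟩ ⟨24576, 49152, 10240, 11264⟩ :=
  ckB_sound (d (c (b (d z11 z3) (d (a (c (b z3 (d z11 z3)) z15) z11) (a (b z3 (d z11 z3)) z3))) (b z15 z15)) (b (d z15 z15) (d (a (c (b (d z11 z3) (d z11 (a (b z3 (d z10 z2)) z3))) z15) z15) z15))) _ _ (by decide +kernel)

theorem okB1465 : CKB ⟨24576, 28673, 9728, 9984⟩ ⟨24576, 31698, 10240, 10752⟩ :=
  ckB_sound (d (a (c (b (d (a (c (b (d z10 z2) (d z10 z2)) z10) z11) (a (b (d z10 z2) (d z10 z2)) z3)) (d (a (c (b (d (a (c (b (d z10 z2) (d z10 z2)) z10) z10) (a (b (d z10 z2) (d z10 z2)) z2)) (d (c (b (d z10 z2) (d (a z8 z10) z2)) (b z10 z10)) (b (d z10 z2) (d z10 z2)))) (b z10 (d z10 (b z10 z10)))) (c (b (d z10 z2) (d z10 z2)) z10)) (a (b (d (a (b (d z10 z10) (d z10 z10)) z10) (a (b (d z2 z0) (d z2 z0)) z2)) (d (b (d z10 z10) (d z10 z10)) (b (d z2 z0) (d z2 z0))))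 (b (d z10 z2) (d z10 z2))))) (b z14 (d z14 (a (b z14 (d z14 (c (b z10 z10) z14))) z14)))) (c (b (d z11 z3) (d z11 z3)) z15)) (a (b (d (a (b (d z10 z10) (d z10 z10)) z11) (a (b z2 (d z2 z0)) z3)) (d (a (b (d (c (a (b z10 (d z10 z10)) z10) z10) (a (c (b (d z10 z2) (d z10 z2)) z10) z10)) (d (c (b (d z10 z10) (d z10 z10)) z10) (c (b (d z10 z2) (d z10 z2)) z10))) (b (d z10 z10) (d z10 z10))) (a (b (d (a (b z2 (d z10 z2)) z2) z0) (d (b (d z10 z2) (d z10 z2)) z0)) (b (d z2 z0) (d z2 z0))))) (b (d z11 z3) (d z11 z3)))) _ _ (by decide +kernel)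

theorem okB1466 : CKB ⟨24576, 28673, 9984, 10240⟩ ⟨24576, 29673, 10240, 10496⟩ :=
  ckB_sound (b (d (a (c (b (d (a (c (b (d (a (c (b z2 (d (a z0 z2) z0)) z8) z10) (a (b z2 z0) z2)) (d (a z8 z10) (a z0 z2))) (b z10 z10)) z10) (a (b (d (a (b z10 z8) z10) z2) (d (a z8 z10) (a z0 z2))) z2)) (d (a (c (b (d (a (c (b (d (a z0 z2) z0) z0) z8) z10) (a z0 z2)) (d (c (b (d (a z0 z2) z0) z0) z8) (b (d z0 z0) z0))) (b z10 z8)) (c (b z2 (d z10 z2)) z10)) (a (b (d (a z8 z10) (a z0 z2)) (d (b (d z8 z8) z8) (b z0 z0))) (b z2 (d z10 z2))))) (b (d z10 (a (b z10 z10) z10)) (d z10 (a (b z10 z8) z10)))) (c (b z3 (d z10 z2)) z11)) (a (b (d (a (b (d z10 z10) (d z10 z10)) z10) (a (b (d z2 z0) (d (a (b (d z8 z0) z0) z2) z0)) z2)) (d (a (b (d (c (a z8 z10) z10) (a z8 z10)) (d z8 z8)) (b z10 (d z10 z10))) (a (b (d (a (b (d z8 z0) z0) z2) z0) (d (b (d z8 z0) z0) z0)) (b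 z2 (d z2 z0))))) (b z3 (d z10 z2)))) (d (a (c (b (d (a (c (b (d (a (c (b (d (a z0 z2) z0) z0) z8) z10) (a (b (d (a z0 z2) z0) z0) z2)) (d (c (b (d (a z0 z2) z0) z0) z8) (b (d (a z0 z2) z0) z0))) (b z10 z8)) (c (b z2 (d z10 z2)) z10)) (a (b (d (a (b (d z8 z8) z8) z10) (a (b (d z0 z0) z0) z2)) (d (b (d z8 z8) z8) (b (d z0 z0) z0))) (b z2 (d z10 z2)))) (d (c (b (d (a (c (b (d (a z0 z2) z0) z0) z8) z10) (a (b (d (a z0 z2) z0) z0) z2)) (d (c (b (d (c z0 z8) z0) z0) z8) (b (d (b z2 z0) z0) z0))) (b z10 z8)) (b (d (a (b (d z8 z8) z8) z10) (a (b (d z0 z0) z0) z2)) (d (b (d z8 z8) z8) (b (d z0 z0) z0))))) (b (d z10 (a (b z10 z8) z10)) (d z8 (b z10 z8)))) (c (b (d z10 z2) (d (a (c (b z2 (d z10 z2)) z10) z10) (a (b z2 (d z10 z2)) z2))) z10)) (a (b (d (a (b (d (c (a (b (d z8 z8) z8) z10) z10) (a (c (b (d z8 z0) z0) z8) z10)) (d (c (b (d z8 z8) z8) z8) (c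 (b (d z8 z0) z0) z8))) (b z10 (d z10 z10))) (a (b (d (a (b (d z8 z0) z0) z2) z0) (d (b (d z8 z0) z0) z0)) (b z2 (d z2 z0)))) (d (b (d (c (a (b (d z8 z8) z8) z10) z10) (c (a (b (d z8 z0) z0) z2) z10)) (d (c (b (d z8 z8) z8) z8) (c (b (d z8 z0) z0) z8))) (b (d (a (b (d z8 z0) z0) z2) z0) (d (b (d z8 z0) z0) z0)))) (b (d z10 z2) (d (a (b (d z10 z10) (d z10 z10)) z10) (a (b (d z2 z0) (d z2 z0)) z2)))))) _ _ (by decide +kernel)

theorem okB1467 : CKB ⟨24576, 28673, 9984, 10240⟩ ⟨29673, 31698, 10240, 10496⟩ :=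
  ckB_sound (b (d z14 (a (b (d z14 (c (a (b z10 z10) z10) z14)) (d z14 (c (a (b (d z10 z10) z8) z10) z14))) z15)) (d z14 (a (b (d z14 (c (a (b (d z10 (c (a z8 z10) z10)) (d z8 (c (b (d z8 z8) z8) z8))) z10) z14)) (d z12 (c (b (d z10 (c (a (b (d z8 z8) z8) z10) z10)) (d z8 (c (b (d z8 z8) z8) z8))) z12))) z14))) _ _ (by decide +kernel)

theorem okB1468 : CKB ⟨24576, 28673, 9984, 10240⟩ ⟨24576, 31698, 10496, 10752⟩ :=
  ckB_sound (b (d (a (b (d (a (c (b (d z10 z10) (d z10 z10)) z10) z10) (a (c (b (d z10 z2) (d z10 z2)) z10) z10)) (d (c (a (b (d z10 z10) (d z8 z8)) (b z10 (d z10 z10))) z10) (a (c (b (d z10 z2) (d z8 z0)) z8) (c (b (d z10 z2) (d z10 z2)) z10)))) (b z11 (d z10 z10))) (a (b (d (a (b (d z10 z2) (d z10 z2)) z2) z0) (d (a (b (d z10 z2) (d z8 z0)) (b z2 (d z10 z2))) z0)) (b z3 (d z2 z0)))) (d (a (b (d (c (a (b (d z10 z10) (d z8 z8)) (b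 z10 (d z10 z10))) z10) (a (c (b (d z10 z2) (d z8 (b (d z8 z0) z0))) z8) (c (b (d z10 z2) (d z10 z2)) z10))) (d (c (b (d (c (a (b (d z8 z8) z8) z10) z10) (a (c (b (d z8 z0) z0) z8) z10)) (d (c (b z8 z8) z8) (c (b (d z8 z0) z0) z8))) z8) (c (b (d z10 z2) (d z8 (b (d z8 z0) z0))) (b z10 z8)))) (b (d z10 z10) (d (c (a (b z10 (d z10 z10)) z10) z10) (a (c (b (d z10 z2) (d z10 z2)) z10) z10)))) (a (b (d (a (b (d z10 z2) (d z8 z0)) (b z2 (d z10 z2))) z0) (d (b (d z10 z2) (d z8 z0)) z0)) (b (d z2 z0) (d (a (b (d z10 z2) (d z10 z2)) z2) z0))))) _ _ (by decide +kernel)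

theorem okB1469 : CKB ⟨24576, 28673, 9728, 10240⟩ ⟨31698, 49152, 10240, 10752⟩ :=
  ckB_sound (b (d z15 (a (b z14 (d z14 (c (a (b z14 (d z14 (c (b (d z10 z10) (d z10 z10)) z14))) z14) z14))) z15)) (d z14 (b (d z14 (c (a (b (d z14 (a (c (b (d z10 z10) (d z10 z10)) z14) z10)) (d z14 (c (a (b (d z10 z10) (d z8 z8)) (b z10 (d z10 z10))) z14))) z15) z14)) (d z14 (c (a (b (d z14 (c (a (b (d z10 z10) (d z8 z8)) (b z10 (d z10 z10))) z14)) (d (c (b z10 z8) z12) (c (b (d z10 z10) (d z8 z8)) z12))) (b z14 (d z14 (c (a (b z10 (d z10 z10)) z10) z14)))) z14))))) _ _ (by decide +kernel)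

end Vale.Agent.Lib.P154Q5
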