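import Vale.Agent.Lib.P154Q5.CkBDefs

namespace Vale.Agent.Lib.P154Q5

set_option maxRecDepth 100000
set_option exponentiation.threshold 1000

open Tr

theorem okB1470 : CKB ⟨28673, 49152, 9728, 10240⟩ ⟨24576, 49152, 10240, 10752⟩ :=
  ckB_sound (c (b (d z11 z3) (d (c (a (b (d z11 z3) (d z11 z3)) z3) z15) (a (b (d z11 z3) (d z11 z3)) z3))) (b z15 z15)) _ _ (by decide +kernel)

theorem okB1471 : CKB ⟨24576, 49152, 9728, 10240⟩ ⟨24576, 49152, 10752, 11264⟩ :=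
  ckB_sound (a (b (d (a (c (b (d (a (c (b (d z10 z2) (d z10 z2)) z14) z11) (a (b (d z10 z2) (d z10 z2)) (b z3 (d z10 z2)))) (d (a (c (b (d z10 (a (b (d z10 z2) (d z10 z2)) z2)) (d (c (b (d z10 z2) (d z10 z2)) z10) (b (d z10 z2) (d z10 z2)))) z14) (c (b (d z10 z2) (d z10 (a (b z2 (d z10 z2)) z2))) z14)) (a (b (d z10 (a (b z2 (d z10 z2)) z2)) (d (c (b (d z10 z2) (d z10 z2)) z14) (b (d z10 z2) (d z10 z2)))) (b (d z10 z2) (d z10 z2))))) z14) (c (b (d z11 z3) (d z11 (a (b z3 (d z11 z3)) z3))) z15)) (a (b (d z14 z14) (d (c (a (b (d z14 z10) (d z14 z10)) (b z10 (d z14 z10))) z14) (c (a (b (d z14 z10) (d z14 z10)) (b z10 (d z14 z10))) z14))) (b z15 (d z15 z15)))) (d (c (b (d (a (c (b (d (a (c (b (d z10 z2) (d z10 z2)) z10) z10) (a (b (d z10 z2) (d z10 z2)) (b z2 (d z10 z2)))) (d (a (c (b (d z10 z2) (d z8 z0)) z8) (c (b (d z10 z2) (d z10 z2)) z10)) (a (b (d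 z10 z2) (d z8 z0)) (b (d z10 z2) (d z10 z2))))) z14) (c (b (d z11 z3) (d z10 z2)) z15)) (a (b (d (a (c (b (d z10 z2) (d z10 z2)) z14) z10) (a (b (d z10 z2) (d z10 z2)) z2)) (d (a (c (b (d z10 z2) (d z8 z0)) z12) z10) (a (b (d z10 z2) (d z8 z0)) (b z2 (d z10 z2))))) (b (d z11 z3) (d z10 z2)))) (d (a (c (b (d (a (c (b (d z10 z2) (d z8 (b (d z8 z0) z0))) z8) (c (b (d z10 z2) (d z10 z2)) z10)) (a (b (d z10 z2) (d z8 z0)) (b (d z10 z2) (d z10 z2)))) (d (c (b (d z10 z2) (d z8 (b (d z8 z0) z0))) z8) (b (d z10 z2) (d z8 (b (d z8 z0) z0))))) (b z14 z12)) (c (b (d z10 z2) (d (c (a (b (d z10 z2) (d z10 z2)) (b z2 (d z10 z2))) z10) (a (b (d z10 z2) (d z10 z2)) (b z2 (d z10 z2))))) z14)) (a (b (d (a (c (b (d z10 z2) (d z8 z0)) z12) z10) (a (b (d z10 z2) (d z8 z0)) (b (d z10 z2) (d z10 z2)))) (d (c (b (d z10 z2) (d z8 z0)) z12) (b (d z10 z2) (d z8 z0)))) (b (d z10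 z2) (d z10 (a (b (d z10 z2) (d z10 z2)) z2)))))) (b z14 z14)) (b (d (a (c (b (d z14 z10) (d z14 (a (b z10 z8) z10))) z14) z15) (a (c (b (d z14 z10) (d z14 z10)) z14) z15)) (d (c (a (b (d z14 (a (b z10 z8) z10)) (d (c (b z10 (d z8 z8)) z12) (b z10 z8))) (b (d z14 z10) (d z14 z10))) z14) (c (a (b (d z14 z10) (d z12 (b z10 z8))) (b (d z14 z10) (d z14 z10))) z14))))) (b (d z15 z15) (d (c (a (b (d z11 z3) (d z11 (a (b (d z11 z3) (d z11 z3)) z3))) (b (d z11 z3) (d z11 z3))) z15) (a (b z15 (d z15 z15)) z15)))) _ _ (by decide +kernel)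

theorem okB1472 : CKB ⟨24576, 49152, 9216, 10240⟩ ⟨24576, 49152, 11264, 12288⟩ :=
  ckB_sound (b (d (b (d z15 z15) (d z15 z15)) (b (d (a (b (d z15 z15) (d z15 z15)) (b (d z15 z15) (d z15 z15))) (a (b (d z7 z3) (d z7 z3)) (b (d z7 z3) (d z7 z3)))) (d (a (b (d z15 z15) (d z15 z15)) (b (d z15 z15) (d z15 z15))) (a (b (d z7 z3) (d (a (b z7 (d z14 z14)) z7) z3)) (b (d z7 z3) (d z7 z3)))))) (d (a (b (d (a (b (d z14 z14) (d (a (c (b (d z14 z2) (d z14 (b z2 z2))) z14) z14) z14)) (b z15 (d z15 z15))) (a (b (d z14 z14) (d z14 z14)) (b z15 (d z15 z15)))) (d (b (d (a (c (b (d z14 (a (b z2 z2) z2)) (d z14 (a (b (d z10 z2) (d z8 z0)) z2))) z14) z15) (a (b z14 z14) z15)) (d (a (c (b (d z14 (a (b (d z10 z2) (d z8 z0)) z2)) (d z12 (b (d z10 z2) (d z8 z0)))) z12) z14) (a (b z14 (d z12 z12)) z14))) (b (d (a (b z14 z14) z15) z14) (d (a (b z14 z12) z14) (a (b z14 z12)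 z14))))) (b (d z15 z15) (d (a (b z15 (d z15 z15)) z15) (a (b z15 (d z15 z15)) z15)))) (a (b (d (a (b (d z14 z14) (d z14 z14)) (b (d z15 z15) (d z15 z15))) (a (b (d (a (b (d z14 z14) (d z14 z14)) (b z7 (d z14 z14))) (a (b (d z6 z2) (d z6 z2)) (b z3 (d z6 z2)))) (d (a (b (d z14 z14) (d z14 z14)) (b (d z14 z14) (d z14 z14))) (a (b (d z6 z2) (d z6 z2)) (b (d z6 z2) (d z6 z2))))) (b (d z7 z3) (d (a (b (d z15 z15) (d z15 z15)) z7) (a (b z3 (d z7 z3)) z3))))) (d (b (d z14 z14) (d z14 z14)) (b (d (a (b (d z14 z14) (d z14 z14)) (b (d z15 z15) (d z14 z14))) (a (b (d z6 z2) (d z6 z2)) (b (d z7 z3) (d z6 z2)))) (d (a (b (d z14 z14) (d z12 z12)) (b (d z14 z14) (d z14 z14))) (a (b (d z6 z2) (d (b z6 z4) (b z2 z0))) (b (d z6 z2) (d z6 z2))))))) (b (d (b (d z15 z15) (d z15 z15)) (b (d z7 z3) (d z7 z3))) (d (a (b (d z15 z15) (d z15 z15)) (b (d z15 z15) (d z15 z15)))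 (a (b (d (a (b z7 (d z15 z15)) z7) z3) (d (a (b (d z15 z15) (d z15 z15)) (b (d z15 z15) (d z15 z15))) (a (b (d z7 z3) (d z7 z3)) (b z3 (d z7 z3))))) (b (d (b z7 z7) (b z3 z3)) (d (b (d z15 z15) (d z15 z15)) (b (d z7 z3) (d z7 z3)))))))))) _ _ (by decide +kernel)

theorem okB1473 : CKB ⟨24576, 49152, 10240, 11264⟩ ⟨24576, 49152, 8192, 9216⟩ :=
  ckB_sound (b (d z15 z15) (d (b z15 z15) (b z15 z15))) _ _ (by decide +kernel)

theorem okB1474 : CKB ⟨24576, 49152, 10240, 10752⟩ ⟨24576, 49152, 9216, 9728⟩ :=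
  ckB_sound (a (b (d z14 (c (a (b z14 z12) z15) z14)) (d z12 (c (b z14 z12) z12))) (b z15 z15)) _ _ (by decide +kernel)

theorem okB1475 : CKB ⟨24576, 31698, 10240, 10496⟩ ⟨24576, 28673, 9728, 9984⟩ :=
  ckB_sound (c (a (b (d (c (a (b z10 z8) z10) z14) (c (a (b (d (c (a (b z10 z8) z10) z10) (a (b (d z10 (c z2 z10)) (d z8 z8)) (b z10 (d z10 z10)))) (d (c (b z10 z8) z8) (b (d z10 z10) (d z8 z8)))) (b z10 (d z10 (b z10 (d z10 z10))))) (a (b z10 z8) z10))) (d (c (b z10 z8) z12) (c (b (d (c (b z10 z10) z10) (b (d z10 z10) (d z10 z10))) (d (c (b z8 z0) z8) (b (d z8 z8) z0))) (b z10 z8)))) (b z11 (d z11 (c (b z11 (d z10 (a (b z10 (d z10 z10)) z11))) z11)))) (a (b z14 z12) z15)) _ _ (by decide +kernel)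

theorem okB1476 : CKB ⟨24576, 31698, 10240, 10496⟩ ⟨24576, 28673, 9984, 10240⟩ :=
  ckB_sound (a (b (d (c (a (b (d (c (a (b (d (c (a (b (d z8 (c z0 z8)) z0) z2) z10) (c z2 z10)) (d (c (b (d z8 z0) z0) z8) (c z0 z8))) (b z10 (d z10 z10))) z10) (c (a (b (d (c (a (b (d (c z0 z8) z0) z0) z2) z10) (a (b (d (c z0 z8) z0) z0) z2)) (d (c z0 z8) (b z0 z0))) (b z2 (d z10 z2))) (a (b z10 z8) z10))) (d (c (b (d (c (b z2 z2) z10) (c z2 z10)) (d z8 (c z0 z8))) z8) (c (b (d (c z2 z10) (b z2 z2)) (d (c z0 z8) (b z0 z0))) (b z10 z8)))) (b (d z10 z10) (d (c (b z10 (d z10 z10)) z10) (c (b z2 (d z10 z2)) z10)))) (a (b z14 z12) z14)) (c (a (b (d (c (a (b (d (c (a (b (d (c z0 z8) z0) z0) z2) z10) (a (b (d (c z0 z8) z0) z0) z2)) (d (c (b (d (c z0 z8) z0) z0) z8) (b (d (c z0 z8) z0) z0))) (b z2 (d z10 z2))) (a (b z10 z8) z10)) (a (b (d (c (a (b (d (c z0 z8) z0) z0) z2) z10)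 (a (b (d (a z0 z2) z0) z0) z2)) (d (c (b (d (c z0 z8) z0) z0) z8) (b (d (b z2 z0) z0) z0))) (b z2 (d z10 z2)))) (d (c (b (d (c (b z2 z2) z10) (b z2 z2)) (d (c (b z0 z0) z8) (b z0 z0))) (b z10 z8)) (b (d (c (b z2 z2) z10) (b z2 z2)) (d (c (b z0 z0) z8) (b z0 z0))))) (b (d z10 z2) (d (c (b z2 (d z10 z2)) z10) (b (d z10 z2) (d z10 z2))))) (a (b (d z10 (c (a (b z10 z8) z10) z10)) (d z8 (c (b z10 z8) z8))) z10))) (d (c (b (d (c (b (d z10 z10) (d z10 z10)) z10) (c (b (d (a (c z2 z10) z10) z2) (d (c z2 z10) z2)) (b z10 z10))) (d (c (b (d z8 (c (b z2 z0) z8)) z0) z8) (c (b (d (c (b z2 z0) z8) (b z2 z0)) z0) (b z8 z0)))) (b z14 z12)) (c (b (d (c (b (d (a (c (b z2 z2) z10) z10) (a (b z2 z2) z2)) (d (c (a (b z2 z0) z2) z10) (a (b z2 z0) z2))) (b z10 z10)) (b (d (a (c (b z2 z2) z10) z10) (a (b z2 z2) z2)) (d (a (c (b z2 z0) z8) z10) (a (b z2 z0) z2)))) (d (c (b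 (d (c (b z2 z0) z8) (b z2 z0)) z0) (b z8 z0)) (b (d (c (b z2 z0) z8) (b z2 z0)) z0))) (b (d z10 (c (b z10 z10) z10)) (d z8 (c (b z8 z0) z8)))))) (b (d z11 z11) (d (c (b (d z11 z11) (d (a (c (b z10 (d z10 z10)) z10) z11) (a (c (b (d z10 z2) (d z10 z2)) z10) z11))) z15) (c (b (d z11 z3) (d (a (c (b (d z10 z2) (d (a (c z2 z10) z10) (a (b z2 z2) z2))) z10) z11) (a (b (d z10 z2) (d (a (c (b z2 z2) z10) z10) (a (b z2 z2) z2))) z3))) z11)))) _ _ (by decide +kernel)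

theorem okB1477 : CKB ⟨24576, 31698, 10496, 10752⟩ ⟨24576, 28673, 9728, 10240⟩ :=
  ckB_sound (d (c (b (d (c (b z10 z10) z14) (c (b (d (a (c (b z10 z10) z10) z10) (a (b (d z10 z10) (d z10 z10)) z10)) (d (c (a (b z10 z8) z10) z10) (a (b (d z10 z10) (d z8 z8)) z10))) (b z10 z10))) (d (c (b z8 z0) z12) (c (b (d (c (b z10 z8) z8) (b z10 z8)) z0) (b z8 z0)))) (b z14 z12)) (b (d (c (b (d (c (a (b (d z10 z10) (d z10 z10)) z10) z10) (a (c (b (d z10 z2) (d z10 z2)) (b z10 z10)) z10)) (d (c (a (b (d z10 z10) (d z8 z8)) z10) z10) (c (a (b (d z10 z2) (d z8 z0)) z2) (a (b z10 z8) z10)))) (b z14 z14)) (c (b (d (a (c (b (d z10 z2) (d z10 z2)) (b z10 z10)) z10) (a (b (d (a (c (b z2 z2) z10) z10) (a (b z2 z2) z2)) (d (c (a (b z2 z0) z2) z10) (a (b z2 z0) z2))) z2)) (d (c (a (b (d z10 z2) (d z8 (b z2 z0))) z2) (a (b z10 z8) z10)) (a (b (d z10 z2) (d z8 (b z2 z0)))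 (b z2 (d z10 z2))))) (b (d z10 (a (c (b z10 z10) z10) z10)) (d z10 (c (a (b z10 z8) z10) z10))))) (d (c (b (d (c (b (d z10 z10) (d z8 z8)) z8) (c (b (d z10 z2) (d z8 z0)) (b z10 z8))) z0) (b z12 z0)) (c (b (d (c (b (d z10 z2) (d z8 z0)) (b z10 z8)) (b (d z10 z2) (d z8 z0))) z0) (b (d z8 (c (b z10 z8) z8)) z0))))) _ _ (by decide +kernel)

theorem okB1478 : CKB ⟨31698, 49152, 10240, 10752⟩ ⟨24576, 28673, 9728, 10240⟩ :=
  ckB_sound (b (d z15 z11) (d (c (b z11 (d z11 (a (c (b z11 (d (a (c (b z10 z10) z10) z11) (a (b z10 z10) z11))) z11) z11))) z15) (b (d z11 z11) (d (a (c (b (d z11 z11) (d (c (a (b z10 z10) z11) z10) (a (c (b (d z10 z2) (d z10 z2)) (b z10 z10)) z11))) z15) z11) (a (c (b (d z11 (a (b z2 (d z10 z2)) z3)) (d (a (c (b (d z10 z2) (d z10 z2)) (b z10 z10)) z11) (a (b (d z10 z2) (d z10 z2)) z3))) (b z11 (d z10 (a (c (b z10 z10) z10) z11)))) z11)))))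 _ _ (by decide +kernel)

theorem okB1479 : CKB ⟨24576, 49152, 10240, 10752⟩ ⟨28673, 49152, 9728, 10240⟩ :=
  ckB_sound (a (b (d z14 (a (c (b z14 z12) z12) z15)) (d z12 (c (b z14 z12) z12))) (b z15 z15)) _ _ (by decide +kernel)

theorem okB1480 : CKB ⟨24576, 49152, 10752, 11264⟩ ⟨24576, 49152, 9216, 10240⟩ :=
  ckB_sound (d (b (d z15 (c (a (b z14 (d z12 (c (b z14 z12) z12))) z15) z15)) z15) (c (b (d (c (a (b (d (c (a (b z10 z8) z11) z14) (c (a (b (d z10 (a (b z10 z8) z10)) (d (c (b z10 z8) z8) (b z10 z8))) z11) (a (b z10 (d z8 (c (b z10 z8) z8))) z11))) (d (c (b z10 z8) (b z14 z12)) (c (b (d z10 (a (b z10 z8) z11)) (d (c (b z10 z8) z8) (b z10 z8))) (b z10 z8)))) z11) (a (b z14 (d z12 (c (b z14 z12) z12))) z15)) (a (b (d (c (a (b (d (c (a (b z10 (d z8 z8)) z10) z10) (c (a (b (d z10 z2) (d z8 z0)) z2) (a (b z10 z8) z10))) (d (c (b z10 z8) (b z10 z8))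 (c (b (d z10 z2) (d z8 z0)) (b z10 z8)))) z11) (a (b z14 z12) z15)) (c (a (b (d (c (a (b (d z10 z2) (d z8 (b z2 z0))) z2) (a (b z10 z8) z10)) (a (b (d z10 z2) (d z8 (b z2 z0))) z2)) (d (c (b (d z10 z2) (d z8 z0)) (b z10 z8)) (b (d z10 z2) (d z8 (b z2 z0))))) (b z3 (d z11 z3))) (a (b (d z10 (a (c (b z10 z8) (b z10 z8)) z10)) (d z8 (c (b z10 z8) (b z10 z8)))) z11))) (d (c (b (d (c (a (b z10 z8) z11) z10) (c (a (b z2 (d z8 z0)) z3) z10)) (d (c (b z10 z8) z8) (c (b z2 (d z8 z0)) (b z10 z8)))) (b z14 z12)) (c (b (d (c (a (b (d z10 z2) (d z8 z0)) z3) z10) (a (b (d z10 z2) (d z8 z0)) z3)) (d (c (b z2 (d z8 z0)) (b z10 z8)) (b (d z10 z2) (d z8 z0)))) (b z10 (d z8 (c (b z10 z8) z8)))))) (b z11 (d z11 z11)))) (d (c (b (d z11 (a (c (b z11 (d z10 z10)) (b z11 z10)) z11)) (d z11 (a (c (b z11 z10) (b z11 z10)) z11))) (b z15 z15)) (b (d (c (a (b (d z11 z11) (d z10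 (c (b z2 z2) z10))) z11) z15) (a (c (b (d z11 (a (b z2 z2) z3)) (d (c (b z2 z2) z10) (b z2 z2))) (b z11 z10)) z11)) (d (c (a (b (d z11 z11) (d z10 z10)) z11) z15) (a (c (b (d z11 z3) (d z10 (b z2 z2))) (b z11 z10)) z11))))) (b (d z15 (a (c (b z14 (d z12 (c (b z14 z12) z12))) (b z14 z12)) z15)) (d z15 (c (b z15 z15) z15))))) _ _ (by decide +kernel)

theorem okB1481 : CKB ⟨24576, 49152, 11264, 12288⟩ ⟨24576, 49152, 8192, 10240⟩ :=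
  ckB_sound (d (b (d (b z15 z15) (b z15 z15)) (d (b (d (b z15 z15) (b z15 z15)) (d (b z13 z12) (b z13 z12))) (b (d (b z15 z15) (b z15 z15)) (d (b z13 z12) (b z13 z12))))) (b (d (b z15 z15) (c (b (d (c (b (d z11 (c (a (b z11 (d z8 (b z10 z8))) z11) z11)) z11) (b z15 z15)) (b (d (c (a (b z11 (d (c (b z10 z8) z8) (c (b z2 z0) z8))) z11) z15) (c (a (b (d z11 z3) (d (c (b z2 z0) z8) (b z2 z0))) z3) z11)) (d (c (b z11 z11) z15) (c (b z3 z3) z11)))) (d (c (b z11 z11) (b z15 z15)) (b (d (c (b z11 z11) z15) (c (b z3 z3) z11)) (d z11 (c (b z3 z3) z11))))) (b (d z15 (c (b z15 z15) z15)) (d z15 (c (b z15 z15) z15))))) (d (b (d (c (b z15 z15) (b z15 z15)) (c (b z15 z15) (b z15 z15))) (d (c (b z13 z12) (b z13 z12)) (c (b (d z13 (c (b z15 z15) z13)) z12) (b z13 (d z12 z12))))) (c (b (d (c (b z11 z11) (b z15 z15)) (b (d z11 z11) (d z11 z11))) (d (c (b (d (c (b z11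 z11) (b z15 z15)) (c (b z11 z11) (b z11 z11))) (d (c (b z9 z8) (b z13 z12)) (c (b z9 z8) (b z9 z8)))) (b (d z13 (c (b z15 z15) z13)) (d z12 (c (b z13 z12) z12)))) (b (d (c (b z11 z11) (b z15 z15)) (c (b z3 z3) (b z11 z11))) (d (c (b z9 z8) (b z13 z12)) (c (b (d z9 (b z3 z1)) (d z8 (b z1 z0))) (b z9 z8)))))) (b (d (b z15 z15) (c (b z15 z15) (b z15 z15))) (d (b (d z13 z13) (d z12 z12)) (c (b (d (c (b z15 z15) z13) (c (b z15 z15) (b z15 z15))) (d z12 (c (b z13 z12) (b z13 z12)))) (b (d (b z15 z15) (b z15 z15)) (d (b z13 z12) (b z13 z12)))))))))) _ _ (by decide +kernel)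

theorem okB1482 : CKB ⟨24576, 29673, 10240, 10496⟩ ⟨24576, 31698, 10240, 10496⟩ :=
  ckB_sound (c (b (d (a (c (b (d (a (c (b (d (a (c (b (d (a z0 z2) z0) z0) z8) z10) (a (b (d (a z0 z2) z0) z0) z2)) (d (c (b (d (c z0 z8) z0) z0) z8) (b (d (b z2 z0) z0) z0))) (b z10 z8)) (c (b z2 (d z10 z2)) z10)) (a (b (d (a (b (d z8 z8) z8) z10) (a (b (d z0 z0) z0) z2)) (d (b (d z8 z8) z8) (b (d z0 z0) z0))) (b z2 (d z10 z2)))) (d (c (b (d (c (b z2 z2) z10) (b z2 z2)) (d (c (b z0 z0) z8) (b z0 z0))) (b z10 z8)) (b (d (b z10 z10) (b z2 z2)) (d (b z8 z0) (b z0 z0))))) (b (d z10 (a (b z10 z8) z10)) (d z8 (b z10 z8)))) (c (b (d z10 z2) (d (c (b (d z10 z2) (d z10 z2)) z10) (b (d z10 z2) (d z10 z2)))) z10)) (a (b (d (a (b (d (c (a (b (d z8 z8) z8) z10) z10) (c (a (b (d z8 z0) z0) z2) z10)) (d (c (b (d z8 z8) z8) z8) (c (b (d z8 z0) z0) z8))) (b (d z10 z10) (d z10 z10)))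 (a (b (d (a (b (d z8 z0) z0) z2) z0) (d (b (d z8 z0) z0) z0)) (b (d z2 z0) (d z2 z0)))) (d (b (d (c (b z10 z10) z10) (c (b (d z10 z2) (d z10 z2)) z10)) (d (c (b z8 z0) z8) (c (b (d z8 z0) z0) z8))) (b (d (b (d z10 z2) (d z10 z2)) z0) (d (b (d z8 z0) z0) z0)))) (b (d z10 z2) (d (b (d z10 z10) (d z10 z10)) (b (d z2 z0) (d (a (b z2 (d z10 z2)) z2) z0)))))) (d (c (b (d (c (b (d (a (c (b z2 z2) z10) z10) (a (b z2 z2) z2)) (d (a (c (b z2 z0) z8) z10) (a (b z2 z0) z2))) (b z10 z10)) (b (d (a (b z10 z10) z10) (a (b z2 z2) z2)) (d (a (b z10 z8) z10) (a (b z2 z0) z2)))) (d (c (b (d (c (b z2 z0) z8) (b z2 z0)) z0) (b z8 z0)) (b (d (b z10 z8) (b z2 z0)) z0))) (b (d z10 (b z10 z10)) (d z8 (b (d z8 (c (b z10 z8) z8)) z0)))) (b (d (b (d (a (c (b z10 z10) z10) z10) (a (c (b (d z10 z2) (d z10 z2)) z10) z10)) (d (c (a (b z10 z8) z10) z10) (a (c (b (d z10 z2) (d z8 z0))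 z8) z10))) (b (d (a (b (d z10 z2) (d z10 z2)) z2) z0) (d (a (b (d z10 z2) (d z8 z0)) z2) z0))) (d (b (d (c (b z10 z8) z8) (c (b (d z10 z2) (d z8 z0)) z8)) z0) (b (d (b z2 z0) z0) z0))))) (b (d z14 (a (b (d z14 (c (a (b (d z10 (c (a (b (d z8 z8) z8) z10) z10)) (d z8 (c (b (d z8 z8) z8) z8))) z10) z14)) (d z12 (c (b (d z10 (c (b z10 z10) z10)) (d z8 (c (b z8 z0) z8))) z12))) z14)) (d (b z14 z12) (b (d z14 (c (b (d z10 (c (a (b z10 z10) z10) z10)) (d z10 (c (a (b z10 z8) z10) z10))) z14)) (d z12 (c (b (d z8 (c (b z10 z8) z8)) z0) z12)))))) _ _ (by decide +kernel)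

theorem okB1483 : CKB ⟨29673, 31698, 10240, 10496⟩ ⟨24576, 31698, 10240, 10496⟩ :=
  ckB_sound (c (b (d z11 (b z3 (d z11 z3))) (d (c (b (d z11 z3) (d (a (c (b (d z10 z2) (d (a (c (b z2 z2) z10) z10) (a (b z2 z2) z2))) z10) z11) (a (b (d z10 z2) (d (a (b z10 z10) z10) (a (b z2 z2) z2))) z3))) z11) (b (d z11 z3) (d (a (b (d z10 z10) (d (a (c (b z10 z10) z10) z10) (a (c (b (d z10 z2) z2) z10) z10))) z11) (a (b (d z2 z0) (d (a (b z2 z2) z2) z0)) z3))))) (b z15 (d z15 (b z15 (d z14 (a (c (b z10 (d z10 (a (c (b z10 z10) z10) z10))) z14) z11)))))) _ _ (by decide +kernel)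

theorem okB1484 : CKB ⟨24576, 31698, 10240, 10496⟩ ⟨24576, 31698, 10496, 10752⟩ :=
  ckB_sound (a (b (d (a (b (d (c (a (b (d (c (a (b (d z8 z8) z8) z10) z10) (a (c (b (d z8 z0) z0) z8) z10)) (d (c (b (d z8 z8) z8) z8) (c (b (d z8 z0) z0) z8))) (b (d z10 z10) (d z10 z10))) z10) (a (c (b (d (a (c (b (d z8 z0) z0) z8) z10) (a (b (d z8 z0) z0) z2)) (d (c (b (d z8 z0) z0) z8) (b (d z8 z0) z0))) (b z10 z8)) (c (b (d z10 z2) (d z10 z2)) z10))) (d (c (b (d (c (b z10 z10) z10) (c (b (d z10 z2) (d z10 z2)) z10)) (d (c (b z8 z0) z8) (c (b (d z8 z0) z0) z8))) z8) (c (b (d (c (b z2 z2) z10) (b z2 z2)) (d (c (b (d z8 z0) z0) z8) (b z0 z0))) (b z10 z8)))) (b (d z10 z10) (d (c (b (d z10 z10) (d z10 z10)) z10) (c (b (d z10 z2) (d z10 z2)) z10)))) (a (b (d (a (b (d z10 z2) (d z8 z0)) (b (d z10 z2) (d z10 z2))) z0) (d (b (d (b z10 z10) z2) (d (b z8 z0) z0)) z0)) (b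 (d z2 z0) (d (b (d z10 z2) (d z10 z2)) z0)))) (d (b (d (c (b (d (a (c (b z10 z10) z10) z10) (a (c (b (d z10 z2) (d z10 z2)) z10) z10)) (d (c (a (b z10 z8) z10) z10) (a (c (b (d z10 z2) (d z8 z0)) z8) z10))) z10) (c (b (d (a (c (b (d z10 z2) (d z10 z2)) z10) z10) (a (b z2 z2) z2)) (d (a (c (b (d z10 z2) (d z8 z0)) z8) z10) (a (b z2 z0) z2))) (b z10 z10))) (d (c (b (d (c (b z10 z8) z8) (c (b (d z10 z2) (d z8 z0)) z8)) z0) z8) (c (b (d (c (b (d z10 z2) (d z8 z0)) z8) (b z2 z0)) z0) (b z8 z0)))) (b (d (b (d (a (b z10 z10) z10) (a (b z2 z2) z2)) (d (a (b z10 z8) z10) (a (b z2 z0) z2))) z0) (d (b (d (b z10 z8) (b z2 z0)) z0) z0)))) (b (d (b z11 (d z11 z11)) (b z3 (d z3 z0))) (d (b (d z11 z11) (d (a (c (b (d z10 z10) (d (a (c (b z10 z10) z10) z10) (a (c (b (d z10 z2) z2) z10) z10))) z10) z11) (a (c (b (d z10 z2) (d (a (c (b z2 z2) z10) z10) (a (b z2 z2) z2)))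 z10) z11))) (b (d (a (b z2 (d z10 z2)) z3) z0) (d (a (b (d z10 z2) (d (a (b z10 z10) z10) (a (b z2 z2) z2))) z3) z0))))) _ _ (by decide +kernel)

end Vale.Agent.Lib.P154Q5
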