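import Vale.Agent.Lib.P154Q5.CkBDefs

namespace Vale.Agent.Lib.P154Q5

set_option maxRecDepth 100000
set_option exponentiation.threshold 1000

open Tr

theorem okB1485 : CKB ⟨24576, 31698, 10496, 10752⟩ ⟨24576, 31698, 10240, 10496⟩ :=
  ckB_sound (c (b (d (c (b (d (a (c (b (d (a (c (b z2 z2) z10) z10) (a (b z2 z2) z2)) (d (c (a (b z2 z0) z2) z10) (a (b z2 z0) z2))) (b z10 z10)) z10) (a (b (d (a (b z10 z10) z10) (a (b z2 z2) z2)) (d (a (b z10 z8) z10) (a (b z2 z0) z2))) z2)) (d (c (a (b (d (c (a (b z2 z0) z2) z10) (a (b z2 z0) z2)) (d (c (b z2 z0) z8) (b z2 z0))) (b z2 (d z10 z2))) (a (b z10 z8) z10)) (a (b (d (a (b z10 z8) z10) (a (b z2 z0) z2)) (d (b z10 z8) (b z2 z0))) (b z2 (d z10 z2))))) (b (d z10 (a (b z10 z10) z10)) (d z10 (a (b z10 z8) z10)))) (b (d (a (b (d (c (a (b z10 z10) z10) z10) (a (c (b z2 z2) z10) z10)) (d (c (a (b z10 z8) z10) z10)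 (c (a (b z2 (d z8 z0)) z2) z10))) z10) (a (b (d (a (b z2 z2) z2) z0) (d (a (b z2 z0) z2) z0)) z2)) (d (a (b (d (c (a (b z10 z8) z10) z10) (c (a (b z2 z0) z2) z10)) (d (c (b z10 z8) z8) (c (b z2 z0) z8))) (b z10 (d z10 z10))) (a (b (d (a (b z2 z0) z2) z0) (d (b z2 z0) z0)) (b z2 (d z2 z0)))))) (d (c (b (d (c (b (d z10 z2) (d z8 z0)) (b z10 z8)) (b (d (b z10 z10) (b z2 z2)) (d z8 z0))) z0) (b (d z8 (b z10 z8)) z0)) (b (d (b (d (c (b z10 z10) z10) (c (b z2 z2) z10)) (d (c (b z8 z8) z8) (c (b (d z8 z0) z0) z8))) (b (d (b z2 z2) z0) (d (b (d z8 z0) z0) z0))) z0))) (b (d (b z14 z14) (b (d z14 (c (a (b (d z10 (c (a (b z10 z10) z10) z10)) (d z10 (c (a (b z10 z8) z10) z10))) z10) z14)) (d z14 (c (a (b (d z10 (c (a (b z10 z8) z10) z10)) (d z8 (c (b z10 z8) z8))) z10) z14)))) (d (b z12 z0) (b (d (c (b z10 z8) z12) (c (b (d z10 (c (b z10 z10) z10)) (d z8 (c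 (b z8 z8) z8))) z12)) z0)))) _ _ (by decide +kernel)

theorem okB1486 : CKB ⟨24576, 31698, 10496, 10752⟩ ⟨24576, 31698, 10496, 10752⟩ :=
  ckB_sound (b (d (b (d (a (c (b (d (a (c (b z10 z10) z10) z10) (a (c (b z2 z2) z10) z10)) (d (c (a (b z10 z8) z10) z10) (a (c (b z2 (d z8 z0)) z8) z10))) z10) z10) (a (c (b (d (a (c (b z2 z2) z10) z10) (a (b z2 z2) z2)) (d (a (c (b z2 (d z8 z0)) z8) z10) (a (b z2 z0) z2))) (b z10 z10)) z10)) (d (c (a (b (d (c (a (b z10 z8) z10) z10) (c (a (b z2 (d z8 z0)) z2) z10)) (d (c (b z10 z8) z8) (c (b z2 z0) z8))) (b z10 (d z10 z10))) z10) (a (c (b (d (a (c (b z2 (d z8 z0)) z8) z10) (a (b z2 z0) z2)) (d (c (b z2 z0) z8) (b z2 z0))) (b z10 z8)) (c (b (d z10 z2) (d z10 z2)) z10)))) (b (d (a (b (d (a (b z10 z10) z10) (a (b z2 z2) z2)) (d (a (b z10 z8) z10) (a (b z2 z0) z2))) z2) z0) (d (a (b (d (a (b z10 z8) z10) (a (b z2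 z0) z2)) (d (b z10 z8) (b z2 z0))) (b z2 (d z10 z2))) z0))) (d (b (d (c (b (d (c (b z10 z10) z10) (c (b z2 z2) z10)) (d (c (b z8 z8) z8) (c (b (d z8 z0) z0) z8))) z8) (c (b (d (c (b z2 z2) z10) (b z2 z2)) (d (c (b (d z8 z0) z0) z8) (b (d z8 z0) z0))) (b z10 z8))) z0) (b (d (b (d (b z10 z10) (b z2 z2)) (d (b z8 z8) (b z0 z0))) z0) z0))) _ _ (by decide +kernel)

theorem okB1487 : CKB ⟨24576, 31698, 10240, 10752⟩ ⟨31698, 49152, 10240, 10752⟩ :=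
  ckB_sound (b (d z14 (a (b (d (c (a (b z14 z12) z14) z14) (c (a (b (d (c (a (b z10 z8) z10) z14) (c (a (b (d z10 z10) (d z8 z8)) (b z10 (d z10 z10))) z14)) (d (c (b z10 z8) z12) (c (b (d z10 z10) (d z8 z8)) z12))) (b z14 (d z14 (c (b (d z10 z10) (d z10 z10)) z14)))) z14)) (d (c (b z14 z12) z12) (c (b (d (c (b z10 z10) z14) (c (b (d z10 z10) (d (c (a (b z10 z8) z10) z10) z10)) z14)) (d (c (b z8 z0) z12) (c (b (d (c (b z10 z8) z8) (c (b (d z10 z2) (d z8 z0)) z8)) z0) z12))) z12))) (b z15 (d z15 (c (b z15 (d z14 (a (c (b (d z10 z10) (d (a (c (b z10 z10) z10) z10) (a (c (b (d z10 z2) (d z10 z2)) z10) z10))) z14) z11))) z15))))) (d (b z14 z12) (b (d (c (b z14 z14) z14) (c (b (d (c (a (b z10 z10) z10) z14) (c (a (b (d (c (a (b z10 z10) z10) z10) (a (c (b (d z10 z2) (d z10 z2)) z10) z10)) (d (c (a (b z10 z8) z10) z10) (c (a (b (d z10 z2) (d z8 z0)) z2)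 z10))) z10) z14)) (d (c (a (b z10 z8) z10) z14) (c (a (b (d (c (a (b z10 z8) z10) z10) (c (a (b (d z10 z2) (d z8 z0)) z2) z10)) (d (c (b z10 z8) z8) (c (b (d z10 z2) (d z8 z0)) z8))) (b z10 (d z10 z10))) z14))) z14)) (d (c (b z12 z0) z12) (c (b (d (c (b z10 z8) z12) (c (b (d (c (b z10 z10) z10) (c (b (d z10 z2) (d z10 z2)) z10)) (d (c (b z8 z8) z8) (c (b (d z8 z0) z0) z8))) z12)) z0) z12))))) _ _ (by decide +kernel)

theorem okB1488 : CKB ⟨31698, 49152, 10240, 10752⟩ ⟨24576, 49152, 10240, 10752⟩ :=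
  ckB_sound (c (b (d z11 (b z3 (d z11 z3))) (d (c (b (d (a (c (b z3 (d z11 z3)) z11) z11) (a (b z3 (d z11 z3)) z3)) (d (a (c (b (d (a (c (b z2 (d z10 z2)) z10) z11) (a (b z2 (d z10 z2)) z3)) (d (a (c (b (d z10 z2) (d z10 z2)) (b z10 z10)) z11) (a (b (d z10 z2) (d z10 z2)) z3))) (b z11 (d z10 (a (b z10 z10) z11)))) z11) (a (b (d (a (b z10 (d z10 z10)) z11) (a (b z2 (d z2 z0)) z3)) (d (a (b (d z10 (a (c (b z2 z2) z10) z10)) (d z10 z10)) z11) (a (b (d (a (b z2 z2) z2) z0) (d (a (b z2 (d z8 z0)) z2) z0)) z3))) z3))) (b z15 (d z15 (a (b z15 (d z14 (c (a (b (d z10 (c (a (b z10 z10) z10) z10)) (d z10 (c (a (b z10 z8) z10) z10))) z11) z14))) z15)))) (b (d (a (b z11 (d z11 z11)) z11) (a (b z3 (d z3 z0)) z3)) (d (a (b (d (a (c (b z10 (d z10 z10)) z10) z11) (a (c (b (d z10 z2) (d z10 z2)) z10) z11)) (d (a (c (b (d (a (c (b z10 z10) z10) z10) (a (c (b z2 z2)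 z10) z10)) (d (c (a (b z10 z8) z10) z10) (a (c (b z2 (d z8 z0)) z8) z10))) z10) z11) (a (c (b (d (a (c (b z2 z2) z10) z10) (a (b z2 z2) z2)) (d (a (c (b z2 (d z8 z0)) z8) z10) (a (b z2 (d z8 z0)) z2))) (b z10 z10)) z11))) z11) (a (b (d (a (b (d z10 z2) (d z10 z2)) z3) z0) (d (a (b (d (a (b z10 z10) z10) (a (b z2 z2) z2)) (d (a (b z10 z8) z10) (a (b z2 z0) z2))) z3) z0)) z3))))) (b z15 (d z15 (b z15 (d z15 (a (c (b (d z15 (a (c (b z10 (d z10 z10)) z14) z11)) (d (c (a (b z10 z10) z11) z14) (a (c (b (d (a (c (b z10 z10) z10) z10) z10) (d z10 z10)) z14) z11))) z15) z15)))))) _ _ (by decide +kernel)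

theorem okB1489 : CKB ⟨24576, 31698, 10240, 10496⟩ ⟨24576, 49152, 10752, 11264⟩ :=
  ckB_sound (d (c (a (b (d (c (a (b (d (c (a (b (d z10 (a (b (d z8 z0) z0) z2)) (d z8 (b (d z8 z0) z0))) (b (d z10 z2) (d z10 z2))) z10) (a (b (d z10 z2) (d z8 (b (d z8 z0) z0))) (b (d z10 z2) (d z10 z2)))) (d (c (b (d z10 (b z2 z2)) (d z8 (b (d z8 z0) z0))) z8) (b (d z10 (b z2 z2)) (d z8 (b z0 z0))))) (b (d z10 (b z2 (d z10 z2))) (d (c (b (d z10 z2) (d z10 z2)) z10) (b (d z10 z2) (d z10 z2))))) (a (b z14 z12) z14)) (a (b (d (c (a (b (d z10 z2) (d z8 z0)) (b (d z10 z2) (d z10 z2))) z14) (a (b (d z10 z2) (d z8 z0)) (b (d z10 z2) (d z10 z2)))) (d (c (b (d z10 z2) (d z8 z0)) z12) (b (d z10 z2) (d z8 z0)))) (b (d z10 z2) (d (c (b (d z10 z2) (d z10 z2)) z14) (b (d z10 z2) (d z10 z2)))))) (d (c (b (d (c (b (d z10 (a (b z2 z2) z2)) (d z10 (a (b z2 (d z8 z0)) z2))) z10)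 (b (d z10 (a (b z2 z2) z2)) (d z10 (a (b z2 z0) z2)))) (d (c (b (d (c (b (d z10 z2) (d z8 z0)) z8) (b z2 (d z8 z0))) z0) z8) (b (d (c (b z2 (d z8 z0)) z8) (b z2 z0)) z0))) (b z14 z12)) (b (d (c (b (d z10 z2) (d z10 (a (b z2 z0) z2))) z14) (b (d z10 z2) (d z10 z2))) (d (c (b (d z8 (b z2 z0)) z0) z12) (b (d z8 (b z2 z0)) z0))))) (b (d (c (b (d z11 z3) (d z11 z3)) z15) (b (d z11 z3) (d z11 z3))) (d (c (b (d z11 (a (b z2 (d z10 z2)) z3)) (d (a (c (b (d z10 z2) (d z10 (a (b z2 z2) z2))) z10) z11) (a (b (d z10 z2) (d z10 (a (b z2 z2) z2))) z3))) z15) (b (d z11 (a (b z2 (d z10 z2)) z3)) (d (a (c (b (d z10 z2) (d z10 (a (b z2 z2) z2))) z14) z11) (a (b (d z10 z2) (d z10 z2)) z3)))))) (a (b (d z14 (c (a (b z14 z12) z14) z14)) (d z12 (c (b z14 z12) z12))) z15)) (a (b (d (c (a (b (d (c (a (b (d z10 z10) (d z8 z8)) z10) z14) (a (b z10 z8) z10)) (d (c (b (d z10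 z10) (d z8 z8)) z12) (b (d z10 z10) (d z8 z8)))) (b (d z14 z10) (d z14 z10))) z14) (c (a (b (d z14 (a (b z10 z8) z10)) (d z12 (b z10 z8))) (b (d z14 z10) (d z14 z10))) z14)) (d (c (b (d (c (b (d z10 z10) (d z10 z10)) z14) (b (d z10 z10) (d z10 z10))) (d (c (b (d z8 z8) z0) z12) (b (d z8 z8) z0))) z12) (c (b (d (c (b z10 z10) z14) (b z10 z10)) (d (c (b (d z8 z8) z0) z12) (b (d z8 z8) z0))) z12))) (b (d z15 z15) (d (c (b (d z15 z11) (d z14 (a (b z10 (d z10 z10)) z11))) z15) (c (b (d z15 z11) (d z14 z10)) z15))))) _ _ (by decide +kernel)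

theorem okB1490 : CKB ⟨24576, 31698, 10496, 10752⟩ ⟨24576, 49152, 10752, 11264⟩ :=
  ckB_sound (d (c (b (d (c (b (d (a (c (b (d z10 (a (b (d z10 z2) (d z10 z2)) z2)) (d z10 (a (b (d z10 z2) (d z8 z0)) z2))) z10) z10) (a (b (d z10 (a (b z2 z2) z2)) (d z10 (a (b z2 (d z8 z0)) z2))) (b z3 (d z10 z2)))) (d (c (a (b (d z10 (a (b z2 (d z8 z0)) z2)) (d (c (b (d z10 z2) (d z8 z0)) z8) (b z2 z0))) (b (d z10 z2) (d z10 z2))) z10) (a (b (d z10 (a (b z2 (d z8 z0)) z2)) (d (c (b z2 z0) z8) (b z2 z0))) (b (d z10 z2) (d z10 z2))))) (b z14 z14)) (b (d (a (c (b (d z10 (a (b z2 z2) z2)) (d z10 (a (b z2 z0) z2))) z14) z10) (a (b (d z10 z2) (d z10 z2)) (b z3 (d z10 z2)))) (d (c (a (b (d z10 (a (b z2 z0) z2)) (d z8 (b z2 z0))) (b (d z10 z2) (d z10 z2))) z14) (a (b (d z10 z2) (d z8 (b z2 z0))) (b (d z10 z2) (d z10 z2)))))) (d (c (b (d (c (b (d z10 (b z2 z2)) (d z8 (b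 (d z8 z0) z0))) (b z10 z8)) (b (d z10 (b z2 z2)) (d z8 (b (d z8 z0) z0)))) z0) (b (d z12 (c (b z10 z8) z12)) z0)) (b (d (c (b (d z10 (b z2 z2)) (d z8 (b (d z8 z0) z0))) z12) (b (d z10 z2) (d z8 (b (d z8 z0) z0)))) z0))) (b (d z14 (c (b z14 z14) z14)) (d z12 (c (b z12 z0) z12)))) (b (d (c (b (d (a (c (b (d z10 z10) (d z10 z10)) z14) z14) (a (b (d z10 z10) (d z10 z10)) z10)) (d (c (a (b (d z10 z10) (d z8 z8)) z10) z14) (a (b (d z10 z10) (d z8 z8)) z10))) z14) (c (b (d (a (c (b (d z10 z10) (d z10 z10)) z14) z14) (a (b z10 z10) z10)) (d (c (a (b (d z10 z10) (d z8 z8)) z10) z14) (a (b (d z10 z10) (d z8 z8)) z10))) z14)) (d (c (b (d (c (b (d z10 z10) (d z8 z8)) z12) (b (d z10 z10) (d z8 z8))) z0) z12) (c (b (d (c (b (d z10 z10) (d z8 z8)) z12) (b (d z10 z10) (d z8 z8))) z0) z12)))) _ _ (by decide +kernel)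

theorem okB1491 : CKB ⟨31698, 49152, 10240, 10752⟩ ⟨24576, 49152, 10752, 11264⟩ :=
  ckB_sound (b (d z15 z15) (d (c (b (d (a (c (b (d z11 z3) (d z11 (a (b z3 (d z11 z3)) z3))) z15) z11) (a (b (d z11 z3) (d z11 z3)) z3)) (d (a (c (b (d (a (c (b (d z10 z2) (d z10 z2)) z10) z11) (a (b (d z10 z2) (d z10 z2)) z3)) (d (a (c (b (d z10 (a (b z2 z2) z2)) (d z10 (a (b z2 (d z8 z0)) z2))) z10) z11) (a (b (d z10 (a (b z2 z2) z2)) (d z10 (a (b z2 (d z8 z0)) z2))) (b z3 (d z11 z3))))) z15) z11) (a (b (d (a (c (b (d z10 z2) (d z10 z2)) z14) z11) (a (b (d z10 z2) (d z10 z2)) z3)) (d (a (c (b (d z10 (a (b z2 z2) z2)) (d z10 (a (b z2 (d z8 z0)) z2))) z14) z11) (a (b (d z10 (a (b z2 z2) z2)) (d z10 (a (b z2 (d z8 z0)) z2))) (b z3 (d z11 z3))))) (b z3 (d z11 z3))))) z15) (b (d z15 z15) (d (a (c (b (d z15 z11) (d (a (c (b (d z10 z10) (d z10 z10)) z14) z15) (a (b (d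 z10 z10) (d z10 z10)) z11))) z15) z15) (a (c (b (d z15 z11) (d (a (c (b (d z10 z10) (d z10 z10)) z14) z15) (a (b (d z10 z10) (d z10 z10)) z11))) z15) z15))))) _ _ (by decide +kernel)

theorem okB1492 : CKB ⟨24576, 49152, 10752, 11008⟩ ⟨24576, 31698, 10240, 10496⟩ :=
  ckB_sound (a (c (b (d (a (c (b (d (a (c (b (d z10 z2) (d (c (b z2 z0) z8) (b z2 z0))) (b z10 z8)) z10) (a (b (d z10 z2) (d (b z10 z8) (b z2 z0))) z2)) (d (c (b (d z10 z2) (d z8 (b z2 z0))) (b z10 z8)) (b (d z10 z2) (d (b z10 z8) (b z2 z0))))) (b (d z10 (a (b z10 z8) z10)) (d (b z10 z8) (b z10 z8)))) (c (b z3 (d z11 z3)) z11)) (a (b (d (a (b (d z10 z10) (d (c (b z10 z8) z8) (c (b z2 z0) z8))) z10) (a (b (d (a (b z2 z0) z2) z0) (d (b z2 z0) z0)) z2)) (d (b (d z10 z10) (d (c (b z10 z8) z8) (c (b z2 z0) z8))) (b (d (a (b z2 z0) z2) z0) (d (b z2 z0) z0)))) (b z3 (d z11 z3)))) (d (c (b (d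 (a (c (b (d z10 z2) (d z8 z0)) (b z10 z8)) z11) (a (b (d z10 z2) (d z8 z0)) z3)) (d (c (b (d z10 z2) (d z8 z0)) (b z10 z8)) (b (d z10 z2) (d z8 z0)))) (b (d z10 (a (b z10 z8) z11)) (d z8 (b z10 z8)))) (b (d (a (b (d z10 z10) (d z8 (c (b z2 z0) z8))) z11) (a (b (d z2 z0) (d (b z2 z0) z0)) z3)) (d (b (d z10 z10) (d z8 z8)) (b (d z2 z0) (d (b z2 z0) z0)))))) (b (d (a (b z14 z12) z15) (a (b (d z14 (c (a (b (d z10 z10) (d z8 (c (b z10 z8) z8))) z10) z14)) (d (c (b z10 z8) z12) (c (b z10 (d z8 (c (b z10 z8) z8))) z12))) z15)) (d (b z14 z12) (b (d z14 (c (a (b z10 (d z8 (c (b z10 z8) z8))) z11) z14)) (d (c (b z10 z8) z12) (c (b z10 z8) z12)))))) (c (b (d z11 z3) (d (a (c (b z3 (d z11 z3)) z11) z11) (a (b z3 (d z11 z3)) z3))) z15)) _ _ (by decide +kernel)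

theorem okB1493 : CKB ⟨24576, 49152, 10752, 11008⟩ ⟨24576, 31698, 10496, 10752⟩ :=
  ckB_sound (a (b (d (a (b (d (c (a (b (d z10 z10) (d (c (b z10 z8) z8) (c (b z2 (d z8 z0)) z8))) z10) z10) (a (c (b (d z10 (a (b z2 z0) z2)) (d (c (b z2 (d z8 z0)) z8) (b z2 z0))) (b z10 z8)) z10)) (d (c (b (d z10 z10) (d (c (b z10 z8) z8) (c (b z2 z0) z8))) (b z10 z8)) (c (b (d z10 (a (b z2 z0) z2)) (d (c (b z2 z0) z8) (b z2 z0))) (b z10 z8)))) (b z11 (d z11 z11))) (a (b (d (a (b (d z10 z2) (d (b z10 z8) (b z2 z0))) (b z3 (d z10 z2))) z0) (d (b (d z10 z2) (d (b z10 z8) (b z2 z0))) z0)) (b z3 (d (a (b z3 (d z10 z2)) z3) z0)))) (d (b (d (c (a (b (d z10 z10) (d (c (b z10 z8) z8) (c (b z2 z0) z8))) z11) z10) (a (c (b (d z10 z2) (d (c (b z2 z0) z8) (b z2 z0))) (b z10 z8)) z11)) (d (c (b (d z10 z10) (d z8 z8)) (b z10 z8)) (c (b (d z10 z2) (d z8 (b z2 z0))) (b z10 z8))))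 (b (d (a (b (d z10 z2) (d (b z10 z8) (b z2 z0))) z3) z0) (d (b (d z10 z2) (d z8 (b z2 z0))) z0)))) (b (d z11 z3) (d (a (b z11 (d z11 z11)) z11) (a (b z3 (d z3 z0)) z3)))) _ _ (by decide +kernel)

theorem okB1494 : CKB ⟨24576, 49152, 11008, 11264⟩ ⟨24576, 31698, 10240, 10752⟩ :=
  ckB_sound (d (c (b (d (a (c (b (d (a (c (b z2 z2) z10) z11) (a (b z2 z2) z3)) (d (c (b z2 z2) z10) (b z2 z2))) (b z11 z10)) z11) (a (b (d (a (b (d z10 z10) z10) z11) (a (b (d z2 z0) (d z2 z0)) z3)) (d (b z10 z10) (b z2 z2))) z3)) (d (a (c (b (d z11 z3) (d (c (b z2 z2) z10) (b z2 z2))) (b z11 z10)) z11) (a (b (d (a (b z10 z10) z11) (a (b z2 z2) z3)) (d (b z10 z10) (b z2 z2))) z3))) (b (d z15 (a (b z15 (d z14 (c (b z10 z10) z14))) z15)) (d z15 (a (b z15 z14) z15)))) (b (d (a (b (d (c (a (b (d z10 z10) (d z10 z10)) z11) z11) (a (c (b (d z10 z2) (d z10 z2)) z10) z11)) (d (c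 (b (d z10 z10) z10) z10) (c (b (d z10 z2) (d z10 z2)) z10))) z11) (a (b (d (a (b (d z10 z2) (d z10 z2)) z3) z0) (d (b (d z10 z2) (d z10 z2)) z0)) z3)) (d (a (b (d (c (a (b z10 z10) z11) z11) (a (c (b (d z10 z2) (d z10 z2)) z10) z11)) (d (c (b z10 z10) z10) (c (b (d z10 z2) (d z10 z2)) z10))) z11) (a (b (d (a (b (d z10 z2) (d z10 z2)) z3) z0) (d (b (d z10 z2) (d z10 z2)) z0)) z3)))) _ _ (by decide +kernel)

theorem okB1495 : CKB ⟨24576, 49152, 10752, 11264⟩ ⟨31698, 49152, 10240, 10752⟩ :=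
  ckB_sound (b (d z15 (a (b (d (c (a (b z14 (d z12 (c (b z14 z12) z12))) z15) z14) (c (a (b (d (c (a (b z10 z8) z10) z14) (c (a (b (d z10 z10) (d (c (b z10 z8) z8) (c (b z2 (d z8 z0)) z8))) z10) z14)) (d (c (b z10 z8) z12) (c (b (d z10 z10) (d (c (b z10 z8) z8) (c (b z2 (d z8 z0)) z8))) (b z14 z12)))) z15) z14)) (d (c (b z14 z12) z12) (c (b (d (c (a (b z10 z8) z11) z14) (c (a (b (d z10 z10) (d (c (b z10 z8) z8) (c (b z2 (d z8 z0)) z8))) z11) z14)) (d (c (b z10 z8) z12) (c (b (d z10 z10) (d (c (b z10 z8) z8) (c (b z2 z0) z8))) (b z14 z12)))) (b z14 z12)))) z15)) (d z15 (b (d z15 (c (a (b (d z15 (c (a (b (d z10 z10) (d z10 z10)) z11) z15)) (d z14 (c (b (d z10 z10) (d z10 z10)) z14))) z15) z15)) (d z15 (c (a (b (d z15 (c (a (b (d z10 z10) z10) z11) z15)) (d z14 (c (b z10 z10) z14))) z15) z15))))) _ _ (by decide +kernel)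

theorem okB1496 : CKB ⟨24576, 49152, 10752, 11008⟩ ⟨24576, 49152, 10752, 11008⟩ :=
  ckB_sound (a (c (b (d (a (c (b (d (a (c (b (d z10 (a (b z2 (d z8 z0)) z2)) (d (c (b z2 (d z8 z0)) z8) (b z2 (d z8 z0)))) (b z10 z8)) z10) (a (b (d z10 (a (b z2 (d z8 z0)) z2)) (d (c (b z2 (d z8 z0)) z8) (b z2 (d z8 z0)))) (b (d z11 z3) (d z10 z2)))) (d (c (b (d z10 (a (b z2 (d z8 z0)) z2)) (d (c (b z2 (d z8 z0)) z8) (b z2 (d z8 z0)))) (b z10 z8)) (b (d z10 (a (b z2 (d z8 z0)) z2)) (d (c (b z2 (d z8 z0)) z8) (b z2 (d z8 z0)))))) (b z14 (d z12 (c (b z10 z8) z12)))) (c (b (d z11 z3) (d z11 (a (b (d z11 z3) (d z10 z2)) z3))) z15)) (a (b (d (a (c (b (d z10 (a (b z2 (d z8 z0)) z2)) (d (c (b z2 (d z8 z0)) z8) (b z2 (d z8 z0)))) (b z14 z12)) z10) (a (b (d z10 (a (b z2 (d z8 z0)) z2)) (d (c (b z2 (d z8 z0)) z8) (b z2 (d z8 z0)))) (b (d z11 z3) (d z10 z2)))) (d (c (b (d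 z10 (a (b z2 (d z8 z0)) z2)) (d (c (b z2 (d z8 z0)) z8) (b z2 (d z8 z0)))) (b z14 z12)) (b (d z10 (a (b z2 (d z8 z0)) z2)) (d (c (b z2 (d z8 z0)) z8) (b z2 z0))))) (b (d z11 z3) (d z11 (a (b (d z11 z3) (d z10 z2)) z3))))) (d (c (b (d (c (a (b (d z10 (a (b z2 (d z8 z0)) z2)) (d (c (b z2 (d z8 z0)) z8) (b z2 (d z8 z0)))) (b z3 (d z10 z2))) z10) (a (b (d z10 (a (b z2 (d z8 z0)) z2)) (d (c (b z2 (d z8 z0)) z8) (b z2 (d z8 z0)))) (b (d z11 z3) (d z10 z2)))) (d (c (b (d z10 (a (b z2 (d z8 z0)) z2)) (d (c (b z2 z0) z8) (b z2 z0))) (b z10 z8)) (b (d z10 (a (b z2 (d z8 z0)) z2)) (d (c (b z2 z0) z8) (b z2 z0))))) (b z14 (d z12 (c (b z10 z8) z12)))) (b (d (a (c (b (d z10 (a (b z2 (d z8 z0)) z2)) (d (c (b z2 (d z8 z0)) z8) (b z2 (d z8 z0)))) (b z14 z12)) z11) (a (b (d z10 (a (b z2 z0) z2)) (d (c (b z2 (d z8 z0)) z8) (b z2 z0))) (b (d z11 z3) (d z10 z2)))) (d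 (c (b (d z10 (a (b z2 (d z8 z0)) z2)) (d (c (b z2 z0) z8) (b z2 z0))) (b z14 z12)) (b (d z10 z2) (d z8 (b z2 z0))))))) (b (d z14 (a (c (b z14 (d z12 (c (b z14 z12) z12))) (b z14 z12)) z15)) (d (b z14 z12) (c (b z14 (d z12 (c (b z14 z12) z12))) (b z14 z12))))) (c (b (d z11 (b z3 (d z11 z3))) (d (c (a (b (d z11 z3) (d z11 (a (b z3 (d z10 z2)) z3))) (b z3 (d z11 z3))) z15) (a (b (d z11 z3) (d z11 (a (b z3 (d z10 z2)) z3))) (b z3 (d z11 z3))))) z15)) _ _ (by decide +kernel)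

theorem okB1497 : CKB ⟨24576, 49152, 10752, 11008⟩ ⟨24576, 49152, 11008, 11264⟩ :=
  ckB_sound (a (b (d (c (a (b (d (c (a (b (d z10 z10) (d (c (b z10 z8) z12) (b z10 z8))) z10) z14) (a (b (d z10 z10) (d z8 z8)) z10)) (d (c (b (d z10 z10) (d (c (b z10 z8) z12) (b z10 z8))) z12) (b (d z10 z10) (d z8 z8)))) (b (d z15 z11) (d z15 z11))) z14) (c (a (b (d (c (a (b (d z10 z10) (d z8 z8)) z10) z14) (a (b (d z10 z10) (d z8 z8)) z10)) (d (c (b (d z10 z10) (d z8 z8)) z12) (b (d z10 z10) (d z8 z8)))) (b (d z15 z11) (d z15 z11))) z14)) (d (c (b (d (c (a (b (d z10 z10) (d (c (b z10 z8) z12) z8)) z11) z14) (a (b (d z10 z10) (d z8 z8)) z11)) (d (c (b (d z10 z10) (d z8 z8)) z12) (b (d z10 z10) (d z8 z8)))) (b z14 z12)) (c (b (d (c (a (b (d z10 z10) (d z8 z8)) z11) z14) (a (b (d z10 z10) (d z8 z8)) z11)) (d (c (b (d z10 z10) (d z8 z8)) z12) (b (d z10 z10) (d z8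 z8)))) (b z14 z12)))) (b z15 (d (c (a (b z11 (d z15 z11)) z11) z15) (c (a (b z11 (d z15 z11)) z11) z15)))) _ _ (by decide +kernel)

theorem okB1498 : CKB ⟨24576, 49152, 11008, 11264⟩ ⟨24576, 49152, 10752, 11264⟩ :=
  ckB_sound (d (c (b (d (a (c (b (d (a (c (b (d z10 (a (b z2 z2) z3)) (d z10 (b z2 z2))) z10) z11) (a (b (d z10 (a (b z2 z2) z3)) (d z10 (b z2 z2))) z3)) (d (c (b (d z10 z2) (d z10 z2)) z10) (b (d z10 z2) (d z10 z2)))) (b z15 z14)) z11) (a (b (d (a (c (b (d z10 (a (b z2 z2) z3)) (d z10 z2)) z14) z11) (a (b (d z10 z2) (d z10 z2)) z3)) (d (c (b (d z10 z2) (d z10 z2)) z14) (b (d z10 z2) (d z10 z2)))) (b (d z11 z3) (d z11 z3)))) (d (a (c (b (d (a (c (b (d z10 z2) (d z10 z2)) z10) z11) (a (b (d z10 z2) (d z10 z2)) z3)) (d (c (b (d z10 z2) (d z10 z2)) z10) (b (d z10 z2) (d z10 z2)))) (b z15 z14)) z11) (a (b (d (a (c (b (d z10 z2) (d z10 z2))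 z14) z11) (a (b (d z10 z2) (d z10 z2)) z3)) (d (c (b (d z10 z2) (d z10 z2)) z14) (b (d z10 z2) (d z10 z2)))) (b (d z11 z3) (d z11 z3))))) (b (d z15 (a (c (b z15 z14) z14) z15)) (d z15 (a (c (b z15 z14) z14) z15)))) (b (d (a (c (b (d (a (c (b (d z10 z10) (d z10 z10)) z14) z15) (a (b (d z10 z10) (d z10 z10)) z11)) (d (c (b (d z10 z10) (d z10 z10)) z14) (b (d z10 z10) (d z10 z10)))) z14) z15) (a (c (b (d z15 (a (b (d z10 z10) (d z10 z10)) z11)) (d (c (b (d z10 z10) (d z10 z10)) z14) (b z10 z10))) z14) z15)) (d (c (a (b (d z15 (a (b (d z10 z10) z10) z11)) (d (c (b z10 z10) z14) (b z10 z10))) z11) z15) (a (c (b (d z15 (a (b z10 z10) z11)) (d (c (b z10 z10) z14) (b z10 z10))) z14) z15)))) _ _ (by decide +kernel)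

theorem okB1499 : CKB ⟨24576, 49152, 10240, 10752⟩ ⟨24576, 49152, 11264, 11776⟩ :=
  ckB_sound (a (b (d (a (b (d (c (a (b (d z14 (a (b (d z10 z2) (d z8 z0)) (b z2 (d z10 z2)))) (d z12 (b (d z10 z2) (d z8 z0)))) (b (d z14 z2) (d z14 (b (d z10 z2) (d z10 z2))))) z14) (a (b (d z14 z14) (d z12 z12)) z14)) (d (c (b (d z14 (b (d z10 z2) (d z10 z2))) (d z12 (b (d z8 z0) z0))) z12) (b (d z14 z14) (d z12 z12)))) (b (d z15 z15) (d (c (b (d z15 (a (b z2 (d z10 z2)) z3)) (d z14 (a (b (d z10 z2) (d z10 z2)) z3))) z15) (b z15 (d z14 z14))))) (a (b (d (a (b z14 (d z12 z12)) z14) (a (b z14 z12) z14)) (d (b (d z14 z14) (d z12 z12)) (b z14 z12))) (b (d z15 z15) (d z15 z15)))) (d (b (d (c (b (d z14 (a (b (d z10 z2) (d z10 z2)) (b z3 (d z10 z2)))) (d z14 (a (b (d z10 z2) (d z8 z0)) (b (d z10 z2) (d z10 z2))))) z14) (b (d z14 z14) (d z14 z14))) (d (c (b (d (c (b (d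 z10 z2) (d z8 z0)) z12) (b (d z10 z2) (d z8 z0))) z0) z12) (b (d z12 z12) z0))) (b (d (b (d z14 z14) (d z14 z14)) (b z14 (d z14 z14))) (d (b (d z12 z12) z0) (b (d z12 z12) z0))))) (b (d z15 z15) (d (b (d z15 z15) (d (a (c (b (d z15 (a (b (d z10 z2) (d z10 z2)) z3)) (d (a (c (b (d z10 z2) (d z10 z2)) z14) z15) (a (b (d z10 z2) (d z10 z2)) (b z3 (d z11 z3))))) z15) z15) (a (b z15 (d z14 z14)) z15))) (b (d z15 z15) (d (a (b z15 (d z14 z14)) z15) (a (b z15 (d z14 z14)) z15)))))) _ _ (by decide +kernel)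

end Vale.Agent.Lib.P154Q5
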