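import Vale.Agent.Lib.P154Q5.CkB0
import Vale.Agent.Lib.P154Q5.CkB1
import Vale.Agent.Lib.P154Q5.CkB2
import Vale.Agent.Lib.P154Q5.CkB3
import Vale.Agent.Lib.P154Q5.CkB4
import Vale.Agent.Lib.P154Q5.CkB5
import Vale.Agent.Lib.P154Q5.CkB6
import Vale.Agent.Lib.P154Q5.CkB7
import Vale.Agent.Lib.P154Q5.CkB8
import Vale.Agent.Lib.P154Q5.CkB9
import Vale.Agent.Lib.P154Q5.CkB10
import Vale.Agent.Lib.P154Q5.CkB11
import Vale.Agent.Lib.P154Q5.CkB12
import Vale.Agent.Lib.P154Q5.CkB13
import Vale.Agent.Lib.P154Q5.CkB14
import Vale.Agent.Lib.P154Q5.CkB15
import Vale.Agent.Lib.P154Q5.CkB16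
import Vale.Agent.Lib.P154Q5.CkB17
import Vale.Agent.Lib.P154Q5.CkB18
import Vale.Agent.Lib.P154Q5.CkB19
import Vale.Agent.Lib.P154Q5.CkB20
import Vale.Agent.Lib.P154Q5.CkB21
import Vale.Agent.Lib.P154Q5.CkB22
import Vale.Agent.Lib.P154Q5.CkB23
import Vale.Agent.Lib.P154Q5.CkB24
import Vale.Agent.Lib.P154Q5.CkB25
import Vale.Agent.Lib.P154Q5.CkB26
import Vale.Agent.Lib.P154Q5.CkB27
import Vale.Agent.Lib.P154Q5.CkB28
import Vale.Agent.Lib.P154Q5.CkB29
import Vale.Agent.Lib.P154Q5.CkB30
import Vale.Agent.Lib.P154Q5.CkB31
import Vale.Agent.Lib.P154Q5.CkB32
import Vale.Agent.Lib.P154Q5.CkB33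
import Vale.Agent.Lib.P154Q5.CkB34
import Vale.Agent.Lib.P154Q5.CkB35
import Vale.Agent.Lib.P154Q5.CkB36
import Vale.Agent.Lib.P154Q5.CkB37
import Vale.Agent.Lib.P154Q5.CkB38
import Vale.Agent.Lib.P154Q5.CkB39
import Vale.Agent.Lib.P154Q5.CkB40
import Vale.Agent.Lib.P154Q5.CkB41
import Vale.Agent.Lib.P154Q5.CkB42
import Vale.Agent.Lib.P154Q5.CkB43
import Vale.Agent.Lib.P154Q5.CkB44
import Vale.Agent.Lib.P154Q5.CkB45
import Vale.Agent.Lib.P154Q5.CkB46
import Vale.Agent.Lib.P154Q5.CkB47
import Vale.Agent.Lib.P154Q5.CkB48
import Vale.Agent.Lib.P154Q5.CkB49
import Vale.Agent.Lib.P154Q5.CkB50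
import Vale.Agent.Lib.P154Q5.CkB51
import Vale.Agent.Lib.P154Q5.CkB52
import Vale.Agent.Lib.P154Q5.CkB53
import Vale.Agent.Lib.P154Q5.CkB54
import Vale.Agent.Lib.P154Q5.CkB55
import Vale.Agent.Lib.P154Q5.CkB56
import Vale.Agent.Lib.P154Q5.CkB57
import Vale.Agent.Lib.P154Q5.CkB58
import Vale.Agent.Lib.P154Q5.CkB59
import Vale.Agent.Lib.P154Q5.CkB60
import Vale.Agent.Lib.P154Q5.CkB61
import Vale.Agent.Lib.P154Q5.CkB62
import Vale.Agent.Lib.P154Q5.CkB63
import Vale.Agent.Lib.P154Q5.CkB64
import Vale.Agent.Lib.P154Q5.CkB65
import Vale.Agent.Lib.P154Q5.CkB66
import Vale.Agent.Lib.P154Q5.CkB67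
import Vale.Agent.Lib.P154Q5.CkB68
import Vale.Agent.Lib.P154Q5.CkB69
import Vale.Agent.Lib.P154Q5.CkB70
import Vale.Agent.Lib.P154Q5.CkB71
import Vale.Agent.Lib.P154Q5.CkB72
import Vale.Agent.Lib.P154Q5.CkB73
import Vale.Agent.Lib.P154Q5.CkB74
import Vale.Agent.Lib.P154Q5.CkB75
import Vale.Agent.Lib.P154Q5.CkB76
import Vale.Agent.Lib.P154Q5.CkB77
import Vale.Agent.Lib.P154Q5.CkB78
import Vale.Agent.Lib.P154Q5.CkB79
import Vale.Agent.Lib.P154Q5.CkB80
import Vale.Agent.Lib.P154Q5.CkB81
import Vale.Agent.Lib.P154Q5.CkB82
import Vale.Agent.Lib.P154Q5.CkB83
import Vale.Agent.Lib.P154Q5.CkB84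
import Vale.Agent.Lib.P154Q5.CkB85
import Vale.Agent.Lib.P154Q5.CkB86
import Vale.Agent.Lib.P154Q5.CkB87
import Vale.Agent.Lib.P154Q5.CkB88
import Vale.Agent.Lib.P154Q5.CkB89
import Vale.Agent.Lib.P154Q5.CkB90
import Vale.Agent.Lib.P154Q5.CkB91
import Vale.Agent.Lib.P154Q5.CkB92
import Vale.Agent.Lib.P154Q5.CkB93
import Vale.Agent.Lib.P154Q5.CkB94
import Vale.Agent.Lib.P154Q5.CkB95
import Vale.Agent.Lib.P154Q5.CkB96
import Vale.Agent.Lib.P154Q5.CkB97
import Vale.Agent.Lib.P154Q5.CkB98
import Vale.Agent.Lib.P154Q5.CkB99
import Vale.Agent.Lib.P154Q5.CkB100

namespace Vale.Agent.Lib.P154Q5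

set_option maxRecDepth 100000

theorem rootB00 : CKB ⟨0, 49152, 0, 4096⟩ ⟨0, 49152, 0, 4096⟩ :=
  (split1S (split2S (split1S (split2S okB0 (split1T okB1 (split2T okB2 okB3))) (split2S okB4 (split1T (split2T (split1T okB5 (split2T okB6 (split1S (split2S (split1T (split2T okB7 (split2S okB8 okB9)) (split2T (split1S okB10 (split1T okB11 okB12)) (split1S okB13 (split2S okB14 (split1T okB15 okB16))))) okB17) okB18))) (split1T okB19 (split2T (split1S (split2S okB20 (split1T okB21 (split2T okB22 okB23))) okB24) okB25))) (split2T (split1T (split2T okB26 (split1S okB27 (split2S (split1T (split2T okB28 okB29) okB30) okB31))) okB32) (split1T (split2T (split1S okB33 (split2S okB34 (split1T okB35 okB36))) (split1S okB37 (split2S okB38 (split1T okB39 (split2T okB40 okB41))))) (split2T (split1S okB42 (split2S okB43 (split1T (split2T okB44 okB45) okB46))) (split1S okB47 (split2S okB48 (split1T (split2T okB49 okB50) (split2T okB51 okB52)))))))))) okB53) okB54)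

theorem rootB01 : CKB ⟨0, 49152, 0, 4096⟩ ⟨0, 49152, 4096, 12288⟩ :=
  (split2S (split2S (split1S (split2T (split2S (split1S okB55 (split1T (split2T (split2S okB56 okB57) (split1T okB58 (split2T (split1S (split1T (split2T okB59 okB60) (split2T okB61 okB62)) okB63) okB64))) (split2T (split2S (split1T (split2T okB65 okB66) okB67) (split1T (split2T okB68 okB69) okB70)) (split1T (split2T (split1S okB71 (split1T (split2T okB72 okB73) okB74)) okB75) okB76)))) (split1S okB77 (split1T (split2T okB78 (split1T okB79 (split2T (split2S (split1S (split1T (split2T okB80 (split2S okB81 okB82)) (split2T okB83 (split2S okB84 okB85))) okB86) okB87) (split1S (split1T (split2T (split2S (split1T okB88 (split2T (split2S okB89 okB90) (split1S okB91 (split1T okB92 okB93)))) okB94) (split1T okB95 (split2T (split2S (split1S okB96 okB97) okB98) (split1S okB99 okB100)))) (split2T (split2S (split1S okB101 (split1T (split2T okB102 okB103) okB104)) okB105) (split1S okB106 (split1T (split2T okB107 okB108) okB109)))) okB110)))) (split2T (split1T (split2T (split2S (split1S okB111 (split1T okB112 okB113)) okB114) (split2S okB115 okB116)) (split2T (split2S (split1S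 okB117 (split1T (split2T (split2S okB118 okB119) okB120) (split2T (split2S okB121 (split1T okB122 okB123)) okB124))) (split1S okB125 (split1T okB126 (split2T okB127 (split1T okB128 okB129))))) (split2S okB130 (split1S okB131 (split1T (split2T okB132 okB133) (split2T okB134 okB135)))))) (split1T (split2T (split2S (split1S okB136 (split1T okB137 okB138)) okB139) (split1S okB140 (split1T (split2T okB141 okB142) okB143))) okB144))))) (split1S okB145 okB146)) (split2T (split2S okB147 okB148) okB149)) (split1S (split2T (split1S (split1T okB150 (split2T okB151 (split1S (split1T okB152 (split2T okB153 okB154)) okB155))) (split1T okB156 (split2T okB157 (split1T okB158 okB159)))) (split1S (split1T (split2T (split1T okB160 (split2T okB161 (split1T okB162 (split2T okB163 okB164)))) okB165) (split2T (split1S (split1T okB166 (split2T okB167 okB168)) (split1T (split2T okB169 (split1T (split2T okB170 okB171) okB172)) okB173)) okB174)) (split1T (split2T (split1T okB175 (split2T (split2S (split1S (split1T (split2T (split2S (split1T okB176 (split2T (split2S (split1S okB177 okB178) okB179) (split1S okB180 okB181))) okB182) (split1T okB183 (split2T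 (split1S okB184 okB185) okB186))) (split2T (split2S (split1S okB187 okB188) okB189) (split1S okB190 okB191))) okB192) okB193) (split1S (split1T (split2T (split1T okB194 (split2T okB195 (split1S okB196 okB197))) okB198) (split2T (split1S okB199 okB200) (split1S okB201 okB202))) okB203))) okB204) (split2T (split1T (split2T (split2S okB205 okB206) okB207) okB208) okB209)))) okB210)) (split1S (split2T okB211 (split1S (split1T (split2T okB212 (split1T okB213 (split2T (split1T okB214 (split2T (split2S okB215 okB216) okB217)) okB218))) (split2T okB219 (split1S (split1T okB220 okB221) (split1T (split2T (split1T (split2T okB222 okB223) okB224) okB225) okB226)))) (split1T (split2T (split1T okB227 (split2T okB228 (split1S (split1T okB229 okB230) okB231))) (split1T okB232 (split2T (split1S (split1T (split2T (split2S (split1T okB233 (split2T (split1S okB234 okB235) okB236)) okB237) (split1T okB238 (split2T (split1S okB239 okB240) okB241))) (split2T (split2S (split1S (split1T (split2T okB242 okB243) okB244) okB245) okB246) (split1S okB247 okB248))) okB249) (split1S (split1T (split2T (split1T okB250 (split2T (split1S okB251 okB252) okB253))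 (split1T okB254 (split2T okB255 (split1S (split1T okB256 okB257) (split1T okB258 okB259))))) (split2T okB260 (split1S okB261 (split1T (split2T okB262 (split1T okB263 okB264)) okB265)))) okB266)))) (split2T okB267 (split1T (split2T (split1S okB268 okB269) (split1S (split1T okB270 okB271) (split1T okB272 okB273))) (split2T okB274 (split1S okB275 okB276))))))) okB277))

theorem rootB10 : CKB ⟨0, 49152, 4096, 12288⟩ ⟨0, 49152, 0, 4096⟩ :=
  (split1S (split1S (split2S (split1T (split1S (split2S okB278 (split1T (split2T (split1S (split1T okB279 okB280) (split1T okB281 okB282)) (split1S (split1T (split2T okB283 okB284) (split2T okB285 okB286)) (split1T okB287 (split2T okB288 okB289)))) (split2T (split1T (split2T okB290 (split2S (split1T (split2T okB291 (split1S okB292 okB293)) (split2T okB294 okB295)) okB296)) okB297) (split1T (split2T (split2S okB298 (split1T (split2T okB299 okB300) okB301)) okB302) okB303)))) (split2S okB304 (split1T (split2T okB305 (split1T (split2T (split1S (split2S okB306 (split1T okB307 okB308)) okB309) (split1S (split2S okB310 (split1T (split2T (split1S okB311 (split1T okB312 okB313)) (split1S okB314 (split1T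 okB315 (split2T okB316 okB317)))) okB318)) (split2S okB319 (split1T okB320 (split2T okB321 (split1T okB322 okB323)))))) (split2T (split1S okB324 okB325) (split1S okB326 (split2S okB327 (split1T (split2T okB328 okB329) (split2T okB330 okB331))))))) (split2T (split1T (split2T okB332 (split1S (split2S (split1T okB333 (split2T (split1S (split1T okB334 okB335) okB336) (split1S (split2S okB337 (split1T okB338 okB339)) okB340))) okB341) okB342)) (split2T okB343 (split2S (split1T (split2T (split1S (split1T (split2T okB344 (split1S okB345 okB346)) (split2T okB347 (split2S okB348 okB349))) okB350) (split1S (split2S okB351 (split1T (split2T okB352 okB353) okB354)) okB355)) (split2T (split1T (split2T okB356 (split1S (split2S okB357 okB358) okB359)) (split2T okB360 (split2S okB361 okB362))) (split2S okB363 (split1T okB364 okB365)))) okB366))) (split1T (split2T (split1S (split2S okB367 (split1T okB368 okB369)) okB370) okB371) (split2T (split2S okB372 (split1T okB373 okB374)) okB375)))))) okB376) (split1T (split1S okB377 (split1T okB378 okB379)) okB380)) (split2S (split1T (split2S (split1T okB381 (split2T okB382 (split2S (split1T okB383 okB384)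 okB385))) (split1T okB386 (split2T okB387 (split1T okB388 okB389)))) (split2S (split1T (split2T (split1T okB390 okB391) (split2S (split1T (split2T okB392 okB393) okB394) (split1T okB395 okB396))) okB397) (split1T (split2T (split1T (split2T okB398 (split1S (split2S (split1T (split2T (split1S (split1T (split2T okB399 (split1S (split2S okB400 okB401) okB402)) (split2T okB403 (split2S okB404 okB405))) okB406) okB407) (split2T (split1T (split2T okB408 (split2S okB409 okB410)) okB411) okB412)) okB413) okB414)) (split2T okB415 (split2S (split1T (split2T (split1T okB416 okB417) okB418) (split2T okB419 okB420)) okB421))) (split1T (split2T okB422 okB423) okB424)) okB425))) okB426)) (split2S (split1T okB427 (split2S (split1T (split2T okB428 okB429) (split2T (split1T okB430 okB431) (split2S okB432 (split1T okB433 okB434)))) (split1T (split2T (split1T okB435 (split2T okB436 (split2S (split1T okB437 okB438) okB439))) okB440) (split2T (split1T (split2T okB441 (split2S (split1T (split2T (split1S (split1T okB442 okB443) okB444) (split1S (split2S (split1T okB445 okB446) okB447) okB448)) (split2T (split1T okB449 okB450) okB451)) okB452)) (split2T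 okB453 (split2S (split1T (split2T (split1T okB454 okB455) okB456) (split2T (split1T okB457 (split2T okB458 (split2S okB459 okB460))) (split2S okB461 (split1T okB462 (split2T okB463 okB464))))) okB465))) (split1T okB466 (split2T (split2S okB467 okB468) okB469)))))) okB470))

theorem rootB11 : CKB ⟨0, 49152, 4096, 12288⟩ ⟨0, 49152, 4096, 12288⟩ :=
  (split1S (split2S (split1S (split2S (split1T (split2T (split1S (split2S (split1T okB471 (split2T okB472 (split1T (split2T (split1T (split2T okB473 okB474) (split2T okB475 (split1T okB476 okB477))) okB478) okB479))) (split1T (split2T (split1S (split1T (split2T okB480 (split1S (split2S okB481 (split1T okB482 (split2T okB483 okB484))) okB485)) (split2T (split2S okB486 (split1T okB487 okB488)) (split2S okB489 (split1T (split2T (split1S okB490 okB491) (split1S (split1T (split2T okB492 okB493) (split2T okB494 (split2S okB495 (split1S okB496 okB497)))) okB498)) (split2T (split1T okB499 okB500) (split1T (split2T okB501 (split1S (split2S okB502 (split1T okB503 okB504)) okB505)) (split2T okB506 (split2S okB507 (split1T okB508 okB509))))))))) (split1T okB510 (split2T okB511 (split2S okB512 (split1T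 okB513 (split2T okB514 (split1S (split1T okB515 okB516) okB517))))))) (split1S (split1T okB518 (split2T (split2S okB519 (split1T (split2T (split1S (split1T okB520 (split2T (split2S okB521 (split1S okB522 okB523)) okB524)) okB525) okB526) (split2T (split1T (split2T (split1S (split2S okB527 (split1T (split2T okB528 okB529) okB530)) okB531) okB532) (split2T (split2S okB533 (split1T (split2T okB534 okB535) okB536)) okB537)) okB538))) (split1T okB539 okB540))) (split1T okB541 okB542))) (split2T (split1T (split2T (split2S okB543 (split1T okB544 okB545)) (split2S okB546 (split1T (split2T (split1S (split1T okB547 okB548) okB549) (split1S (split1T (split2T okB550 (split2S okB551 (split1S okB552 okB553))) okB554) okB555)) okB556))) okB557) (split1T (split2T (split2S (split1T okB558 (split2T okB559 (split2S (split1T okB560 okB561) okB562))) (split1T (split2T (split1S (split1T (split2T (split2S okB563 (split1S okB564 okB565)) okB566) okB567) okB568) okB569) okB570)) (split1T (split2T (split2S (split1S (split1T okB571 okB572) okB573) okB574) (split1S okB575 okB576)) (split2T (split2S (split1T (split2T (split2S (split1S okB577 okB578) okB579)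 (split1S okB580 okB581)) (split2T okB582 okB583)) okB584) (split1T okB585 okB586)))) okB587)))) (split2S (split1T (split2T (split2S (split1T (split2T okB588 (split1S okB589 (split1T okB590 (split2T okB591 okB592)))) (split2T (split2S (split1S okB593 (split1T okB594 (split2T okB595 okB596))) okB597) (split1S okB598 (split1T (split2T okB599 (split1T okB600 okB601)) (split2T (split2S (split1T okB602 (split2T okB603 (split1S okB604 (split2S okB605 okB606)))) okB607) (split1T (split2T okB608 okB609) (split2T (split2S (split1S okB610 (split1T okB611 okB612)) okB613) (split1S okB614 (split1T okB615 okB616))))))))) (split1T okB617 (split2T okB618 (split1S okB619 (split1T okB620 (split2T okB621 (split2S (split1T okB622 okB623) okB624))))))) (split1T (split2T (split1S okB625 (split1T okB626 (split2T okB627 okB628))) okB629) (split2T (split1S okB630 (split1T (split2T (split2S (split1T okB631 okB632) okB633) okB634) (split2T (split2S (split1T okB635 (split2T (split1S okB636 (split2S okB637 okB638)) okB639)) okB640) okB641))) okB642))) (split2T (split2S (split1T (split2T okB643 (split1S okB644 (split1T (split2T (split2S (split1T (split2T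 okB645 okB646) okB647) okB648) (split1T (split2T (split2S (split1S okB649 (split1T okB650 okB651)) okB652) (split1S okB653 (split1T okB654 okB655))) okB656)) okB657))) okB658) okB659) (split1T (split2T (split1S (split1T okB660 (split2T okB661 (split1S (split1T okB662 (split2T okB663 okB664)) okB665))) (split1T (split2T (split2S (split1T (split2T okB666 okB667) okB668) okB669) okB670) okB671)) okB672) (split2T (split1T (split2T (split1S (split2S (split1T okB673 okB674) okB675) okB676) (split1S (split1T (split2T (split1S (split2S okB677 okB678) okB679) okB680) (split2T (split2S okB681 okB682) okB683)) okB684)) (split2T okB685 (split1T okB686 okB687))) okB688)))) (split1T (split2T (split1T (split2T (split1S (split2S (split1T (split2T (split1S okB689 (split2S okB690 (split1T (split2T okB691 (split1S okB692 okB693)) (split2T (split1S okB694 (split2S okB695 okB696)) (split1S okB697 (split2S okB698 (split1T okB699 okB700))))))) (split1S okB701 (split2S okB702 (split1T okB703 (split2T (split1S okB704 (split2S okB705 okB706)) okB707))))) (split2T (split1S okB708 (split2S okB709 (split1T (split2T okB710 (split1S okB711 (split2S okB712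 (split1T okB713 okB714)))) okB715))) okB716)) (split1T (split2T okB717 (split1S okB718 (split1T (split2T okB719 (split2S (split1S okB720 okB721) okB722)) (split2T okB723 (split2S (split1S okB724 (split1T okB725 okB726)) okB727))))) (split2T okB728 (split1S okB729 (split1T (split2T okB730 (split2S (split1S okB731 (split1T okB732 okB733)) okB734)) okB735))))) (split2S (split1T okB736 (split2T (split2S okB737 (split1T (split2T okB738 okB739) (split2T (split1S (split2S okB740 okB741) okB742) (split1S (split2S okB743 (split1T okB744 okB745)) okB746)))) (split2S okB747 (split1T okB748 (split2T (split1S (split2S okB749 (split1T okB750 okB751)) okB752) okB753))))) (split1T okB754 (split2T okB755 (split1T (split2T okB756 okB757) (split2T okB758 (split1S (split2S (split1T okB759 (split2T okB760 okB761)) okB762) okB763))))))) (split1S (split2S okB764 (split1T (split2T (split1S okB765 (split1T (split2T okB766 okB767) (split2T (split2S (split1S okB768 (split1T okB769 okB770)) okB771) okB772))) (split1S okB773 (split1T okB774 (split2T okB775 okB776)))) (split2T (split1S okB777 (split1T (split2T (split2S (split1S okB778 (split1T okB779 okB780))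 okB781) okB782) okB783)) okB784))) (split2S okB785 (split1T okB786 (split2T (split1T (split2T okB787 okB788) (split2T (split1S (split2S (split1T okB789 okB790) okB791) okB792) (split1S (split2S (split1T okB793 okB794) okB795) okB796))) (split1T okB797 (split2T okB798 okB799))))))) (split2T (split1S okB800 (split2S (split1T (split2T (split2S okB801 (split1T (split2T okB802 (split1S (split2S okB803 (split1T okB804 okB805)) okB806)) (split2T okB807 okB808))) (split2S okB809 (split1T (split2T (split1S (split2S okB810 (split1T okB811 okB812)) okB813) okB814) okB815))) (split2T (split2S okB816 (split1T okB817 okB818)) okB819)) (split1T (split2T okB820 (split1T (split2T okB821 (split1S (split2S (split1T okB822 (split2T okB823 okB824)) okB825) okB826)) (split2T okB827 (split1S (split2S (split1T okB828 okB829) okB830) okB831)))) (split2T okB832 (split1T (split2T okB833 okB834) okB835))))) (split1S okB836 (split2S okB837 (split1T (split2T (split1T (split2T (split1S (split2S (split1T okB838 (split2T okB839 okB840)) okB841) okB842) (split1S (split2S (split1T okB843 okB844) okB845) okB846)) (split2T (split1S (split2S (split1T okB847 okB848)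 okB849) okB850) okB851)) (split1T (split2T okB852 okB853) okB854)) (split2T (split1T (split2T okB855 okB856) okB857) (split1T (split2T okB858 okB859) okB860))))))) (split1T (split2T okB861 okB862) (split2T (split1S okB863 (split2S okB864 okB865)) okB866))) (split2T (split1T (split2T okB867 (split1S okB868 okB869)) okB870) (split1T (split2T (split1S (split2S (split1T okB871 (split2T okB872 (split1S (split2S (split1T okB873 (split2T okB874 okB875)) okB876) okB877))) okB878) okB879) (split1S (split1T okB880 (split2T (split2S (split1S (split1T okB881 (split2T (split2S (split1S (split1T okB882 okB883) okB884) okB885) (split1S (split1T okB886 okB887) okB888))) okB889) okB890) (split1S (split1T okB891 (split2T okB892 okB893)) okB894))) okB895)) (split2T (split2S (split1T (split2T okB896 (split1S (split2S (split1T (split2T okB897 (split1S (split2S (split1T okB898 okB899) okB900) okB901)) (split2T okB902 (split2S (split1T okB903 okB904) okB905))) okB906) okB907)) (split2T okB908 (split2S (split1T okB909 okB910) okB911))) okB912) (split1T (split2T (split1S (split2S (split1T (split2T (split1S (split2S (split1T (split2T okB913 okB914)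 (split2T okB915 okB916)) okB917) okB918) (split1S (split1T (split2T okB919 okB920) (split2T okB921 okB922)) okB923)) (split2T (split2S (split1T (split2T okB924 okB925) (split2T okB926 okB927)) okB928) (split1T (split2T okB929 okB930) (split2T okB931 okB932)))) okB933) okB934) (split1S (split1T (split2T (split1S (split2S (split1T okB935 okB936) okB937) okB938) okB939) (split2T (split2S (split1T okB940 okB941) okB942) okB943)) okB944)) (split2T (split2S (split1T (split2T (split2S (split1S (split1T okB945 okB946) okB947) okB948) (split1S (split1T okB949 okB950) okB951)) (split2T okB952 okB953)) okB954) (split1T (split2T okB955 okB956) okB957))))))))) (split1S (split1T okB958 okB959) (split1T okB960 okB961))) (split2T (split2S okB962 okB963) okB964)) (split1T (split2T (split1S (split1T (split2T okB965 (split1S (split1T (split2T (split1S (split2S (split1T okB966 (split2T okB967 (split1S (split2S (split1T okB968 okB969) okB970) okB971))) okB972) okB973) (split1S (split2S (split1T (split2T okB974 okB975) (split2T (split2S (split1S okB976 okB977) okB978) okB979)) okB980) okB981)) (split2T (split2S (split1T (split2T (split1S (split2S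 (split1T okB982 (split2T okB983 (split2S (split1S okB984 okB985) okB986))) okB987) okB988) (split1S (split2S (split1T (split2T (split1S (split2S okB989 okB990) okB991) (split1S (split2S okB992 (split1T okB993 okB994)) okB995)) (split2T (split2S (split1S (split1T okB996 okB997) (split1T okB998 okB999)) okB1000) (split2S okB1001 (split1S (split1T (split2T okB1002 okB1003) okB1004) (split1T okB1005 (split2T okB1006 okB1007)))))) okB1008) okB1009)) (split2T (split2S (split1T (split2T okB1010 (split1S (split2S (split1T (split2T okB1011 okB1012) (split2T okB1013 okB1014)) okB1015) okB1016)) (split2T okB1017 (split2S (split1T (split2T okB1018 okB1019) okB1020) okB1021))) okB1022) (split2S (split1T (split2T (split1S (split2S (split1T (split2T (split1S (split2S okB1023 okB1024) okB1025) okB1026) (split2T (split2S okB1027 (split1T okB1028 okB1029)) okB1030)) (split1T okB1031 okB1032)) okB1033) (split1S (split2S okB1034 (split1T (split2T (split1S (split2S (split1T okB1035 okB1036) okB1037) okB1038) (split1S okB1039 okB1040)) (split2T (split2S (split1T okB1041 okB1042) okB1043) (split2S okB1044 okB1045)))) okB1046)) (split2T (split2S (split1T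 (split2T okB1047 okB1048) okB1049) okB1050) (split2S okB1051 (split1T (split2T okB1052 okB1053) okB1054)))) okB1055))) okB1056) (split2S (split1T (split2T (split1S (split2S (split1T (split2T (split1S (split2S okB1057 (split1T okB1058 okB1059)) okB1060) okB1061) (split2T (split2S okB1062 (split1S (split1T (split2T okB1063 okB1064) okB1065) (split1T okB1066 okB1067))) okB1068)) (split1T okB1069 (split2T okB1070 (split2S (split1S okB1071 okB1072) okB1073)))) okB1074) (split1S (split2S okB1075 (split1T okB1076 okB1077)) okB1078)) (split2T (split2S (split1T (split2T (split1S (split2S okB1079 (split1T (split2T okB1080 okB1081) (split2T okB1082 okB1083))) okB1084) okB1085) (split2T (split2S okB1086 (split1T okB1087 okB1088)) okB1089)) (split1T okB1090 okB1091)) okB1092)) okB1093))) (split1T okB1094 (split2T (split2S (split1T okB1095 (split2T okB1096 okB1097)) okB1098) okB1099)))) (split2T okB1100 (split1T (split2T (split2S (split1T (split2T (split1S (split2S (split1T (split2T okB1101 (split1S okB1102 okB1103)) okB1104) okB1105) okB1106) (split1S (split2S (split1T (split2T (split1S (split2S okB1107 okB1108) okB1109) okB1110) okB1111)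 okB1112) okB1113)) okB1114) okB1115) (split2S (split1T (split2T (split1S (split2S okB1116 okB1117) okB1118) okB1119) okB1120) (split1T okB1121 okB1122))) okB1123))) (split1T (split2T okB1124 (split1T (split2T okB1125 okB1126) (split2T (split1S okB1127 okB1128) okB1129))) (split2T okB1130 (split1T okB1131 (split2T okB1132 okB1133))))) (split1S (split1T (split2T (split1S (split1T (split2T (split1S (split2S okB1134 okB1135) okB1136) okB1137) (split2T okB1138 okB1139)) okB1140) okB1141) (split2T (split1T (split2T (split2S okB1142 okB1143) okB1144) okB1145) okB1146)) (split1T okB1147 (split2T (split1T okB1148 (split2T (split2S (split1T (split2T (split1S okB1149 okB1150) okB1151) (split2T okB1152 okB1153)) okB1154) okB1155)) okB1156)))) okB1157)) (split2S (split1T (split2T (split2S (split1T okB1158 (split2T (split2S (split1T (split2T (split2S (split1S (split1T okB1159 (split2T okB1160 (split2S (split1S (split1T okB1161 okB1162) okB1163) okB1164))) okB1165) okB1166) (split1S (split1T (split2T (split2S (split1S (split1T okB1167 (split2T okB1168 (split1S (split2S okB1169 okB1170) okB1171))) okB1172) okB1173) (split1S (split1T okB1174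 (split2T (split2S (split1S (split1T (split2T okB1175 okB1176) (split2T okB1177 okB1178)) okB1179) okB1180) (split1S (split1T (split2T okB1181 okB1182) (split2T okB1183 okB1184)) okB1185))) okB1186)) (split2T (split2S (split1S (split1T (split2T (split2S (split1S okB1187 okB1188) okB1189) (split1S (split2S (split1T okB1190 okB1191) (split1T okB1192 okB1193)) okB1194)) (split2T (split2S (split1S okB1195 (split1T okB1196 okB1197)) okB1198) (split1S okB1199 (split2S (split1T (split2T okB1200 okB1201) (split2T okB1202 okB1203)) (split1T okB1204 okB1205))))) okB1206) okB1207) (split1S (split1T (split2T (split2S (split1S (split1T (split2T (split2S (split1S okB1208 (split1T okB1209 okB1210)) okB1211) (split1S okB1212 (split1T okB1213 okB1214))) (split2T okB1215 okB1216)) (split1T okB1217 (split2T okB1218 okB1219))) okB1220) (split1S (split1T (split2T (split2S okB1221 okB1222) okB1223) okB1224) okB1225)) (split2T (split2S (split1S okB1226 (split1T (split2T (split2S (split1S (split1T okB1227 okB1228) okB1229) okB1230) (split1S (split1T okB1231 okB1232) okB1233)) (split2T (split2S (split1S okB1234 okB1235) okB1236) (split1S okB1237 okB1238))))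 okB1239) (split1S okB1240 (split1T (split2T okB1241 okB1242) (split2T okB1243 okB1244))))) okB1245))) okB1246)) (split2T (split2S (split1S (split1T (split2T okB1247 (split1S (split2S okB1248 okB1249) okB1250)) (split2T okB1251 okB1252)) okB1253) okB1254) (split1S (split1T (split2T (split2S (split1S (split1T (split2T (split2S (split1S okB1255 (split1T okB1256 okB1257)) okB1258) (split1S okB1259 (split2S (split1T okB1260 okB1261) (split1T okB1262 okB1263)))) okB1264) (split1T okB1265 (split2T okB1266 (split1S (split2S okB1267 okB1268) okB1269)))) okB1270) (split1S (split1T (split2T (split2S (split1S okB1271 (split1T (split2T okB1272 okB1273) (split2T okB1274 okB1275))) okB1276) (split1S okB1277 (split1T okB1278 okB1279))) okB1280) (split1T okB1281 (split2T okB1282 okB1283)))) (split2T (split2S (split1S okB1284 (split1T okB1285 okB1286)) okB1287) okB1288)) okB1289))) (split1T (split2T okB1290 (split1S (split1T okB1291 okB1292) okB1293)) okB1294)) (split1T (split2T (split1S (split1T (split2T (split2S (split1S (split1T okB1295 (split2T (split2S (split1S (split1T okB1296 okB1297) okB1298) okB1299) okB1300)) okB1301) okB1302) okB1303)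 (split2T (split2S (split1S (split1T (split2T (split2S (split1S okB1304 okB1305) okB1306) okB1307) (split2T (split2S okB1308 okB1309) okB1310)) okB1311) okB1312) okB1313)) okB1314) okB1315) (split2T (split1S (split1T (split2T (split2S (split1S (split1T okB1316 okB1317) okB1318) okB1319) okB1320) okB1321) (split1T okB1322 okB1323)) okB1324)))) (split1T okB1325 (split2T (split1T (split2T okB1326 (split2S okB1327 okB1328)) okB1329) (split1T (split2T okB1330 okB1331) (split2T okB1332 okB1333))))) okB1334) (split2T (split2S (split1T (split2T (split2S (split1T (split2T okB1335 okB1336) okB1337) okB1338) (split1T (split2T (split1S okB1339 okB1340) okB1341) okB1342)) okB1343) (split1T (split2T okB1344 (split1T (split2T okB1345 (split1S (split1T (split2T okB1346 okB1347) okB1348) okB1349)) okB1350)) okB1351)) okB1352)) (split1T (split2T (split1T (split2T (split1T (split2T (split1T (split2T (split1S (split2S (split1T (split2T (split1S okB1353 (split2S okB1354 (split1T (split2T (split1S okB1355 okB1356) okB1357) okB1358))) okB1359) okB1360) okB1361) okB1362) okB1363) okB1364) okB1365) okB1366) okB1367) okB1368) okB1369) (split2T okB1370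 (split1T (split2T (split1T (split2T (split1S (split2S (split1T okB1371 okB1372) okB1373) okB1374) okB1375) (split2T okB1376 (split1T okB1377 okB1378))) okB1379) okB1380))))) (split1S (split1T (split2T okB1381 (split1S (split1T (split2T (split1S (split1T okB1382 (split2T (split1T okB1383 okB1384) okB1385)) okB1386) (split1S okB1387 okB1388)) (split2T (split1T (split2T (split1T (split2T okB1389 okB1390) okB1391) okB1392) okB1393) okB1394)) (split1T (split2T okB1395 (split1T (split2T okB1396 (split1S okB1397 okB1398)) okB1399)) (split2T okB1400 okB1401)))) okB1402) (split1T (split2T okB1403 (split1T okB1404 (split2T okB1405 (split1T okB1406 okB1407)))) (split2T okB1408 (split1T (split2T (split1T okB1409 (split2T okB1410 (split1T okB1411 okB1412))) (split1T (split2T okB1413 okB1414) (split2T (split1T okB1415 okB1416) okB1417))) okB1418))))) (split2S (split2S (split1T okB1419 (split2T (split2S (split1T (split2T (split2S (split1T (split2T okB1420 (split1T okB1421 okB1422)) okB1423) okB1424) (split1T (split2T (split1T okB1425 okB1426) okB1427) okB1428)) okB1429) (split1T okB1430 (split2T (split1T okB1431 (split2T okB1432 okB1433))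 okB1434))) okB1435)) (split1T okB1436 (split2T (split1T okB1437 (split2T okB1438 okB1439)) (split1T (split2T (split1T okB1440 (split2T okB1441 (split1T okB1442 (split2T okB1443 okB1444)))) okB1445) (split2T (split1T (split2T okB1446 (split1T okB1447 okB1448)) okB1449) okB1450))))) (split1T okB1451 (split2T okB1452 (split1T (split2T (split1T okB1453 (split2T okB1454 (split1T okB1455 (split2T okB1456 (split1S (split2S (split1T okB1457 (split2T okB1458 (split1T okB1459 okB1460))) okB1461) okB1462))))) (split1T okB1463 (split2T (split1T okB1464 (split2T (split1S (split2S (split1T okB1465 (split2T (split2S okB1466 okB1467) okB1468)) okB1469) okB1470) okB1471)) okB1472))) (split2T (split1T (split2T okB1473 (split1T (split2T okB1474 (split2S (split1S (split1T (split2T okB1475 okB1476) okB1477) okB1478) okB1479)) okB1480)) okB1481) (split1T (split2T (split1T (split2T (split1S (split2S (split1T (split2T (split1S okB1482 okB1483) okB1484) (split2T okB1485 okB1486)) okB1487) okB1488) (split1S (split1T okB1489 okB1490) okB1491)) (split2T (split2S (split1T (split2T okB1492 okB1493) okB1494) okB1495) (split1T (split2T okB1496 okB1497) okB1498)))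 (split1T (split2T okB1499 okB1500) (split2T okB1501 okB1502))) (split2T (split1T okB1503 okB1504) (split1T okB1505 okB1506)))))))))

end Vale.Agent.Lib.P154Q5
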