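import Vale.Agent.Lib.P154Q5.FormI

namespace Vale.Agent.Lib.P154Q5

set_option maxRecDepth 100000
set_option exponentiation.threshold 1000

open Tr

theorem okI0 : CKI ⟨0, 786432, 0, 65536⟩ ⟨0, 0, 0, 262144⟩ :=
  ckI_sound (d (a (d (a (b (d z2 z2) (d z2 z2)) (b (d z2 (b z0 z2)) (d z2 z2))) (a (b (d (b z0 (d (b z0 (d z2 z2)) z2)) z2) (d (a (b (d (b (d z2 z2) (d z2 z2)) z2) (d (a (b (d z2 z2) (d (a (b z2 (d z2 z2)) z2) z2)) (b (d z2 z2) (d z2 z2))) z2)) (b (d (b (d z2 z2) (d z2 z2)) z2) (d (b (d z2 z2) (d z2 z2)) z2))) z2)) (b (d (b z0 (d (a (b (d (b z0 z0) z0) (d z0 z0)) (b z0 (d z0 z0))) z2)) z2) (d (b (d (a (b (d z2 z2) (d z2 z2)) (b (d z2 z0) (d z2 z2))) z2) (d (a (b (d z2 z2) (d z2 z2)) (b (d z2 z2) z2)) z2)) z2)))) (d (b z0 (d (b (d (a z2 z0) (a z2 z0)) (d (a z2 (b z0 (d z2 (a z2 (b z0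 z3))))) (a z2 (b z0 (d (a z2 (b z0 (d (b z0 z3) (b z0 z3)))) (a z2 (b z0 (d (b z0 z3) (b z0 z3))))))))) (b (d (a z2 z0) (a z3 z0)) (d (a z2 (b z0 (d (a z2 (b z0 (d (b z0 z3) (b z0 z3)))) (a z2 (b z0 (d (b z0 z3) (b z0 (d (a z2 (b z0 z3)) (a z2 (b z0 z3)))))))))) (a z2 (b z0 (d (a z2 (b z0 (d (b z0 (d (a z2 (b z0 z3)) (a z2 (b z0 z3)))) (b z0 (d (a z2 (b z0 z3)) (a z2 (b z0 z3))))))) (a z2 (b z0 (d (b z0 (d (a z2 (b z0 z3)) (a z2 (b z0 z3)))) (b z0 (d (a z2 (b z0 z3)) z3)))))))))))) (b z0 (d (b (d (a (b z0 (d z2 z2)) z0) z2) (d (a z0 (b z0 (d (a z2 (b z0 (d (b z0 z3) z2))) z2))) z2)) (b z2 z2))))) (a z2 (d (b z0 (d (b (d z0 (a z2 z0)) (d (a z2 (b z0 z2)) (a z2 (b z0 (d z2 (a z2 (b z0 z2))))))) (b (d (a z0 z0) z0) (d (a z2 (b z0 (d (a z2 (b z0 z2)) (a z0 (b z0 (d z2 z4)))))) z0)))) z0))) _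 _ (by decide +kernel)

theorem okI1 : CKI ⟨0, 393216, 65536, 196608⟩ ⟨0, 0, 0, 131072⟩ :=
  ckI_sound (a (b (d (a (b (d z2 z2) (d z2 z2)) (b (d z2 z2) (d z2 z2))) (a (b (d (a (b (d (a (b (d (a (b (d z2 z2) z2) z2) z2) (d z2 z2)) (b (d z2 z2) (d z2 z2))) z2) (d (b (d z2 z2) (d z2 z2)) z2)) (b (d (b (d z2 z2) (d z2 z2)) z2) (d z2 z2))) z2) (d (b (d z2 z2) z0) z2)) (b (d (b (d z2 z2) (d z2 z2)) z2) (d (b (d z2 z2) (d z2 z2)) z2)))) (d (b (d z2 z2) z0) (b (d z2 z2) z0))) (b (d (b (d (b (d (b (d z2 (a z2 (b z3 z3))) z3) (b (d (a z2 (b (d (b z3 z3) (b z3 z3)) z3)) (a z2 (b (d (b z3 z3) (b z3 z3)) z3))) (d (a z2 (b z3 z3)) (a z2 (b z3 z3))))) (d (b z3 z3) (b (d (a z2 (b z3 z3)) (a z2 (b z3 z3))) z3))) (b (d (b (d (a z2 (b (d (b z3 z3) (b z3 z3)) z3)) (a z2 (b (d (b z3 z3) (b z3 z3)) (d z3 (a z2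 (b z3 z3)))))) (d (a z2 (b z3 z3)) (a z2 (b z3 z3)))) (b (d (a z2 (b (d (b (d z3 (a z2 (b z3 z3))) z3) (b (d (a z2 (b z3 z3)) (a z2 (b z3 z3))) z3)) (d (a z2 (b z3 z3)) (a z2 (b z3 z3))))) (a z2 (b (d (b (d (a z2 (b z3 z3)) z3) z3) (b z3 z3)) z3))) (d (a z2 (b z3 z3)) (a z2 (b z3 z3))))) (d (b (d (a z2 (b z3 z3)) (a z2 (b z3 z3))) z3) (b z3 z3)))) (d (b (d (a z2 (b z2 z2)) (a z2 (b z3 z3))) (d z3 (a z2 (b z2 z2)))) (b (d (a z2 (b z3 z2)) (a z2 (b z2 z2))) (d (a z2 (b z2 z2)) (a z2 (b z2 z2)))))) (b (d (b (d (b (d (a z2 (b z3 z2)) z2) z2) z2) z2) (b z2 z2)) (d (b z2 (d z2 z2)) (b (d z2 (a z2 (b z2 z2))) (d z2 (a z2 (b z2 z2))))))) (d (b (d z2 z2) z0) (b (d (b (d z2 z2) (d z2 z2)) z2) z0)))) _ _ (by decide +kernel)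

theorem okI2 : CKI ⟨0, 196608, 65536, 196608⟩ ⟨0, 0, 131072, 262144⟩ :=
  ckI_sound z2 _ _ (by decide +kernel)

theorem okI3 : CKI ⟨196608, 393216, 65536, 98304⟩ ⟨0, 0, 131072, 196608⟩ :=
  ckI_sound (d (b (d (b z2 z2) (b (d z2 (a z2 (b z2 z2))) (d (a z2 (b z2 z2)) (a z2 (b z2 z2))))) (d (b z2 z2) (b (d (a z2 (b z2 z2)) (a z2 (b z2 z2))) (d (a z2 (b z2 z2)) (a z2 (b z2 z2)))))) (b (d (b (d (a z2 (b z2 z2)) (a z2 (b (d z2 z4) (d z2 z4)))) (d (a z2 (b z2 z2)) (a z2 (b (d z2 z4) (d (a z2 (b z2 z2)) z4))))) z4) (d (b (d (a z2 (b z2 z2)) (a z2 (b (d (a z2 (b z2 z2)) z4) (d (a z2 (b z2 z2)) z4)))) (d (a z2 (b z2 (d z2 (a z2 (b z2 z2))))) (a z2 (b (d (a z2 (b z2 z2)) z4) (d (a z2 (b z2 z2)) z4))))) z4))) _ _ (by decide +kernel)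

theorem okI4 : CKI ⟨196608, 393216, 98304, 131072⟩ ⟨0, 0, 131072, 163840⟩ :=
  ckI_sound (b (d (a z2 (b z2 (d z2 (b z2 z2)))) (a z2 (b (d (b z2 z2) (b z2 z2)) (d (b z2 z2) (b z2 z2))))) (d (a z2 (b (d z2 (b z2 z2)) (d z2 (a z2 (b z2 z2))))) (a z2 (b (d (b z2 z2) (b z2 (d z2 (a z2 (b z2 z2))))) (d (a z2 (b z2 z2)) (a z2 (b (d z2 (b z2 z2)) (d z2 (b z2 z2))))))))) _ _ (by decide +kernel)

theorem okI5 : CKI ⟨196608, 393216, 98304, 131072⟩ ⟨0, 0, 163840, 196608⟩ :=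
  ckI_sound (b (d (a z2 (b (d (b (d z2 (a z2 (b z2 z2))) (d z2 (a z2 (b z2 z2)))) (b (d (a z2 (b z2 z2)) z4) (d (a z2 (b z2 z2)) (a z4 (b z2 z2))))) (d (b (d (a z2 (b z2 z2)) (a z2 (b z2 z2))) (d (a z2 (b z2 z2)) (a z2 (b z2 z2)))) (b (d (a z2 (b z2 z2)) (a z2 (b z2 z2))) (d (a z2 (b z2 z2)) (a z2 (b z2 z2))))))) (a z4 (b z4 (d (b (d (a z4 (b z4 z2)) z4) (d (a z4 (b z2 (d z2 (a z4 (b z2 z2))))) (a z4 (b z4 (d (a z4 (b z4 z2)) z4))))) z4)))) (d (a z2 (b (d (b (d (a z2 (b z2 z2)) (a z2 (b z2 z2))) (d (a z2 (b z2 z2)) (a z2 (b z2 z2)))) (b (d (a z2 (b z2 z2)) (a z2 (b z2 z2))) (d (a z2 (b z2 z2)) (a z2 (b z2 z2))))) (d (a z2 (b (d (b z2 z2) (b z2 z2)) (d (b z2 z2) (b z2 z2)))) (a z2 (b (d (b z2 z2) (b z2 z2)) (d (b z2 z2) (b (d z2 (a z2 (b z2 z2))) (d z2 (a z2 (b z2 z2)))))))))) (a z2 (b (d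 (b (d (a z2 (b (d z2 (a z2 (b z2 z2))) (d z2 (a z2 (b z2 z2))))) (a z4 (b (d (a z4 (b z2 z2)) z4) (d (a z2 (b z2 z2)) (a z4 (b z2 z2)))))) (d (a z2 (b (d z2 (a z2 (b z2 z2))) (d (a z2 (b z2 z2)) (a z2 (b z2 z2))))) (a z2 (b (d (a z2 (b z2 z2)) (a z2 (b z2 z2))) (d (a z2 (b z2 z2)) (a z2 (b z2 z2))))))) (b z4 (d (a z4 (b (d (a z4 (b z4 z2)) z4) (d (a z4 (b z2 z2)) (a z4 (b z4 z2))))) z4))) (d (a z2 (b (d (b (d (a z2 (b z2 z2)) (a z2 (b z2 z2))) (d (a z2 (b z2 z2)) (a z2 (b z2 z2)))) (b (d (a z2 (b z2 z2)) (a z2 (b z2 z2))) (d (a z2 (b z2 z2)) (a z2 (b z2 z2))))) (d (b (d (a z2 (b z2 z2)) (a z2 (b z2 z2))) (d (a z2 (b z2 z2)) (a z2 (b z2 z2)))) (b (d (a z2 (b z2 z2)) (a z2 (b z2 z2))) (d (a z2 (b z2 z2)) (a z2 (b z2 z2))))))) (a z2 (b (d (b (d (a z2 (b z2 z2)) (a z4 (b z2 z2))) (d (a z2 (b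 z2 z2)) (a z2 (b z2 z2)))) (b z4 (d (a z4 (b z2 z2)) z4))) (d (b (d (a z2 (b z2 z2)) (a z2 (b z2 z2))) (d (a z2 (b z2 z2)) (a z2 (b z2 z2)))) (b (d (a z4 (b (d z2 (a z4 (b z2 z2))) (d z2 (a z2 (b z2 z2))))) (a z4 (b z4 (d (a z4 (b z2 z2)) z4)))) (d (a z2 (b (d z2 (a z2 (b z2 z2))) (d z2 (a z2 (b z2 z2))))) (a z4 (b (d (a z4 (b z2 z2)) (a z4 (b z4 z2))) (d (a z2 (b z2 z2)) (a z4 (b z2 z2))))))))))))))) _ _ (by decide +kernel)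

theorem okI6 : CKI ⟨196608, 393216, 65536, 131072⟩ ⟨0, 0, 196608, 262144⟩ :=
  ckI_sound (b z0 (d (b z4 (d (a z0 (b z4 (d (a z0 (b z4 (d (b z4 (d (a z4 (b z4 (d (a z4 (b z4 z2)) z4))) z4)) z4))) z0))) z0)) z0)) _ _ (by decide +kernel)

theorem okI7 : CKI ⟨196608, 393216, 131072, 196608⟩ ⟨0, 0, 131072, 262144⟩ :=
  ckI_sound (d z2 (b (d (b (d z2 z0) z2) z0) z0)) _ _ (by decide +kernel)

theorem okI8 : CKI ⟨393216, 786432, 65536, 131072⟩ ⟨0, 0, 0, 131072⟩ :=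
  ckI_sound (d (b z0 (d (b z0 (d z3 (b z0 z2))) (b z0 (d (b z0 z2) (b z0 z2))))) (b z0 (d (b z0 z2) (b z0 (d z2 (b z0 z2)))))) _ _ (by decide +kernel)

theorem okI9 : CKI ⟨393216, 786432, 131072, 196608⟩ ⟨0, 0, 0, 65536⟩ :=
  ckI_sound (b (d (b (d z3 (b z2 z2)) (d (b z2 z2) (b z2 z2))) (b (d (b z2 z2) (b z2 z2)) (d (b z2 z2) (b z2 z2)))) (d (b (d (b z2 z2) (b z2 z2)) (d (b z2 (d z0 (b z2 z0))) (b (d (b z2 z2) (b z2 z2)) (d (b z2 (d (b z2 z0) (b z2 z0))) (b (d z2 (b z2 z2)) (d (b z2 z0) (b z2 z1))))))) (b (d (b z2 z2) (b z2 z2)) (d (b (d (b z2 z2) (b z2 z2)) (d (b (d (b z2 z2) z3) (d (b z2 (d (b z2 z0) (b z2 z0))) (b z2 (d (b z2 z0) z1)))) (b z2 (d (b z2 z0) (b z2 z0))))) (b (d (b z2 z2) z2) (d (b z2 (d (b z2 z0) (b z2 z0))) (b z2 (d (b z2 z0) z0)))))))) _ _ (by decide +kernel)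

theorem okI10 : CKI ⟨393216, 786432, 131072, 163840⟩ ⟨0, 0, 65536, 131072⟩ :=
  ckI_sound (d (b z2 z2) (b (d z2 (b z2 z2)) (d (b z2 (d (a z2 z2) (a z2 z2))) (b z2 z2)))) _ _ (by decide +kernel)

theorem okI11 : CKI ⟨393216, 786432, 163840, 196608⟩ ⟨0, 0, 65536, 98304⟩ :=
  ckI_sound (b (d z2 (b (d z2 (a (b z2 (d z2 (b z2 z2))) z2)) (d z2 (b (d z2 (a (b z2 z2) z2)) (d z2 (b z2 z2)))))) (d (b z2 (d (b z2 z0) z0)) (b (d (b z2 z2) (b (d z2 (b z2 z2)) (d z2 (b z2 z2)))) (d (b z2 z0) (b (d (b z2 z2) (b z2 z2)) (d (b z2 z0) (b z2 z0))))))) _ _ (by decide +kernel)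

theorem okI12 : CKI ⟨393216, 786432, 163840, 180224⟩ ⟨0, 0, 98304, 114688⟩ :=
  ckI_sound (b (d (a (b z2 (d (b z2 z3) (b z2 z1))) z2) (a (b z2 (d (b z2 z1) z3)) z2)) (d (b (d (a (b z1 (d z2 (b z2 z2))) z2) (a (b (d (a (b z2 z2) z2) (a (b z2 z2) z2)) (d (b z2 z2) (b z1 z1))) z2)) (d (b (d z2 (a (b z2 z2) z2)) (d z2 (a (b z2 z2) z2))) (b (d (a (b z2 z2) z2) (a (b z1 z1) z2)) (d (a (b z2 z2) z2) (a (b z1 z3) z2))))) (b (d (a (b (d (a (b z2 z1) z2) (a (b z2 z1) z2)) (d (b z1 (d (b z2 z2) (b z2 z2))) (b z1 (d (b z2 z2) (b z2 z2))))) z2) (a (b (d (a (b z2 z3) z2) z1) (d (b z1 (d (b z2 z2) (b z2 z2))) (b z1 (d (b z2 z2) (b z2 z2))))) z2)) (d (b (d (a (b (d (a (b z2 z2) z2) (a (b z2 z2) z2)) (d (b z2 z2) (b z2 z2))) z2) (a (b (d (a (b z2 z2) z2) (a (b z2 z2) z2)) (d (b z2 z2) (b z3 z3))) z2)) (d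 (a (b (d (a (b z2 z2) z2) (a (b z2 z2) z2)) (d (b z2 z2) (b z2 z2))) z2) (a (b (d (a (b z2 z2) z2) (a (b z3 z2) z2)) (d (b z2 z2) (b z2 z2))) z2))) (b (d (a (b (d (a (b z3 z1) z2) (a (b z3 z1) z2)) (d (b z1 z1) (b z1 (d z1 (a (b z2 z2) z2))))) z2) (a (b (d (a (b z3 z1) z2) (a (b z3 z1) z2)) (d (b z1 (d (a (b z2 z2) z2) (a (b z2 z2) z2))) (b z1 (d (a (b z2 z2) z2) (a (b z2 z2) z2))))) z2)) (d (a (b (d (a (b z1 z1) z2) (a (b (d z1 (a (b z2 z2) z2)) (d (b z2 z2) (b z2 z2))) z2)) (d (b z1 z1) (b (d (a (b z2 z2) z2) (a (b z2 z2) z2)) (d z1 (b z2 z2))))) z2) (a (b (d (a (b (d (a (b z2 z2) z2) (a (b z2 z2) z2)) (d (b z2 z2) (b z2 z2))) z2) (a (b (d (a (b z2 z2) z2) (a (b z2 z2) z2)) (d (b z2 z2) (b z2 z2))) z2)) (d (b (d (a (b z2 z2) z2) (a (b z2 z2) z2)) (d (b z2 z2) (b z2 z2))) (b (d (a (b z2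 z2) z2) (a (b z2 z2) z2)) (d (b z2 z2) (b z2 z2))))) z2))))))) _ _ (by decide +kernel)

theorem okI13 : CKI ⟨393216, 786432, 163840, 180224⟩ ⟨0, 0, 114688, 131072⟩ :=
  ckI_sound (b (d (a z2 z2) (a z2 z2)) (d (b (d (a (b z2 (d (b z2 (d (b z2 z2) z1)) (b z2 z3))) z2) (a (b z2 z3) z2)) (d (b (d (a (b (d (a (b z2 z1) z2) (a (b z2 z1) z2)) (d (b z1 (d (a (b z2 z2) z2) (a (b z2 z2) z2))) (b z1 (d (a (b z2 z2) z2) (a (b z2 z2) z2))))) z2) (a (b (d (a (b z2 z2) z2) (a (b z2 z2) z2)) (d (b z1 (d (a (b z2 z2) z2) z1)) (b z3 z1))) z2)) (d (a (b (d (a (b (d (a (b z2 z2) z2) (a (b z2 z2) z2)) (d (b z2 z2) (b z2 z2))) z2) (a (b (d (a (b z2 z2) z2) (a (b z2 z2) z2)) (d (b z2 z2) (b z2 z3))) z2)) (d (b (d (a (b z2 z2) z2) (a (b z2 z3) z2)) (d (b z2 z2) (b z3 z3))) (b (d (a (b z3 z1) z2) (a (b z1 z1) z2))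 (d (b z1 z1) (b z1 z1))))) z2) (a (b (d (a (b (d (a (b z2 z2) z2) (a (b z2 z2) z2)) (d (b z2 z3) (b z2 z3))) z2) (a (b (d (a (b z2 z2) z2) (a (b z2 z2) z2)) (d (b z2 z3) (b z2 z2))) z2)) (d (b (d (a (b z1 z1) z2) (a (b z1 z1) z2)) (d (b z1 z1) (b z1 z1))) (b (d (a (b z1 z1) z2) (a (b z1 z1) z2)) (d (b z1 z1) (b z1 z1))))) z2))) (b (d (a (b z1 (d (b z2 z1) (b z2 z2))) z2) (a (b z2 z1) z2)) (d (a (b (d (a (b (d (a (b z2 z2) z2) z1) (d (b z2 z2) (b z2 z2))) z2) (a (b z1 (d (b z2 z2) (b z2 z2))) z2)) (d (b (d (a (b z3 z1) z2) (a (b z2 z1) z2)) (d (b z1 z1) (b z1 z1))) (b (d (a (b z2 z3) z2) (a (b z2 z2) z2)) (d (b z1 z1) (b z1 z1))))) z2) (a (b (d (a (b z3 z1) z2) (a (b z2 z1) z2)) (d (b (d (a (b z2 z2) z2) (a (b z2 z2) z2)) (d (b z3 z1) (b z2 z1))) (b (d (a (b z2 z2) z2) z1) (d (b z2 z3) (b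 z2 z2))))) z2))))) (b (d (a z2 z2) z2) (d (b (d (a z1 z2) z2) (d (a (b (d (a (b z2 z2) z2) z1) (d (b z1 (d (b z2 z2) (b z2 z2))) (b z2 z1))) z2) (a (b z2 (d (b z2 z3) (b z2 z2))) z2))) (b z2 (d (a (b z2 z3) z2) z2)))))) _ _ (by decide +kernel)

theorem okI14 : CKI ⟨393216, 786432, 180224, 196608⟩ ⟨0, 0, 98304, 114688⟩ :=
  ckI_sound (b (d (b (d (b (d z2 (a (b z2 z2) z2)) (d z2 (b z2 z2))) (b (d (a (b z2 z2) z2) (a (b z2 z2) z2)) (d (b z2 z2) (b z2 z2)))) (d (b z1 z3) (b (d (b z2 z2) (b z2 z2)) (d (b z2 z2) (b z2 z2))))) (b (d (b (d (a (b (d z1 (a (b z2 z2) z2)) (d z3 (b z2 z2))) z2) (a (b (d (a (b z2 z2) z2) (a (b z2 z2) z2)) (d (b z2 z2) (b z2 z2))) z2)) (d (b (d z2 (a (b z2 z2) z2)) z3) (b (d (a (b z2 z2) z2) (a (b z2 z2) z2)) (d (a (b z2 z2) z2) (a (b z2 z2) z2))))) (b (d (a (b (d (a (b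 z3 z2) z2) (a (b (d z1 (a (b z2 z2) z2)) z1) z2)) (d (b z2 z2) (b z1 z3))) z2) (a (b (d (a (b (d (a (b z2 z2) z2) (a (b z2 z2) z2)) (d (b z2 z2) (b z2 z2))) z2) (a (b (d (a (b z2 z2) z2) (a (b z2 z2) z2)) (d (b z2 z2) (b z2 z2))) z2)) (d (b (d (a (b z2 z2) z2) (a (b z2 z2) z2)) (d z1 (b z2 z2))) (b (d (a (b z2 z2) z2) (a (b z2 z2) z2)) (d (b z2 z2) (b z2 z2))))) z2)) (d (b (d (a (b z2 z2) z2) (a (b z2 z2) z2)) (d (a (b z2 z2) z2) (a (b z2 z2) z2))) (b (d (a (b z1 z3) z2) (a (b (d (a (b z2 z2) z2) (a (b z2 z2) z2)) (d (b z2 z2) (b z2 z2))) z2)) (d (a (b z2 z2) z2) (a (b (d z3 (a (b z2 z2) z2)) z3) z2)))))) (d (b (d (b z2 z2) (b (d z1 (a (b z2 z2) z2)) (d z3 (a (b z2 z2) z2)))) (d (b z2 z2) (b z3 z2))) (b (d (b (d (a (b z2 z2) z2) (a (b z2 z2) z2)) (d (a (b z2 z2) z2) (a (b z2 z2) z2))) (b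 (d (a (b z2 z2) z2) (a (b z2 z2) z2)) (d (a (b z2 z2) z2) (a (b z2 z2) z2)))) (d (b (d (b z2 z2) (b z2 z2)) (d (b z2 z2) (b z2 z2))) (b (d (b z2 z2) (b z2 z2)) (d (b z2 z2) (b z2 z2)))))))) (d (b (d (b z3 (d z2 (b z2 z2))) (b (d (b z2 z2) (b z2 z2)) (d (b z2 z2) (b z2 z2)))) (d (b (d z2 (b z2 z2)) (d (b z2 z0) (b z2 z0))) (b (d (b z2 z2) (b z2 z2)) (d (b z2 z0) (b z2 z0))))) (b (d (b (d (b z2 z2) (b z2 z2)) (d (b z2 z2) (b z2 z2))) (b (d (b (d z3 (b z2 z2)) z3) (b (d (b z2 z2) (b z2 z2)) (d (b z2 z2) (b z2 z2)))) (d (b z3 z2) (b (d (b z2 z2) (b z2 z2)) (d z1 (b z2 z2)))))) (d (b (d (b z2 z2) (b z2 z2)) (d (b z2 z0) (b z2 z0))) (b (d (b z2 z2) (b (d z3 (b z2 z2)) (d z3 (b z2 z2)))) (d (b z2 z1) (b (d z1 (b z2 z2)) (d (b z2 z0) (b z2 z0))))))))) _ _ (by decide +kernel)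

end Vale.Agent.Lib.P154Q5
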