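import Vale.Agent.Lib.P154Q5.FormI

namespace Vale.Agent.Lib.P154Q5

set_option maxRecDepth 100000
set_option exponentiation.threshold 1000

open Tr

theorem okI15 : CKI ⟨393216, 786432, 180224, 184320⟩ ⟨0, 0, 114688, 118784⟩ :=
  ckI_sound (b (d (a (b (d (a (b (d (a (b z2 z2) z2) (a (b z3 z2) z2)) (d (b z2 z2) (b z2 z2))) z2) (a (b (d (a (b z1 z1) z2) (a (b z1 z1) z2)) (d (b z3 z3) (b z1 z1))) z2)) (d (b (d (a (b z2 z2) z2) (a (b z2 z2) z2)) (d (b z2 z2) (b z2 z2))) (b (d (a (b z2 z2) z2) (a (b z1 z3) z2)) (d (b z2 z2) (b z3 z2))))) z2) (a (b (d (a (b (d (a (b z1 z1) z2) (a (b z1 z1) z2)) (d (b z1 z1) (b z1 z1))) z2) (a (b (d (a (b z1 (d z1 (b z2 z2))) z2) (a (b z1 (d (b z2 z2) (b z2 z2))) z2)) (d (b (d (a (b z2 z2) z2) (a (b z2 z2) z2)) (d (b z2 z2) (b z2 z2))) (b (d (a (b z2 z2) z2) (a (b z2 z2) z2))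 (d (b z2 z2) (b z2 z2))))) z2)) (d (b (d (a (b z1 z1) z2) (a (b z1 z1) z2)) (d (b z1 z3) (b z1 z1))) (b (d (a (b (d (a (b z2 z2) z2) (a (b z2 z2) z2)) (d (b z2 z2) (b z2 z2))) z2) (a (b (d (a (b z2 z2) z2) (a (b z2 z2) z2)) (d (b z2 z2) (b z2 z2))) z2)) (d (b (d z1 (a (b z2 z2) z2)) (d z1 (b z2 z2))) (b (d (a (b z2 z2) z2) (a (b z2 z2) z2)) (d (b z2 z2) (b z2 z2))))))) z2)) (d (b (d (a (b (d (a (b z2 z2) z2) (a (b z2 z2) z2)) (d (b z2 z2) (b z2 z2))) z2) (a (b (d (a (b z2 z2) z2) (a (b z2 z2) z2)) (d (b z2 z2) (b z2 z2))) z2)) (d (a (b (d (a (b z2 z2) z2) (a (b z2 z2) z2)) (d (b z2 z2) (b z2 z2))) z2) (a (b (d (a (b z2 z2) z2) (a (b z2 z2) z2)) (d (b z2 z2) (b z2 z2))) z2))) (b (d (a (b (d (a (b z3 z2) z2) (a (b z1 z3) z2)) (d (b z2 z2) (b z2 z2))) z2) (a (b (d (a (b z1 z1) z2) (a (b (d (a (b z2 z2)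 z2) (a (b z2 z2) z2)) (d z1 (b z2 z2))) z2)) (d (b z1 z3) (b z1 z1))) z2)) (d (a (b (d (a (b z2 z2) z2) (a (b z2 z2) z2)) (d (b z2 z2) (b z2 z2))) z2) (a (b (d (a (b z2 z2) z2) (a (b z1 z3) z2)) (d (b z2 z2) (b z2 z2))) z2))))) _ _ (by decide +kernel)

theorem okI16 : CKI ⟨393216, 786432, 180224, 182272⟩ ⟨0, 0, 118784, 122880⟩ :=
  ckI_sound (d (a (b (d (a (b (d (a (b z1 (d (b z2 z2) (b z2 z2))) z2) (a (b z1 (d (b z2 z2) (b z2 z2))) z2)) (d (b (d (a (b z2 z2) z2) (a (b z2 z2) z2)) (d (b z2 z2) (b z2 z2))) (b (d (a (b z2 z2) z2) (a (b z2 z2) z2)) (d (b z2 z2) (b z2 z2))))) z2) (a (b (d (a (b z1 (d (b z2 z2) (b z2 z2))) z2) (a (b z1 (d (b z2 z2) (b z2 z2))) z2)) (d (b (d (a (b z2 z2) z2) (a (b z2 z2) z2)) (d (b z2 z2) (b z2 z2))) (b (d (a (b z2 z2) z2) (a (b z2 z2) z2)) (d (b z2 z2) (b z2 z2))))) z2))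 (d (b (d (a (b (d (a (b z2 z2) z2) (a (b z2 z2) z2)) (d (b z2 z2) (b z2 z2))) z2) (a (b (d (a (b z2 z2) z2) (a (b z2 z2) z2)) (d (b z2 z2) (b z2 z2))) z2)) (d (b (d (a (b z2 z2) z2) (a (b z2 z2) z2)) (d (b z2 z2) (b z2 z2))) (b (d (a (b z2 z2) z2) (a (b z2 z2) z2)) (d (b z2 z2) (b z2 z2))))) (b (d (a (b (d (a (b z2 z2) z2) (a (b z2 z2) z2)) (d (b z2 z2) (b z2 z2))) z2) (a (b (d (a (b z2 z2) z2) (a (b z2 z2) z2)) (d (b z2 z2) (b z2 z2))) z2)) (d (b (d (a (b z2 z2) z2) (a (b z2 z2) z2)) (d (b z2 z2) (b z2 z2))) (b (d (a (b z2 z2) z2) (a (b z2 z2) z2)) (d (b z2 z2) (b z2 z2))))))) z2) (a (b (d (a (b (d (a (b z1 (d (b z2 z2) z1)) z2) (a (b z1 z1) z2)) (d (b (d (a (b z2 z2) z2) (a (b z2 z2) z2)) (d (b z2 z2) (b z2 z2))) (b (d (a (b z2 z2) z2) (a (b z2 z2) z2)) (d (b z2 z2) (b z2 z2))))) z2) (a (b (d (a (b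 z1 z1) z2) (a (b z3 z1) z2)) (d (b (d (a (b z2 z2) z2) z1) (d (b z2 z2) (b z2 z2))) (b z1 (d (b z2 z2) (b z2 z2))))) z2)) (d (b (d (a (b (d (a (b z2 z2) z2) (a (b z2 z2) z2)) (d (b z2 z2) (b z2 z2))) z2) (a (b (d (a (b z2 z2) z2) (a (b z2 z2) z2)) (d (b z2 z2) (b z2 z2))) z2)) (d (b (d (a (b z2 z2) z2) (a (b z2 z2) z2)) (d (b z2 z2) (b z2 z2))) (b (d (a (b z2 z2) z2) (a (b z2 z2) z2)) (d (b z2 z2) (b z2 z2))))) (b (d (a (b (d (a (b z2 z2) z2) (a (b z2 z2) z2)) (d (b z2 z2) (b z2 z2))) z2) (a (b (d (a (b z2 z2) z2) (a (b z2 z2) z2)) (d (b z2 z2) (b z2 z2))) z2)) (d (b (d (a (b z2 z2) z2) (a (b z2 z2) z2)) (d (b z2 z2) (b z2 z2))) (b (d (a (b z2 z2) z2) (a (b z2 z2) z2)) (d (b z2 z2) (b z2 z2))))))) z2)) _ _ (by decide +kernel)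

theorem okI17 : CKI ⟨393216, 786432, 182272, 184320⟩ ⟨0, 0, 118784, 120832⟩ :=
  ckI_sound (b (d (a (b (d (a (b (d (a (b z2 z2) z2) (a (b z2 z2) z2)) (d (b z2 z2) (b z2 z2))) z2) (a (b (d (a (b z2 z2) z2) (a (b z2 z2) z2)) (d (b z2 z2) (b z2 z2))) z2)) (d (b (d (a (b z2 z2) z2) (a (b z2 z2) z2)) (d z1 (a (b z2 z2) z2))) (b (d (a (b z2 z2) z2) (a (b z2 z2) z2)) (d (a (b z2 z2) z2) (a (b z2 z2) z2))))) z2) (a (b (d (a (b (d (a (b z2 z2) z2) (a (b z2 z2) z2)) (d (b z2 z2) (b z2 z2))) z2) (a (b (d (a (b z2 z2) z2) (a (b z2 z2) z2)) (d (b z2 z2) (b z2 z2))) z2)) (d (b (d (a (b z2 z2) z2) (a (b z2 z2) z2)) (d (a (b z2 z2) z2) (a (b z2 z2) z2))) (b (d (a (b z2 z2) z2) (a (b z2 z2) z2)) (d (a (b z2 z2) z2) (a (b z2 z2) z2))))) z2)) (d (a (b (d (a (b z1 z1) z2) (a (b (d (a (b z2 z2) z2) (a (b z2 z2) z2)) (d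 z1 (b z2 z2))) z2)) (d (b z3 z2) (b z1 z3))) z2) (a (b (d (a (b (d (a (b z2 z2) z2) (a (b z2 z2) z2)) (d (b z2 z2) (b z2 z2))) z2) (a (b (d (a (b z2 z2) z2) (a (b z2 z2) z2)) (d (b z2 z2) (b z2 z2))) z2)) (d (b (d z1 (a (b z2 z2) z2)) z1) (b (d (a (b z2 z2) z2) (a (b z2 z2) z2)) (d (b z2 z2) (b z2 z2))))) z2))) _ _ (by decide +kernel)

theorem okI18 : CKI ⟨393216, 786432, 182272, 184320⟩ ⟨0, 0, 120832, 122880⟩ :=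
  ckI_sound (b (d (a (b (d (a (b (d (a (b z2 z2) z2) (a (b z2 z2) z2)) (d (b z2 z2) (b z2 z2))) z2) (a (b (d (a (b z2 z2) z2) (a (b z2 z2) z2)) (d (b z2 z2) (b z2 z2))) z2)) (d (b (d (a (b z2 z2) z2) (a (b z2 z2) z2)) (d (a (b z2 z2) z2) (a (b z2 z2) z2))) (b (d (a (b z2 z2) z2) (a (b z2 z2) z2)) (d (a (b z2 z2) z2) (a (b z2 z2) z2))))) z2) (a (b (d (a (b (d (a (b z2 z2) z2) (a (b z2 z2) z2)) (d (b z2 z2) (b z2 z2))) z2) (a (b (d (a (b z2 z2) z2) (a (b z2 z2) z2)) (d (b z2 z2) (b z2 z3))) z2)) (d (b (d (a (b z2 z2) z2) (a (b z2 z2) z2)) (d (a (b z2 z2) z2) (a (b z2 z2) z2))) (b (d (a (b z2 z2) z2) (a (b z3 z2) z2)) (d (a (b z2 z2) z2) (a (b z2 z2) z2))))) z2)) (d (a (b (d (a (b (d (a (b z2 z2) z2) (a (b z2 z2) z2)) (d (b z2 z2) (b z2 z2))) z2) (a (b (d (a (b z2 z2) z2) (a (b z2 z2) z2)) (d (b z2 z2)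 (b z2 z2))) z2)) (d (b (d (a (b z2 z2) z2) (a (b z2 z2) z2)) (d (b z2 z2) (b z2 z2))) (b (d (a (b z2 z2) z2) (a (b z2 z2) z2)) (d (b z2 z2) (b z2 z2))))) z2) (a (b (d (a (b (d (a (b z2 z2) z2) (a (b z2 z2) z2)) (d (b z2 z2) (b z2 z2))) z2) (a (b (d (a (b z2 z2) z2) (a (b z2 z2) z2)) (d (b z2 z2) (b z2 z2))) z2)) (d (b (d (a (b z2 z2) z2) (a (b z2 z2) z2)) (d (b z2 z2) (b z2 z2))) (b (d (a (b z2 z2) z2) (a (b z2 z2) z2)) (d (b z2 z2) (b z2 z2))))) z2))) _ _ (by decide +kernel)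

theorem okI19 : CKI ⟨393216, 786432, 184320, 188416⟩ ⟨0, 0, 114688, 118784⟩ :=
  ckI_sound (b (d (b (d (a (b (d z3 (a (b z2 z2) z2)) z3) z2) (a (b (d (a (b z2 z2) z2) (a (b z2 z2) z2)) (d z1 (b z2 z2))) z2)) (d (a (b z2 z2) z2) (a (b z1 z3) z2))) (b (d (a (b (d (a (b z2 z2) z2) (a (b z2 z2) z2)) (d (b z2 z2) (b z2 z2))) z2) (a (b (d (a (b z2 z2) z2) (a (b z2 z2) z2)) (d (b z2 z2) (b z2 z2))) z2)) (d (a (b (d (a (b z2 z2) z2) (a (b z2 z2) z2)) (d z1 (b z2 z2))) z2) (a (b (d (a (b z2 z2) z2) (a (b z2 z2) z2)) (d (b z2 z2) (b z2 z2))) z2)))) (d (b (d (b z2 z2) (b z2 z2)) (d (b z2 z2) (b z2 z2))) (b (d (b z3 z2) (b (d (a (b z2 z2) z2) (a (b z2 z2) z2)) z1)) (d (b z2 z2) (b z2 z2))))) _ _ (by decide +kernel)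

theorem okI20 : CKI ⟨393216, 786432, 184320, 188416⟩ ⟨0, 0, 118784, 122880⟩ :=
  ckI_sound (b (d (b (d (a (b (d (a (b z2 z2) z2) (a (b z2 z2) z2)) (d (b z2 z2) (b z2 z2))) z2) (a (b (d (a (b z1 z3) z2) (a (b z1 z1) z2)) (d (b z2 z2) (b z3 z2))) z2)) (d (a (b (d (a (b z2 z2) z2) (a (b z2 z2) z2)) (d (b z2 z2) (b z2 z2))) z2) (a (b (d (a (b z2 z2) z2) (a (b z2 z2) z2)) (d (b z2 z2) (b z2 z2))) z2))) (b (d (a (b (d (a (b (d (a (b z2 z2) z2) (a (b z2 z2) z2)) (d z1 (b z2 z2))) z2) (a (b (d (a (b z2 z2) z2) (a (b z2 z2) z2)) (d (b z2 z2) (b z2 z2))) z2)) (d (b z1 z3) (b (d z1 (a (b z2 z2) z2)) z1))) z2) (a (b (d (a (b (d (a (b z2 z2) z2) (a (b z2 z2) z2)) (d (b z2 z2) (b z2 z2))) z2) (a (b (d (a (b z2 z2) z2) (a (b z2 z2) z2)) (d (b z2 z2) (b z2 z2))) z2)) (d (b (d (a (b z2 z2) z2) (a (b z2 z2) z2)) (d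 z1 (b z2 z2))) (b (d (a (b z2 z2) z2) (a (b z2 z2) z2)) (d (b z2 z2) (b z2 z2))))) z2)) (d (a (b (d (a (b z2 z2) z2) (a (b z3 z2) z2)) (d (b z2 z2) (b z2 z2))) z2) (a (b (d (a (b z1 z3) z2) (a (b (d (a (b z2 z2) z2) (a (b z2 z2) z2)) z1) z2)) (d (b z2 z2) (b z3 z2))) z2)))) (d (b (d (b (d (a (b z2 z2) z2) (a (b z2 z2) z2)) (d (a (b z2 z2) z2) (a (b z2 z2) z2))) (b (d (a (b z2 z2) z2) (a (b z2 z2) z2)) (d (a (b z2 z2) z2) (a (b z2 z2) z2)))) (d (b (d z3 (a (b z2 z2) z2)) z3) (b (d (a (b z2 z2) z2) (a (b z2 z2) z2)) (d z1 (a (b z2 z2) z2))))) (b (d (b (d (a (b z2 z2) z2) (a (b z2 z2) z2)) (d (a (b z2 z2) z2) (a (b z2 z2) z2))) (b (d (a (b z2 z2) z2) (a (b z2 z2) z2)) (d (a (b z2 z2) z2) (a (b z2 z2) z2)))) (d (b (d (a (b z2 z2) z2) (a (b z2 z2) z2)) (d (a (b z2 z2) z2) (a (b z2 z2) z2))) (b (d (a (b z2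 z2) z2) (a (b z2 z2) z2)) (d (a (b z2 z2) z2) (a (b z2 z2) z2))))))) _ _ (by decide +kernel)

theorem okI21 : CKI ⟨393216, 786432, 180224, 182272⟩ ⟨0, 0, 122880, 126976⟩ :=
  ckI_sound (d (a (b (d (a (b (d (a (b z2 z1) z2) (a (b z2 z3) z2)) (d (b z1 (d (b z2 z2) z1)) (b z1 z1))) z2) (a (b (d (a (b z2 z2) z2) (a (b z2 z2) z2)) (d (b z3 z1) (b z2 z1))) z2)) (d (b (d (a (b (d (a (b z2 z2) z2) (a (b z2 z2) z2)) (d (b z2 z2) (b z2 z2))) z2) (a (b (d (a (b z2 z2) z2) (a (b z2 z2) z2)) (d (b z2 z2) (b z2 z2))) z2)) (d (b (d (a (b z2 z2) z2) (a (b z2 z2) z2)) (d (b z2 z2) (b z2 z2))) (b (d (a (b z2 z2) z2) (a (b z2 z2) z2)) (d (b z2 z2) (b z2 z2))))) (b (d (a (b z1 (d (b z2 z2) (b z2 z2))) z2) (a (b z1 (d (b z2 z2) z1)) z2)) (d (b (d (a (b z2 z2) z2) (a (b z2 z2) z2)) (d (b z2 z2) (b z2 z2))) (b (d (a (b z2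 z2) z2) (a (b z2 z2) z2)) (d (b z2 z2) (b z2 z2))))))) z2) (a (b (d (a (b (d (a (b z2 z2) z2) z1) (d (b z2 z2) (b z2 z2))) z2) (a (b z3 (d (b z2 z2) z1)) z2)) (d (b (d (a (b z1 z1) z2) (a (b z3 z1) z2)) (d (b (d (a (b z2 z2) z2) (a (b z2 z2) z2)) (d (b z2 z2) (b z2 z2))) (b z1 (d (b z2 z2) (b z2 z2))))) (b (d (a (b z2 z3) z2) (a (b z2 z2) z2)) (d (b z1 (d (b z2 z2) z1)) (b z1 z1))))) z2)) _ _ (by decide +kernel)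

theorem okI22 : CKI ⟨393216, 786432, 182272, 184320⟩ ⟨0, 0, 122880, 124928⟩ :=
  ckI_sound (b (d (a (b (d (a (b (d (a (b z2 z2) z2) (a (b z2 z2) z2)) (d (b z3 z3) (b z3 z3))) z2) (a (b (d (a (b z2 z2) z2) (a (b z2 z2) z2)) (d (b z3 z3) (b z3 z3))) z2)) (d (b (d (a (b z3 z3) z2) (a (b z3 z3) z2)) (d (a (b z3 z2) z2) (a (b z3 z3) z2))) (b (d (a (b z3 z3) z2) (a (b z3 z3) z2)) (d (a (b z3 z3) z2) (a (b z3 z3) z2))))) z2) (a (b (d (a (b (d (a (b z2 z2) z2) (a (b z2 z2) z2)) (d (b z3 z3) (b z2 z3))) z2) (a (b (d (a (b z2 z2) z2) (a (b z2 z2) z2)) (d (b z2 z3) (b z2 z2))) z2)) (d (b (d (a (b z3 z3) z2) (a (b z3 z3) z2)) (d (a (b z1 z1) z2) (a (b z1 z1) z2))) (b (d (a (b z3 z3) z2) (a (b z3 z3) z2)) (d (a (b z1 z1) z2) (a (b z1 z1) z2))))) z2)) (d (a (b (d (a (b (d (a (b z2 z2) z2) (a (b z3 z2) z2)) (d (b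 z2 z2) (b z2 z2))) z2) (a (b (d (a (b z3 z3) z2) (a (b z3 z3) z2)) (d (b z2 z2) (b z3 z2))) z2)) (d (b (d (a (b z2 z2) z2) (a (b z2 z2) z2)) (d (b z2 z2) (b z2 z2))) (b (d (a (b z2 z2) z2) (a (b z2 z2) z2)) (d (b z2 z2) (b z2 z2))))) z2) (a (b (d (a (b (d (a (b z1 z3) z2) (a (b z1 z1) z2)) (d (b z3 z3) (b z3 z3))) z2) (a (b (d (a (b z1 z1) z2) (a (b z1 z1) z2)) (d (b z1 z1) (b z1 z1))) z2)) (d (b (d (a (b z2 z2) z2) (a (b z3 z3) z2)) (d (b z2 z2) (b z2 z2))) (b (d (a (b z3 z3) z2) (a (b z1 z3) z2)) (d (b z3 z2) (b z3 z3))))) z2))) _ _ (by decide +kernel)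

theorem okI23 : CKI ⟨393216, 786432, 182272, 184320⟩ ⟨0, 0, 124928, 126976⟩ :=
  ckI_sound (b (d (a (b (d (a (b (d (a (b z2 z2) z2) (a (b z2 z2) z2)) (d (b z2 z2) (b z2 z2))) z2) (a (b (d (a (b z2 z2) z2) (a (b z2 z2) z2)) (d (b z2 z2) (b z2 z2))) z2)) (d (b (d (a (b z3 z3) z2) (a (b z2 z3) z2)) (d (a (b z3 z1) z2) (a (b z3 z1) z2))) (b (d (a (b z2 z2) z2) (a (b z2 z2) z2)) (d (a (b z3 z3) z2) (a (b z3 z3) z2))))) z2) (a (b (d (a (b (d (a (b z2 z2) z2) (a (b z2 z2) z2)) (d (b z2 z2) (b z2 z2))) z2) (a (b (d (a (b z2 z2) z2) (a (b z2 z2) z2)) (d (b z2 z2) (b z2 z2))) z2)) (d (b (d (a (b z2 z2) z2) (a (b z2 z2) z2)) (d (a (b z2 z3) z2) (a (b z2 z2) z2))) (b (d (a (b z2 z2) z2) (a (b z2 z2) z2)) (d (a (b z2 z2) z2) (a (b z2 z2) z2))))) z2)) (d (a (b (d (a (b (d (a (b z1 z1) z2) (a (b z1 z1) z2)) (d (b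 z1 z1) (b z1 z1))) z2) (a (b (d (a (b z1 z1) z2) (a (b z3 z1) z2)) (d (b z1 z1) (b z1 z1))) z2)) (d (b (d (a (b z1 z1) z2) (a (b z1 z1) z2)) (d (b z3 z3) (b z1 z3))) (b (d (a (b z1 z1) z2) (a (b z1 z1) z2)) (d (b z1 z3) (b z1 z1))))) z2) (a (b (d (a (b (d (a (b z3 z1) z2) (a (b z3 z3) z2)) (d (b z1 z1) (b z1 z1))) z2) (a (b (d (a (b z3 z3) z2) (a (b z2 z3) z2)) (d (b z3 z1) (b z3 z3))) z2)) (d (b (d (a (b z1 z1) z2) (a (b z1 z1) z2)) (d (b z1 z1) (b z1 z1))) (b (d (a (b z1 z1) z2) (a (b z1 z1) z2)) (d (b z1 z1) (b z1 z1))))) z2))) _ _ (by decide +kernel)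

theorem okI24 : CKI ⟨393216, 786432, 180224, 184320⟩ ⟨0, 0, 126976, 131072⟩ :=
  ckI_sound (b (d (a (b (d (a (b z2 z1) z2) (a (b z2 z2) z2)) (d (b (d (a (b z2 z2) z2) (a (b z2 z2) z2)) (d (b z2 z1) (b z2 z3))) (b z1 (d (b z2 z2) (b z2 z2))))) z2) (a (b z1 (d (b z2 (d (b z2 z2) z1)) (b z2 z3))) z2)) (d (b (d (a (b (d (a (b z1 (d (b z2 z2) (b z2 z2))) z2) (a (b z1 (d (b z2 z2) z1)) z2)) (d (b (d (a (b z2 z2) z2) (a (b z2 z2) z2)) (d (a (b z2 z2) z2) (a (b z2 z2) z2))) (b (d (a (b z2 z2) z2) (a (b z2 z2) z2)) (d (a (b z2 z2) z2) (a (b z2 z2) z2))))) z2) (a (b (d (a (b z3 z1) z2) (a (b z2 z3) z2)) (d (b (d (a (b z2 z2) z2) z1) (d (a (b z2 z2) z2) (a (b z2 z2) z2))) (b z1 (d (a (b z2 z2) z2) (a (b z2 z2) z2))))) z2)) (d (a (b (d (a (b (d (a (b z2 z2) z2) (a (b z2 z2) z2)) (d (b z3 z3) (b z2 z3))) z2) (a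 (b (d (a (b z2 z2) z2) (a (b z2 z2) z2)) (d (b z2 z2) (b z2 z2))) z2)) (d (b (d (a (b z3 z1) z2) (a (b z3 z1) z2)) (d (b z1 z1) (b z1 z1))) (b (d (a (b z3 z3) z2) (a (b z2 z3) z2)) (d (b z1 z1) (b z3 z1))))) z2) (a (b (d (a (b (d (a (b z2 z2) z2) (a (b z2 z2) z2)) (d (b z2 z2) (b z2 z2))) z2) (a (b (d (a (b z2 z2) z2) (a (b z2 z2) z2)) (d (b z2 z2) (b z2 z2))) z2)) (d (b (d (a (b z2 z3) z2) (a (b z2 z2) z2)) (d (b z3 z3) (b z3 z3))) (b (d (a (b z2 z2) z2) (a (b z2 z2) z2)) (d (b z2 z3) (b z2 z2))))) z2))) (b (d (a (b (d (a (b z2 z2) z2) (a (b z2 z2) z2)) (d (b z1 z1) (b z2 z1))) z2) (a (b (d (a (b z2 z2) z2) z1) (d (b z2 z3) (b z2 z2))) z2)) (d (a (b (d (a (b (d (a (b z2 z2) z2) (a (b z2 z2) z2)) (d (b z2 z2) (b z2 z2))) z2) (a (b (d (a (b z2 z2) z2) z1) (d (b z2 z2) (b z2 z2))) z2)) (d (b (d (a (b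 z2 z2) z2) (a (b z2 z2) z2)) (d (b z2 z2) (b z2 z2))) (b (d (a (b z2 z2) z2) (a (b z2 z2) z2)) (d (b z2 z2) (b z2 z2))))) z2) (a (b (d (a (b z1 (d (b z2 z2) z1)) z2) (a (b z3 z1) z2)) (d (b (d (a (b z2 z2) z2) (a (b z2 z2) z2)) (d (b z2 z2) (b z2 z2))) (b (d (a (b z2 z2) z2) (a (b z2 z2) z2)) (d (b z2 z2) (b z2 z2))))) z2))))) _ _ (by decide +kernel)

theorem okI25 : CKI ⟨393216, 786432, 184320, 186368⟩ ⟨0, 0, 122880, 124928⟩ :=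
  ckI_sound (b (d (a (b (d (a (b (d (a (b z2 z2) z2) (a (b z2 z2) z2)) (d (b z2 z2) (b z2 z2))) z2) (a (b (d (a (b z2 z2) z2) (a (b z2 z2) z2)) (d (b z2 z2) (b z2 z2))) z2)) (d (b (d (a (b z2 z2) z2) (a (b z2 z2) z2)) (d (b z2 z2) (b z2 z2))) (b (d (a (b z2 z2) z2) (a (b z2 z2) z2)) (d (b z2 z2) (b z2 z2))))) z2) (a (b (d (a (b (d (a (b z2 z2) z2) (a (b z2 z2) z2)) (d (b z2 z2) (b z2 z2))) z2) (a (b (d (a (b z2 z2) z2) (a (b z2 z2) z2)) (d (b z2 z2) (b z2 z2))) z2)) (d (b (d (a (b z2 z2) z2) (a (b z2 z2) z2)) (d (b z2 z2) (b z2 z2))) (b (d (a (b z2 z2) z2) (a (b z2 z2) z2)) (d (b z2 z2) (b z2 z2))))) z2)) (d (a (b (d (a (b (d (a (b z2 z2) z2) (a (b z2 z2) z2)) (d (b z2 z2) (b z2 z2))) z2) (a (b (d (a (b z2 z2) z2) (a (b z2 z2) z2)) (d (b z2 z2) (b z2 z2))) z2)) (d (b z1 z3) (b (d (a (b z2 z2) z2) (a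 (b z2 z2) z2)) z1))) z2) (a (b (d (a (b (d (a (b z2 z2) z2) (a (b z2 z2) z2)) (d (b z2 z2) (b z2 z2))) z2) (a (b (d (a (b z2 z2) z2) (a (b z2 z2) z2)) (d (b z2 z2) (b z2 z2))) z2)) (d (b (d (a (b z2 z2) z2) (a (b z2 z2) z2)) (d (b z2 z2) (b z2 z2))) (b (d (a (b z2 z2) z2) (a (b z2 z2) z2)) (d (b z2 z2) (b z2 z2))))) z2))) _ _ (by decide +kernel)

theorem okI26 : CKI ⟨393216, 786432, 184320, 186368⟩ ⟨0, 0, 124928, 126976⟩ :=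
  ckI_sound (b (d (a (b (d (a (b (d (a (b z2 z2) z2) (a (b z3 z2) z2)) (d (b z2 z2) (b z2 z2))) z2) (a (b (d (a (b z3 z3) z2) (a (b z3 z3) z2)) (d (b z2 z2) (b z3 z2))) z2)) (d (b (d (a (b z2 z2) z2) (a (b z2 z2) z2)) (d (b z2 z2) (b z2 z2))) (b (d (a (b z2 z2) z2) (a (b z2 z2) z2)) (d (b z2 z2) (b z2 z2))))) z2) (a (b (d (a (b (d (a (b z1 z3) z2) (a (b z1 z1) z2)) (d (b z3 z3) (b z3 z3))) z2) (a (b (d (a (b z1 z1) z2) (a (b z1 z1) z2)) (d (b z3 z3) (b z1 z3))) z2)) (d (b (d (a (b z2 z2) z2) (a (b z2 z2) z2)) (d (b z2 z2) (b z2 z2))) (b (d (a (b z3 z2) z2) (a (b z3 z3) z2)) (d (b z2 z2) (b z2 z2))))) z2)) (d (a (b (d (a (b (d (a (b z2 z2) z2) (a (b z2 z2) z2)) (d (b z2 z2) (b z2 z2))) z2) (a (b (d (a (b z2 z2) z2) (a (b z2 z2) z2)) (d (b z2 z2) (b z2 z2))) z2)) (d (b (d (a (b z2 z2) z2) (a (b z2 z2)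 z2)) (d (b z2 z2) (b z2 z2))) (b (d (a (b z2 z2) z2) (a (b z2 z2) z2)) (d (b z2 z2) (b z2 z2))))) z2) (a (b (d (a (b (d (a (b z2 z2) z2) (a (b z2 z2) z2)) (d (b z2 z2) (b z2 z2))) z2) (a (b (d (a (b z2 z2) z2) (a (b z2 z2) z2)) (d (b z2 z2) (b z2 z2))) z2)) (d (b (d (a (b z2 z2) z2) (a (b z2 z2) z2)) (d (b z2 z2) (b z2 z2))) (b (d (a (b z2 z2) z2) (a (b z2 z2) z2)) (d (b z2 z2) (b z2 z2))))) z2))) _ _ (by decide +kernel)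

theorem okI27 : CKI ⟨393216, 786432, 186368, 188416⟩ ⟨0, 0, 122880, 126976⟩ :=
  ckI_sound (d (b (d (b (d (a (b z2 z2) z2) (a (b z3 z2) z2)) (d (a (b z2 z2) z2) (a (b z2 z2) z2))) (b (d (a (b z1 z3) z2) (a (b (d z1 (a (b z2 z2) z2)) z1) z2)) (d (a (b z2 z2) z2) (a (b z3 z2) z2)))) (d (b (d (a (b z2 z2) z2) (a (b z2 z2) z2)) (d (a (b z2 z2) z2) (a (b z2 z2) z2))) (b (d (a (b z2 z2) z2) (a (b z2 z2) z2)) (d (a (b z2 z2) z2) (a (b z2 z2) z2))))) (b (d (b (d (a (b (d (a (b z2 z2) z2) (a (b z2 z2) z2)) (d z1 (b z2 z2))) z2) (a (b (d (a (b z2 z2) z2) (a (b z2 z2) z2)) (d (b z2 z2) (b z2 z2))) z2)) (d (a (b z1 z2) z2) (a (b (d z1 (a (b z2 z2) z2)) z3) z2))) (b (d (a (b (d (a (b z2 z2) z2) (a (b z2 z2) z2)) (d (b z2 z2) (b z2 z2))) z2) (a (b (d (a (b z2 z2) z2) (a (b z2 z2) z2)) (d (b z2 z2) (b z2 z2))) z2))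 (d (a (b (d (a (b z2 z2) z2) (a (b z2 z2) z2)) z1) z2) (a (b (d (a (b z2 z2) z2) (a (b z2 z2) z2)) (d (b z2 z2) (b z2 z2))) z2)))) (d (b (d (a (b z2 z2) z2) (a (b z2 z2) z2)) (d (a (b z2 z2) z2) (a (b z2 z2) z2))) (b (d (a (b z3 z2) z2) (a (b z1 z3) z2)) (d (a (b z2 z2) z2) (a (b z2 z2) z2)))))) _ _ (by decide +kernel)

theorem okI28 : CKI ⟨393216, 786432, 184320, 186368⟩ ⟨0, 0, 126976, 129024⟩ :=
  ckI_sound (b (d (a (b (d (a (b (d (a (b z1 z1) z2) (a (b z1 z1) z2)) (d (b z1 z3) (b z1 z1))) z2) (a (b (d (a (b z1 z1) z2) (a (b z1 z1) z2)) (d (b z1 z1) (b z1 z1))) z2)) (d (b (d (a (b z3 z3) z2) (a (b z3 z3) z2)) (d (b z2 z2) (b z3 z2))) (b (d (a (b z3 z3) z2) (a (b z3 z3) z2)) (d (b z3 z3) (b z3 z3))))) z2) (a (b (d (a (b (d (a (b z3 z1) z2) (a (b z3 z3) z2)) (d (b z1 z1) (b z1 z1))) z2) (a (b (d (a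 (b z3 z3) z2) (a (b z3 z3) z2)) (d (b z3 z3) (b z3 z3))) z2)) (d (b (d (a (b z3 z3) z2) (a (b z3 z3) z2)) (d (b z3 z3) (b z3 z3))) (b (d (a (b z3 z3) z2) (a (b z3 z3) z2)) (d (b z3 z3) (b z3 z3))))) z2)) (d (a (b (d (a (b (d (a (b z2 z2) z2) (a (b z2 z2) z2)) (d (b z2 z2) (b z2 z2))) z2) (a (b (d (a (b z2 z2) z2) (a (b z2 z2) z2)) (d (b z2 z2) (b z2 z2))) z2)) (d (b (d (a (b z2 z2) z2) (a (b z2 z2) z2)) (d (b z2 z2) (b z2 z2))) (b (d (a (b z2 z2) z2) (a (b z2 z2) z2)) (d (b z2 z2) (b z2 z2))))) z2) (a (b (d (a (b (d (a (b z3 z2) z2) (a (b z3 z2) z2)) (d (b z2 z2) (b z2 z2))) z2) (a (b (d (a (b z3 z2) z2) (a (b z3 z3) z2)) (d (b z2 z2) (b z2 z2))) z2)) (d (b (d (a (b z2 z2) z2) (a (b z2 z2) z2)) (d (b z2 z2) (b z2 z2))) (b (d (a (b z2 z2) z2) (a (b z2 z2) z2)) (d (b z2 z2) (b z2 z2))))) z2))) _ _ (by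 decide +kernel)

theorem okI29 : CKI ⟨393216, 786432, 184320, 186368⟩ ⟨0, 0, 129024, 131072⟩ :=
  ckI_sound (b (d (a (b (d (a (b (d (a (b z2 z3) z2) (a (b z2 z2) z2)) (d (b z3 z3) (b z2 z3))) z2) (a (b (d (a (b z2 z2) z2) (a (b z2 z2) z2)) (d (b z2 z2) (b z2 z2))) z2)) (d (b (d (a (b z3 z3) z2) (a (b z3 z3) z2)) (d (b z3 z3) (b z3 z3))) (b (d (a (b z3 z3) z2) (a (b z2 z3) z2)) (d (b z3 z3) (b z3 z3))))) z2) (a (b (d (a (b (d (a (b z2 z2) z2) (a (b z2 z2) z2)) (d (b z2 z2) (b z2 z2))) z2) (a (b (d (a (b z2 z2) z2) (a (b z2 z2) z2)) (d (b z2 z2) (b z2 z2))) z2)) (d (b (d (a (b z2 z2) z2) (a (b z2 z2) z2)) (d (b z2 z3) (b z2 z2))) (b (d (a (b z2 z2) z2) (a (b z2 z2) z2)) (d (b z2 z2) (b z2 z2))))) z2)) (d (a (b (d (a (b (d (a (b z3 z3) z2) (a (b z3 z3) z2)) (d (b z2 z2) (b z2 z2))) z2) (a (b (d (a (b z3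 z3) z2) (a (b z3 z3) z2)) (d (b z2 z2) (b z2 z2))) z2)) (d (b (d (a (b z2 z2) z2) (a (b z2 z2) z2)) (d (b z2 z2) (b z2 z2))) (b (d (a (b z2 z2) z2) (a (b z2 z2) z2)) (d (b z2 z2) (b z2 z2))))) z2) (a (b (d (a (b (d (a (b z3 z3) z2) (a (b z2 z2) z2)) (d (b z2 z2) (b z2 z2))) z2) (a (b (d (a (b z2 z2) z2) (a (b z2 z2) z2)) (d (b z2 z2) (b z2 z2))) z2)) (d (b (d (a (b z2 z2) z2) (a (b z2 z2) z2)) (d (b z2 z2) (b z2 z2))) (b (d (a (b z2 z2) z2) (a (b z2 z2) z2)) (d (b z2 z2) (b z2 z2))))) z2))) _ _ (by decide +kernel)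

end Vale.Agent.Lib.P154Q5
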