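import Vale.Agent.Lib.P154Q5.FormI

namespace Vale.Agent.Lib.P154Q5

set_option maxRecDepth 100000
set_option exponentiation.threshold 1000

open Tr

theorem okI150 : CKI ⟨458753, 786432, 157696, 159744⟩ ⟨0, 0, 208896, 210944⟩ :=
  ckI_sound (a z2 (b (d (a z2 (b (d (b z2 z2) (b (d z3 (a z2 (b z2 z2))) (d z3 (a z2 (b z2 z2))))) (d (b z2 z2) (b (d z2 (a z2 (b z2 z2))) (d z2 (a z2 (b z2 z2))))))) (a z2 (b (d (b (d (a z2 (b z2 z2)) (a z2 (b z2 z2))) (d (a z2 (b z2 z2)) (a z2 (b z2 z2)))) (b (d (a z2 (b z2 z2)) (a z2 (b z2 z2))) (d (a z2 (b z2 z2)) (a z2 (b z2 z2))))) (d (b (d (a z2 (b z2 z2)) (a z2 (b z2 z2))) (d (a z2 (b z2 z2)) (a z2 (b z2 z2)))) (b (d (a z2 (b z2 z2)) (a z2 (b z2 z2))) (d (a z2 (b z2 z2)) (a z2 (b z2 z2)))))))) (d (a z2 (b (d (b z2 z2) (b (d z2 (a z2 (b z2 z2))) (d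 z2 (a z2 (b z2 z2))))) (d (a z2 (b z2 z2)) (a z2 (b z3 z3))))) (a z2 (b (d (b (d (a z2 (b z2 z2)) (a z2 (b z2 z2))) (d (a z2 (b z2 z2)) (a z2 (b z2 z2)))) (b (d (a z2 (b z2 z2)) (a z2 (b z2 z2))) (d (a z2 (b z2 z2)) (a z2 (b z2 z2))))) (d (a z2 (b (d (b z2 z2) (b z2 z2)) (d (a z2 (b z2 z2)) (a z2 (b z2 z2))))) (a z2 (b (d (b z2 z2) (b z2 z2)) (d (a z2 (b z2 z2)) (a z2 (b z2 z2))))))))))) _ _ (by decide +kernel)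

theorem okI151 : CKI ⟨458753, 786432, 157696, 159744⟩ ⟨0, 0, 210944, 212992⟩ :=
  ckI_sound (a z2 (b (d (a z2 (b (d (b (d (a z2 (b z2 z2)) (a z2 (b z2 z2))) (d (a z2 (b z2 z2)) (a z2 (b z2 z2)))) (b (d (a z2 (b z2 z2)) (a z2 (b z2 z2))) (d (a z2 (b z2 z2)) (a z2 (b z2 z2))))) (d (b (d (a z2 (b z2 z2)) (a z2 (b z2 z2))) (d (a z2 (b z2 z2)) (a z2 (b z2 z2)))) (b (d (a z2 (b z2 z2)) (a z2 (b z2 z2))) (d (a z2 (b z2 z2)) (a z2 (b z2 z2))))))) (a z2 (b (d (b (d (a z2 (b z2 z2)) (a z2 (b z2 z2))) (d (a z2 (b z2 z2)) (a z2 (b z2 z2)))) (b (d (a z2 (b z2 z2)) (a z2 (b z2 z2))) (d (a z2 (b z2 z2)) (a z2 (b z2 z2))))) (d (b (d (a z2 (b z2 z2)) (a z2 (b z2 z2))) (d (a z2 (b z2 z2)) (a z2 (b z2 z2)))) (b (d (a z2 (b z2 z2)) (a z2 (b z2 z2))) (d (a z2 (b z2 z2)) (a z2 (b z2 z2)))))))) (d (a z2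 (b (d (b (d (a z2 (b z2 z2)) (a z2 (b z2 z2))) (d (a z2 (b z2 z2)) (a z2 (b z2 z2)))) (b (d (a z2 (b z2 z2)) (a z2 (b z2 z2))) (d (a z2 (b z2 z2)) (a z2 (b z2 z2))))) (d (a z2 (b (d (b z2 z2) (b z2 z2)) (d (a z2 (b z2 z2)) (a z2 (b z2 z2))))) (a z2 (b (d (b z2 z2) (b z2 z2)) (d (a z2 (b z2 z2)) (a z2 (b z2 z2)))))))) (a z2 (b (d (b (d (a z2 (b z2 z2)) (a z2 (b z2 z2))) (d (a z2 (b z2 z2)) (a z2 (b z2 z2)))) (b (d (a z2 (b z2 z2)) (a z2 (b z2 z2))) (d (a z2 (b z2 z2)) (a z2 (b z2 z2))))) (d (a z2 (b (d (b z2 z2) (b z2 z2)) (d (a z2 (b z2 z2)) (a z2 (b z2 z2))))) (a z2 (b (d (b z2 z2) (b z2 z2)) (d (a z2 (b z2 z2)) (a z2 (b z2 z2))))))))))) _ _ (by decide +kernel)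

theorem okI152 : CKI ⟨458753, 786432, 159744, 163840⟩ ⟨0, 0, 204800, 208896⟩ :=
  ckI_sound (a z2 (b (d (b (d (b (d (a z2 (b z2 z2)) (a z2 (b z2 z2))) (d (a z2 (b z2 z2)) (a z2 (b z2 z2)))) (b (d (a z2 (b z2 z2)) (a z2 (b z2 z2))) (d (a z2 (b z2 z2)) (a z2 (b z2 z2))))) (d (a z2 (b (d (b z2 z2) (b z2 z2)) (d (a z2 (b z2 z2)) (a z2 (b z2 z2))))) (a z2 (b (d (b z2 z2) (b z2 z2)) (d (a z2 (b z2 z2)) (a z2 (b z2 z2))))))) (b (d (b (d (a z2 (b z2 z2)) (a z2 (b z2 z2))) (d (a z2 (b z2 z2)) (a z2 (b z2 z2)))) (b (d (a z2 (b z2 z2)) (a z2 (b z2 z2))) (d (a z2 (b z2 z2)) (a z2 (b z2 z2))))) (d (a z2 (b (d (b z2 z2) (b z2 z2)) (d (a z2 (b z2 z2)) (a z2 (b z2 z2))))) (a z2 (b (d (b z2 z2) (b z2 z2)) (d (a z2 (b z2 z2)) (a z2 (b z2 z2)))))))) (d (b (d (a z2 (b (d (a z2 (b z2 z2)) (a z2 (b z2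 z2))) (d (a z2 (b z2 z2)) (a z2 (b z2 z2))))) (a z2 (b (d (a z2 (b z2 z2)) (a z2 (b z2 z2))) (d (a z2 (b z2 z2)) (a z2 (b z2 z2)))))) (d (a z2 (b (d (a z2 (b z2 z2)) (a z2 (b z2 z2))) (d (a z2 (b z2 z2)) (a z2 (b z2 z2))))) (a z2 (b (d (a z2 (b z2 z2)) (a z2 (b z2 z2))) (d (a z2 (b z2 z2)) (a z2 (b z2 z2))))))) (b (d (a z2 (b (d (a z2 (b z2 z2)) (a z2 (b z2 z2))) (d (a z2 (b z2 z2)) (a z2 (b z2 z2))))) (a z2 (b (d (a z2 (b z2 z2)) (a z2 (b z2 z2))) (d (a z2 (b z2 z2)) (a z2 (b z2 z2)))))) (d (a z2 (b (d (a z2 (b z2 z2)) (a z2 (b z2 z2))) (d (a z2 (b z2 z2)) (a z2 (b z2 z2))))) (a z2 (b (d (a z2 (b z2 z2)) (a z2 (b z2 z2))) (d (a z2 (b z2 z2)) (a z2 (b z2 z2)))))))))) _ _ (by decide +kernel)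

theorem okI153 : CKI ⟨458753, 491521, 159744, 163840⟩ ⟨0, 0, 208896, 212992⟩ :=
  ckI_sound z2 _ _ (by decide +kernel)

theorem okI154 : CKI ⟨491521, 786432, 159744, 161792⟩ ⟨0, 0, 208896, 210944⟩ :=
  ckI_sound (b (d (b (d (a z2 (b z2 z2)) (a z2 (b z3 z3))) (d (a z2 (b z2 z2)) (a z2 (b z3 z3)))) (b (d (a z2 (b (d (a z2 (b z2 z2)) (a z2 (b z2 z2))) (d (a z2 (b z2 z2)) (a z2 (b z2 z2))))) (a z2 (b (d (a z2 (b z2 z2)) (a z2 (b z2 z2))) (d (a z2 (b z2 z2)) (a z2 (b z2 z2)))))) (d (a z2 (b (d (a z2 (b z2 z2)) (a z2 (b z2 z2))) (d (a z2 (b z2 z2)) (a z2 (b z2 z2))))) (a z2 (b (d (a z2 (b z2 z2)) (a z2 (b z2 z2))) (d (a z2 (b z2 z2)) (a z2 (b z2 z2)))))))) (d (a z2 (b (d (b z2 z2) (b z3 z3)) (d (a z2 (b z2 z2)) (a z2 (b z3 z3))))) (a z2 (b (d (b (d (a z2 (b z2 z2)) (a z2 (b z2 z2))) (d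 (a z2 (b z2 z2)) (a z2 (b z2 z2)))) (b (d (a z2 (b z2 z2)) (a z2 (b z2 z2))) (d (a z2 (b z2 z2)) (a z2 (b z2 z2))))) (d (a z2 (b (d (b z2 z2) (b z2 z2)) (d (a z2 (b z2 z2)) (a z2 (b z2 z2))))) (a z2 (b (d (b z2 z2) (b z2 z2)) (d (a z2 (b z2 z2)) (a z2 (b z2 z2)))))))))) _ _ (by decide +kernel)

theorem okI155 : CKI ⟨491521, 786432, 159744, 161792⟩ ⟨0, 0, 210944, 212992⟩ :=
  ckI_sound (b (d (b (d (a z2 (b (d (a z2 (b z2 z2)) (a z2 (b z2 z2))) (d (a z2 (b z2 z2)) (a z2 (b z2 z2))))) (a z2 (b (d (a z2 (b z2 z2)) (a z2 (b z2 z2))) (d (a z2 (b z2 z2)) (a z2 (b z2 z2)))))) (d (a z2 (b (d (a z2 (b z2 z2)) (a z2 (b z2 z2))) (d (a z2 (b z2 z2)) (a z2 (b z2 z2))))) (a z2 (b (d (a z2 (b z2 z2)) (a z2 (b z2 z2))) (d (a z2 (b z2 z2)) (a z2 (b z2 z2))))))) (b (d (a z2 (b (d (a z2 (b z2 z2)) (a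 z2 (b z2 z2))) (d (a z2 (b z2 z2)) (a z2 (b z2 z2))))) (a z2 (b (d (a z2 (b z2 z2)) (a z2 (b z2 z2))) (d (a z2 (b z2 z2)) (a z2 (b z2 z2)))))) (d (a z2 (b (d (a z2 (b z2 z2)) (a z2 (b z2 z2))) (d (a z2 (b z2 z2)) (a z2 (b z2 z2))))) (a z2 (b (d (a z2 (b z2 z2)) (a z2 (b z2 z2))) (d (a z2 (b z2 z2)) (a z2 (b z2 z2)))))))) (d (a z2 (b (d (b (d (a z2 (b z2 z2)) (a z2 (b z2 z2))) (d (a z2 (b z2 z2)) (a z2 (b z2 z2)))) (b (d (a z2 (b z2 z2)) (a z2 (b z2 z2))) (d (a z2 (b z2 z2)) (a z2 (b z2 z2))))) (d (a z2 (b (d (b z2 z2) (b z2 z2)) (d (a z2 (b z2 z2)) (a z2 (b z2 z2))))) (a z2 (b (d (b z2 z2) (b z2 z2)) (d (a z2 (b z2 z2)) (a z2 (b z2 z2)))))))) (a z2 (b (d (b (d (a z2 (b z2 z2)) (a z2 (b z2 z2))) (d (a z2 (b z2 z2)) (a z2 (b z2 z2)))) (b (d (a z2 (b z2 z2)) (a z2 (b z2 z2))) (d (a z2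 (b z2 z2)) (a z2 (b z2 z2))))) (d (a z2 (b (d (b z2 z2) (b z2 z2)) (d (a z2 (b z2 z2)) (a z2 (b z2 z2))))) (a z2 (b (d (b z2 z2) (b z2 z2)) (d (a z2 (b z2 z2)) (a z2 (b z2 z2)))))))))) _ _ (by decide +kernel)

theorem okI156 : CKI ⟨491521, 786432, 161792, 163840⟩ ⟨0, 0, 208896, 210944⟩ :=
  ckI_sound (b (d (a z2 (b (d (a z2 (b z2 z2)) (a z2 (b z3 z3))) (d (a z2 (b z2 z2)) (a z2 (b z3 z2))))) (a z2 (b (d (a z2 (b (d (b z2 z2) (b z2 z2)) (d (a z2 (b z2 z2)) (a z2 (b z2 z2))))) (a z2 (b (d (b z2 z2) (b z2 z2)) (d (a z2 (b z2 z2)) (a z2 (b z2 z2)))))) (d (a z2 (b (d (a z2 (b z2 z2)) (a z2 (b z2 z2))) (d (a z2 (b z2 z2)) (a z2 (b z2 z2))))) (a z2 (b (d (a z2 (b z2 z2)) (a z2 (b z2 z2))) (d (a z2 (b z2 z2)) (a z2 (b z2 z2))))))))) (d (a z2 (b (d (a z2 (b z2 z2)) (a z2 (b z2 z2))) (d (a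 z2 (b z2 z2)) (a z2 (b z2 z2))))) (a z2 (b (d (a z2 (b (d (a z2 (b z2 z2)) (a z2 (b z2 z2))) (d z3 (a z2 (b z2 z2))))) (a z2 (b (d (a z2 (b z2 z2)) (a z2 (b z2 z2))) (d (a z2 (b z2 z2)) (a z2 (b z2 z2)))))) (d (a z2 (b (d z3 (a z2 (b z2 z2))) (d z3 (a z2 (b z2 z2))))) (a z2 (b (d (a z2 (b z2 z2)) (a z2 (b z2 z2))) (d (a z2 (b z2 z2)) (a z2 (b z2 z2)))))))))) _ _ (by decide +kernel)

theorem okI157 : CKI ⟨491521, 786432, 161792, 163840⟩ ⟨0, 0, 210944, 212992⟩ :=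
  ckI_sound (b (d (a z2 (b (d (a z2 (b (d (b z2 z2) (b z2 z2)) (d (a z2 (b z2 z2)) (a z2 (b z2 z2))))) (a z2 (b (d (b z2 z2) (b z2 z2)) (d (a z2 (b z2 z2)) (a z2 (b z2 z2)))))) (d (a z2 (b (d (a z2 (b z2 z2)) (a z2 (b z2 z2))) (d (a z2 (b z2 z2)) (a z2 (b z2 z2))))) (a z2 (b (d (a z2 (b z2 z2)) (a z2 (b z2 z2))) (d (a z2 (b z2 z2)) (a z2 (b z2 z2)))))))) (a z2 (b (d (a z2 (b (d (b z2 z2) (b z2 z2)) (d (a z2 (b z2 z2)) (a z2 (b z2 z2))))) (a z2 (b (d (b z2 z2) (b z2 z2)) (d (a z2 (b z2 z2)) (a z2 (b z2 z2)))))) (d (a z2 (b (d (a z2 (b z2 z2)) (a z2 (b z2 z2))) (d (a z2 (b z2 z2)) (a z2 (b z2 z2))))) (a z2 (b (d (a z2 (b z2 z2)) (a z2 (b z2 z2))) (d (a z2 (b z2 z2)) (a z2 (b z2 z2))))))))) (d (a z2 (b (d (a z2 (b (d (a z2 (b z2 z2)) (a z2 (b z2 z2))) (d (a z2 (b z2 z2)) (a z2 (b z2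 z2))))) (a z2 (b (d (a z2 (b z2 z2)) (a z2 (b z2 z2))) (d (a z2 (b z2 z2)) (a z2 (b z2 z2)))))) (d (a z2 (b (d (a z2 (b z2 z2)) (a z2 (b z2 z2))) (d (a z2 (b z2 z2)) (a z2 (b z2 z2))))) (a z2 (b (d (a z2 (b z2 z2)) (a z2 (b z2 z2))) (d (a z2 (b z2 z2)) (a z2 (b z2 z2)))))))) (a z2 (b (d (a z2 (b (d (a z2 (b z2 z2)) (a z2 (b z2 z2))) (d (a z2 (b z2 z2)) (a z2 (b z2 z2))))) (a z2 (b (d (a z2 (b z2 z2)) (a z2 (b z2 z2))) (d (a z2 (b z2 z2)) (a z2 (b z2 z2)))))) (d (a z2 (b (d (a z2 (b z2 z2)) (a z2 (b z2 z2))) (d (a z2 (b z2 z2)) (a z2 (b z2 z2))))) (a z2 (b (d (a z2 (b z2 z2)) (a z2 (b z2 z2))) (d (a z2 (b z2 z2)) (a z2 (b z2 z2)))))))))) _ _ (by decide +kernel)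

theorem okI158 : CKI ⟨393216, 786432, 147456, 151552⟩ ⟨0, 0, 212992, 221184⟩ :=
  ckI_sound z4 _ _ (by decide +kernel)

theorem okI159 : CKI ⟨393216, 438588, 151552, 155648⟩ ⟨0, 0, 212992, 217088⟩ :=
  ckI_sound z0 _ _ (by decide +kernel)

theorem okI160 : CKI ⟨438588, 786432, 151552, 153600⟩ ⟨0, 0, 212992, 217088⟩ :=
  ckI_sound (d (a z4 (b (d (b (d (a z4 (b (d (a z4 (b z4 z2)) z4) (d (a z4 (b z2 z2)) z4))) z4) (d (a z4 (b (d (a z2 (b z2 z2)) (a z4 (b z2 z2))) (d (a z2 (b z2 z2)) (a z4 (b z2 z2))))) (a z4 (b z4 (d (a z4 (b z3 z3)) z4))))) z4) (d (a z2 (b (d (b (d (a z2 (b z2 z2)) (a z2 (b z2 z2))) (d (a z2 (b z2 z2)) (a z2 (b z2 z2)))) (b (d (a z2 (b z3 z3)) (a z4 (b z3 z3))) (d (a z2 (b z2 z2)) (a z4 (b z3 z3))))) (d (a z2 (b (d (b z2 z2) (b z2 z2)) (d (a z2 (b z2 z2)) (a z2 (b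 z2 z2))))) (a z2 (b (d (b z2 z2) (b z3 z3)) (d (a z2 (b z2 z2)) (a z2 (b z3 z3)))))))) (a z4 (b (d (b z4 (d (a z4 (b z4 z3)) z4)) z4) (d (a z4 (b (d (b z3 z3) (b z4 z3)) (d (a z2 (b z3 z3)) (a z4 (b z3 z3))))) (a z4 (b z4 (d (a z4 (b z4 (d z3 z4))) z4))))))))) z4) _ _ (by decide +kernel)

theorem okI161 : CKI ⟨438588, 786432, 153600, 155648⟩ ⟨0, 0, 212992, 215040⟩ :=
  ckI_sound (a z2 (b (d (a z2 (b (d (b (d (a z2 (b z2 z2)) (a z2 (b z2 z2))) (d (a z2 (b z2 z2)) (a z2 (b z2 z2)))) (b (d (a z2 (b z2 z2)) (a z2 (b z3 z3))) (d (a z2 (b z2 z2)) (a z2 (b z3 z3))))) (d (a z2 (b (d (b z2 z2) (b z2 z2)) (d (a z2 (b z2 z2)) (a z2 (b z2 z2))))) (a z2 (b (d (b z2 z2) (b z2 z2)) (d (a z2 (b z2 z2)) (a z2 (b z2 z2)))))))) (a z2 (b (d (b (d (a z2 (b z3 z3)) (a z2 (b z3 z3))) (d (a z2 (b z3 z3))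 (a z2 (b z3 z3)))) (b (d (a z4 (b (d z3 (a z4 (b z4 z2))) z3)) z4) (d (a z2 (b z3 z3)) (a z4 (b (d (a z4 (b z2 z2)) z4) (d (a z4 (b z2 z2)) (a z4 (b z2 z2)))))))) (d (a z2 (b (d (b z3 z3) (b z3 z3)) (d (a z2 (b z3 z3)) (a z2 (b z3 z3))))) (a z2 (b (d (b z3 z3) (b (d (a z2 (b z2 z2)) (a z2 (b z2 z2))) (d z3 (a z2 (b z2 z2))))) (d (a z2 (b z3 z3)) (a z2 (b (d z3 (b z2 z2)) (d z3 (a z2 (b z2 z2)))))))))))) (d (a z2 (b (d (a z2 (b (d (b z2 z2) (b z2 z2)) (d (a z2 (b z2 z2)) (a z2 (b z2 z2))))) (a z2 (b (d (b z2 z2) (b z2 z2)) (d (a z2 (b z2 z2)) (a z2 (b z2 z2)))))) (d (a z2 (b (d (a z2 (b z2 z2)) (a z2 (b z2 z2))) (d (a z2 (b z2 z2)) (a z2 (b z2 z2))))) (a z2 (b (d (a z2 (b z2 z2)) (a z2 (b z2 z2))) (d (a z2 (b z2 z2)) (a z2 (b z2 z2)))))))) (a z2 (b (d (a z2 (b (d (b z3 z3) (b z3 z3))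 (d (a z2 (b z3 z3)) (a z2 (b z3 z3))))) (a z2 (b (d (b z3 z3) (b (d z3 (a z2 (b z2 z2))) z3)) (d (a z2 (b z3 z3)) (a z2 (b z3 z3)))))) (d (a z2 (b (d (a z2 (b z3 z2)) (a z2 (b z3 z3))) (d (a z2 (b z2 z2)) (a z2 (b z3 z3))))) (a z2 (b (d (a z2 (b z3 z3)) (a z2 (b z3 z3))) (d (a z2 (b z3 z3)) (a z2 (b z3 z3))))))))))) _ _ (by decide +kernel)

theorem okI162 : CKI ⟨438588, 786432, 153600, 155648⟩ ⟨0, 0, 215040, 217088⟩ :=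
  ckI_sound (a z4 (b (d (a z4 (b z4 (d (a z4 (b (d (b (d (a z4 (b z2 z2)) z4) (d (a z4 (b z2 z2)) (a z4 (b z4 z2)))) z4) (d (a z2 (b (d (b z2 z2) (b z2 z2)) (d (a z2 (b z2 z2)) (a z2 (b z2 z2))))) (a z4 (b (d (b z4 z2) z4) (d (a z4 (b z2 z2)) (a z4 (b z4 z2)))))))) z4))) z4) (d (a z4 (b (d (a z2 (b (d (b (d (a z2 (b z2 z2)) (a z2 (b z2 z2))) (d (a z2 (b z2 z2)) (a z2 (b z2 z2)))) (b (d (a z2 (b z2 z2)) (a z4 (b z2 z2))) (d (a z2 (b z2 z2)) (a z2 (b z2 z2))))) (d (a z2 (b (d (b z2 z2) (b z2 z2)) (d (a z2 (b z2 z2)) (a z2 (b z2 z2))))) (a z2 (b (d (b z2 z2) (b z2 z2)) (d (a z2 (b z2 z2)) (a z2 (b z2 z2)))))))) (a z4 (b (d (b z4 (d (a z4 (b z2 z2)) z4)) z4) (d (a z2 (b (d (b z2 z2) (b z2 z2)) (d (a z2 (b z2 z2)) (a z2 (b z2 z2))))) (a z4 (b z4 (d (a z4 (b z2 z2)) z4))))))) (d (a z2 (b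 (d (a z2 (b (d (b z2 z2) (b z2 z2)) (d z3 (a z2 (b z2 z2))))) (a z2 (b (d (b z2 z2) (b z2 z2)) (d (a z2 (b z2 z2)) (a z2 (b z2 z2)))))) (d (a z2 (b (d z3 (a z2 (b z2 z2))) (d z3 (a z2 (b z2 z2))))) (a z2 (b (d (a z2 (b z2 z2)) (a z2 (b z2 z2))) (d (a z2 (b z2 z2)) (a z2 (b z2 z2)))))))) (a z2 (b (d (a z2 (b (d (b z2 z2) (b z2 z2)) (d (a z2 (b z2 z2)) (a z2 (b z2 z2))))) (a z2 (b (d (b z2 z2) (b z2 z2)) (d (a z2 (b z2 z2)) (a z2 (b z2 z2)))))) (d (a z2 (b (d (a z2 (b z2 z2)) (a z2 (b z2 z2))) (d (a z2 (b z2 z2)) (a z2 (b z2 z2))))) (a z2 (b (d (a z2 (b z2 z2)) (a z2 (b z2 z2))) (d (a z2 (b z2 z2)) (a z2 (b z2 z2))))))))))) (a z4 (b z4 (d (a z4 (b (d (a z4 (b z4 (d (a z4 (b z4 z2)) z4))) z4) (d (a z4 (b (d (a z2 (b z2 z2)) (a z4 (b z4 z2))) (d (a z2 (b z2 z2)) (a z4 (b z2 z2))))) (a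 z4 (b z4 (d (a z4 (b z4 z2)) z4)))))) z4)))))) _ _ (by decide +kernel)

theorem okI163 : CKI ⟨393216, 786432, 151552, 155648⟩ ⟨0, 0, 217088, 221184⟩ :=
  ckI_sound z4 _ _ (by decide +kernel)

theorem okI164 : CKI ⟨393216, 786432, 147456, 155648⟩ ⟨0, 0, 221184, 229376⟩ :=
  ckI_sound z0 _ _ (by decide +kernel)

end Vale.Agent.Lib.P154Q5
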