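import Vale.Agent.Lib.P154Q5.FormI

namespace Vale.Agent.Lib.P154Q5

set_option maxRecDepth 100000
set_option exponentiation.threshold 1000

open Tr

theorem okI1500 : CKI ⟨393216, 786432, 196544, 196608⟩ ⟨0, 0, 250240, 250304⟩ :=
  ckI_sound (b (d (b (d (b (d (b z2 z2) (b z2 z2)) (d (b z2 z2) (b z2 z2))) (b (d (b z2 z2) (b z2 z2)) (d (b z2 z2) (b z2 z2)))) (d (b (d (b z2 z2) (b z2 z2)) (d (b z2 z2) (b z2 z2))) (b (d (b z2 z2) (b z2 z2)) (d (b z2 z2) (b z2 z2))))) (b (d (b (d (b z2 z2) (b z2 z2)) (d (b z2 z2) (b z2 z2))) (b (d (b z2 z2) (b z2 z2)) (d (b z2 z2) (b z2 z2)))) (d (b (d (b z2 z2) (b z2 z2)) (d (b z2 z2) (b z2 z2))) (b (d (b z2 z2) (b z2 z2)) (d (b z2 z2) (b z2 z2)))))) (d (b (d (b (d (b z2 z2) (b z2 z2)) (d (b z2 z2) (b z2 z2))) (b (d (b z2 z2) (b z2 z2)) (d (b z2 z2) (b z2 z2))))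 (d (b (d (b z2 z2) (b z2 z2)) (d (b z3 (d (b z2 z0) (b z2 z0))) (b z3 (d (b z2 z0) (b z2 z0))))) (b (d (b z2 z2) (b z2 z2)) (d (b z3 (d (b z2 z0) (b z2 z0))) (b z3 (d (b z2 z0) (b z2 z0))))))) (b (d (b (d (b z2 z2) (b z2 z2)) (d (b z2 z2) (b z2 z2))) (b (d (b z2 z2) (b z2 z2)) (d (b z2 z2) (b z2 z2)))) (d (b (d (b z2 z2) (b z2 z2)) (d (b z3 (d (b z2 z0) (b z2 z0))) (b z3 (d (b z2 z0) (b z2 z0))))) (b (d (b z2 z2) (b z2 z2)) (d (b z3 (d (b z2 z0) (b z2 z0))) (b z3 (d (b z2 z0) (b z2 z0))))))))) _ _ (by decide +kernel)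

theorem okI1501 : CKI ⟨393216, 786432, 196544, 196608⟩ ⟨0, 0, 250304, 250368⟩ :=
  ckI_sound (b (d (b (d (b (d (b z2 z2) (b z2 z2)) (d (b z2 z2) (b z2 z2))) (b (d (b z2 z2) (b z2 z2)) (d (b z2 z2) (b z2 z2)))) (d (b (d (b z2 z2) (b z2 z2)) (d (b z2 z2) (b z2 z2))) (b (d (b z2 z2) (b z2 z2)) (d (b z2 z2) (b z2 z2))))) (b (d (b (d (b z2 z2) (b z2 z2)) (d (b z2 z2) (b z2 z2))) (b (d (b z2 z2) (b z2 z2)) (d (b z2 z2) (b z2 z2)))) (d (b (d (b z2 z2) (b z2 z2)) (d (b z2 z2) (b z2 z2))) (b (d (b z2 z2) (b z2 z2)) (d (b z2 z2) (b z2 z2)))))) (d (b (d (b (d (b z2 z2) (b z2 z2)) (d (b z2 z2) (b z2 z2))) (b (d (b z2 z2) (b z2 z2)) (d (b z2 z2) (b z2 z2)))) (d (b (d (b z2 z2) (b z2 z2)) (d (b z3 (d (b z2 z0) (b z2 z0))) (b z3 (d (b z2 z0) (b z2 z0))))) (b (d (b z2 z2) (b z2 z2)) (d (b z3 (d (b z2 z0)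 (b z2 z0))) (b z3 (d (b z2 z0) (b z2 z0))))))) (b (d (b (d (b z2 z2) (b z2 z2)) (d (b z2 z2) (b z2 z2))) (b (d (b z2 z2) (b z2 z2)) (d (b z2 z2) (b z2 z2)))) (d (b (d (b z2 z2) (b z2 z2)) (d (b z3 (d (b z2 z0) (b z2 z0))) (b z3 (d (b z2 z0) (b z2 z0))))) (b (d (b z2 z2) (b z2 z2)) (d (b z3 (d (b z2 z0) (b z2 z0))) (b z3 (d (b z2 z0) (b z2 z0))))))))) _ _ (by decide +kernel)

theorem okI1502 : CKI ⟨393216, 786432, 196096, 196352⟩ ⟨0, 0, 250368, 250624⟩ :=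
  ckI_sound (b (d (b (d (b (d (b z2 z2) (b z2 z2)) (d (b z2 z2) (b z2 z2))) (b (d (b z2 z2) (b z2 z2)) (d (b z2 z2) (b z2 z2)))) (d (b (d (b z2 z2) (b z2 z2)) (d (b z2 z2) (b z2 z2))) (b (d (b z2 z2) (b z2 z2)) (d (b z2 z2) (b z2 z2))))) (b (d (b (d (b z2 z2) (b z2 z2)) (d (b z2 z2) (b z2 z2))) (b (d (b z2 z2) (b z2 z2)) (d (b z2 z2) (b z2 z2)))) (d (b (d (b z2 z2) (b z2 z2)) (d (b z2 z2) (b z2 z2))) (b (d (b z2 z2) (b z2 z2)) (d (b z2 z2) (b z2 z2)))))) (d (b (d (b (d (b z2 z2) (b z2 z2)) (d (b z2 z2) (b z2 z2))) (b (d (b z2 z2) (b z2 z2)) (d (b z2 z2) (b z2 z2)))) (d (b (d (b z2 (d (b z2 z2) (b z2 z2))) (b z2 (d (b z2 z2) (b z2 z2)))) (d (b (d (b z2 z2) (b z2 z2)) (d (b z2 z2) (b z2 z2))) (b (d (b z2 z2) (b z2 z2)) (d (b z2 z2) (b z2 z2))))) (b (d (b z2 (d (b z2 z2) (b z2 z2))) (b z2 (d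 (b z2 z2) (b z2 z2)))) (d (b (d (b z2 z2) (b z2 z2)) (d (b z2 z2) (b z2 z2))) (b (d (b z2 z2) (b z2 z2)) (d (b z2 z2) (b z2 z2))))))) (b (d (b (d (b z2 z2) (b z2 z2)) (d (b z2 z2) (b z2 z2))) (b (d (b z2 z2) (b z2 z2)) (d (b z2 z2) (b z2 z2)))) (d (b (d (b z2 (d (b z2 z2) (b z2 z2))) (b z2 (d (b z2 z2) (b z2 z2)))) (d (b (d (b z2 z2) (b z2 z2)) (d (b z2 z2) (b z2 z2))) (b (d (b z2 z2) (b z2 z2)) (d (b z2 z2) (b z2 z2))))) (b (d (b z2 (d (b z2 z2) (b z2 z2))) (b z2 (d (b z2 z2) (b z2 z2)))) (d (b (d (b z2 z2) (b z2 z2)) (d (b z2 z2) (b z2 z2))) (b (d (b z2 z2) (b z2 z2)) (d (b z2 z2) (b z2 z2))))))))) _ _ (by decide +kernel)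

theorem okI1503 : CKI ⟨393216, 786432, 196096, 196352⟩ ⟨0, 0, 250624, 250880⟩ :=
  ckI_sound (b (d (b (d (b (d (b z2 z2) (b z2 z2)) (d (b z2 z2) (b z2 z2))) (b (d (b z2 z2) (b z2 z2)) (d (b z2 z2) (b z2 z2)))) (d (b (d (b z2 z2) (b z2 z2)) (d (b z2 z2) (b z2 z2))) (b (d (b z2 z2) (b z2 z2)) (d (b z2 z2) (b z2 z2))))) (b (d (b (d (b z2 z2) (b z2 z2)) (d (b z2 z2) (b z2 z2))) (b (d (b z2 z2) (b z2 z2)) (d (b z2 z2) (b z2 z2)))) (d (b (d (b z2 z2) (b z2 z2)) (d (b z2 z2) (b z2 z2))) (b (d (b z2 z2) (b z2 z2)) (d (b z2 z2) (b z2 z2)))))) (d (b (d (b (d (b z2 z2) (b z2 z2)) (d (b z2 z2) (b z2 z2))) (b (d (b z2 z2) (b z2 z2)) (d (b z2 z2) (b z2 z2)))) (d (b (d (b z2 (d (b z2 z2) (b z2 z2))) (b z2 (d (b z2 z2) (b z2 z2)))) (d (b (d (b z2 z2) (b z2 z2)) (d (b z2 z2) (b z2 z2))) (b (d (b z2 z2)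 (b z2 z2)) (d (b z2 z2) (b z2 z2))))) (b (d (b z2 (d (b z2 z2) (b z2 z2))) (b z2 (d (b z2 z2) (b z2 z2)))) (d (b (d (b z2 z2) (b z2 z2)) (d (b z2 z2) (b z2 z2))) (b (d (b z2 z2) (b z2 z2)) (d (b z2 z2) (b z2 z2))))))) (b (d (b (d (b z2 z2) (b z2 z2)) (d (b z2 z2) (b z2 z2))) (b (d (b z2 z2) (b z2 z2)) (d (b z2 z2) (b z2 z2)))) (d (b (d (b z2 (d (b z2 z2) (b z2 z2))) (b z2 (d (b z2 z2) (b z2 z2)))) (d (b (d (b z2 z2) (b z2 z2)) (d (b z2 z2) (b z2 z2))) (b (d (b z2 z2) (b z2 z2)) (d (b z2 z2) (b z2 z2))))) (b (d (b z2 (d (b z2 z2) (b z2 z2))) (b z2 (d (b z2 z2) (b z2 z2)))) (d (b (d (b z2 z2) (b z2 z2)) (d (b z2 z2) (b z2 z2))) (b (d (b z2 z2) (b z2 z2)) (d (b z2 z2) (b z2 z2))))))))) _ _ (by decide +kernel)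

theorem okI1504 : CKI ⟨393216, 786432, 196352, 196480⟩ ⟨0, 0, 250368, 250624⟩ :=
  ckI_sound (d (b (d (b (d (b (d (b z2 z2) (b z2 z2)) (d (b z2 z2) (b z2 z2))) (b (d (b z2 z2) (b z2 z2)) (d (b z2 z2) (b z2 z2)))) (d (b (d (b z2 z2) (b z2 z2)) (d (b z2 z2) (b z2 z2))) (b (d (b z2 z2) (b z2 z2)) (d (b z2 z2) (b z2 z2))))) (b (d (b (d (b z2 z2) (b z2 z2)) (d (b z2 z2) (b z2 z2))) (b (d (b z2 z2) (b z2 z2)) (d (b z2 z2) (b z2 z2)))) (d (b (d (b z2 z2) (b z2 z2)) (d (b z2 z2) (b z2 z2))) (b (d (b z2 z2) (b z2 z2)) (d (b z2 z2) (b z2 z2)))))) (d (b (d (b (d (b z2 z2) (b z2 z2)) (d (b z2 z2) (b z2 z2))) (b (d (b z2 z2) (b z2 z2)) (d (b z2 z2) (b z2 z2)))) (d (b (d (b z2 z2) (b z2 z2)) (d (b z2 z2) (b z2 z2))) (b (d (b z2 z2) (b z2 z2)) (d (b z2 z2) (b z2 z2))))) (b (d (b (d (b z2 z2) (b z2 z2))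 (d (b z2 z2) (b z2 z2))) (b (d (b z2 z2) (b z2 z2)) (d (b z2 z2) (b z2 z2)))) (d (b (d (b z2 z2) (b z2 z2)) (d (b z2 z2) (b z2 z2))) (b (d (b z2 z2) (b z2 z2)) (d (b z2 z2) (b z2 z2))))))) (b (d (b (d (b (d (b z2 z2) (b z2 z2)) (d (b z2 z2) (b z2 z2))) (b (d (b z2 z2) (b z2 z2)) (d (b z2 z2) (b z2 z2)))) (d (b (d (b z2 z2) (b z2 z2)) (d (b z2 z2) (b z2 z2))) (b (d (b z2 z2) (b z2 z2)) (d (b z2 z2) (b z2 z2))))) (b (d (b (d (b z2 z2) (b z2 z2)) (d (b z2 z2) (b z2 z2))) (b (d (b z2 z2) (b z2 z2)) (d (b z2 z2) (b z2 z2)))) (d (b (d (b z2 z2) (b z2 z2)) (d (b z2 z2) (b z2 z2))) (b (d (b z2 z2) (b z2 z2)) (d (b z2 z2) (b z2 z2)))))) (d (b (d (b (d (b z2 z2) (b z2 z2)) (d (b z2 z2) (b z2 z2))) (b (d (b z2 z2) (b z2 z2)) (d (b z2 z2) (b z2 z2)))) (d (b (d (b z2 z2) (b z2 z2)) (d (b z2 z2) (b z2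 z2))) (b (d (b z2 z2) (b z2 z2)) (d (b z2 z2) (b z2 z2))))) (b (d (b (d (b z2 z2) (b z2 z2)) (d (b z2 z2) (b z2 z2))) (b (d (b z2 z2) (b z2 z2)) (d (b z2 z2) (b z2 z2)))) (d (b (d (b z2 z2) (b z2 z2)) (d (b z2 z2) (b z2 z2))) (b (d (b z2 z2) (b z2 z2)) (d (b z2 z2) (b z2 z2)))))))) _ _ (by decide +kernel)

theorem okI1505 : CKI ⟨393216, 786432, 196480, 196544⟩ ⟨0, 0, 250368, 250496⟩ :=
  ckI_sound (d (b (d (b (d (b z2 z2) (b z2 z2)) (d (b z2 (d (b z2 z2) (b z2 z2))) (b z2 (d (b z2 z2) (b z2 z2))))) (b (d (b z2 z2) (b z2 z2)) (d (b z2 (d (b z2 z2) (b z2 z2))) (b z2 (d (b z2 z2) (b z2 z2)))))) (d (b (d (b (d (b z2 z2) (b z2 z2)) (d (b z2 z2) (b z2 z2))) (b (d (b z2 z2) (b z2 z2)) (d (b z2 z2) (b z2 z2)))) (d (b (d (b z2 z2) (b z2 z2)) (d (b z2 z2) (b z2 z2))) (b (d (b z2 z2) (b z2 z2)) (d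 (b z2 z2) (b z2 z2))))) (b (d (b (d (b z2 z2) (b z2 z2)) (d (b z2 z2) (b z2 z2))) (b (d (b z2 z2) (b z2 z2)) (d (b z2 z2) (b z2 z2)))) (d (b (d (b z2 z2) (b z2 z2)) (d (b z2 z2) (b z2 z2))) (b (d (b z2 z2) (b z2 z2)) (d (b z2 z2) (b z2 z2))))))) (b (d (b (d (b z2 z2) (b z2 z2)) (d (b z2 (d (b z2 z2) (b z2 z2))) (b z2 (d (b z2 z2) (b z2 z2))))) (b (d (b z2 z2) (b z2 z2)) (d (b z2 (d (b z2 z2) (b z2 z2))) (b z2 (d (b z2 z2) (b z2 z2)))))) (d (b (d (b (d (b z2 z2) (b z2 z2)) (d (b z2 z2) (b z2 z2))) (b (d (b z2 z2) (b z2 z2)) (d (b z2 z2) (b z2 z2)))) (d (b (d (b z2 z2) (b z2 z2)) (d (b z2 z2) (b z2 z2))) (b (d (b z2 z2) (b z2 z2)) (d (b z2 z2) (b z2 z2))))) (b (d (b (d (b z2 z2) (b z2 z2)) (d (b z2 z2) (b z2 z2))) (b (d (b z2 z2) (b z2 z2)) (d (b z2 z2) (b z2 z2)))) (d (b (d (b z2 z2) (b z2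 z2)) (d (b z2 z2) (b z2 z2))) (b (d (b z2 z2) (b z2 z2)) (d (b z2 z2) (b z2 z2)))))))) _ _ (by decide +kernel)

theorem okI1506 : CKI ⟨393216, 786432, 196544, 196608⟩ ⟨0, 0, 250368, 250432⟩ :=
  ckI_sound (b (d (b (d (b (d (b z2 z2) (b z2 z2)) (d (b z2 z2) (b z2 z2))) (b (d (b z2 z2) (b z2 z2)) (d (b z2 z2) (b z2 z2)))) (d (b (d (b z2 z2) (b z2 z2)) (d (b z2 z2) (b z2 z2))) (b (d (b z2 z2) (b z2 z2)) (d (b z2 z2) (b z2 z2))))) (b (d (b (d (b z2 z2) (b z2 z2)) (d (b z2 z2) (b z2 z2))) (b (d (b z2 z2) (b z2 z2)) (d (b z2 z2) (b z2 z2)))) (d (b (d (b z2 z2) (b z2 z2)) (d (b z2 z2) (b z2 z2))) (b (d (b z2 z2) (b z2 z2)) (d (b z2 z2) (b z2 z2)))))) (d (b (d (b (d (b z2 z2) (b z2 z2)) (d (b z2 z2) (b z2 z2))) (b (d (b z2 z2) (b z2 z2)) (d (b z2 z2) (b z2 z2)))) (d (b (d (b z2 z2) (b z2 z2)) (d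 (b z3 (d (b z2 z0) (b z2 z0))) (b z3 (d (b z2 z0) (b z2 z0))))) (b (d (b z2 z2) (b z2 z2)) (d (b z3 (d (b z2 z0) (b z2 z0))) (b z3 (d (b z2 z0) (b z2 z0))))))) (b (d (b (d (b z2 z2) (b z2 z2)) (d (b z2 z2) (b z2 z2))) (b (d (b z2 z2) (b z2 z2)) (d (b z2 z2) (b z2 z2)))) (d (b (d (b z2 z2) (b z2 z2)) (d (b z3 (d (b z2 z0) (b z2 z0))) (b z3 (d (b z2 z0) (b z2 z0))))) (b (d (b z2 z2) (b z2 z2)) (d (b z3 (d (b z2 z0) (b z2 z0))) (b z3 (d (b z2 z0) (b z2 z0))))))))) _ _ (by decide +kernel)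

theorem okI1507 : CKI ⟨393216, 786432, 196544, 196608⟩ ⟨0, 0, 250432, 250496⟩ :=
  ckI_sound (b (d (b (d (b (d (b z2 z2) (b z2 z2)) (d (b z2 z2) (b z2 z2))) (b (d (b z2 z2) (b z2 z2)) (d (b z2 z2) (b z2 z2)))) (d (b (d (b z2 z2) (b z2 z2)) (d (b z2 z2) (b z2 z2))) (b (d (b z2 z2) (b z2 z2)) (d (b z2 z2) (b z2 z2))))) (b (d (b (d (b z2 z2) (b z2 z2)) (d (b z2 z2) (b z2 z2))) (b (d (b z2 z2) (b z2 z2)) (d (b z2 z2) (b z2 z2)))) (d (b (d (b z2 z2) (b z2 z2)) (d (b z2 z2) (b z2 z2))) (b (d (b z2 z2) (b z2 z2)) (d (b z2 z2) (b z2 z2)))))) (d (b (d (b (d (b z2 z2) (b z2 z2)) (d (b z2 z2) (b z2 z2))) (b (d (b z2 z2) (b z2 z2)) (d (b z2 z2) (b z2 z2)))) (d (b (d (b z2 z2) (b z2 z2)) (d (b z3 (d (b z2 z0) (b z2 z0))) (b z3 (d (b z2 z0) (b z2 z0))))) (b (d (b z2 z2) (b z2 z2)) (d (b z3 (d (b z2 z0)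 (b z2 z0))) (b z3 (d (b z2 z0) (b z2 z0))))))) (b (d (b (d (b z2 z2) (b z2 z2)) (d (b z2 z2) (b z2 z2))) (b (d (b z2 z2) (b z2 z2)) (d (b z2 z2) (b z2 z2)))) (d (b (d (b z2 z2) (b z2 z2)) (d (b z3 (d (b z2 z0) (b z2 z0))) (b z3 (d (b z2 z0) (b z2 z0))))) (b (d (b z2 z2) (b z2 z2)) (d (b z3 (d (b z2 z0) (b z2 z0))) (b z3 (d (b z2 z0) (b z2 z0))))))))) _ _ (by decide +kernel)

theorem okI1508 : CKI ⟨393216, 786432, 196480, 196544⟩ ⟨0, 0, 250496, 250624⟩ :=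
  ckI_sound (d (b (d (b (d (b z2 z2) (b z2 z2)) (d (b z2 (d (b z2 z2) (b z2 z2))) (b z2 (d (b z2 z2) (b z2 z2))))) (b (d (b z2 z2) (b z2 z2)) (d (b z2 (d (b z2 z2) (b z2 z2))) (b z2 (d (b z2 z2) (b z2 z2)))))) (d (b (d (b (d (b z2 z2) (b z2 z2)) (d (b z2 z2) (b z2 z2))) (b (d (b z2 z2) (b z2 z2)) (d (b z2 z2) (b z2 z2)))) (d (b (d (b z2 z2) (b z2 z2)) (d (b z2 z2) (b z2 z2))) (b (d (b z2 z2) (b z2 z2)) (d (b z2 z2) (b z2 z2))))) (b (d (b (d (b z2 z2) (b z2 z2)) (d (b z2 z2) (b z2 z2))) (b (d (b z2 z2) (b z2 z2)) (d (b z2 z2) (b z2 z2)))) (d (b (d (b z2 z2) (b z2 z2)) (d (b z2 z2) (b z2 z2))) (b (d (b z2 z2) (b z2 z2)) (d (b z2 z2) (b z2 z2))))))) (b (d (b (d (b z2 z2) (b z2 z2)) (d (b z2 (d (b z2 z2) (b z2 z2))) (b z2 (d (b z2 z2) (b z2 z2))))) (b (d (b z2 z2) (b z2 z2)) (d (b z2 (d (b z2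 z2) (b z2 z2))) (b z2 (d (b z2 z2) (b z2 z2)))))) (d (b (d (b (d (b z2 z2) (b z2 z2)) (d (b z2 z2) (b z2 z2))) (b (d (b z2 z2) (b z2 z2)) (d (b z2 z2) (b z2 z2)))) (d (b (d (b z2 z2) (b z2 z2)) (d (b z2 z2) (b z2 z2))) (b (d (b z2 z2) (b z2 z2)) (d (b z2 z2) (b z2 z2))))) (b (d (b (d (b z2 z2) (b z2 z2)) (d (b z2 z2) (b z2 z2))) (b (d (b z2 z2) (b z2 z2)) (d (b z2 z2) (b z2 z2)))) (d (b (d (b z2 z2) (b z2 z2)) (d (b z2 z2) (b z2 z2))) (b (d (b z2 z2) (b z2 z2)) (d (b z2 z2) (b z2 z2)))))))) _ _ (by decide +kernel)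

theorem okI1509 : CKI ⟨393216, 786432, 196544, 196608⟩ ⟨0, 0, 250496, 250560⟩ :=
  ckI_sound (b (d (b (d (b (d (b z2 z2) (b z2 z2)) (d (b z2 z2) (b z2 z2))) (b (d (b z2 z2) (b z2 z2)) (d (b z2 z2) (b z2 z2)))) (d (b (d (b z2 z2) (b z2 z2)) (d (b z2 z2) (b z2 z2))) (b (d (b z2 z2) (b z2 z2)) (d (b z2 z2) (b z2 z2))))) (b (d (b (d (b z2 z2) (b z2 z2)) (d (b z2 z2) (b z2 z2))) (b (d (b z2 z2) (b z2 z2)) (d (b z2 z2) (b z2 z2)))) (d (b (d (b z2 z2) (b z2 z2)) (d (b z2 z2) (b z2 z2))) (b (d (b z2 z2) (b z2 z2)) (d (b z2 z2) (b z2 z2)))))) (d (b (d (b (d (b z2 z2) (b z2 z2)) (d (b z2 z2) (b z2 z2))) (b (d (b z2 z2) (b z2 z2)) (d (b z2 z2) (b z2 z2)))) (d (b (d (b z2 z2) (b z2 z2)) (d (b z3 (d (b z2 z0) (b z2 z0))) (b (d z3 (b z2 z2)) (d (b z2 z0) (b z2 z0))))) (b (d (b z2 z2) (b z2 z2)) (d (b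 (d (b z2 z2) (b z2 z2)) (d (b z2 z0) (b z2 z0))) (b (d (b z2 z2) (b z2 z2)) (d (b z2 z0) (b z2 z0))))))) (b (d (b (d (b z2 z2) (b z2 z2)) (d (b z2 z2) (b z2 z2))) (b (d (b z2 z2) (b z2 z2)) (d (b z2 z2) (b z2 z2)))) (d (b (d (b z2 z2) (b z2 z2)) (d (b (d (b z2 z2) (b z2 z2)) (d (b z2 z0) (b z2 z0))) (b (d (b z2 z2) (b z2 z2)) (d (b z2 z0) (b z2 z0))))) (b (d (b z2 z2) (b z2 z2)) (d (b (d (b z2 z2) (b z2 z2)) (d (b z2 z0) (b z2 z0))) (b (d (b z2 z2) (b z2 z2)) (d (b z2 z0) (b z2 z0))))))))) _ _ (by decide +kernel)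

theorem okI1510 : CKI ⟨393216, 786432, 196544, 196608⟩ ⟨0, 0, 250560, 250624⟩ :=
  ckI_sound (b (d (b (d (b (d (b z2 z2) (b z2 z2)) (d (b z2 z2) (b z2 z2))) (b (d (b z2 z2) (b z2 z2)) (d (b z2 z2) (b z2 z2)))) (d (b (d (b z2 z2) (b z2 z2)) (d (b z2 z2) (b z2 z2))) (b (d (b z2 z2) (b z2 z2)) (d (b z2 z2) (b z2 z2))))) (b (d (b (d (b z2 z2) (b z2 z2)) (d (b z2 z2) (b z2 z2))) (b (d (b z2 z2) (b z2 z2)) (d (b z2 z2) (b z2 z2)))) (d (b (d (b z2 z2) (b z2 z2)) (d (b z2 z2) (b z2 z2))) (b (d (b z2 z2) (b z2 z2)) (d (b z2 z2) (b z2 z2)))))) (d (b (d (b (d (b z2 z2) (b z2 z2)) (d (b z2 z2) (b z2 z2))) (b (d (b z2 z2) (b z2 z2)) (d (b z2 z2) (b z2 z2)))) (d (b (d (b z2 z2) (b z2 z2)) (d (b (d (b z2 z2) (b z2 z2)) (d (b z2 z0) (b z2 z0))) (b (d (b z2 z2) (b z2 z2)) (d (b z2 z0) (b z2 z0))))) (b (d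 (b z2 z2) (b z2 z2)) (d (b (d (b z2 z2) (b z2 z2)) (d (b z2 z0) (b z2 z0))) (b (d (b z2 z2) (b z2 z2)) (d (b z2 z0) (b z2 z0))))))) (b (d (b (d (b z2 z2) (b z2 z2)) (d (b z2 z2) (b z2 z2))) (b (d (b z2 z2) (b z2 z2)) (d (b z2 z2) (b z2 z2)))) (d (b (d (b z2 z2) (b z2 z2)) (d (b (d (b z2 z2) (b z2 z2)) (d (b z2 z0) (b z2 z0))) (b (d (b z2 z2) (b z2 z2)) (d (b z2 z0) (b z2 z0))))) (b (d (b z2 z2) (b z2 z2)) (d (b (d (b z2 z2) (b z2 z2)) (d (b z2 z0) (b z2 z0))) (b (d (b z2 z2) (b z2 z2)) (d (b z2 z0) (b z2 z0))))))))) _ _ (by decide +kernel)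

theorem okI1511 : CKI ⟨393216, 786432, 196352, 196480⟩ ⟨0, 0, 250624, 250880⟩ :=
  ckI_sound (d (b (d (b (d (b (d (b z2 z2) (b z2 z2)) (d (b z2 z2) (b z2 z2))) (b (d (b z2 z2) (b z2 z2)) (d (b z2 z2) (b z2 z2)))) (d (b (d (b z2 z2) (b z2 z2)) (d (b z2 z2) (b z2 z2))) (b (d (b z2 z2) (b z2 z2)) (d (b z2 z2) (b z2 z2))))) (b (d (b (d (b z2 z2) (b z2 z2)) (d (b z2 z2) (b z2 z2))) (b (d (b z2 z2) (b z2 z2)) (d (b z2 z2) (b z2 z2)))) (d (b (d (b z2 z2) (b z2 z2)) (d (b z2 z2) (b z2 z2))) (b (d (b z2 z2) (b z2 z2)) (d (b z2 z2) (b z2 z2)))))) (d (b (d (b (d (b z2 z2) (b z2 z2)) (d (b z2 z2) (b z2 z2))) (b (d (b z2 z2) (b z2 z2)) (d (b z2 z2) (b z2 z2)))) (d (b (d (b z2 z2) (b z2 z2)) (d (b z2 z2) (b z2 z2))) (b (d (b z2 z2) (b z2 z2)) (d (b z2 z2) (b z2 z2))))) (b (d (b (d (b z2 z2) (b z2 z2))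 (d (b z2 z2) (b z2 z2))) (b (d (b z2 z2) (b z2 z2)) (d (b z2 z2) (b z2 z2)))) (d (b (d (b z2 z2) (b z2 z2)) (d (b z2 z2) (b z2 z2))) (b (d (b z2 z2) (b z2 z2)) (d (b z2 z2) (b z2 z2))))))) (b (d (b (d (b (d (b z2 z2) (b z2 z2)) (d (b z2 z2) (b z2 z2))) (b (d (b z2 z2) (b z2 z2)) (d (b z2 z2) (b z2 z2)))) (d (b (d (b z2 z2) (b z2 z2)) (d (b z2 z2) (b z2 z2))) (b (d (b z2 z2) (b z2 z2)) (d (b z2 z2) (b z2 z2))))) (b (d (b (d (b z2 z2) (b z2 z2)) (d (b z2 z2) (b z2 z2))) (b (d (b z2 z2) (b z2 z2)) (d (b z2 z2) (b z2 z2)))) (d (b (d (b z2 z2) (b z2 z2)) (d (b z2 z2) (b z2 z2))) (b (d (b z2 z2) (b z2 z2)) (d (b z2 z2) (b z2 z2)))))) (d (b (d (b (d (b z2 z2) (b z2 z2)) (d (b z2 z2) (b z2 z2))) (b (d (b z2 z2) (b z2 z2)) (d (b z2 z2) (b z2 z2)))) (d (b (d (b z2 z2) (b z2 z2)) (d (b z2 z2) (b z2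 z2))) (b (d (b z2 z2) (b z2 z2)) (d (b z2 z2) (b z2 z2))))) (b (d (b (d (b z2 z2) (b z2 z2)) (d (b z2 z2) (b z2 z2))) (b (d (b z2 z2) (b z2 z2)) (d (b z2 z2) (b z2 z2)))) (d (b (d (b z2 z2) (b z2 z2)) (d (b z2 z2) (b z2 z2))) (b (d (b z2 z2) (b z2 z2)) (d (b z2 z2) (b z2 z2)))))))) _ _ (by decide +kernel)

theorem okI1512 : CKI ⟨393216, 786432, 196480, 196544⟩ ⟨0, 0, 250624, 250752⟩ :=
  ckI_sound (d (b (d (b (d (b z2 z2) (b z2 z2)) (d (b z2 (d (b z2 z2) (b z2 z2))) (b z2 (d (b z2 z2) (b z2 z2))))) (b (d (b z2 z2) (b z2 z2)) (d (b z2 (d (b z2 z2) (b z2 z2))) (b z2 (d (b z2 z2) (b z2 z2)))))) (d (b (d (b (d (b z2 z2) (b z2 z2)) (d (b z2 z2) (b z2 z2))) (b (d (b z2 z2) (b z2 z2)) (d (b z2 z2) (b z2 z2)))) (d (b (d (b z2 z2) (b z2 z2)) (d (b z2 z2) (b z2 z2))) (b (d (b z2 z2) (b z2 z2)) (d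 (b z2 z2) (b z2 z2))))) (b (d (b (d (b z2 z2) (b z2 z2)) (d (b z2 z2) (b z2 z2))) (b (d (b z2 z2) (b z2 z2)) (d (b z2 z2) (b z2 z2)))) (d (b (d (b z2 z2) (b z2 z2)) (d (b z2 z2) (b z2 z2))) (b (d (b z2 z2) (b z2 z2)) (d (b z2 z2) (b z2 z2))))))) (b (d (b (d (b z2 z2) (b z2 z2)) (d (b z2 (d (b z2 z2) (b z2 z2))) (b z2 (d (b z2 z2) (b z2 z2))))) (b (d (b z2 z2) (b z2 z2)) (d (b z2 (d (b z2 z2) (b z2 z2))) (b z2 (d (b z2 z2) (b z2 z2)))))) (d (b (d (b (d (b z2 z2) (b z2 z2)) (d (b z2 z2) (b z2 z2))) (b (d (b z2 z2) (b z2 z2)) (d (b z2 z2) (b z2 z2)))) (d (b (d (b z2 z2) (b z2 z2)) (d (b z2 z2) (b z2 z2))) (b (d (b z2 z2) (b z2 z2)) (d (b z2 z2) (b z2 z2))))) (b (d (b (d (b z2 z2) (b z2 z2)) (d (b z2 z2) (b z2 z2))) (b (d (b z2 z2) (b z2 z2)) (d (b z2 z2) (b z2 z2)))) (d (b (d (b z2 z2) (b z2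 z2)) (d (b z2 z2) (b z2 z2))) (b (d (b z2 z2) (b z2 z2)) (d (b z2 z2) (b z2 z2)))))))) _ _ (by decide +kernel)

theorem okI1513 : CKI ⟨393216, 786432, 196544, 196608⟩ ⟨0, 0, 250624, 250688⟩ :=
  ckI_sound (b (d (b (d (b (d (b z2 z2) (b z2 z2)) (d (b z2 z2) (b z2 z2))) (b (d (b z2 z2) (b z2 z2)) (d (b z2 z2) (b z2 z2)))) (d (b (d (b z2 z2) (b z2 z2)) (d (b z2 z2) (b z2 z2))) (b (d (b z2 z2) (b z2 z2)) (d (b z2 z2) (b z2 z2))))) (b (d (b (d (b z2 z2) (b z2 z2)) (d (b z2 z2) (b z2 z2))) (b (d (b z2 z2) (b z2 z2)) (d (b z2 z2) (b z2 z2)))) (d (b (d (b z2 z2) (b z2 z2)) (d (b z2 z2) (b z2 z2))) (b (d (b z2 z2) (b z2 z2)) (d (b z2 z2) (b z2 z2)))))) (d (b (d (b (d (b z2 z2) (b z2 z2)) (d (b z2 z2) (b z2 z2))) (b (d (b z2 z2) (b z2 z2)) (d (b z2 z2) (b z2 z2)))) (d (b (d (b z2 z2) (b z2 z2)) (d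 (b (d (b z2 z2) (b z2 z2)) (d (b z2 z0) (b z2 z0))) (b (d (b z2 z2) (b z2 z2)) (d (b z2 z0) (b z2 z0))))) (b (d (b z2 z2) (b z2 z2)) (d (b (d (b z2 z2) (b z2 z2)) (d (b z2 z0) (b z2 z0))) (b (d (b z2 z2) (b z2 z2)) (d (b z2 z0) (b z2 z0))))))) (b (d (b (d (b z2 z2) (b z2 z2)) (d (b z2 z2) (b z2 z2))) (b (d (b z2 z2) (b z2 z2)) (d (b z2 z2) (b z2 z2)))) (d (b (d (b z2 z2) (b z2 z2)) (d (b (d (b z2 z2) (b z2 z2)) (d (b z2 z0) (b z2 z0))) (b (d (b z2 z2) (b z2 z2)) (d (b z2 z0) (b z2 z0))))) (b (d (b z2 z2) (b z2 z2)) (d (b (d (b z2 z2) (b z2 z2)) (d (b z2 z0) (b z2 z0))) (b (d (b z2 z2) (b z2 z2)) (d (b z2 z0) (b z2 z0))))))))) _ _ (by decide +kernel)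

theorem okI1514 : CKI ⟨393216, 786432, 196544, 196608⟩ ⟨0, 0, 250688, 250752⟩ :=
  ckI_sound (b (d (b (d (b (d (b z2 z2) (b z2 z2)) (d (b z2 z2) (b z2 z2))) (b (d (b z2 z2) (b z2 z2)) (d (b z2 z2) (b z2 z2)))) (d (b (d (b z2 z2) (b z2 z2)) (d (b z2 z2) (b z2 z2))) (b (d (b z2 z2) (b z2 z2)) (d (b z2 z2) (b z2 z2))))) (b (d (b (d (b z2 z2) (b z2 z2)) (d (b z2 z2) (b z2 z2))) (b (d (b z2 z2) (b z2 z2)) (d (b z2 z2) (b z2 z2)))) (d (b (d (b z2 z2) (b z2 z2)) (d (b z2 z2) (b z2 z2))) (b (d (b z2 z2) (b z2 z2)) (d (b z2 z2) (b z2 z2)))))) (d (b (d (b (d (b z2 z2) (b z2 z2)) (d (b z2 z2) (b z2 z2))) (b (d (b z2 z2) (b z2 z2)) (d (b z2 z2) (b z2 z2)))) (d (b (d (b z2 z2) (b z2 z2)) (d (b (d (b z2 z2) (b z2 z2)) (d (b z2 z0) (b z2 z0))) (b (d (b z2 z2) (b z2 z2)) (d (b z2 z0) (b z2 z0))))) (b (d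 (b z2 z2) (b z2 z2)) (d (b (d (b z2 z2) (b z2 z2)) (d (b z2 z0) (b z2 z0))) (b (d (b z2 z2) (b z2 z2)) (d (b z2 z0) (b z2 z0))))))) (b (d (b (d (b z2 z2) (b z2 z2)) (d (b z2 z2) (b z2 z2))) (b (d (b z2 z2) (b z2 z2)) (d (b z2 z2) (b z2 z2)))) (d (b (d (b z2 z2) (b z2 z2)) (d (b (d (b z2 z2) (b z2 z2)) (d (b z2 z0) (b z2 z0))) (b (d (b z2 z2) (b z2 z2)) (d (b z2 z0) (b z2 z0))))) (b (d (b z2 z2) (b z2 z2)) (d (b (d (b z2 z2) (b z2 z2)) (d (b z2 z0) (b z2 z0))) (b (d (b z2 z2) (b z2 z2)) (d (b z2 z0) (b z2 z0))))))))) _ _ (by decide +kernel)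

end Vale.Agent.Lib.P154Q5
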