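import Vale.Agent.Lib.P154Q5.FormI

namespace Vale.Agent.Lib.P154Q5

set_option maxRecDepth 100000
set_option exponentiation.threshold 1000

open Tr

theorem okI1515 : CKI ⟨393216, 786432, 196480, 196544⟩ ⟨0, 0, 250752, 250880⟩ :=
  ckI_sound (d (b (d (b (d (b z2 z2) (b z2 z2)) (d (b z2 (d (b z2 z2) (b z2 z2))) (b z2 (d (b z2 z2) (b z2 z2))))) (b (d (b z2 z2) (b z2 z2)) (d (b z2 (d (b z2 z2) (b z2 z2))) (b z2 (d (b z2 z2) (b z2 z2)))))) (d (b (d (b (d (b z2 z2) (b z2 z2)) (d (b z2 z2) (b z2 z2))) (b (d (b z2 z2) (b z2 z2)) (d (b z2 z2) (b z2 z2)))) (d (b (d (b z2 z2) (b z2 z2)) (d (b z2 z2) (b z2 z2))) (b (d (b z2 z2) (b z2 z2)) (d (b z2 z2) (b z2 z2))))) (b (d (b (d (b z2 z2) (b z2 z2)) (d (b z2 z2) (b z2 z2))) (b (d (b z2 z2) (b z2 z2)) (d (b z2 z2) (b z2 z2)))) (d (b (d (b z2 z2) (b z2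 z2)) (d (b z2 z2) (b z2 z2))) (b (d (b z2 z2) (b z2 z2)) (d (b z2 z2) (b z2 z2))))))) (b (d (b (d (b z2 z2) (b z2 z2)) (d (b z2 (d (b z2 z2) (b z2 z2))) (b z2 (d (b z2 z2) (b z2 z2))))) (b (d (b z2 z2) (b z2 z2)) (d (b z2 (d (b z2 z2) (b z2 z2))) (b z2 (d (b z2 z2) (b z2 z2)))))) (d (b (d (b (d (b z2 z2) (b z2 z2)) (d (b z2 z2) (b z2 z2))) (b (d (b z2 z2) (b z2 z2)) (d (b z2 z2) (b z2 z2)))) (d (b (d (b z2 z2) (b z2 z2)) (d (b z2 z2) (b z2 z2))) (b (d (b z2 z2) (b z2 z2)) (d (b z2 z2) (b z2 z2))))) (b (d (b (d (b z2 z2) (b z2 z2)) (d (b z2 z2) (b z2 z2))) (b (d (b z2 z2) (b z2 z2)) (d (b z2 z2) (b z2 z2)))) (d (b (d (b z2 z2) (b z2 z2)) (d (b z2 z2) (b z2 z2))) (b (d (b z2 z2) (b z2 z2)) (d (b z2 z2) (b z2 z2)))))))) _ _ (by decide +kernel)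

theorem okI1516 : CKI ⟨393216, 786432, 196544, 196608⟩ ⟨0, 0, 250752, 250816⟩ :=
  ckI_sound (b (d (b (d (b (d (b z2 z2) (b z2 z2)) (d (b z2 z2) (b z2 z2))) (b (d (b z2 z2) (b z2 z2)) (d (b z2 z2) (b z2 z2)))) (d (b (d (b z2 z2) (b z2 z2)) (d (b z2 z2) (b z2 z2))) (b (d (b z2 z2) (b z2 z2)) (d (b z2 z2) (b z2 z2))))) (b (d (b (d (b z2 z2) (b z2 z2)) (d (b z2 z2) (b z2 z2))) (b (d (b z2 z2) (b z2 z2)) (d (b z2 z2) (b z2 z2)))) (d (b (d (b z2 z2) (b z2 z2)) (d (b z2 z2) (b z2 z2))) (b (d (b z2 z2) (b z2 z2)) (d (b z2 z2) (b z2 z2)))))) (d (b (d (b (d (b z2 z2) (b z2 z2)) (d (b z2 z2) (b z2 z2))) (b (d (b z2 z2) (b z2 z2)) (d (b z2 z2) (b z2 z2)))) (d (b (d (b z2 z2) (b z2 z2)) (d (b (d (b z2 z2) (b z2 z2)) (d (b z2 z0) (b z2 z0))) (b (d (b z2 z2) (b z2 z2)) (d (b z2 z0) (b z2 z0))))) (b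 (d (b z2 z2) (b z2 z2)) (d (b (d (b z2 z2) (b z2 z2)) (d (b z2 z0) (b z2 z0))) (b (d (b z2 z2) (b z2 z2)) (d (b z2 z0) (b z2 z0))))))) (b (d (b (d (b z2 z2) (b z2 z2)) (d (b z2 z2) (b z2 z2))) (b (d (b z2 z2) (b z2 z2)) (d (b z2 z2) (b z2 z2)))) (d (b (d (b z2 z2) (b z2 z2)) (d (b (d (b z2 z2) (b z2 z2)) (d (b z2 z0) (b z2 z0))) (b (d (b z2 z2) (b z2 z2)) (d (b z2 z0) (b z2 z0))))) (b (d (b z2 z2) (b z2 z2)) (d (b (d (b z2 z2) (b z2 z2)) (d (b z2 z0) (b z2 z0))) (b (d (b z2 z2) (b z2 z2)) (d (b z2 z0) (b z2 z0))))))))) _ _ (by decide +kernel)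

theorem okI1517 : CKI ⟨393216, 786432, 196544, 196608⟩ ⟨0, 0, 250816, 250880⟩ :=
  ckI_sound (b (d (b (d (b (d (b z2 z2) (b z2 z2)) (d (b z2 z2) (b z2 z2))) (b (d (b z2 z2) (b z2 z2)) (d (b z2 z2) (b z2 z2)))) (d (b (d (b z2 z2) (b z2 z2)) (d (b z2 z2) (b z2 z2))) (b (d (b z2 z2) (b z2 z2)) (d (b z2 z2) (b z2 z2))))) (b (d (b (d (b z2 z2) (b z2 z2)) (d (b z2 z2) (b z2 z2))) (b (d (b z2 z2) (b z2 z2)) (d (b z2 z2) (b z2 z2)))) (d (b (d (b z2 z2) (b z2 z2)) (d (b z2 z2) (b z2 z2))) (b (d (b z2 z2) (b z2 z2)) (d (b z2 z2) (b z2 z2)))))) (d (b (d (b (d (b z2 z2) (b z2 z2)) (d (b z2 z2) (b z2 z2))) (b (d (b z2 z2) (b z2 z2)) (d (b z2 z2) (b z2 z2)))) (d (b (d (b z2 z2) (b z2 z2)) (d (b (d (b z2 z2) (b z2 z2)) (d (b z2 z0) (b z2 z0))) (b (d (b z2 z2) (b z2 z2)) (d (b z2 z0) (b z2 z0))))) (b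 (d (b z2 z2) (b z2 z2)) (d (b (d (b z2 z2) (b z2 z2)) (d (b z2 z0) (b z2 z0))) (b (d (b z2 z2) (b z2 z2)) (d (b z2 z0) (b z2 z0))))))) (b (d (b (d (b z2 z2) (b z2 z2)) (d (b z2 z2) (b z2 z2))) (b (d (b z2 z2) (b z2 z2)) (d (b z2 z2) (b z2 z2)))) (d (b (d (b z2 z2) (b z2 z2)) (d (b (d (b z2 z2) (b z2 z2)) (d (b z2 z0) (b z2 z0))) (b (d (b z2 z2) (b z2 z2)) (d (b z2 z0) (b z2 z0))))) (b (d (b z2 z2) (b z2 z2)) (d (b (d (b z2 z2) (b z2 z2)) (d (b z2 z0) (b z2 z0))) (b (d (b z2 z2) (b z2 z2)) (d (b z2 z0) (b z2 z0))))))))) _ _ (by decide +kernel)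

theorem okI1518 : CKI ⟨393216, 786432, 195584, 196096⟩ ⟨0, 0, 250880, 251392⟩ :=
  ckI_sound (b (d (b (d (b (d (b z2 z2) (b z2 z2)) (d (b z2 z2) (b z2 z2))) (b (d (b z2 z2) (b z2 z2)) (d (b z2 z2) (b z2 z2)))) (d (b (d (b z2 z2) (b z2 z2)) (d (b z2 z2) (b z2 z2))) (b (d (b z2 z2) (b z2 z2)) (d (b z2 z2) (b z2 z2))))) (b (d (b (d (b z2 z2) (b z2 z2)) (d (b z2 z2) (b z2 z2))) (b (d (b z2 z2) (b z2 z2)) (d (b z2 z2) (b z2 z2)))) (d (b (d (b z2 z2) (b z2 z2)) (d (b z2 z2) (b z2 z2))) (b (d (b z2 z2) (b z2 z2)) (d (b z2 z2) (b z2 z2)))))) (d (b (d (b (d (b z2 (d (b z2 z2) (b z2 z2))) (b z2 (d (b z2 z2) (b z2 z2)))) (d (b (d (b z2 z2) (b z2 z2)) (d (b z2 z2) (b z2 z2))) (b (d (b z2 z2) (b z2 z2)) (d (b z2 z2) (b z2 z2))))) (b (d (b z2 (d (b z2 z2) (b z2 z2))) (b z2 (d (b z2 z2) (b z2 z2))))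 (d (b (d (b z2 z2) (b z2 z2)) (d (b z2 z2) (b z2 z2))) (b (d (b z2 z2) (b z2 z2)) (d (b z2 z2) (b z2 z2)))))) (d (b (d (b (d (b z2 z2) (b z2 z2)) (d (b z2 z2) (b z2 z2))) (b (d (b z2 z2) (b z2 z2)) (d (b z2 z2) (b z2 z2)))) (d (b (d (b z2 z2) (b z2 z2)) (d (b z2 z2) (b z2 z2))) (b (d (b z2 z2) (b z2 z2)) (d (b z2 z2) (b z2 z2))))) (b (d (b (d (b z2 z2) (b z2 z2)) (d (b z2 z2) (b z2 z2))) (b (d (b z2 z2) (b z2 z2)) (d (b z2 z2) (b z2 z2)))) (d (b (d (b z2 z2) (b z2 z2)) (d (b z2 z2) (b z2 z2))) (b (d (b z2 z2) (b z2 z2)) (d (b z2 z2) (b z2 z2))))))) (b (d (b (d (b z2 (d (b z2 z2) (b z2 z2))) (b z2 (d (b z2 z2) (b z2 z2)))) (d (b (d (b z2 z2) (b z2 z2)) (d (b z2 z2) (b z2 z2))) (b (d (b z2 z2) (b z2 z2)) (d (b z2 z2) (b z2 z2))))) (b (d (b z2 (d (b z2 z2) (b z2 z2))) (b z2 (d (b z2 z2) (b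 z2 z2)))) (d (b (d (b z2 z2) (b z2 z2)) (d (b z2 z2) (b z2 z2))) (b (d (b z2 z2) (b z2 z2)) (d (b z2 z2) (b z2 z2)))))) (d (b (d (b (d (b z2 z2) (b z2 z2)) (d (b z2 z2) (b z2 z2))) (b (d (b z2 z2) (b z2 z2)) (d (b z2 z2) (b z2 z2)))) (d (b (d (b z2 z2) (b z2 z2)) (d (b z2 z2) (b z2 z2))) (b (d (b z2 z2) (b z2 z2)) (d (b z2 z2) (b z2 z2))))) (b (d (b (d (b z2 z2) (b z2 z2)) (d (b z2 z2) (b z2 z2))) (b (d (b z2 z2) (b z2 z2)) (d (b z2 z2) (b z2 z2)))) (d (b (d (b z2 z2) (b z2 z2)) (d (b z2 z2) (b z2 z2))) (b (d (b z2 z2) (b z2 z2)) (d (b z2 z2) (b z2 z2))))))))) _ _ (by decide +kernel)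

theorem okI1519 : CKI ⟨393216, 786432, 195584, 196096⟩ ⟨0, 0, 251392, 251904⟩ :=
  ckI_sound (b (d (b (d (b (d (b z2 z2) (b z2 z2)) (d (b z2 z2) (b z2 z2))) (b (d (b z2 z2) (b z2 z2)) (d (b z2 z2) (b z2 z2)))) (d (b (d (b z2 z2) (b z2 z2)) (d (b z2 z2) (b z2 z2))) (b (d (b z2 z2) (b z2 z2)) (d (b z2 z2) (b z2 z2))))) (b (d (b (d (b z2 z2) (b z2 z2)) (d (b z2 z2) (b z2 z2))) (b (d (b z2 z2) (b z2 z2)) (d (b z2 z2) (b z2 z2)))) (d (b (d (b z2 z2) (b z2 z2)) (d (b z2 z2) (b z2 z2))) (b (d (b z2 z2) (b z2 z2)) (d (b z2 z2) (b z2 z2)))))) (d (b (d (b (d (b z2 (d (b z2 z2) (b z2 z2))) (b z2 (d (b z2 z2) (b z2 z2)))) (d (b (d (b z2 z2) (b z2 z2)) (d (b z2 z2) (b z2 z2))) (b (d (b z2 z2) (b z2 z2)) (d (b z2 z2) (b z2 z2))))) (b (d (b z2 (d (b z2 z2) (b z2 z2))) (b z2 (d (b z2 z2) (b z2 z2))))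 (d (b (d (b z2 z2) (b z2 z2)) (d (b z2 z2) (b z2 z2))) (b (d (b z2 z2) (b z2 z2)) (d (b z2 z2) (b z2 z2)))))) (d (b (d (b (d (b z2 z2) (b z2 z2)) (d (b z2 z2) (b z2 z2))) (b (d (b z2 z2) (b z2 z2)) (d (b z2 z2) (b z2 z2)))) (d (b (d (b z2 z2) (b z2 z2)) (d (b z2 z2) (b z2 z2))) (b (d (b z2 z2) (b z2 z2)) (d (b z2 z2) (b z2 z2))))) (b (d (b (d (b z2 z2) (b z2 z2)) (d (b z2 z2) (b z2 z2))) (b (d (b z2 z2) (b z2 z2)) (d (b z2 z2) (b z2 z2)))) (d (b (d (b z2 z2) (b z2 z2)) (d (b z2 z2) (b z2 z2))) (b (d (b z2 z2) (b z2 z2)) (d (b z2 z2) (b z2 z2))))))) (b (d (b (d (b z2 (d (b z2 z2) (b z2 z2))) (b z2 (d (b z2 z2) (b z2 z2)))) (d (b (d (b z2 z2) (b z2 z2)) (d (b z2 z2) (b z2 z2))) (b (d (b z2 z2) (b z2 z2)) (d (b z2 z2) (b z2 z2))))) (b (d (b z3 (d (b z2 z2) (b z2 z2))) (b z3 (d (b z2 z2) (b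 z2 z2)))) (d (b (d (b z2 z2) (b z2 z2)) (d (b z2 z2) (b z2 z2))) (b (d (b z2 z2) (b z2 z2)) (d (b z2 z2) (b z2 z2)))))) (d (b (d (b (d (b z2 z2) (b z2 z2)) (d (b z2 z2) (b z2 z2))) (b (d (b z2 z2) (b z2 z2)) (d (b z2 z2) (b z2 z2)))) (d (b (d (b z2 z2) (b z2 z2)) (d (b z2 z2) (b z2 z2))) (b (d (b z2 z2) (b z2 z2)) (d (b z2 z2) (b z2 z2))))) (b (d (b (d (b z2 z2) (b z2 z2)) (d (b z2 z2) (b z2 z2))) (b (d (b z2 z2) (b z2 z2)) (d (b z2 z2) (b z2 z2)))) (d (b (d (b z2 z2) (b z2 z2)) (d (b z2 z2) (b z2 z2))) (b (d (b z2 z2) (b z2 z2)) (d (b z2 z2) (b z2 z2))))))))) _ _ (by decide +kernel)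

theorem okI1520 : CKI ⟨393216, 786432, 196096, 196352⟩ ⟨0, 0, 250880, 251136⟩ :=
  ckI_sound (b (d (b (d (b (d (b z2 z2) (b z2 z2)) (d (b z2 z2) (b z2 z2))) (b (d (b z2 z2) (b z2 z2)) (d (b z2 z2) (b z2 z2)))) (d (b (d (b z2 z2) (b z2 z2)) (d (b z2 z2) (b z2 z2))) (b (d (b z2 z2) (b z2 z2)) (d (b z2 z2) (b z2 z2))))) (b (d (b (d (b z2 z2) (b z2 z2)) (d (b z2 z2) (b z2 z2))) (b (d (b z2 z2) (b z2 z2)) (d (b z2 z2) (b z2 z2)))) (d (b (d (b z2 z2) (b z2 z2)) (d (b z2 z2) (b z2 z2))) (b (d (b z2 z2) (b z2 z2)) (d (b z2 z2) (b z2 z2)))))) (d (b (d (b (d (b z2 z2) (b z2 z2)) (d (b z2 z2) (b z2 z2))) (b (d (b z2 z2) (b z2 z2)) (d (b z2 z2) (b z2 z2)))) (d (b (d (b z2 (d (b z2 z2) (b z2 z2))) (b z2 (d (b z2 z2) (b z2 z2)))) (d (b (d (b z2 z2) (b z2 z2)) (d (b z2 z2) (b z2 z2))) (b (d (b z2 z2)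 (b z2 z2)) (d (b z2 z2) (b z2 z2))))) (b (d (b z2 (d (b z2 z2) (b z2 z2))) (b z2 (d (b z2 z2) (b z2 z2)))) (d (b (d (b z2 z2) (b z2 z2)) (d (b z2 z2) (b z2 z2))) (b (d (b z2 z2) (b z2 z2)) (d (b z2 z2) (b z2 z2))))))) (b (d (b (d (b z2 z2) (b z2 z2)) (d (b z2 z2) (b z2 z2))) (b (d (b z2 z2) (b z2 z2)) (d (b z2 z2) (b z2 z2)))) (d (b (d (b z2 (d (b z2 z2) (b z2 z2))) (b z2 (d (b z2 z2) (b z2 z2)))) (d (b (d (b z2 z2) (b z2 z2)) (d (b z2 z2) (b z2 z2))) (b (d (b z2 z2) (b z2 z2)) (d (b z2 z2) (b z2 z2))))) (b (d (b z2 (d (b z2 z2) (b z2 z2))) (b z2 (d (b z2 z2) (b z2 z2)))) (d (b (d (b z2 z2) (b z2 z2)) (d (b z2 z2) (b z2 z2))) (b (d (b z2 z2) (b z2 z2)) (d (b z2 z2) (b z2 z2))))))))) _ _ (by decide +kernel)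

theorem okI1521 : CKI ⟨393216, 786432, 196096, 196352⟩ ⟨0, 0, 251136, 251392⟩ :=
  ckI_sound (b (d (b (d (b (d (b z2 z2) (b z2 z2)) (d (b z2 z2) (b z2 z2))) (b (d (b z2 z2) (b z2 z2)) (d (b z2 z2) (b z2 z2)))) (d (b (d (b z2 z2) (b z2 z2)) (d (b z2 z2) (b z2 z2))) (b (d (b z2 z2) (b z2 z2)) (d (b z2 z2) (b z2 z2))))) (b (d (b (d (b z2 z2) (b z2 z2)) (d (b z2 z2) (b z2 z2))) (b (d (b z2 z2) (b z2 z2)) (d (b z2 z2) (b z2 z2)))) (d (b (d (b z2 z2) (b z2 z2)) (d (b z2 z2) (b z2 z2))) (b (d (b z2 z2) (b z2 z2)) (d (b z2 z2) (b z2 z2)))))) (d (b (d (b (d (b z2 z2) (b z2 z2)) (d (b z2 z2) (b z2 z2))) (b (d (b z2 z2) (b z2 z2)) (d (b z2 z2) (b z2 z2)))) (d (b (d (b z2 (d (b z2 z2) (b z2 z2))) (b z2 (d (b z2 z2) (b z2 z2)))) (d (b (d (b z2 z2) (b z2 z2)) (d (b z2 z2) (b z2 z2))) (b (d (b z2 z2)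 (b z2 z2)) (d (b z2 z2) (b z2 z2))))) (b (d (b z2 (d (b z2 z2) (b z2 z2))) (b z2 (d (b z2 z2) (b z2 z2)))) (d (b (d (b z2 z2) (b z2 z2)) (d (b z2 z2) (b z2 z2))) (b (d (b z2 z2) (b z2 z2)) (d (b z2 z2) (b z2 z2))))))) (b (d (b (d (b z2 z2) (b z2 z2)) (d (b z2 z2) (b z2 z2))) (b (d (b z2 z2) (b z2 z2)) (d (b z2 z2) (b z2 z2)))) (d (b (d (b z2 (d (b z2 z2) (b z2 z2))) (b z2 (d (b z2 z2) (b z2 z2)))) (d (b (d (b z2 z2) (b z2 z2)) (d (b z2 z2) (b z2 z2))) (b (d (b z2 z2) (b z2 z2)) (d (b z2 z2) (b z2 z2))))) (b (d (b z2 (d (b z2 z2) (b z2 z2))) (b z2 (d (b z2 z2) (b z2 z2)))) (d (b (d (b z2 z2) (b z2 z2)) (d (b z2 z2) (b z2 z2))) (b (d (b z2 z2) (b z2 z2)) (d (b z2 z2) (b z2 z2))))))))) _ _ (by decide +kernel)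

theorem okI1522 : CKI ⟨393216, 786432, 196352, 196480⟩ ⟨0, 0, 250880, 251136⟩ :=
  ckI_sound (d (b (d (b (d (b (d (b z2 z2) (b z2 z2)) (d (b z2 z2) (b z2 z2))) (b (d (b z2 z2) (b z2 z2)) (d (b z2 z2) (b z2 z2)))) (d (b (d (b z2 z2) (b z2 z2)) (d (b z2 z2) (b z2 z2))) (b (d (b z2 z2) (b z2 z2)) (d (b z2 z2) (b z2 z2))))) (b (d (b (d (b z2 z2) (b z2 z2)) (d (b z2 z2) (b z2 z2))) (b (d (b z2 z2) (b z2 z2)) (d (b z2 z2) (b z2 z2)))) (d (b (d (b z2 z2) (b z2 z2)) (d (b z2 z2) (b z2 z2))) (b (d (b z2 z2) (b z2 z2)) (d (b z2 z2) (b z2 z2)))))) (d (b (d (b (d (b z2 z2) (b z2 z2)) (d (b z2 z2) (b z2 z2))) (b (d (b z2 z2) (b z2 z2)) (d (b z2 z2) (b z2 z2)))) (d (b (d (b z2 z2) (b z2 z2)) (d (b z2 z2) (b z2 z2))) (b (d (b z2 z2) (b z2 z2)) (d (b z2 z2) (b z2 z2))))) (b (d (b (d (b z2 z2) (b z2 z2))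 (d (b z2 z2) (b z2 z2))) (b (d (b z2 z2) (b z2 z2)) (d (b z2 z2) (b z2 z2)))) (d (b (d (b z2 z2) (b z2 z2)) (d (b z2 z2) (b z2 z2))) (b (d (b z2 z2) (b z2 z2)) (d (b z2 z2) (b z2 z2))))))) (b (d (b (d (b (d (b z2 z2) (b z2 z2)) (d (b z2 z2) (b z2 z2))) (b (d (b z2 z2) (b z2 z2)) (d (b z2 z2) (b z2 z2)))) (d (b (d (b z2 z2) (b z2 z2)) (d (b z2 z2) (b z2 z2))) (b (d (b z2 z2) (b z2 z2)) (d (b z2 z2) (b z2 z2))))) (b (d (b (d (b z2 z2) (b z2 z2)) (d (b z2 z2) (b z2 z2))) (b (d (b z2 z2) (b z2 z2)) (d (b z2 z2) (b z2 z2)))) (d (b (d (b z2 z2) (b z2 z2)) (d (b z2 z2) (b z2 z2))) (b (d (b z2 z2) (b z2 z2)) (d (b z2 z2) (b z2 z2)))))) (d (b (d (b (d (b z2 z2) (b z2 z2)) (d (b z2 z2) (b z2 z2))) (b (d (b z2 z2) (b z2 z2)) (d (b z2 z2) (b z2 z2)))) (d (b (d (b z2 z2) (b z2 z2)) (d (b z2 z2) (b z2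 z2))) (b (d (b z2 z2) (b z2 z2)) (d (b z2 z2) (b z2 z2))))) (b (d (b (d (b z2 z2) (b z2 z2)) (d (b z2 z2) (b z2 z2))) (b (d (b z2 z2) (b z2 z2)) (d (b z2 z2) (b z2 z2)))) (d (b (d (b z2 z2) (b z2 z2)) (d (b z2 z2) (b z2 z2))) (b (d (b z2 z2) (b z2 z2)) (d (b z2 z2) (b z2 z2)))))))) _ _ (by decide +kernel)

theorem okI1523 : CKI ⟨393216, 786432, 196480, 196544⟩ ⟨0, 0, 250880, 251008⟩ :=
  ckI_sound (d (b (d (b (d (b z2 z2) (b z2 z2)) (d (b z2 (d (b z2 z2) (b z2 z2))) (b z2 (d (b z2 z2) (b z2 z2))))) (b (d (b z2 z2) (b z2 z2)) (d (b z2 (d (b z2 z2) (b z2 z2))) (b z2 (d (b z2 z2) (b z2 z2)))))) (d (b (d (b (d (b z2 z2) (b z2 z2)) (d (b z2 z2) (b z2 z2))) (b (d (b z2 z2) (b z2 z2)) (d (b z2 z2) (b z2 z2)))) (d (b (d (b z2 z2) (b z2 z2)) (d (b z2 z2) (b z2 z2))) (b (d (b z2 z2) (b z2 z2)) (d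 (b z2 z2) (b z2 z2))))) (b (d (b (d (b z2 z2) (b z2 z2)) (d (b z2 z2) (b z2 z2))) (b (d (b z2 z2) (b z2 z2)) (d (b z2 z2) (b z2 z2)))) (d (b (d (b z2 z2) (b z2 z2)) (d (b z2 z2) (b z2 z2))) (b (d (b z2 z2) (b z2 z2)) (d (b z2 z2) (b z2 z2))))))) (b (d (b (d (b z2 z2) (b z2 z2)) (d (b z2 (d (b z2 z2) (b z2 z2))) (b z2 (d (b z2 z2) (b z2 z2))))) (b (d (b z2 z2) (b z2 z2)) (d (b z2 (d (b z2 z2) (b z2 z2))) (b z2 (d (b z2 z2) (b z2 z2)))))) (d (b (d (b (d (b z2 z2) (b z2 z2)) (d (b z2 z2) (b z2 z2))) (b (d (b z2 z2) (b z2 z2)) (d (b z2 z2) (b z2 z2)))) (d (b (d (b z2 z2) (b z2 z2)) (d (b z2 z2) (b z2 z2))) (b (d (b z2 z2) (b z2 z2)) (d (b z2 z2) (b z2 z2))))) (b (d (b (d (b z2 z2) (b z2 z2)) (d (b z2 z2) (b z2 z2))) (b (d (b z2 z2) (b z2 z2)) (d (b z2 z2) (b z2 z2)))) (d (b (d (b z2 z2) (b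 z2 z2)) (d (b z2 z2) (b z2 z2))) (b (d (b z2 z2) (b z2 z2)) (d (b z2 z2) (b z2 z2)))))))) _ _ (by decide +kernel)

theorem okI1524 : CKI ⟨393216, 786432, 196544, 196608⟩ ⟨0, 0, 250880, 250944⟩ :=
  ckI_sound (b (d (b (d (b (d (b z2 z2) (b z2 z2)) (d (b z2 z2) (b z2 z2))) (b (d (b z2 z2) (b z2 z2)) (d (b z2 z2) (b z2 z2)))) (d (b (d (b z2 z2) (b z2 z2)) (d (b z2 z2) (b z2 z2))) (b (d (b z2 z2) (b z2 z2)) (d (b z2 z2) (b z2 z2))))) (b (d (b (d (b z2 z2) (b z2 z2)) (d (b z2 z2) (b z2 z2))) (b (d (b z2 z2) (b z2 z2)) (d (b z2 z2) (b z2 z2)))) (d (b (d (b z2 z2) (b z2 z2)) (d (b z2 z2) (b z2 z2))) (b (d (b z2 z2) (b z2 z2)) (d (b z2 z2) (b z2 z2)))))) (d (b (d (b (d (b z2 z2) (b z2 z2)) (d (b z2 z2) (b z2 z2))) (b (d (b z2 z2) (b z2 z2)) (d (b z2 z2) (b z2 z2)))) (d (b (d (b z2 z2) (b z2 z2))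 (d (b (d (b z2 z2) (b z2 z2)) (d (b z2 z0) (b z2 z0))) (b (d (b z2 z2) (b z2 z2)) (d (b z2 z0) (b z2 z0))))) (b (d (b z2 z2) (b z2 z2)) (d (b (d (b z2 z2) (b z2 z2)) (d (b z2 z0) (b z2 z0))) (b (d (b z2 z2) (b z2 z2)) (d (b z2 z0) (b z2 z0))))))) (b (d (b (d (b z2 z2) (b z2 z2)) (d (b z2 z2) (b z2 z2))) (b (d (b z2 z2) (b z2 z2)) (d (b z2 z2) (b z2 z2)))) (d (b (d (b z2 z2) (b z2 z2)) (d (b (d (b z2 z2) (b z2 z2)) (d (b z2 z0) (b z2 z0))) (b (d (b z2 z2) (b z2 z2)) (d (b z2 z0) (b z2 z0))))) (b (d (b z2 z2) (b z2 z2)) (d (b (d (b z2 z2) (b z2 z2)) (d (b z2 z0) (b z2 z0))) (b (d (b z2 z2) (b z2 z2)) (d (b z2 z0) (b z2 z0))))))))) _ _ (by decide +kernel)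

theorem okI1525 : CKI ⟨393216, 786432, 196544, 196608⟩ ⟨0, 0, 250944, 251008⟩ :=
  ckI_sound (b (d (b (d (b (d (b z2 z2) (b z2 z2)) (d (b z2 z2) (b z2 z2))) (b (d (b z2 z2) (b z2 z2)) (d (b z2 z2) (b z2 z2)))) (d (b (d (b z2 z2) (b z2 z2)) (d (b z2 z2) (b z2 z2))) (b (d (b z2 z2) (b z2 z2)) (d (b z2 z2) (b z2 z2))))) (b (d (b (d (b z2 z2) (b z2 z2)) (d (b z2 z2) (b z2 z2))) (b (d (b z2 z2) (b z2 z2)) (d (b z2 z2) (b z2 z2)))) (d (b (d (b z2 z2) (b z2 z2)) (d (b z2 z2) (b z2 z2))) (b (d (b z2 z2) (b z2 z2)) (d (b z2 z2) (b z2 z2)))))) (d (b (d (b (d (b z2 z2) (b z2 z2)) (d (b z2 z2) (b z2 z2))) (b (d (b z2 z2) (b z2 z2)) (d (b z2 z2) (b z2 z2)))) (d (b (d (b z2 z2) (b z2 z2)) (d (b (d (b z2 z2) (b z2 z2)) (d (b z2 z0) (b z2 z0))) (b (d (b z2 z2) (b z2 z2)) (d (b z2 z0) (b z2 z0))))) (b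 (d (b z2 z2) (b z2 z2)) (d (b (d (b z2 z2) (b z2 z2)) (d (b z2 z0) (b z2 z0))) (b (d (b z2 z2) (b z2 z2)) (d (b z2 z0) (b z2 z0))))))) (b (d (b (d (b z2 z2) (b z2 z2)) (d (b z2 z2) (b z2 z2))) (b (d (b z2 z2) (b z2 z2)) (d (b z2 z2) (b z2 z2)))) (d (b (d (b z2 z2) (b z2 z2)) (d (b (d (b z2 z2) (b z2 z2)) (d (b z2 z0) (b z2 z0))) (b (d (b z2 z2) (b z2 z2)) (d (b z2 z0) (b z2 z0))))) (b (d (b z2 z2) (b z2 z2)) (d (b (d (b z2 z2) (b z2 z2)) (d (b z2 z0) (b z2 z0))) (b (d (b z2 z2) (b z2 z2)) (d (b z2 z0) (b z2 z0))))))))) _ _ (by decide +kernel)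

theorem okI1526 : CKI ⟨393216, 786432, 196480, 196544⟩ ⟨0, 0, 251008, 251136⟩ :=
  ckI_sound (d (b (d (b (d (b z2 z2) (b z2 z2)) (d (b z2 (d (b z2 z2) (b z2 z2))) (b z2 (d (b z2 z2) (b z2 z2))))) (b (d (b z2 z2) (b z2 z2)) (d (b z2 (d (b z2 z2) (b z2 z2))) (b z2 (d (b z2 z2) (b z2 z2)))))) (d (b (d (b (d (b z2 z2) (b z2 z2)) (d (b z2 z2) (b z2 z2))) (b (d (b z2 z2) (b z2 z2)) (d (b z2 z2) (b z2 z2)))) (d (b (d (b z2 z2) (b z2 z2)) (d (b z2 z2) (b z2 z2))) (b (d (b z2 z2) (b z2 z2)) (d (b z2 z2) (b z2 z2))))) (b (d (b (d (b z2 z2) (b z2 z2)) (d (b z2 z2) (b z2 z2))) (b (d (b z2 z2) (b z2 z2)) (d (b z2 z2) (b z2 z2)))) (d (b (d (b z2 z2) (b z2 z2)) (d (b z2 z2) (b z2 z2))) (b (d (b z2 z2) (b z2 z2)) (d (b z2 z2) (b z2 z2))))))) (b (d (b (d (b z2 z2) (b z2 z2)) (d (b z2 (d (b z2 z2) (b z2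 z2))) (b z2 (d (b z2 z2) (b z2 z2))))) (b (d (b z2 z2) (b z2 z2)) (d (b z2 (d (b z2 z2) (b z2 z2))) (b z2 (d (b z2 z2) (b z2 z2)))))) (d (b (d (b (d (b z2 z2) (b z2 z2)) (d (b z2 z2) (b z2 z2))) (b (d (b z2 z2) (b z2 z2)) (d (b z2 z2) (b z2 z2)))) (d (b (d (b z2 z2) (b z2 z2)) (d (b z2 z2) (b z2 z2))) (b (d (b z2 z2) (b z2 z2)) (d (b z2 z2) (b z2 z2))))) (b (d (b (d (b z2 z2) (b z2 z2)) (d (b z2 z2) (b z2 z2))) (b (d (b z2 z2) (b z2 z2)) (d (b z2 z2) (b z2 z2)))) (d (b (d (b z2 z2) (b z2 z2)) (d (b z2 z2) (b z2 z2))) (b (d (b z2 z2) (b z2 z2)) (d (b z2 z2) (b z2 z2)))))))) _ _ (by decide +kernel)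

theorem okI1527 : CKI ⟨393216, 786432, 196544, 196608⟩ ⟨0, 0, 251008, 251072⟩ :=
  ckI_sound (b (d (b (d (b (d (b z2 z2) (b z2 z2)) (d (b z2 z2) (b z2 z2))) (b (d (b z2 z2) (b z2 z2)) (d (b z2 z2) (b z2 z2)))) (d (b (d (b z2 z2) (b z2 z2)) (d (b z2 z2) (b z2 z2))) (b (d (b z2 z2) (b z2 z2)) (d (b z2 z2) (b z2 z2))))) (b (d (b (d (b z2 z2) (b z2 z2)) (d (b z2 z2) (b z2 z2))) (b (d (b z2 z2) (b z2 z2)) (d (b z2 z2) (b z2 z2)))) (d (b (d (b z2 z2) (b z2 z2)) (d (b z2 z2) (b z2 z2))) (b (d (b z2 z2) (b z2 z2)) (d (b z2 z2) (b z2 z2)))))) (d (b (d (b (d (b z2 z2) (b z2 z2)) (d (b z2 z2) (b z2 z2))) (b (d (b z2 z2) (b z2 z2)) (d (b z2 z2) (b z2 z2)))) (d (b (d (b z2 z2) (b z2 z2)) (d (b (d (b z2 z2) (b z2 z2)) (d (b z2 z0) (b z2 z0))) (b (d (b z2 z2) (b z2 z2)) (d (b z2 z0) (b z2 z0))))) (b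 (d (b z2 z2) (b z2 z2)) (d (b (d (b z2 z2) (b z2 z2)) (d (b z2 z0) (b z2 z0))) (b (d (b z2 z2) (b z2 z2)) (d (b z2 z0) (b z2 z0))))))) (b (d (b (d (b z2 z2) (b z2 z2)) (d (b z2 z2) (b z2 z2))) (b (d (b z2 z2) (b z2 z2)) (d (b z2 z2) (b z2 z2)))) (d (b (d (b z2 z2) (b z2 z2)) (d (b (d (b z2 z2) (b z2 z2)) (d (b z2 z0) (b z2 z0))) (b (d (b z2 z2) (b z2 z2)) (d (b z2 z0) (b z2 z0))))) (b (d (b z2 z2) (b z2 z2)) (d (b (d (b z2 z2) (b z2 z2)) (d (b z2 z0) (b z2 z0))) (b (d (b z2 z2) (b z2 z2)) (d (b z2 z0) (b z2 z0))))))))) _ _ (by decide +kernel)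

theorem okI1528 : CKI ⟨393216, 786432, 196544, 196608⟩ ⟨0, 0, 251072, 251136⟩ :=
  ckI_sound (b (d (b (d (b (d (b z2 z2) (b z2 z2)) (d (b z2 z2) (b z2 z2))) (b (d (b z2 z2) (b z2 z2)) (d (b z2 z2) (b z2 z2)))) (d (b (d (b z2 z2) (b z2 z2)) (d (b z2 z2) (b z2 z2))) (b (d (b z2 z2) (b z2 z2)) (d (b z2 z2) (b z2 z2))))) (b (d (b (d (b z2 z2) (b z2 z2)) (d (b z2 z2) (b z2 z2))) (b (d (b z2 z2) (b z2 z2)) (d (b z2 z2) (b z2 z2)))) (d (b (d (b z2 z2) (b z2 z2)) (d (b z2 z2) (b z2 z2))) (b (d (b z2 z2) (b z2 z2)) (d (b z2 z2) (b z2 z2)))))) (d (b (d (b (d (b z2 z2) (b z2 z2)) (d (b z2 z2) (b z2 z2))) (b (d (b z2 z2) (b z2 z2)) (d (b z2 z2) (b z2 z2)))) (d (b (d (b z2 z2) (b z2 z2)) (d (b (d (b z2 z2) (b z2 z2)) (d (b z2 z0) (b z2 z0))) (b (d (b z2 z2) (b z2 z2)) (d (b z2 z0) (b z2 z0))))) (b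 (d (b z2 z2) (b z2 z2)) (d (b (d (b z2 z2) (b z2 z2)) (d (b z2 z0) (b z2 z0))) (b (d (b z2 z2) (b z2 z2)) (d (b z2 z0) (b z2 z0))))))) (b (d (b (d (b z2 z2) (b z2 z2)) (d (b z2 z2) (b z2 z2))) (b (d (b z2 z2) (b z2 z2)) (d (b z2 z2) (b z2 z2)))) (d (b (d (b z2 z2) (b z2 z2)) (d (b (d (b z2 z2) (b z2 z2)) (d (b z2 z0) (b z2 z0))) (b (d (b z2 z2) (b z2 z2)) (d (b z2 z0) (b z2 z0))))) (b (d (b z2 z2) (b z2 z2)) (d (b (d (b z2 z2) (b z2 z2)) (d (b z2 z0) (b z2 z0))) (b (d (b z2 z2) (b z2 z2)) (d (b z2 z0) (b z2 z0))))))))) _ _ (by decide +kernel)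

theorem okI1529 : CKI ⟨393216, 786432, 196352, 196480⟩ ⟨0, 0, 251136, 251392⟩ :=
  ckI_sound (d (b (d (b (d (b (d (b z2 z2) (b z2 z2)) (d (b z2 z2) (b z2 z2))) (b (d (b z2 z2) (b z2 z2)) (d (b z2 z2) (b z2 z2)))) (d (b (d (b z2 z2) (b z2 z2)) (d (b z2 z2) (b z2 z2))) (b (d (b z2 z2) (b z2 z2)) (d (b z2 z2) (b z2 z2))))) (b (d (b (d (b z2 z2) (b z2 z2)) (d (b z2 z2) (b z2 z2))) (b (d (b z2 z2) (b z2 z2)) (d (b z2 z2) (b z2 z2)))) (d (b (d (b z2 z2) (b z2 z2)) (d (b z2 z2) (b z2 z2))) (b (d (b z2 z2) (b z2 z2)) (d (b z2 z2) (b z2 z2)))))) (d (b (d (b (d (b z2 z2) (b z2 z2)) (d (b z2 z2) (b z2 z2))) (b (d (b z2 z2) (b z2 z2)) (d (b z2 z2) (b z2 z2)))) (d (b (d (b z2 z2) (b z2 z2)) (d (b z2 z2) (b z2 z2))) (b (d (b z2 z2) (b z2 z2)) (d (b z2 z2) (b z2 z2))))) (b (d (b (d (b z2 z2) (b z2 z2))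 (d (b z2 z2) (b z2 z2))) (b (d (b z2 z2) (b z2 z2)) (d (b z2 z2) (b z2 z2)))) (d (b (d (b z2 z2) (b z2 z2)) (d (b z2 z2) (b z2 z2))) (b (d (b z2 z2) (b z2 z2)) (d (b z2 z2) (b z2 z2))))))) (b (d (b (d (b (d (b z2 z2) (b z2 z2)) (d (b z2 z2) (b z2 z2))) (b (d (b z2 z2) (b z2 z2)) (d (b z2 z2) (b z2 z2)))) (d (b (d (b z2 z2) (b z2 z2)) (d (b z2 z2) (b z2 z2))) (b (d (b z2 z2) (b z2 z2)) (d (b z2 z2) (b z2 z2))))) (b (d (b (d (b z2 z2) (b z2 z2)) (d (b z2 z2) (b z2 z2))) (b (d (b z2 z2) (b z2 z2)) (d (b z2 z2) (b z2 z2)))) (d (b (d (b z2 z2) (b z2 z2)) (d (b z2 z2) (b z2 z2))) (b (d (b z2 z2) (b z2 z2)) (d (b z2 z2) (b z2 z2)))))) (d (b (d (b (d (b z2 z2) (b z2 z2)) (d (b z2 z2) (b z2 z2))) (b (d (b z2 z2) (b z2 z2)) (d (b z2 z2) (b z2 z2)))) (d (b (d (b z2 z2) (b z2 z2)) (d (b z2 z2) (b z2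 z2))) (b (d (b z2 z2) (b z2 z2)) (d (b z2 z2) (b z2 z2))))) (b (d (b (d (b z2 z2) (b z2 z2)) (d (b z2 z2) (b z2 z2))) (b (d (b z2 z2) (b z2 z2)) (d (b z2 z2) (b z2 z2)))) (d (b (d (b z2 z2) (b z2 z2)) (d (b z2 z2) (b z2 z2))) (b (d (b z2 z2) (b z2 z2)) (d (b z2 z2) (b z2 z2)))))))) _ _ (by decide +kernel)

end Vale.Agent.Lib.P154Q5
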