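import Vale.Agent.Lib.P154Q5.FormI

namespace Vale.Agent.Lib.P154Q5

set_option maxRecDepth 100000
set_option exponentiation.threshold 1000

open Tr

theorem okI1530 : CKI ⟨393216, 786432, 196480, 196544⟩ ⟨0, 0, 251136, 251264⟩ :=
  ckI_sound (d (b (d (b (d (b z2 z2) (b z2 z2)) (d (b z2 (d (b z2 z2) (b z2 z2))) (b z2 (d (b z2 z2) (b z2 z2))))) (b (d (b z2 z2) (b z2 z2)) (d (b z2 (d (b z2 z2) (b z2 z2))) (b z2 (d (b z2 z2) (b z2 z2)))))) (d (b (d (b (d (b z2 z2) (b z2 z2)) (d (b z2 z2) (b z2 z2))) (b (d (b z2 z2) (b z2 z2)) (d (b z2 z2) (b z2 z2)))) (d (b (d (b z2 z2) (b z2 z2)) (d (b z2 z2) (b z2 z2))) (b (d (b z2 z2) (b z2 z2)) (d (b z2 z2) (b z2 z2))))) (b (d (b (d (b z2 z2) (b z2 z2)) (d (b z2 z2) (b z2 z2))) (b (d (b z2 z2) (b z2 z2)) (d (b z2 z2) (b z2 z2)))) (d (b (d (b z2 z2) (b z2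 z2)) (d (b z2 z2) (b z2 z2))) (b (d (b z2 z2) (b z2 z2)) (d (b z2 z2) (b z2 z2))))))) (b (d (b (d (b z2 z2) (b z2 z2)) (d (b z2 (d (b z2 z2) (b z2 z2))) (b z2 (d (b z2 z2) (b z2 z2))))) (b (d (b z2 z2) (b z2 z2)) (d (b z2 (d (b z2 z2) (b z2 z2))) (b z2 (d (b z2 z2) (b z2 z2)))))) (d (b (d (b (d (b z2 z2) (b z2 z2)) (d (b z2 z2) (b z2 z2))) (b (d (b z2 z2) (b z2 z2)) (d (b z2 z2) (b z2 z2)))) (d (b (d (b z2 z2) (b z2 z2)) (d (b z2 z2) (b z2 z2))) (b (d (b z2 z2) (b z2 z2)) (d (b z2 z2) (b z2 z2))))) (b (d (b (d (b z2 z2) (b z2 z2)) (d (b z2 z2) (b z2 z2))) (b (d (b z2 z2) (b z2 z2)) (d (b z2 z2) (b z2 z2)))) (d (b (d (b z2 z2) (b z2 z2)) (d (b z2 z2) (b z2 z2))) (b (d (b z2 z2) (b z2 z2)) (d (b z2 z2) (b z2 z2)))))))) _ _ (by decide +kernel)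

theorem okI1531 : CKI ⟨393216, 786432, 196544, 196608⟩ ⟨0, 0, 251136, 251200⟩ :=
  ckI_sound (b (d (b (d (b (d (b z2 z2) (b z2 z2)) (d (b z2 z2) (b z2 z2))) (b (d (b z2 z2) (b z2 z2)) (d (b z2 z2) (b z2 z2)))) (d (b (d (b z2 z2) (b z2 z2)) (d (b z2 z2) (b z2 z2))) (b (d (b z2 z2) (b z2 z2)) (d (b z2 z2) (b z2 z2))))) (b (d (b (d (b z2 z2) (b z2 z2)) (d (b z2 z2) (b z2 z2))) (b (d (b z2 z2) (b z2 z2)) (d (b z2 z2) (b z2 z2)))) (d (b (d (b z2 z2) (b z2 z2)) (d (b z2 z2) (b z2 z2))) (b (d (b z2 z2) (b z2 z2)) (d (b z2 z2) (b z2 z2)))))) (d (b (d (b (d (b z2 z2) (b z2 z2)) (d (b z2 z2) (b z2 z2))) (b (d (b z2 z2) (b z2 z2)) (d (b z2 z2) (b z2 z2)))) (d (b (d (b z2 z2) (b z2 z2)) (d (b (d (b z2 z2) (b z2 z2)) (d (b z2 z0) (b z2 z0))) (b (d (b z2 z2) (b z2 z2)) (d (b z2 z0) (b z2 z0))))) (b (d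 (b z2 z2) (b z2 z2)) (d (b (d (b z2 z2) (b z2 z2)) (d (b z2 z0) (b z2 z0))) (b (d (b z2 z2) (b z2 z2)) (d (b z2 z0) (b z2 z0))))))) (b (d (b (d (b z2 z2) (b z2 z2)) (d (b z2 z2) (b z2 z2))) (b (d (b z2 z2) (b z2 z2)) (d (b z2 z2) (b z2 z2)))) (d (b (d (b z2 z2) (b z2 z2)) (d (b (d (b z2 z2) (b z2 z2)) (d (b z2 z0) (b z2 z0))) (b (d (b z2 z2) (b z2 z2)) (d (b z2 z0) (b z2 z0))))) (b (d (b z2 z2) (b z2 z2)) (d (b (d (b z2 z2) (b z2 z2)) (d (b z2 z0) (b z2 z0))) (b (d (b z2 z2) (b z2 z2)) (d (b z2 z0) (b z2 z0))))))))) _ _ (by decide +kernel)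

theorem okI1532 : CKI ⟨393216, 786432, 196544, 196608⟩ ⟨0, 0, 251200, 251264⟩ :=
  ckI_sound (b (d (b (d (b (d (b z2 z2) (b z2 z2)) (d (b z2 z2) (b z2 z2))) (b (d (b z2 z2) (b z2 z2)) (d (b z2 z2) (b z2 z2)))) (d (b (d (b z2 z2) (b z2 z2)) (d (b z2 z2) (b z2 z2))) (b (d (b z2 z2) (b z2 z2)) (d (b z2 z2) (b z2 z2))))) (b (d (b (d (b z2 z2) (b z2 z2)) (d (b z2 z2) (b z2 z2))) (b (d (b z2 z2) (b z2 z2)) (d (b z2 z2) (b z2 z2)))) (d (b (d (b z2 z2) (b z2 z2)) (d (b z2 z2) (b z2 z2))) (b (d (b z2 z2) (b z2 z2)) (d (b z2 z2) (b z2 z2)))))) (d (b (d (b (d (b z2 z2) (b z2 z2)) (d (b z2 z2) (b z2 z2))) (b (d (b z2 z2) (b z2 z2)) (d (b z2 z2) (b z2 z2)))) (d (b (d (b z2 z2) (b z2 z2)) (d (b (d (b z2 z2) (b z2 z2)) (d (b z2 z0) (b z2 z0))) (b (d (b z2 z2) (b z2 z2)) (d (b z2 z0) (b z2 z0))))) (b (d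 (b z2 z2) (b z2 z2)) (d (b (d (b z2 z2) (b z2 z2)) (d (b z2 z0) (b z2 z0))) (b (d (b z2 z2) (b z2 z2)) (d (b z2 z0) (b z2 z0))))))) (b (d (b (d (b z2 z2) (b z2 z2)) (d (b z2 z2) (b z2 z2))) (b (d (b z2 z2) (b z2 z2)) (d (b z2 z2) (b z2 z2)))) (d (b (d (b z2 z2) (b z2 z2)) (d (b (d (b z2 z2) (b z2 z2)) (d (b z2 z0) (b z2 z0))) (b (d (b z2 z2) (b z2 z2)) (d (b z2 z0) (b z2 z0))))) (b (d (b z2 z2) (b z2 z2)) (d (b (d (b z2 z2) (b z2 z2)) (d (b z2 z0) (b z2 z0))) (b (d (b z2 z2) (b z2 z2)) (d (b z2 z0) (b z2 z0))))))))) _ _ (by decide +kernel)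

theorem okI1533 : CKI ⟨393216, 786432, 196480, 196544⟩ ⟨0, 0, 251264, 251392⟩ :=
  ckI_sound (d (b (d (b (d (b z2 z2) (b z2 z2)) (d (b z2 (d (b z2 z2) (b z2 z2))) (b z2 (d (b z2 z2) (b z2 z2))))) (b (d (b z2 z2) (b z2 z2)) (d (b z2 (d (b z2 z2) (b z2 z2))) (b z2 (d (b z2 z2) (b z2 z2)))))) (d (b (d (b (d (b z2 z2) (b z2 z2)) (d (b z2 z2) (b z2 z2))) (b (d (b z2 z2) (b z2 z2)) (d (b z2 z2) (b z2 z2)))) (d (b (d (b z2 z2) (b z2 z2)) (d (b z2 z2) (b z2 z2))) (b (d (b z2 z2) (b z2 z2)) (d (b z2 z2) (b z2 z2))))) (b (d (b (d (b z2 z2) (b z2 z2)) (d (b z2 z2) (b z2 z2))) (b (d (b z2 z2) (b z2 z2)) (d (b z2 z2) (b z2 z2)))) (d (b (d (b z2 z2) (b z2 z2)) (d (b z2 z2) (b z2 z2))) (b (d (b z2 z2) (b z2 z2)) (d (b z2 z2) (b z2 z2))))))) (b (d (b (d (b z2 z2) (b z2 z2)) (d (b z2 (d (b z2 z2) (b z2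 z2))) (b z2 (d (b z2 z2) (b z2 z2))))) (b (d (b z2 z2) (b z2 z2)) (d (b z2 (d (b z2 z2) (b z2 z2))) (b z2 (d (b z2 z2) (b z2 z2)))))) (d (b (d (b (d (b z2 z2) (b z2 z2)) (d (b z2 z2) (b z2 z2))) (b (d (b z2 z2) (b z2 z2)) (d (b z2 z2) (b z2 z2)))) (d (b (d (b z2 z2) (b z2 z2)) (d (b z2 z2) (b z2 z2))) (b (d (b z2 z2) (b z2 z2)) (d (b z2 z2) (b z2 z2))))) (b (d (b (d (b z2 z2) (b z2 z2)) (d (b z2 z2) (b z2 z2))) (b (d (b z2 z2) (b z2 z2)) (d (b z2 z2) (b z2 z2)))) (d (b (d (b z2 z2) (b z2 z2)) (d (b z2 z2) (b z2 z2))) (b (d (b z2 z2) (b z2 z2)) (d (b z2 z2) (b z2 z2)))))))) _ _ (by decide +kernel)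

theorem okI1534 : CKI ⟨393216, 786432, 196544, 196608⟩ ⟨0, 0, 251264, 251328⟩ :=
  ckI_sound (b (d (b (d (b (d (b z2 z2) (b z2 z2)) (d (b z2 z2) (b z2 z2))) (b (d (b z2 z2) (b z2 z2)) (d (b z2 z2) (b z2 z2)))) (d (b (d (b z2 z2) (b z2 z2)) (d (b z2 z2) (b z2 z2))) (b (d (b z2 z2) (b z2 z2)) (d (b z2 z2) (b z2 z2))))) (b (d (b (d (b z2 z2) (b z2 z2)) (d (b z2 z2) (b z2 z2))) (b (d (b z2 z2) (b z2 z2)) (d (b z2 z2) (b z2 z2)))) (d (b (d (b z2 z2) (b z2 z2)) (d (b z2 z2) (b z2 z2))) (b (d (b z2 z2) (b z2 z2)) (d (b z2 z2) (b z2 z2)))))) (d (b (d (b (d (b z2 z2) (b z2 z2)) (d (b z2 z2) (b z2 z2))) (b (d (b z2 z2) (b z2 z2)) (d (b z2 z2) (b z2 z2)))) (d (b (d (b z2 z2) (b z2 z2)) (d (b (d (b z2 z2) (b z2 z2)) (d (b z2 z0) (b z2 z0))) (b (d (b z2 z2) (b z2 z2)) (d (b z2 z0) (b z2 z0))))) (b (d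 (b z2 z2) (b z2 z2)) (d (b (d (b z2 z2) (b z2 z2)) (d (b z2 z0) (b z2 z0))) (b (d (b z2 z2) (b z2 z2)) (d (b z2 z0) (b z2 z0))))))) (b (d (b (d (b z2 z2) (b z2 z2)) (d (b z2 z2) (b z2 z2))) (b (d (b z2 z2) (b z2 z2)) (d (b z2 z2) (b z2 z2)))) (d (b (d (b z2 z2) (b z2 z2)) (d (b (d (b z2 z2) (b z2 z2)) (d (b z2 z0) (b z2 z0))) (b (d (b z2 z2) (b z2 z2)) (d (b z2 z0) (b z2 z0))))) (b (d (b z2 z2) (b z2 z2)) (d (b (d (b z2 z2) (b z2 z2)) (d (b z2 z0) (b z2 z0))) (b (d (b z2 z2) (b z2 z2)) (d (b z2 z0) (b z2 z0))))))))) _ _ (by decide +kernel)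

theorem okI1535 : CKI ⟨393216, 786432, 196544, 196608⟩ ⟨0, 0, 251328, 251392⟩ :=
  ckI_sound (b (d (b (d (b (d (b z2 z2) (b z2 z2)) (d (b z2 z2) (b z2 z2))) (b (d (b z2 z2) (b z2 z2)) (d (b z2 z2) (b z2 z2)))) (d (b (d (b z2 z2) (b z2 z2)) (d (b z2 z2) (b z2 z2))) (b (d (b z2 z2) (b z2 z2)) (d (b z2 z2) (b z2 z2))))) (b (d (b (d (b z2 z2) (b z2 z2)) (d (b z2 z2) (b z2 z2))) (b (d (b z2 z2) (b z2 z2)) (d (b z2 z2) (b z2 z2)))) (d (b (d (b z2 z2) (b z2 z2)) (d (b z2 z2) (b z2 z2))) (b (d (b z2 z2) (b z2 z2)) (d (b z2 z2) (b z2 z2)))))) (d (b (d (b (d (b z2 z2) (b z2 z2)) (d (b z2 z2) (b z2 z2))) (b (d (b z2 z2) (b z2 z2)) (d (b z2 z2) (b z2 z2)))) (d (b (d (b z2 z2) (b z2 z2)) (d (b (d (b z2 z2) (b z2 z2)) (d (b z2 z0) (b z2 z0))) (b (d (b z2 z2) (b z2 z2)) (d (b z2 z0) (b z2 z0))))) (b (d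 (b z2 z2) (b z2 z2)) (d (b (d (b z2 z2) (b z2 z2)) (d (b z2 z0) (b z2 z0))) (b (d (b z2 z2) (b z2 z2)) (d (b z2 z0) (b z2 z0))))))) (b (d (b (d (b z2 z2) (b z2 z2)) (d (b z2 z2) (b z2 z2))) (b (d (b z2 z2) (b z2 z2)) (d (b z2 z2) (b z2 z2)))) (d (b (d (b z2 z2) (b z2 z2)) (d (b (d (b z2 z2) (b z2 z2)) (d (b z2 z0) (b z2 z0))) (b (d (b z2 z2) (b z2 z2)) (d (b z2 z0) (b z2 z0))))) (b (d (b z2 z2) (b z2 z2)) (d (b (d (b z2 z2) (b z2 z2)) (d (b z2 z0) (b z2 z0))) (b (d (b z2 z2) (b z2 z2)) (d (b z2 z0) (b z2 z0))))))))) _ _ (by decide +kernel)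

theorem okI1536 : CKI ⟨393216, 786432, 196096, 196352⟩ ⟨0, 0, 251392, 251648⟩ :=
  ckI_sound (b (d (b (d (b (d (b z2 z2) (b z2 z2)) (d (b z2 z2) (b z2 z2))) (b (d (b z2 z2) (b z2 z2)) (d (b z2 z2) (b z2 z2)))) (d (b (d (b z2 z2) (b z2 z2)) (d (b z2 z2) (b z2 z2))) (b (d (b z2 z2) (b z2 z2)) (d (b z2 z2) (b z2 z2))))) (b (d (b (d (b z2 z2) (b z2 z2)) (d (b z2 z2) (b z2 z2))) (b (d (b z2 z2) (b z2 z2)) (d (b z2 z2) (b z2 z2)))) (d (b (d (b z2 z2) (b z2 z2)) (d (b z2 z2) (b z2 z2))) (b (d (b z2 z2) (b z2 z2)) (d (b z2 z2) (b z2 z2)))))) (d (b (d (b (d (b z2 z2) (b z2 z2)) (d (b z2 z2) (b z2 z2))) (b (d (b z2 z2) (b z2 z2)) (d (b z2 z2) (b z2 z2)))) (d (b (d (b z2 (d (b z2 z2) (b z2 z2))) (b z2 (d (b z2 z2) (b z2 z2)))) (d (b (d (b z2 z2) (b z2 z2)) (d (b z2 z2) (b z2 z2))) (b (d (b z2 z2)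 (b z2 z2)) (d (b z2 z2) (b z2 z2))))) (b (d (b z2 (d (b z2 z2) (b z2 z2))) (b z2 (d (b z2 z2) (b z2 z2)))) (d (b (d (b z2 z2) (b z2 z2)) (d (b z2 z2) (b z2 z2))) (b (d (b z2 z2) (b z2 z2)) (d (b z2 z2) (b z2 z2))))))) (b (d (b (d (b z2 z2) (b z2 z2)) (d (b z2 z2) (b z2 z2))) (b (d (b z2 z2) (b z2 z2)) (d (b z2 z2) (b z2 z2)))) (d (b (d (b z2 (d (b z2 z2) (b z2 z2))) (b z2 (d (b z2 z2) (b z2 z2)))) (d (b (d (b z2 z2) (b z2 z2)) (d (b z2 z2) (b z2 z2))) (b (d (b z2 z2) (b z2 z2)) (d (b z2 z2) (b z2 z2))))) (b (d (b z2 (d (b z2 z2) (b z2 z2))) (b z2 (d (b z2 z2) (b z2 z2)))) (d (b (d (b z2 z2) (b z2 z2)) (d (b z2 z2) (b z2 z2))) (b (d (b z2 z2) (b z2 z2)) (d (b z2 z2) (b z2 z2))))))))) _ _ (by decide +kernel)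

theorem okI1537 : CKI ⟨393216, 786432, 196096, 196352⟩ ⟨0, 0, 251648, 251904⟩ :=
  ckI_sound (b (d (b (d (b (d (b z2 z2) (b z2 z2)) (d (b z2 z2) (b z2 z2))) (b (d (b z2 z2) (b z2 z2)) (d (b z2 z2) (b z2 z2)))) (d (b (d (b z2 z2) (b z2 z2)) (d (b z2 z2) (b z2 z2))) (b (d (b z2 z2) (b z2 z2)) (d (b z2 z2) (b z2 z2))))) (b (d (b (d (b z2 z2) (b z2 z2)) (d (b z2 z2) (b z2 z2))) (b (d (b z2 z2) (b z2 z2)) (d (b z2 z2) (b z2 z2)))) (d (b (d (b z2 z2) (b z2 z2)) (d (b z2 z2) (b z2 z2))) (b (d (b z2 z2) (b z2 z2)) (d (b z2 z2) (b z2 z2)))))) (d (b (d (b (d (b z2 z2) (b z2 z2)) (d (b z2 z2) (b z2 z2))) (b (d (b z2 z2) (b z2 z2)) (d (b z2 z2) (b z2 z2)))) (d (b (d (b z2 (d (b z2 z2) (b z2 z2))) (b z2 (d (b z2 z2) (b z2 z2)))) (d (b (d (b z2 z2) (b z2 z2)) (d (b z2 z2) (b z2 z2))) (b (d (b z2 z2)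 (b z2 z2)) (d (b z2 z2) (b z2 z2))))) (b (d (b z2 (d (b z2 z2) (b z2 z2))) (b z2 (d (b z2 z2) (b z2 z2)))) (d (b (d (b z2 z2) (b z2 z2)) (d (b z2 z2) (b z2 z2))) (b (d (b z2 z2) (b z2 z2)) (d (b z2 z2) (b z2 z2))))))) (b (d (b (d (b z2 z2) (b z2 z2)) (d (b z2 z2) (b z2 z2))) (b (d (b z2 z2) (b z2 z2)) (d (b z2 z2) (b z2 z2)))) (d (b (d (b z3 (d (b z2 z2) (b z2 z2))) (b z3 (d (b z2 z2) (b z2 z2)))) (d (b (d (b z2 z2) (b z2 z2)) (d (b z2 z2) (b z2 z2))) (b (d (b z2 z2) (b z2 z2)) (d (b z2 z2) (b z2 z2))))) (b (d (b z3 (d (b z2 z2) (b z2 z2))) (b z3 (d (b z2 z2) (b z2 z2)))) (d (b (d (b z2 z2) (b z2 z2)) (d (b z2 z2) (b z2 z2))) (b (d (b z2 z2) (b z2 z2)) (d (b z2 z2) (b z2 z2))))))))) _ _ (by decide +kernel)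

theorem okI1538 : CKI ⟨393216, 786432, 196352, 196480⟩ ⟨0, 0, 251392, 251648⟩ :=
  ckI_sound (d (b (d (b (d (b (d (b z2 z2) (b z2 z2)) (d (b z2 z2) (b z2 z2))) (b (d (b z2 z2) (b z2 z2)) (d (b z2 z2) (b z2 z2)))) (d (b (d (b z2 z2) (b z2 z2)) (d (b z2 z2) (b z2 z2))) (b (d (b z2 z2) (b z2 z2)) (d (b z2 z2) (b z2 z2))))) (b (d (b (d (b z2 z2) (b z2 z2)) (d (b z2 z2) (b z2 z2))) (b (d (b z2 z2) (b z2 z2)) (d (b z2 z2) (b z2 z2)))) (d (b (d (b z2 z2) (b z2 z2)) (d (b z2 z2) (b z2 z2))) (b (d (b z2 z2) (b z2 z2)) (d (b z2 z2) (b z2 z2)))))) (d (b (d (b (d (b z2 z2) (b z2 z2)) (d (b z2 z2) (b z2 z2))) (b (d (b z2 z2) (b z2 z2)) (d (b z2 z2) (b z2 z2)))) (d (b (d (b z2 z2) (b z2 z2)) (d (b z2 z2) (b z2 z2))) (b (d (b z2 z2) (b z2 z2)) (d (b z2 z2) (b z2 z2))))) (b (d (b (d (b z2 z2) (b z2 z2))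 (d (b z2 z2) (b z2 z2))) (b (d (b z2 z2) (b z2 z2)) (d (b z2 z2) (b z2 z2)))) (d (b (d (b z2 z2) (b z2 z2)) (d (b z2 z2) (b z2 z2))) (b (d (b z2 z2) (b z2 z2)) (d (b z2 z2) (b z2 z2))))))) (b (d (b (d (b (d (b z2 z2) (b z2 z2)) (d (b z2 z2) (b z2 z2))) (b (d (b z2 z2) (b z2 z2)) (d (b z2 z2) (b z2 z2)))) (d (b (d (b z2 z2) (b z2 z2)) (d (b z2 z2) (b z2 z2))) (b (d (b z2 z2) (b z2 z2)) (d (b z2 z2) (b z2 z2))))) (b (d (b (d (b z2 z2) (b z2 z2)) (d (b z2 z2) (b z2 z2))) (b (d (b z2 z2) (b z2 z2)) (d (b z2 z2) (b z2 z2)))) (d (b (d (b z2 z2) (b z2 z2)) (d (b z2 z2) (b z2 z2))) (b (d (b z2 z2) (b z2 z2)) (d (b z2 z2) (b z2 z2)))))) (d (b (d (b (d (b z2 z2) (b z2 z2)) (d (b z2 z2) (b z2 z2))) (b (d (b z2 z2) (b z2 z2)) (d (b z2 z2) (b z2 z2)))) (d (b (d (b z2 z2) (b z2 z2)) (d (b z2 z2) (b z2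 z2))) (b (d (b z2 z2) (b z2 z2)) (d (b z2 z2) (b z2 z2))))) (b (d (b (d (b z2 z2) (b z2 z2)) (d (b z2 z2) (b z2 z2))) (b (d (b z2 z2) (b z2 z2)) (d (b z2 z2) (b z2 z2)))) (d (b (d (b z2 z2) (b z2 z2)) (d (b z2 z2) (b z2 z2))) (b (d (b z2 z2) (b z2 z2)) (d (b z2 z2) (b z2 z2)))))))) _ _ (by decide +kernel)

theorem okI1539 : CKI ⟨393216, 786432, 196480, 196544⟩ ⟨0, 0, 251392, 251520⟩ :=
  ckI_sound (d (b (d (b (d (b z2 z2) (b z2 z2)) (d (b z2 (d (b z2 z2) (b z2 z2))) (b z2 (d (b z2 z2) (b z2 z2))))) (b (d (b z2 z2) (b z2 z2)) (d (b z2 (d (b z2 z2) (b z2 z2))) (b z2 (d (b z2 z2) (b z2 z2)))))) (d (b (d (b (d (b z2 z2) (b z2 z2)) (d (b z2 z2) (b z2 z2))) (b (d (b z2 z2) (b z2 z2)) (d (b z2 z2) (b z2 z2)))) (d (b (d (b z2 z2) (b z2 z2)) (d (b z2 z2) (b z2 z2))) (b (d (b z2 z2) (b z2 z2)) (d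 (b z2 z2) (b z2 z2))))) (b (d (b (d (b z2 z2) (b z2 z2)) (d (b z2 z2) (b z2 z2))) (b (d (b z2 z2) (b z2 z2)) (d (b z2 z2) (b z2 z2)))) (d (b (d (b z2 z2) (b z2 z2)) (d (b z2 z2) (b z2 z2))) (b (d (b z2 z2) (b z2 z2)) (d (b z2 z2) (b z2 z2))))))) (b (d (b (d (b z2 z2) (b z2 z2)) (d (b z2 (d (b z2 z2) (b z2 z2))) (b z2 (d (b z2 z2) (b z2 z2))))) (b (d (b z2 z2) (b z2 z2)) (d (b z2 (d (b z2 z2) (b z2 z2))) (b z2 (d (b z2 z2) (b z2 z2)))))) (d (b (d (b (d (b z2 z2) (b z2 z2)) (d (b z2 z2) (b z2 z2))) (b (d (b z2 z2) (b z2 z2)) (d (b z2 z2) (b z2 z2)))) (d (b (d (b z2 z2) (b z2 z2)) (d (b z2 z2) (b z2 z2))) (b (d (b z2 z2) (b z2 z2)) (d (b z2 z2) (b z2 z2))))) (b (d (b (d (b z2 z2) (b z2 z2)) (d (b z2 z2) (b z2 z2))) (b (d (b z2 z2) (b z2 z2)) (d (b z2 z2) (b z2 z2)))) (d (b (d (b z2 z2) (b z2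 z2)) (d (b z2 z2) (b z2 z2))) (b (d (b z2 z2) (b z2 z2)) (d (b z2 z2) (b z2 z2)))))))) _ _ (by decide +kernel)

theorem okI1540 : CKI ⟨393216, 786432, 196544, 196608⟩ ⟨0, 0, 251392, 251456⟩ :=
  ckI_sound (b (d (b (d (b (d (b z2 z2) (b z2 z2)) (d (b z2 z2) (b z2 z2))) (b (d (b z2 z2) (b z2 z2)) (d (b z2 z2) (b z2 z2)))) (d (b (d (b z2 z2) (b z2 z2)) (d (b z2 z2) (b z2 z2))) (b (d (b z2 z2) (b z2 z2)) (d (b z2 z2) (b z2 z2))))) (b (d (b (d (b z2 z2) (b z2 z2)) (d (b z2 z2) (b z2 z2))) (b (d (b z2 z2) (b z2 z2)) (d (b z2 z2) (b z2 z2)))) (d (b (d (b z2 z2) (b z2 z2)) (d (b z2 z2) (b z2 z2))) (b (d (b z2 z2) (b z2 z2)) (d (b z2 z2) (b z2 z2)))))) (d (b (d (b (d (b z2 z2) (b z2 z2)) (d (b z2 z2) (b z2 z2))) (b (d (b z2 z2) (b z2 z2)) (d (b z2 z2) (b z2 z2)))) (d (b (d (b z2 z2) (b z2 z2)) (d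 (b (d (b z2 z2) (b z2 z2)) (d (b z2 z0) (b z2 z0))) (b (d (b z2 z2) (b z2 z2)) (d (b z2 z0) (b z2 z0))))) (b (d (b z2 z2) (b z2 z2)) (d (b (d (b z2 z2) (b z2 z2)) (d (b z2 z0) (b z2 z0))) (b (d (b z2 z2) (b z2 z2)) (d (b z2 z0) (b z2 z0))))))) (b (d (b (d (b z2 z2) (b z2 z2)) (d (b z2 z2) (b z2 z2))) (b (d (b z2 z2) (b z2 z2)) (d (b z2 z2) (b z2 z2)))) (d (b (d (b z2 z2) (b z2 z2)) (d (b (d (b z2 z2) (b z2 z2)) (d (b z2 z0) (b z2 z0))) (b (d (b z2 z2) (b z2 z2)) (d (b z2 z0) (b z2 z0))))) (b (d (b z2 z2) (b z2 z2)) (d (b (d (b z2 z2) (b z2 z2)) (d (b z2 z0) (b z2 z0))) (b (d (b z2 z2) (b z2 z2)) (d (b z2 z0) (b z2 z0))))))))) _ _ (by decide +kernel)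

theorem okI1541 : CKI ⟨393216, 786432, 196544, 196608⟩ ⟨0, 0, 251456, 251520⟩ :=
  ckI_sound (b (d (b (d (b (d (b z2 z2) (b z2 z2)) (d (b z2 z2) (b z2 z2))) (b (d (b z2 z2) (b z2 z2)) (d (b z2 z2) (b z2 z2)))) (d (b (d (b z2 z2) (b z2 z2)) (d (b z2 z2) (b z2 z2))) (b (d (b z2 z2) (b z2 z2)) (d (b z2 z2) (b z2 z2))))) (b (d (b (d (b z2 z2) (b z2 z2)) (d (b z2 z2) (b z2 z2))) (b (d (b z2 z2) (b z2 z2)) (d (b z2 z2) (b z2 z2)))) (d (b (d (b z2 z2) (b z2 z2)) (d (b z2 z2) (b z2 z2))) (b (d (b z2 z2) (b z2 z2)) (d (b z2 z2) (b z2 z2)))))) (d (b (d (b (d (b z2 z2) (b z2 z2)) (d (b z2 z2) (b z2 z2))) (b (d (b z2 z2) (b z2 z2)) (d (b z2 z2) (b z2 z2)))) (d (b (d (b z2 z2) (b z2 z2)) (d (b (d (b z2 z2) (b z2 z2)) (d (b z2 z0) (b z2 z0))) (b (d (b z2 z2) (b z2 z2)) (d (b z2 z0) (b z2 z0))))) (b (d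 (b z2 z3) (b z2 z3)) (d (b (d (b z2 z2) (b z2 z2)) (d (b z2 z0) (b z2 z0))) (b (d (b z2 z2) (b z2 z2)) (d (b z2 z0) (b z2 z0))))))) (b (d (b (d (b z2 z2) (b z2 z2)) (d (b z2 z2) (b z2 z2))) (b (d (b z2 z2) (b z2 z2)) (d (b z2 z2) (b z2 z2)))) (d (b (d (b z2 z3) (b z2 z3)) (d (b (d (b z2 z2) (b z2 z2)) (d (b z2 z0) (b z2 z0))) (b (d (b z2 z2) (b z2 z2)) (d (b z2 z0) (b z2 z0))))) (b (d (b z2 z3) (b z2 z3)) (d (b (d (b z2 z2) (b z2 z2)) (d (b z2 z0) (b z2 z0))) (b (d (b z2 z2) (b z2 z2)) (d (b z2 z0) (b z2 z0))))))))) _ _ (by decide +kernel)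

theorem okI1542 : CKI ⟨393216, 786432, 196480, 196544⟩ ⟨0, 0, 251520, 251648⟩ :=
  ckI_sound (d (b (d (b (d (b z2 z2) (b z2 z2)) (d (b z2 (d (b z2 z2) (b z2 z2))) (b z2 (d (b z2 z2) (b z2 z2))))) (b (d (b z2 z2) (b z2 z2)) (d (b z2 (d (b z2 z2) (b z2 z2))) (b z2 (d (b z2 z2) (b z2 z2)))))) (d (b (d (b (d (b z2 z2) (b z2 z2)) (d (b z2 z2) (b z2 z2))) (b (d (b z2 z2) (b z2 z2)) (d (b z2 z2) (b z2 z2)))) (d (b (d (b z2 z2) (b z2 z2)) (d (b z2 z2) (b z2 z2))) (b (d (b z2 z2) (b z2 z2)) (d (b z2 z2) (b z2 z2))))) (b (d (b (d (b z2 z2) (b z2 z2)) (d (b z2 z2) (b z2 z2))) (b (d (b z2 z2) (b z2 z2)) (d (b z2 z2) (b z2 z2)))) (d (b (d (b z2 z2) (b z2 z2)) (d (b z2 z2) (b z2 z2))) (b (d (b z2 z2) (b z2 z2)) (d (b z2 z2) (b z2 z2))))))) (b (d (b (d (b z2 z2) (b z2 z2)) (d (b z2 (d (b z2 z2) (b z2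 z2))) (b z2 (d (b z2 z2) (b z2 z2))))) (b (d (b z2 z2) (b z2 z2)) (d (b z2 (d (b z2 z2) (b z2 z2))) (b z2 (d (b z2 z2) (b z2 z2)))))) (d (b (d (b (d (b z2 z2) (b z2 z2)) (d (b z2 z2) (b z2 z2))) (b (d (b z2 z2) (b z2 z2)) (d (b z2 z2) (b z2 z2)))) (d (b (d (b z2 z2) (b z2 z2)) (d (b z2 z2) (b z2 z2))) (b (d (b z2 z2) (b z2 z2)) (d (b z2 z2) (b z2 z2))))) (b (d (b (d (b z2 z2) (b z2 z2)) (d (b z2 z2) (b z2 z2))) (b (d (b z2 z2) (b z2 z2)) (d (b z2 z2) (b z2 z2)))) (d (b (d (b z2 z2) (b z2 z2)) (d (b z2 z2) (b z2 z2))) (b (d (b z2 z2) (b z2 z2)) (d (b z2 z2) (b z2 z2)))))))) _ _ (by decide +kernel)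

theorem okI1543 : CKI ⟨393216, 786432, 196544, 196608⟩ ⟨0, 0, 251520, 251584⟩ :=
  ckI_sound (b (d (b (d (b (d (b z2 z2) (b z2 z2)) (d (b z2 z2) (b z2 z2))) (b (d (b z2 z2) (b z2 z2)) (d (b z2 z2) (b z2 z2)))) (d (b (d (b z2 z2) (b z2 z2)) (d (b z2 z2) (b z2 z2))) (b (d (b z2 z2) (b z2 z2)) (d (b z2 z2) (b z2 z2))))) (b (d (b (d (b z2 z2) (b z2 z2)) (d (b z2 z2) (b z2 z2))) (b (d (b z2 z2) (b z2 z2)) (d (b z2 z2) (b z2 z2)))) (d (b (d (b z2 z2) (b z2 z2)) (d (b z2 z2) (b z2 z2))) (b (d (b z2 z2) (b z2 z2)) (d (b z2 z2) (b z2 z2)))))) (d (b (d (b (d (b z2 z2) (b z2 z2)) (d (b z2 z2) (b z2 z2))) (b (d (b z2 z2) (b z2 z2)) (d (b z2 z2) (b z2 z2)))) (d (b (d (b z2 z3) (b z2 z3)) (d (b (d (b z2 z2) (b z2 z2)) (d (b z2 z0) (b z2 z0))) (b (d (b z2 z2) (b z2 z2)) (d (b z2 z0) (b z2 z0))))) (b (d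 (b z2 z3) (b z2 z3)) (d (b (d (b z2 z2) (b z2 z2)) (d (b z2 z0) (b z2 z0))) (b (d (b z2 z2) (b z2 z2)) (d (b z2 z0) (b z2 z0))))))) (b (d (b (d (b z2 z2) (b z2 z2)) (d (b z2 z2) (b z2 z2))) (b (d (b z2 z2) (b z2 z2)) (d (b z2 z2) (b z2 z2)))) (d (b (d (b z2 z3) (b z2 z3)) (d (b (d (b z2 z2) (b z2 z2)) (d (b z2 z0) (b z2 z0))) (b (d (b z2 z2) (b z2 z2)) (d (b z2 z0) (b z2 z0))))) (b (d (b z2 z3) (b z2 z3)) (d (b (d (b z2 z2) (b z2 z2)) (d (b z2 z0) (b z2 z0))) (b (d (b z2 z2) (b z2 z2)) (d (b z2 z0) (b z2 z0))))))))) _ _ (by decide +kernel)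

theorem okI1544 : CKI ⟨393216, 786432, 196544, 196608⟩ ⟨0, 0, 251584, 251648⟩ :=
  ckI_sound (b (d (b (d (b (d (b z2 z2) (b z2 z2)) (d (b z2 z2) (b z2 z2))) (b (d (b z2 z2) (b z2 z2)) (d (b z2 z2) (b z2 z2)))) (d (b (d (b z2 z2) (b z2 z2)) (d (b z2 z2) (b z2 z2))) (b (d (b z2 z2) (b z2 z2)) (d (b z2 z2) (b z2 z2))))) (b (d (b (d (b z2 z2) (b z2 z2)) (d (b z2 z2) (b z2 z2))) (b (d (b z2 z2) (b z2 z2)) (d (b z2 z2) (b z2 z2)))) (d (b (d (b z2 z2) (b z2 z2)) (d (b z2 z2) (b z2 z2))) (b (d (b z2 z2) (b z2 z2)) (d (b z2 z2) (b z2 z2)))))) (d (b (d (b (d (b z2 z2) (b z2 z2)) (d (b z2 z2) (b z2 z2))) (b (d (b z2 z2) (b z2 z2)) (d (b z2 z2) (b z2 z2)))) (d (b (d (b z2 z3) (b z2 z3)) (d (b (d (b z2 z2) (b z2 z2)) (d (b z2 z0) (b z2 z0))) (b (d (b z2 z2) (b z2 z2)) (d (b z2 z0) (b z2 z0))))) (b (d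 (b z2 z3) (b z2 z3)) (d (b (d (b z2 z2) (b z2 z2)) (d (b z2 z0) (b z2 z0))) (b (d (b z2 z2) (b z2 z2)) (d (b z2 z0) (b z2 z0))))))) (b (d (b (d (b z2 z2) (b z2 z2)) (d (b z2 z2) (b z2 z2))) (b (d (b z2 z2) (b z2 z2)) (d (b z2 z2) (b z2 z2)))) (d (b (d (b z2 z3) (b z2 z3)) (d (b (d (b z2 z2) (b z2 z2)) (d (b z2 z0) (b z2 z0))) (b (d (b z2 z2) (b z2 z2)) (d (b z2 z0) (b z2 z0))))) (b (d (b z2 z3) (b z2 z3)) (d (b (d (b z2 z2) (b z2 z2)) (d (b z2 z0) (b z2 z0))) (b (d (b z2 z2) (b z2 z2)) (d (b z2 z0) (b z2 z0))))))))) _ _ (by decide +kernel)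

end Vale.Agent.Lib.P154Q5
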