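import Vale.Agent.Lib.P154Q5.FormI

namespace Vale.Agent.Lib.P154Q5

set_option maxRecDepth 100000
set_option exponentiation.threshold 1000

open Tr

theorem okI1545 : CKI ⟨393216, 786432, 196352, 196480⟩ ⟨0, 0, 251648, 251904⟩ :=
  ckI_sound (d (b (d (b (d (b (d (b z2 z2) (b z2 z2)) (d (b z2 z2) (b z2 z2))) (b (d (b z2 z2) (b z2 z2)) (d (b z2 z2) (b z2 z2)))) (d (b (d (b z2 z2) (b z2 z2)) (d (b z2 z2) (b z2 z2))) (b (d (b z2 z2) (b z2 z2)) (d (b z2 z2) (b z2 z2))))) (b (d (b (d (b z2 z2) (b z2 z2)) (d (b z2 z2) (b z2 z2))) (b (d (b z2 z2) (b z2 z2)) (d (b z2 z2) (b z2 z2)))) (d (b (d (b z2 z2) (b z2 z2)) (d (b z2 z2) (b z2 z2))) (b (d (b z2 z2) (b z2 z2)) (d (b z2 z2) (b z2 z2)))))) (d (b (d (b (d (b z2 z2) (b z2 z2)) (d (b z2 z2) (b z2 z2))) (b (d (b z2 z2) (b z2 z2)) (d (b z2 z2) (b z2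 z2)))) (d (b (d (b z2 z2) (b z2 z2)) (d (b z2 z2) (b z2 z2))) (b (d (b z2 z2) (b z2 z2)) (d (b z2 z2) (b z2 z2))))) (b (d (b (d (b z2 z2) (b z2 z2)) (d (b z2 z2) (b z2 z2))) (b (d (b z2 z2) (b z2 z2)) (d (b z2 z2) (b z2 z2)))) (d (b (d (b z2 z2) (b z2 z2)) (d (b z2 z2) (b z2 z2))) (b (d (b z2 z2) (b z2 z2)) (d (b z2 z2) (b z2 z2))))))) (b (d (b (d (b (d (b z2 z2) (b z2 z2)) (d (b z2 z2) (b z2 z2))) (b (d (b z2 z2) (b z2 z2)) (d (b z2 z2) (b z2 z2)))) (d (b (d (b z2 z2) (b z2 z2)) (d (b z2 z2) (b z2 z2))) (b (d (b z2 z2) (b z2 z2)) (d (b z2 z2) (b z2 z2))))) (b (d (b (d (b z2 z2) (b z2 z2)) (d (b z2 z2) (b z2 z2))) (b (d (b z2 z2) (b z2 z2)) (d (b z2 z2) (b z2 z2)))) (d (b (d (b z2 z2) (b z2 z2)) (d (b z2 z2) (b z2 z2))) (b (d (b z2 z2) (b z2 z2)) (d (b z2 z2) (b z2 z2)))))) (d (b (d (b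 (d (b z2 z2) (b z2 z2)) (d (b z2 z2) (b z2 z2))) (b (d (b z2 z2) (b z2 z2)) (d (b z2 z2) (b z2 z2)))) (d (b (d (b z2 z2) (b z2 z2)) (d (b z2 z2) (b z2 z2))) (b (d (b z2 z2) (b z2 z2)) (d (b z2 z2) (b z2 z2))))) (b (d (b (d (b z2 z2) (b z2 z2)) (d (b z2 z2) (b z2 z2))) (b (d (b z2 z2) (b z2 z2)) (d (b z2 z2) (b z2 z2)))) (d (b (d (b z2 z2) (b z2 z2)) (d (b z2 z2) (b z2 z2))) (b (d (b z2 z2) (b z2 z2)) (d (b z2 z2) (b z2 z2)))))))) _ _ (by decide +kernel)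

theorem okI1546 : CKI ⟨393216, 786432, 196480, 196544⟩ ⟨0, 0, 251648, 251776⟩ :=
  ckI_sound (d (b (d (b (d (b z2 z2) (b z2 z2)) (d (b z2 (d (b z2 z2) (b z2 z2))) (b z2 (d (b z2 z2) (b z2 z2))))) (b (d (b z2 z2) (b z2 z2)) (d (b z2 (d (b z2 z2) (b z2 z2))) (b z2 (d (b z2 z2) (b z2 z2)))))) (d (b (d (b (d (b z2 z2) (b z2 z2)) (d (b z2 z2) (b z2 z2))) (b (d (b z2 z2) (b z2 z2)) (d (b z2 z2) (b z2 z2)))) (d (b (d (b z2 z2) (b z2 z2)) (d (b z2 z2) (b z2 z2))) (b (d (b z2 z2) (b z2 z2)) (d (b z2 z2) (b z2 z2))))) (b (d (b (d (b z2 z2) (b z2 z2)) (d (b z2 z2) (b z2 z2))) (b (d (b z2 z2) (b z2 z2)) (d (b z2 z2) (b z2 z2)))) (d (b (d (b z2 z2) (b z2 z2)) (d (b z2 z2) (b z2 z2))) (b (d (b z2 z2) (b z2 z2)) (d (b z2 z2) (b z2 z2))))))) (b (d (b (d (b z2 z2) (b z2 z2)) (d (b z2 (d (b z2 z2) (b z2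 z2))) (b z2 (d (b z2 z2) (b z2 z2))))) (b (d (b z2 z2) (b z2 z2)) (d (b z2 (d (b z2 z2) (b z2 z2))) (b z2 (d (b z2 z2) (b z2 z2)))))) (d (b (d (b (d (b z2 z2) (b z2 z2)) (d (b z2 z2) (b z2 z2))) (b (d (b z2 z2) (b z2 z2)) (d (b z2 z2) (b z2 z2)))) (d (b (d (b z2 z2) (b z2 z2)) (d (b z2 z2) (b z2 z2))) (b (d (b z2 z2) (b z2 z2)) (d (b z2 z2) (b z2 z2))))) (b (d (b (d (b z2 z2) (b z2 z2)) (d (b z2 z2) (b z2 z2))) (b (d (b z2 z2) (b z2 z2)) (d (b z2 z2) (b z2 z2)))) (d (b (d (b z2 z2) (b z2 z2)) (d (b z2 z2) (b z2 z2))) (b (d (b z2 z2) (b z2 z2)) (d (b z2 z2) (b z2 z2)))))))) _ _ (by decide +kernel)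

theorem okI1547 : CKI ⟨393216, 786432, 196544, 196608⟩ ⟨0, 0, 251648, 251712⟩ :=
  ckI_sound (b (d (b (d (b (d (b z2 z2) (b z2 z2)) (d (b z2 z2) (b z2 z2))) (b (d (b z2 z2) (b z2 z2)) (d (b z2 z2) (b z2 z2)))) (d (b (d (b z2 z2) (b z2 z2)) (d (b z2 z2) (b z2 z2))) (b (d (b z2 z2) (b z2 z2)) (d (b z2 z2) (b z2 z2))))) (b (d (b (d (b z2 z2) (b z2 z2)) (d (b z2 z2) (b z2 z2))) (b (d (b z2 z2) (b z2 z2)) (d (b z2 z2) (b z2 z2)))) (d (b (d (b z2 z2) (b z2 z2)) (d (b z2 z2) (b z2 z2))) (b (d (b z2 z2) (b z2 z2)) (d (b z2 z2) (b z2 z2)))))) (d (b (d (b (d (b z2 z2) (b z2 z2)) (d (b z2 z2) (b z2 z2))) (b (d (b z2 z2) (b z2 z2)) (d (b z2 z2) (b z2 z2)))) (d (b (d (b z2 z3) (b z2 z3)) (d (b (d (b z2 z2) (b z2 z2)) (d (b z2 z0) (b z2 z0))) (b (d (b z2 z2) (b z2 z2)) (d (b z2 z0) (b z2 z0))))) (b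 (d (b z2 z3) (b z2 z3)) (d (b (d (b z2 z2) (b z2 z2)) (d (b z2 z0) (b z2 z0))) (b (d (b z2 z2) (b z2 z2)) (d (b z2 z0) (b z2 z0))))))) (b (d (b (d (b z2 z2) (b z2 z2)) (d (b z2 z2) (b z2 z2))) (b (d (b z2 z2) (b z2 z2)) (d (b z2 z2) (b z2 z2)))) (d (b (d (b z2 z3) (b z2 z3)) (d (b (d (b z2 z2) (b z2 z2)) (d (b z2 z0) (b z2 z0))) (b (d (b z2 z2) (b z2 z2)) (d (b z2 z0) (b z2 z0))))) (b (d (b z2 z3) (b z2 z3)) (d (b (d (b z2 z2) (b z2 z2)) (d (b z2 z0) (b z2 z0))) (b (d (b z2 z2) (b z2 z2)) (d (b z2 z0) (b z2 z0))))))))) _ _ (by decide +kernel)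

theorem okI1548 : CKI ⟨393216, 786432, 196544, 196608⟩ ⟨0, 0, 251712, 251776⟩ :=
  ckI_sound (b (d (b (d (b (d (b z2 z2) (b z2 z2)) (d (b z2 z2) (b z2 z2))) (b (d (b z2 z2) (b z2 z2)) (d (b z2 z2) (b z2 z2)))) (d (b (d (b z2 z2) (b z2 z2)) (d (b z2 z2) (b z2 z2))) (b (d (b z2 z2) (b z2 z2)) (d (b z2 z2) (b z2 z2))))) (b (d (b (d (b z2 z2) (b z2 z2)) (d (b z2 z2) (b z2 z2))) (b (d (b z2 z2) (b z2 z2)) (d (b z2 z2) (b z2 z2)))) (d (b (d (b z2 z2) (b z2 z2)) (d (b z2 z2) (b z2 z2))) (b (d (b z2 z2) (b z2 z2)) (d (b z2 z2) (b z2 z2)))))) (d (b (d (b (d (b z2 z2) (b z2 z2)) (d (b z2 z2) (b z2 z2))) (b (d (b z2 z2) (b z2 z2)) (d (b z2 z2) (b z2 z2)))) (d (b (d (b z2 z3) (b z2 z3)) (d (b (d (b z2 z2) (b z2 z2)) (d (b z2 z0) (b z2 z0))) (b (d (b z2 z2) (b z2 z2)) (d (b z2 z0) (b z2 z0))))) (b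 (d (b z2 z3) (b z2 z3)) (d (b (d (b z2 z2) (b z2 z2)) (d (b z2 z0) (b z2 z0))) (b (d (b z2 z2) (b z2 z2)) (d (b z2 z0) (b z2 z0))))))) (b (d (b (d (b z2 z2) (b z2 z2)) (d (b z2 z2) (b z2 z2))) (b (d (b z2 z2) (b z2 z2)) (d (b z2 z2) (b z2 z2)))) (d (b (d (b z2 z3) (b z2 z3)) (d (b (d (b z2 z2) (b z2 z2)) (d (b z2 z0) (b z2 z0))) (b (d (b z2 z2) (b z2 z2)) (d (b z2 z0) (b z2 z0))))) (b (d (b z2 z3) (b z2 z3)) (d (b (d (b z2 z2) (b z2 z2)) (d (b z2 z0) (b z2 z0))) (b (d (b z2 z2) (b z2 z2)) (d (b z2 z0) (b z2 z0))))))))) _ _ (by decide +kernel)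

theorem okI1549 : CKI ⟨393216, 786432, 196480, 196544⟩ ⟨0, 0, 251776, 251904⟩ :=
  ckI_sound (d (b (d (b (d (b z2 z2) (b z2 z2)) (d (b z2 (d (b z2 z2) (b z2 z2))) (b z2 (d (b z2 z2) (b z2 z2))))) (b (d (b z2 z2) (b z2 z2)) (d (b z2 (d (b z2 z2) (b z2 z2))) (b z2 (d (b z2 z2) (b z2 z2)))))) (d (b (d (b (d (b z2 z2) (b z2 z2)) (d (b z2 z2) (b z2 z2))) (b (d (b z2 z2) (b z2 z2)) (d (b z2 z2) (b z2 z2)))) (d (b (d (b z2 z2) (b z2 z2)) (d (b z2 z2) (b z2 z2))) (b (d (b z2 z2) (b z2 z2)) (d (b z2 z2) (b z2 z2))))) (b (d (b (d (b z2 z2) (b z2 z2)) (d (b z2 z2) (b z2 z2))) (b (d (b z2 z2) (b z2 z2)) (d (b z2 z2) (b z2 z2)))) (d (b (d (b z2 z2) (b z2 z2)) (d (b z2 z2) (b z2 z2))) (b (d (b z2 z2) (b z2 z2)) (d (b z2 z2) (b z2 z2))))))) (b (d (b (d (b z2 z2) (b z2 z2)) (d (b z2 (d (b z2 z2) (b z2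 z2))) (b z2 (d (b z2 z2) (b z2 z2))))) (b (d (b z2 z2) (b z2 z2)) (d (b z3 (d (b z2 z2) (b z2 z2))) (b z3 (d (b z2 z2) (b z2 z2)))))) (d (b (d (b (d (b z2 z2) (b z2 z2)) (d (b z2 z2) (b z2 z2))) (b (d (b z2 z2) (b z2 z2)) (d (b z2 z2) (b z2 z2)))) (d (b (d (b z2 z2) (b z2 z2)) (d (b z2 z2) (b z2 z2))) (b (d (b z2 z2) (b z2 z2)) (d (b z2 z2) (b z2 z2))))) (b (d (b (d (b z2 z2) (b z2 z2)) (d (b z2 z2) (b z2 z2))) (b (d (b z2 z2) (b z2 z2)) (d (b z2 z2) (b z2 z2)))) (d (b (d (b z2 z2) (b z2 z2)) (d (b z2 z2) (b z2 z2))) (b (d (b z2 z2) (b z2 z2)) (d (b z2 z2) (b z2 z2)))))))) _ _ (by decide +kernel)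

theorem okI1550 : CKI ⟨393216, 786432, 196544, 196608⟩ ⟨0, 0, 251776, 251840⟩ :=
  ckI_sound (b (d (b (d (b (d (b z2 z2) (b z2 z2)) (d (b z2 z2) (b z2 z2))) (b (d (b z2 z2) (b z2 z2)) (d (b z2 z2) (b z2 z2)))) (d (b (d (b z2 z2) (b z2 z2)) (d (b z2 z2) (b z2 z2))) (b (d (b z2 z2) (b z2 z2)) (d (b z2 z2) (b z2 z2))))) (b (d (b (d (b z2 z2) (b z2 z2)) (d (b z2 z2) (b z2 z2))) (b (d (b z2 z2) (b z2 z2)) (d (b z2 z2) (b z2 z2)))) (d (b (d (b z2 z2) (b z2 z2)) (d (b z2 z2) (b z2 z2))) (b (d (b z2 z2) (b z2 z2)) (d (b z2 z2) (b z2 z2)))))) (d (b (d (b (d (b z2 z2) (b z2 z2)) (d (b z2 z2) (b z2 z2))) (b (d (b z2 z2) (b z2 z2)) (d (b z2 z2) (b z2 z2)))) (d (b (d (b z2 z3) (b z2 z3)) (d (b (d (b z2 z2) (b z2 z2)) (d (b z2 z0) (b z2 z0))) (b (d (b z2 z2) (b z2 z2)) (d (b z2 z0) (b z2 z0))))) (b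 (d (b z2 z3) (b z2 z3)) (d (b (d (b z2 z2) (b z2 z2)) (d (b z2 z0) (b z2 z0))) (b (d (b z2 z2) (b z2 z2)) (d (b z2 z0) (b z2 z0))))))) (b (d (b (d (b z2 z2) (b z2 z2)) (d (b z2 z2) (b z2 z2))) (b (d (b z2 z2) (b z2 z2)) (d (b z2 z2) (b z2 z2)))) (d (b (d (b z2 z3) (b z2 z3)) (d (b (d (b z2 z2) (b z2 z2)) (d (b z2 z0) (b z2 z0))) (b (d (b z2 z2) (b z2 z2)) (d (b z2 z0) (b z2 z0))))) (b (d (b z2 z3) (b z2 (d (b z2 z2) (b z2 z2)))) (d (b (d (b z2 z2) (b z2 z2)) (d (b z2 z0) (b z2 z0))) (b (d (b z2 z2) (b z2 z2)) (d (b z2 z0) (b z2 z0))))))))) _ _ (by decide +kernel)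

theorem okI1551 : CKI ⟨393216, 786432, 196544, 196608⟩ ⟨0, 0, 251840, 251904⟩ :=
  ckI_sound (b (d (b (d (b (d (b z2 z2) (b z2 z2)) (d (b z2 z2) (b z2 z2))) (b (d (b z2 z2) (b z2 z2)) (d (b z2 z2) (b z2 z2)))) (d (b (d (b z2 z2) (b z2 z2)) (d (b z2 z2) (b z2 z2))) (b (d (b z2 z2) (b z2 z2)) (d (b z2 z2) (b z2 z2))))) (b (d (b (d (b z2 z2) (b z2 z2)) (d (b z2 z2) (b z2 z2))) (b (d (b z2 z2) (b z2 z2)) (d (b z2 z2) (b z2 z2)))) (d (b (d (b z2 z2) (b z2 z2)) (d (b z2 z2) (b z2 z2))) (b (d (b z2 z2) (b z2 z2)) (d (b z2 z2) (b z2 z2)))))) (d (b (d (b (d (b z2 z2) (b z2 z2)) (d (b z2 z2) (b z2 z2))) (b (d (b z2 z2) (b z2 z2)) (d (b z2 z2) (b z2 z2)))) (d (b (d (b z2 (d (b z2 z2) (b z2 z2))) (b z2 (d (b z2 z2) (b z2 z2)))) (d (b (d (b z2 z2) (b z2 z2)) (d (b z2 z0) (b z2 z0))) (b (d (b z2 z2)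 (b z2 z2)) (d (b z2 z0) (b z2 z0))))) (b (d (b z2 (d (b z2 z2) (b z2 z2))) (b z2 (d (b z2 z2) (b z2 z2)))) (d (b (d (b z2 z2) (b z2 z2)) (d (b z2 z0) (b z2 z0))) (b (d (b z2 z2) (b z2 z2)) (d (b z2 z0) (b z2 z0))))))) (b (d (b (d (b z2 z2) (b z2 z2)) (d (b z2 z2) (b z2 z2))) (b (d (b z2 z2) (b z2 z2)) (d (b z2 z2) (b z2 z2)))) (d (b (d (b z2 (d (b z2 z2) (b z2 z2))) (b z2 (d (b z2 z2) (b z2 z2)))) (d (b (d (b z2 z2) (b z2 z2)) (d (b z2 z0) (b z2 z0))) (b (d (b z2 z2) (b z2 z2)) (d (b z2 z0) (b z2 z0))))) (b (d (b z2 (d (b z2 z2) (b z2 z2))) (b z2 (d (b z2 z2) (b z2 z2)))) (d (b (d (b z2 z2) (b z2 z2)) (d (b z2 z0) (b z2 z0))) (b (d (b z2 z2) (b z2 z2)) (d (b z2 z0) (b z2 z0))))))))) _ _ (by decide +kernel)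

theorem okI1552 : CKI ⟨393216, 786432, 194560, 195072⟩ ⟨0, 0, 251904, 252928⟩ :=
  ckI_sound (d (b (d (b (d (b z2 z2) (b z2 z2)) (d (b z2 z2) (b z2 z2))) (b (d (b z2 z2) (b z2 z2)) (d (b z2 z2) (b z2 z2)))) (d (b (d (b z3 (d (b z2 z2) (b z2 z2))) (b z3 (d (b z2 z2) (b z2 z2)))) (d (b (d (b z2 z2) (b z2 z2)) (d (b z2 z2) (b z2 z2))) (b (d (b z2 z2) (b z2 z2)) (d (b z2 z2) (b z2 z2))))) (b (d (b z3 (d (b z2 z2) (b z2 z2))) (b z3 (d (b z2 z2) (b z2 z2)))) (d (b (d (b z2 z2) (b z2 z2)) (d (b z2 z2) (b z2 z2))) (b (d (b z2 z2) (b z2 z2)) (d (b z2 z2) (b z2 z2))))))) (b (d (b (d (b z2 z2) (b z2 z2)) (d (b z2 z2) (b z2 z2))) (b (d (b z2 z2) (b z2 z2)) (d (b z2 z2) (b z2 z2)))) (d (b (d (b z3 (d (b z2 z2) (b z2 z2))) (b z3 (d (b z2 z2) (b z2 z2)))) (d (b (d (b z2 z2) (b z2 z2)) (d (b z2 z2) (b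 z2 z2))) (b (d (b z2 z2) (b z2 z2)) (d (b z2 z2) (b z2 z2))))) (b (d (b z3 (d (b z2 z2) (b z2 z2))) (b (d (b z2 z2) (b z2 z2)) (d (b z2 z2) (b z2 z2)))) (d (b (d (b z2 z2) (b z2 z2)) (d (b z2 z2) (b z2 z2))) (b (d (b z2 z2) (b z2 z2)) (d (b z2 z2) (b z2 z2)))))))) _ _ (by decide +kernel)

theorem okI1553 : CKI ⟨393216, 786432, 195072, 195584⟩ ⟨0, 0, 251904, 252928⟩ :=
  ckI_sound (d (b (d (b (d (b (d (b z2 z2) (b z2 z2)) (d (b z2 z2) (b z2 z2))) (b (d (b z2 z2) (b z2 z2)) (d (b z2 z2) (b z2 z2)))) (d (b (d (b z2 z2) (b z2 z2)) (d (b z2 z2) (b z2 z2))) (b (d (b z2 z2) (b z2 z2)) (d (b z2 z2) (b z2 z2))))) (b (d (b (d (b z2 z2) (b z2 z2)) (d (b z2 z2) (b z2 z2))) (b (d (b z2 z2) (b z2 z2)) (d (b z2 z2) (b z2 z2)))) (d (b (d (b z2 z2) (b z2 z2)) (d (b z2 z2) (b z2 z2))) (b (d (b z2 z2) (b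 z2 z2)) (d (b z2 z2) (b z2 z2)))))) (d (b (d (b (d (b z2 z2) (b z2 z2)) (d (b z2 z2) (b z2 z2))) (b (d (b z2 z2) (b z2 z2)) (d (b z2 z2) (b z2 z2)))) (d (b (d (b z2 z2) (b z2 z2)) (d (b z2 z2) (b z2 z2))) (b (d (b z2 z2) (b z2 z2)) (d (b z2 z2) (b z2 z2))))) (b (d (b (d (b z2 z2) (b z2 z2)) (d (b z2 z2) (b z2 z2))) (b (d (b z2 z2) (b z2 z2)) (d (b z2 z2) (b z2 z2)))) (d (b (d (b z2 z2) (b z2 z2)) (d (b z2 z2) (b z2 z2))) (b (d (b z2 z2) (b z2 z2)) (d (b z2 z2) (b z2 z2))))))) (b (d (b (d (b (d (b z2 z2) (b z2 z2)) (d (b z2 z2) (b z2 z2))) (b (d (b z2 z2) (b z2 z2)) (d (b z2 z2) (b z2 z2)))) (d (b (d (b z2 z2) (b z2 z2)) (d (b z2 z2) (b z2 z2))) (b (d (b z2 z2) (b z2 z2)) (d (b z2 z2) (b z2 z2))))) (b (d (b (d (b z2 z2) (b z2 z2)) (d (b z2 z2) (b z2 z2))) (b (d (b z2 z2) (b z2 z2)) (d (b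 z2 z2) (b z2 z2)))) (d (b (d (b z2 z2) (b z2 z2)) (d (b z2 z2) (b z2 z2))) (b (d (b z2 z2) (b z2 z2)) (d (b z2 z2) (b z2 z2)))))) (d (b (d (b (d (b z2 z2) (b z2 z2)) (d (b z2 z2) (b z2 z2))) (b (d (b z2 z2) (b z2 z2)) (d (b z2 z2) (b z2 z2)))) (d (b (d (b z2 z2) (b z2 z2)) (d (b z2 z2) (b z2 z2))) (b (d (b z2 z2) (b z2 z2)) (d (b z2 z2) (b z2 z2))))) (b (d (b (d (b z2 z2) (b z2 z2)) (d (b z2 z2) (b z2 z2))) (b (d (b z2 z2) (b z2 z2)) (d (b z2 z2) (b z2 z2)))) (d (b (d (b z2 z2) (b z2 z2)) (d (b z2 z2) (b z2 z2))) (b (d (b z2 z2) (b z2 z2)) (d (b z2 z2) (b z2 z2)))))))) _ _ (by decide +kernel)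

theorem okI1554 : CKI ⟨393216, 786432, 194560, 195072⟩ ⟨0, 0, 252928, 253952⟩ :=
  ckI_sound (d (b (d (b (d (b z2 z2) (b z2 z2)) (d (b z2 z2) (b z2 z2))) (b (d (b z2 z2) (b z2 z2)) (d (b z2 z2) (b z2 z2)))) (d (b (d (b (d (b z2 z2) (b z2 z2)) (d (b z2 z2) (b z2 z2))) (b (d (b z2 z2) (b z2 z2)) (d (b z2 z2) (b z2 z2)))) (d (b (d (b z2 z2) (b z2 z2)) (d (b z2 z2) (b z2 z2))) (b (d (b z2 z2) (b z2 z2)) (d (b z2 z2) (b z2 z2))))) (b (d (b (d (b z2 z2) (b z2 z2)) (d (b z2 z2) (b z2 z2))) (b (d (b z2 z2) (b z2 z2)) (d (b z2 z2) (b z2 z2)))) (d (b (d (b z2 z2) (b z2 z2)) (d (b z2 z2) (b z2 z2))) (b (d (b z2 z2) (b z2 z2)) (d (b z2 z2) (b z2 z2))))))) (b (d (b (d (b z2 z2) (b z2 z2)) (d (b z2 z2) (b z2 z2))) (b (d (b z2 z2) (b z2 z2)) (d (b z2 z2) (b z2 z2)))) (d (b (d (b (d (b z2 z2) (b z2 z2))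 (d (b z2 z2) (b z2 z2))) (b (d (b z2 z2) (b z2 z2)) (d (b z2 z2) (b z2 z2)))) (d (b (d (b z2 z2) (b z2 z2)) (d (b z2 z2) (b z2 z2))) (b (d (b z2 z2) (b z2 z2)) (d (b z2 z2) (b z2 z2))))) (b (d (b (d (b z2 z2) (b z2 z2)) (d (b z2 z2) (b z2 z2))) (b (d (b z2 z2) (b z2 z2)) (d (b z2 z2) (b z2 z2)))) (d (b (d (b z2 z2) (b z2 z2)) (d (b z2 z2) (b z2 z2))) (b (d (b z2 z2) (b z2 z2)) (d (b z2 z2) (b z2 z2)))))))) _ _ (by decide +kernel)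

theorem okI1555 : CKI ⟨393216, 786432, 195072, 195584⟩ ⟨0, 0, 252928, 253952⟩ :=
  ckI_sound (d (b (d (b (d (b (d (b z2 z2) (b z2 z2)) (d (b z2 z2) (b z2 z2))) (b (d (b z2 z2) (b z2 z2)) (d (b z2 z2) (b z2 z2)))) (d (b (d (b z2 z2) (b z2 z2)) (d (b z2 z2) (b z2 z2))) (b (d (b z2 z2) (b z2 z2)) (d (b z2 z2) (b z2 z2))))) (b (d (b (d (b z2 z2) (b z2 z2)) (d (b z2 z2) (b z2 z2))) (b (d (b z2 z2) (b z2 z2)) (d (b z2 z2) (b z2 z2)))) (d (b (d (b z2 z2) (b z2 z2)) (d (b z2 z2) (b z2 z2))) (b (d (b z2 z2) (b z2 z2)) (d (b z2 z2) (b z2 z2)))))) (d (b (d (b (d (b z2 z2) (b z2 z2)) (d (b z2 z2) (b z2 z2))) (b (d (b z2 z2) (b z2 z2)) (d (b z2 z2) (b z2 z2)))) (d (b (d (b z2 z2) (b z2 z2)) (d (b z2 z2) (b z2 z2))) (b (d (b z2 z2) (b z2 z2)) (d (b z2 z2) (b z2 z2))))) (b (d (b (d (b z2 z2) (b z2 z2))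 (d (b z2 z2) (b z2 z2))) (b (d (b z2 z2) (b z2 z2)) (d (b z2 z2) (b z2 z2)))) (d (b (d (b z2 z2) (b z2 z2)) (d (b z2 z2) (b z2 z2))) (b (d (b z2 z2) (b z2 z2)) (d (b z2 z2) (b z2 z2))))))) (b (d (b (d (b (d (b z2 z2) (b z2 z2)) (d (b z2 z2) (b z2 z2))) (b (d (b z2 z2) (b z2 z2)) (d (b z2 z2) (b z2 z2)))) (d (b (d (b z2 z2) (b z2 z2)) (d (b z2 z2) (b z2 z2))) (b (d (b z2 z2) (b z2 z2)) (d (b z2 z2) (b z2 z2))))) (b (d (b (d (b z2 z2) (b z2 z2)) (d (b z2 z2) (b z2 z2))) (b (d (b z2 z2) (b z2 z2)) (d (b z2 z2) (b z2 z2)))) (d (b (d (b z2 z2) (b z2 z2)) (d (b z2 z2) (b z2 z2))) (b (d (b z2 z2) (b z2 z2)) (d (b z2 z2) (b z2 z2)))))) (d (b (d (b (d (b z2 z2) (b z2 z2)) (d (b z2 z2) (b z2 z2))) (b (d (b z2 z2) (b z2 z2)) (d (b z2 z2) (b z2 z2)))) (d (b (d (b z2 z2) (b z2 z2)) (d (b z2 z2) (b z2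 z2))) (b (d (b z2 z2) (b z2 z2)) (d (b z2 z2) (b z2 z2))))) (b (d (b (d (b z2 z2) (b z2 z2)) (d (b z2 z2) (b z2 z2))) (b (d (b z2 z2) (b z2 z2)) (d (b z2 z2) (b z2 z2)))) (d (b (d (b z2 z2) (b z2 z2)) (d (b z2 z2) (b z2 z2))) (b (d (b z2 z2) (b z2 z2)) (d (b z2 z2) (b z2 z2)))))))) _ _ (by decide +kernel)

theorem okI1556 : CKI ⟨393216, 786432, 195584, 196096⟩ ⟨0, 0, 251904, 252416⟩ :=
  ckI_sound (b (d (b (d (b (d (b z2 z2) (b z2 z2)) (d (b z2 z2) (b z2 z2))) (b (d (b z2 z2) (b z2 z2)) (d (b z2 z2) (b z2 z2)))) (d (b (d (b z2 z2) (b z2 z2)) (d (b z2 z2) (b z2 z2))) (b (d (b z2 z2) (b z2 z2)) (d (b z2 z2) (b z2 z2))))) (b (d (b (d (b z2 z2) (b z2 z2)) (d (b z2 z2) (b z2 z2))) (b (d (b z2 z2) (b z2 z2)) (d (b z2 z2) (b z2 z2)))) (d (b (d (b z2 z2) (b z2 z2)) (d (b z2 z2) (b z2 z2))) (b (d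 (b z2 z2) (b z2 z2)) (d (b z2 z2) (b z2 z2)))))) (d (b (d (b (d (b z3 (d (b z2 z2) (b z2 z2))) (b z3 (d (b z2 z2) (b z2 z2)))) (d (b (d (b z2 z2) (b z2 z2)) (d (b z2 z2) (b z2 z2))) (b (d (b z2 z2) (b z2 z2)) (d (b z2 z2) (b z2 z2))))) (b (d (b z3 (d (b z2 z2) (b z2 z2))) (b z3 (d (b z2 z2) (b z2 z2)))) (d (b (d (b z2 z2) (b z2 z2)) (d (b z2 z2) (b z2 z2))) (b (d (b z2 z2) (b z2 z2)) (d (b z2 z2) (b z2 z2)))))) (d (b (d (b (d (b z2 z2) (b z2 z2)) (d (b z2 z2) (b z2 z2))) (b (d (b z2 z2) (b z2 z2)) (d (b z2 z2) (b z2 z2)))) (d (b (d (b z2 z2) (b z2 z2)) (d (b z2 z2) (b z2 z2))) (b (d (b z2 z2) (b z2 z2)) (d (b z2 z2) (b z2 z2))))) (b (d (b (d (b z2 z2) (b z2 z2)) (d (b z2 z2) (b z2 z2))) (b (d (b z2 z2) (b z2 z2)) (d (b z2 z2) (b z2 z2)))) (d (b (d (b z2 z2) (b z2 z2)) (d (b z2 z2) (b z2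 z2))) (b (d (b z2 z2) (b z2 z2)) (d (b z2 z2) (b z2 z2))))))) (b (d (b (d (b z3 (d (b z2 z2) (b z2 z2))) (b z3 (d (b z2 z2) (b z2 z2)))) (d (b (d (b z2 z2) (b z2 z2)) (d (b z2 z2) (b z2 z2))) (b (d (b z2 z2) (b z2 z2)) (d (b z2 z2) (b z2 z2))))) (b (d (b z3 (d (b z2 z2) (b z2 z2))) (b z3 (d (b z2 z2) (b z2 z2)))) (d (b (d (b z2 z2) (b z2 z2)) (d (b z2 z2) (b z2 z2))) (b (d (b z2 z2) (b z2 z2)) (d (b z2 z2) (b z2 z2)))))) (d (b (d (b (d (b z2 z2) (b z2 z2)) (d (b z2 z2) (b z2 z2))) (b (d (b z2 z2) (b z2 z2)) (d (b z2 z2) (b z2 z2)))) (d (b (d (b z2 z2) (b z2 z2)) (d (b z2 z2) (b z2 z2))) (b (d (b z2 z2) (b z2 z2)) (d (b z2 z2) (b z2 z2))))) (b (d (b (d (b z2 z2) (b z2 z2)) (d (b z2 z2) (b z2 z2))) (b (d (b z2 z2) (b z2 z2)) (d (b z2 z2) (b z2 z2)))) (d (b (d (b z2 z2) (b z2 z2)) (d (b z2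 z2) (b z2 z2))) (b (d (b z2 z2) (b z2 z2)) (d (b z2 z2) (b z2 z2))))))))) _ _ (by decide +kernel)

theorem okI1557 : CKI ⟨393216, 786432, 195584, 196096⟩ ⟨0, 0, 252416, 252928⟩ :=
  ckI_sound (b (d (b (d (b (d (b z2 z2) (b z2 z2)) (d (b z2 z2) (b z2 z2))) (b (d (b z2 z2) (b z2 z2)) (d (b z2 z2) (b z2 z2)))) (d (b (d (b z2 z2) (b z2 z2)) (d (b z2 z2) (b z2 z2))) (b (d (b z2 z2) (b z2 z2)) (d (b z2 z2) (b z2 z2))))) (b (d (b (d (b z2 z2) (b z2 z2)) (d (b z2 z2) (b z2 z2))) (b (d (b z2 z2) (b z2 z2)) (d (b z2 z2) (b z2 z2)))) (d (b (d (b z2 z2) (b z2 z2)) (d (b z2 z2) (b z2 z2))) (b (d (b z2 z2) (b z2 z2)) (d (b z2 z2) (b z2 z2)))))) (d (b (d (b (d (b z3 (d (b z2 z2) (b z2 z2))) (b z3 (d (b z2 z2) (b z2 z2)))) (d (b (d (b z2 z2) (b z2 z2)) (d (b z2 z2) (b z2 z2))) (b (d (b z2 z2) (b z2 z2))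 (d (b z2 z2) (b z2 z2))))) (b (d (b z3 (d (b z2 z2) (b z2 z2))) (b z3 (d (b z2 z2) (b z2 z2)))) (d (b (d (b z2 z2) (b z2 z2)) (d (b z2 z2) (b z2 z2))) (b (d (b z2 z2) (b z2 z2)) (d (b z2 z2) (b z2 z2)))))) (d (b (d (b (d (b z2 z2) (b z2 z2)) (d (b z2 z2) (b z2 z2))) (b (d (b z2 z2) (b z2 z2)) (d (b z2 z2) (b z2 z2)))) (d (b (d (b z2 z2) (b z2 z2)) (d (b z2 z2) (b z2 z2))) (b (d (b z2 z2) (b z2 z2)) (d (b z2 z2) (b z2 z2))))) (b (d (b (d (b z2 z2) (b z2 z2)) (d (b z2 z2) (b z2 z2))) (b (d (b z2 z2) (b z2 z2)) (d (b z2 z2) (b z2 z2)))) (d (b (d (b z2 z2) (b z2 z2)) (d (b z2 z2) (b z2 z2))) (b (d (b z2 z2) (b z2 z2)) (d (b z2 z2) (b z2 z2))))))) (b (d (b (d (b z3 (d (b z2 z2) (b z2 z2))) (b z3 (d (b z2 z2) (b z2 z2)))) (d (b (d (b z2 z2) (b z2 z2)) (d (b z2 z2) (b z2 z2))) (b (d (b z2 z2)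 (b z2 z2)) (d (b z2 z2) (b z2 z2))))) (b (d (b z3 (d (b z2 z2) (b z2 z2))) (b z3 (d (b z2 z2) (b z2 z2)))) (d (b (d (b z2 z2) (b z2 z2)) (d (b z2 z2) (b z2 z2))) (b (d (b z2 z2) (b z2 z2)) (d (b z2 z2) (b z2 z2)))))) (d (b (d (b (d (b z2 z2) (b z2 z2)) (d (b z2 z2) (b z2 z2))) (b (d (b z2 z2) (b z2 z2)) (d (b z2 z2) (b z2 z2)))) (d (b (d (b z2 z2) (b z2 z2)) (d (b z2 z2) (b z2 z2))) (b (d (b z2 z2) (b z2 z2)) (d (b z2 z2) (b z2 z2))))) (b (d (b (d (b z2 z2) (b z2 z2)) (d (b z2 z2) (b z2 z2))) (b (d (b z2 z2) (b z2 z2)) (d (b z2 z2) (b z2 z2)))) (d (b (d (b z2 z2) (b z2 z2)) (d (b z2 z2) (b z2 z2))) (b (d (b z2 z2) (b z2 z2)) (d (b z2 z2) (b z2 z2))))))))) _ _ (by decide +kernel)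

theorem okI1558 : CKI ⟨393216, 786432, 196096, 196352⟩ ⟨0, 0, 251904, 252160⟩ :=
  ckI_sound (b (d (b (d (b (d (b z2 z2) (b z2 z2)) (d (b z2 z2) (b z2 z2))) (b (d (b z2 z2) (b z2 z2)) (d (b z2 z2) (b z2 z2)))) (d (b (d (b z2 z2) (b z2 z2)) (d (b z2 z2) (b z2 z2))) (b (d (b z2 z2) (b z2 z2)) (d (b z2 z2) (b z2 z2))))) (b (d (b (d (b z2 z2) (b z2 z2)) (d (b z2 z2) (b z2 z2))) (b (d (b z2 z2) (b z2 z2)) (d (b z2 z2) (b z2 z2)))) (d (b (d (b z2 z2) (b z2 z2)) (d (b z2 z2) (b z2 z2))) (b (d (b z2 z2) (b z2 z2)) (d (b z2 z2) (b z2 z2)))))) (d (b (d (b (d (b z2 z2) (b z2 z2)) (d (b z2 z2) (b z2 z2))) (b (d (b z2 z2) (b z2 z2)) (d (b z2 z2) (b z2 z2)))) (d (b (d (b z3 (d (b z2 z2) (b z2 z2))) (b z3 (d (b z2 z2) (b z2 z2)))) (d (b (d (b z2 z2) (b z2 z2)) (d (b z2 z2) (b z2 z2))) (b (d (b z2 z2)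 (b z2 z2)) (d (b z2 z2) (b z2 z2))))) (b (d (b z3 (d (b z2 z2) (b z2 z2))) (b z3 (d (b z2 z2) (b z2 z2)))) (d (b (d (b z2 z2) (b z2 z2)) (d (b z2 z2) (b z2 z2))) (b (d (b z2 z2) (b z2 z2)) (d (b z2 z2) (b z2 z2))))))) (b (d (b (d (b z2 z2) (b z2 z2)) (d (b z2 z2) (b z2 z2))) (b (d (b z2 z2) (b z2 z2)) (d (b z2 z2) (b z2 z2)))) (d (b (d (b z3 (d (b z2 z2) (b z2 z2))) (b z3 (d (b z2 z2) (b z2 z2)))) (d (b (d (b z2 z2) (b z2 z2)) (d (b z2 z2) (b z2 z2))) (b (d (b z2 z2) (b z2 z2)) (d (b z2 z2) (b z2 z2))))) (b (d (b z3 (d (b z2 z2) (b z2 z2))) (b z3 (d (b z2 z2) (b z2 z2)))) (d (b (d (b z2 z2) (b z2 z2)) (d (b z2 z2) (b z2 z2))) (b (d (b z2 z2) (b z2 z2)) (d (b z2 z2) (b z2 z2))))))))) _ _ (by decide +kernel)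

theorem okI1559 : CKI ⟨393216, 786432, 196096, 196352⟩ ⟨0, 0, 252160, 252416⟩ :=
  ckI_sound (b (d (b (d (b (d (b z2 z2) (b z2 z2)) (d (b z2 z2) (b z2 z2))) (b (d (b z2 z2) (b z2 z2)) (d (b z2 z2) (b z2 z2)))) (d (b (d (b z2 z2) (b z2 z2)) (d (b z2 z2) (b z2 z2))) (b (d (b z2 z2) (b z2 z2)) (d (b z2 z2) (b z2 z2))))) (b (d (b (d (b z2 z2) (b z2 z2)) (d (b z2 z2) (b z2 z2))) (b (d (b z2 z2) (b z2 z2)) (d (b z2 z2) (b z2 z2)))) (d (b (d (b z2 z2) (b z2 z2)) (d (b z2 z2) (b z2 z2))) (b (d (b z2 z2) (b z2 z2)) (d (b z2 z2) (b z2 z2)))))) (d (b (d (b (d (b z2 z2) (b z2 z2)) (d (b z2 z2) (b z2 z2))) (b (d (b z2 z2) (b z2 z2)) (d (b z2 z2) (b z2 z2)))) (d (b (d (b z3 (d (b z2 z2) (b z2 z2))) (b z3 (d (b z2 z2) (b z2 z2)))) (d (b (d (b z2 z2) (b z2 z2)) (d (b z2 z2) (b z2 z2))) (b (d (b z2 z2)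 (b z2 z2)) (d (b z2 z2) (b z2 z2))))) (b (d (b z3 (d (b z2 z2) (b z2 z2))) (b z3 (d (b z2 z2) (b z2 z2)))) (d (b (d (b z2 z2) (b z2 z2)) (d (b z2 z2) (b z2 z2))) (b (d (b z2 z2) (b z2 z2)) (d (b z2 z2) (b z2 z2))))))) (b (d (b (d (b z2 z2) (b z2 z2)) (d (b z2 z2) (b z2 z2))) (b (d (b z2 z2) (b z2 z2)) (d (b z2 z2) (b z2 z2)))) (d (b (d (b z3 (d (b z2 z2) (b z2 z2))) (b z3 (d (b z2 z2) (b z2 z2)))) (d (b (d (b z2 z2) (b z2 z2)) (d (b z2 z2) (b z2 z2))) (b (d (b z2 z2) (b z2 z2)) (d (b z2 z2) (b z2 z2))))) (b (d (b z3 (d (b z2 z2) (b z2 z2))) (b z3 (d (b z2 z2) (b z2 z2)))) (d (b (d (b z2 z2) (b z2 z2)) (d (b z2 z2) (b z2 z2))) (b (d (b z2 z2) (b z2 z2)) (d (b z2 z2) (b z2 z2))))))))) _ _ (by decide +kernel)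

end Vale.Agent.Lib.P154Q5
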