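import Vale.Agent.Lib.P154Q5.FormI

namespace Vale.Agent.Lib.P154Q5

set_option maxRecDepth 100000
set_option exponentiation.threshold 1000

open Tr

theorem okI1620 : CKI ⟨393216, 786432, 196544, 196608⟩ ⟨0, 0, 253760, 253824⟩ :=
  ckI_sound (b (d (b (d (b (d (b z2 z2) (b z2 z2)) (d (b z2 z2) (b z2 z2))) (b (d (b z2 z2) (b z2 z2)) (d (b z2 z2) (b z2 z2)))) (d (b (d (b z2 z2) (b z2 z2)) (d (b z2 z2) (b z2 z2))) (b (d (b z2 z2) (b z2 z2)) (d (b z2 z2) (b z2 z2))))) (b (d (b (d (b z2 z2) (b z2 z2)) (d (b z2 z2) (b z2 z2))) (b (d (b z2 z2) (b z2 z2)) (d (b z2 z2) (b z2 z2)))) (d (b (d (b z2 z2) (b z2 z2)) (d (b z2 z2) (b z2 z2))) (b (d (b z2 z2) (b z2 z2)) (d (b z2 z2) (b z2 z2)))))) (d (b (d (b (d (b z2 z2) (b z2 z2)) (d (b z2 z2) (b z2 z2))) (b (d (b z2 z2) (b z2 z2)) (d (b z2 z2) (b z2 z2))))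 (d (b (d (b (d (b z2 z2) (b z2 z2)) (d (b z2 z2) (b z2 z2))) (b (d (b z2 z2) (b z2 z2)) (d (b z2 z2) (b z2 z2)))) (d (b (d (b z2 z2) (b z2 z2)) (d (b z2 z0) (b z2 z0))) (b (d (b z2 z2) (b z2 z2)) (d (b z2 z0) (b z2 z0))))) (b (d (b (d (b z2 z2) (b z2 z2)) (d (b z2 z2) (b z2 z2))) (b (d (b z2 z2) (b z2 z2)) (d (b z2 z2) (b z2 z2)))) (d (b (d (b z2 z2) (b z2 z2)) (d (b z2 z0) (b z2 z0))) (b (d (b z2 z2) (b z2 z2)) (d (b z2 z0) (b z2 z0))))))) (b (d (b (d (b z2 z2) (b z2 z2)) (d (b z2 z2) (b z2 z2))) (b (d (b z2 z2) (b z2 z2)) (d (b z2 z2) (b z2 z2)))) (d (b (d (b (d (b z2 z2) (b z2 z2)) (d (b z2 z2) (b z2 z2))) (b (d (b z2 z2) (b z2 z2)) (d (b z2 z2) (b z2 z2)))) (d (b (d (b z2 z2) (b z2 z2)) (d (b z2 z0) (b z2 z0))) (b (d (b z2 z2) (b z2 z2)) (d (b z2 z0) (b z2 z0))))) (b (d (b (d (b z2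 z2) (b z2 z2)) (d (b z2 z2) (b z2 z2))) (b (d (b z2 z2) (b z2 z2)) (d (b z2 z2) (b z2 z2)))) (d (b (d (b z2 z2) (b z2 z2)) (d (b z2 z0) (b z2 z0))) (b (d (b z2 z2) (b z2 z2)) (d (b z2 z0) (b z2 z0))))))))) _ _ (by decide +kernel)

theorem okI1621 : CKI ⟨393216, 786432, 196480, 196544⟩ ⟨0, 0, 253824, 253952⟩ :=
  ckI_sound (d (b (d (b (d (b z2 z3) (b z2 z3)) (d (b (d (b z2 z2) (b z2 z2)) (d (b z2 z2) (b z2 z2))) (b (d (b z2 z2) (b z2 z2)) (d (b z2 z2) (b z2 z2))))) (b (d (b z2 z3) (b z2 z3)) (d (b (d (b z2 z2) (b z2 z2)) (d (b z2 z2) (b z2 z2))) (b (d (b z2 z2) (b z2 z2)) (d (b z2 z2) (b z2 z2)))))) (d (b (d (b (d (b z2 z2) (b z2 z2)) (d (b z2 z2) (b z2 z2))) (b (d (b z2 z2) (b z2 z2)) (d (b z2 z2) (b z2 z2)))) (d (b (d (b z2 z2) (b z2 z2)) (d (b z2 z2) (b z2 z2))) (b (d (b z2 z2) (b z2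 z2)) (d (b z2 z2) (b z2 z2))))) (b (d (b (d (b z2 z2) (b z2 z2)) (d (b z2 z2) (b z2 z2))) (b (d (b z2 z2) (b z2 z2)) (d (b z2 z2) (b z2 z2)))) (d (b (d (b z2 z2) (b z2 z2)) (d (b z2 z2) (b z2 z2))) (b (d (b z2 z2) (b z2 z2)) (d (b z2 z2) (b z2 z2))))))) (b (d (b (d (b z2 z3) (b z2 z3)) (d (b (d (b z2 z2) (b z2 z2)) (d (b z2 z2) (b z2 z2))) (b (d (b z2 z2) (b z2 z2)) (d (b z2 z2) (b z2 z2))))) (b (d (b z2 z3) (b z2 z3)) (d (b (d (b z2 z2) (b z2 z2)) (d (b z2 z2) (b z2 z2))) (b (d (b z2 z2) (b z2 z2)) (d (b z2 z2) (b z2 z2)))))) (d (b (d (b (d (b z2 z2) (b z2 z2)) (d (b z2 z2) (b z2 z2))) (b (d (b z2 z2) (b z2 z2)) (d (b z2 z2) (b z2 z2)))) (d (b (d (b z2 z2) (b z2 z2)) (d (b z2 z2) (b z2 z2))) (b (d (b z2 z2) (b z2 z2)) (d (b z2 z2) (b z2 z2))))) (b (d (b (d (b z2 z2) (b z2 z2)) (d (b z2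 z2) (b z2 z2))) (b (d (b z2 z2) (b z2 z2)) (d (b z2 z2) (b z2 z2)))) (d (b (d (b z2 z2) (b z2 z2)) (d (b z2 z2) (b z2 z2))) (b (d (b z2 z2) (b z2 z2)) (d (b z2 z2) (b z2 z2)))))))) _ _ (by decide +kernel)

theorem okI1622 : CKI ⟨393216, 786432, 196544, 196608⟩ ⟨0, 0, 253824, 253888⟩ :=
  ckI_sound (b (d (b (d (b (d (b z2 z2) (b z2 z2)) (d (b z2 z2) (b z2 z2))) (b (d (b z2 z2) (b z2 z2)) (d (b z2 z2) (b z2 z2)))) (d (b (d (b z2 z2) (b z2 z2)) (d (b z2 z2) (b z2 z2))) (b (d (b z2 z2) (b z2 z2)) (d (b z2 z2) (b z2 z2))))) (b (d (b (d (b z2 z2) (b z2 z2)) (d (b z2 z2) (b z2 z2))) (b (d (b z2 z2) (b z2 z2)) (d (b z2 z2) (b z2 z2)))) (d (b (d (b z2 z2) (b z2 z2)) (d (b z2 z2) (b z2 z2))) (b (d (b z2 z2) (b z2 z2)) (d (b z2 z2) (b z2 z2)))))) (d (b (d (b (d (b z2 z2) (b z2 z2)) (d (b z2 z2) (b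 z2 z2))) (b (d (b z2 z2) (b z2 z2)) (d (b z2 z2) (b z2 z2)))) (d (b (d (b (d (b z2 z2) (b z2 z2)) (d (b z2 z2) (b z2 z2))) (b (d (b z2 z2) (b z2 z2)) (d (b z2 z2) (b z2 z2)))) (d (b (d (b z2 z2) (b z2 z2)) (d (b z2 z0) (b z2 z0))) (b (d (b z2 z2) (b z2 z2)) (d (b z2 z0) (b z2 z0))))) (b (d (b (d (b z2 z2) (b z2 z2)) (d (b z2 z2) (b z2 z2))) (b (d (b z2 z2) (b z2 z2)) (d (b z2 z2) (b z2 z2)))) (d (b (d (b z2 z2) (b z2 z2)) (d (b z2 z0) (b z2 z0))) (b (d (b z2 z2) (b z2 z2)) (d (b z2 z0) (b z2 z0))))))) (b (d (b (d (b z2 z2) (b z2 z2)) (d (b z2 z2) (b z2 z2))) (b (d (b z2 z2) (b z2 z2)) (d (b z2 z2) (b z2 z2)))) (d (b (d (b (d (b z2 z2) (b z2 z2)) (d (b z2 z2) (b z2 z2))) (b (d (b z2 z2) (b z2 z2)) (d (b z2 z2) (b z2 z2)))) (d (b (d (b z2 z2) (b z2 z2)) (d (b z2 z0) (b z2 z0))) (b (d (b z2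 z2) (b z2 z2)) (d (b z2 z0) (b z2 z0))))) (b (d (b (d (b z2 z2) (b z2 z2)) (d (b z2 z2) (b z2 z2))) (b (d (b z2 z2) (b z2 z2)) (d (b z2 z2) (b z2 z2)))) (d (b (d (b z2 z2) (b z2 z2)) (d (b z2 z0) (b z2 z0))) (b (d (b z2 z2) (b z2 z2)) (d (b z2 z0) (b z2 z0))))))))) _ _ (by decide +kernel)

theorem okI1623 : CKI ⟨393216, 786432, 196544, 196608⟩ ⟨0, 0, 253888, 253952⟩ :=
  ckI_sound (b (d (b (d (b (d (b z2 z2) (b z2 z2)) (d (b z2 z2) (b z2 z2))) (b (d (b z2 z2) (b z2 z2)) (d (b z2 z2) (b z2 z2)))) (d (b (d (b z2 z2) (b z2 z2)) (d (b z2 z2) (b z2 z2))) (b (d (b z2 z2) (b z2 z2)) (d (b z2 z2) (b z2 z2))))) (b (d (b (d (b z2 z2) (b z2 z2)) (d (b z2 z2) (b z2 z2))) (b (d (b z2 z2) (b z2 z2)) (d (b z2 z2) (b z2 z2)))) (d (b (d (b z2 z2) (b z2 z2)) (d (b z2 z2) (b z2 z2))) (b (d (b z2 z2) (b z2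 z2)) (d (b z2 z2) (b z2 z2)))))) (d (b (d (b (d (b z2 z2) (b z2 z2)) (d (b z2 z2) (b z2 z2))) (b (d (b z2 z2) (b z2 z2)) (d (b z2 z2) (b z2 z2)))) (d (b (d (b (d (b z2 z2) (b z2 z2)) (d (b z2 z2) (b z2 z2))) (b (d (b z2 z2) (b z2 z2)) (d (b z2 z2) (b z2 z2)))) (d (b (d (b z2 z2) (b z2 z2)) (d (b z2 z0) (b z2 z0))) (b (d (b z2 z2) (b z2 z2)) (d (b z2 z0) (b z2 z0))))) (b (d (b (d (b z2 z2) (b z2 z2)) (d (b z2 z2) (b z2 z2))) (b (d (b z2 z2) (b z2 z2)) (d (b z2 z2) (b z2 z2)))) (d (b (d (b z2 z2) (b z2 z2)) (d (b z2 z0) (b z2 z0))) (b (d (b z2 z2) (b z2 z2)) (d (b z2 z0) (b z2 z0))))))) (b (d (b (d (b z2 z2) (b z2 z2)) (d (b z2 z2) (b z2 z2))) (b (d (b z2 z2) (b z2 z2)) (d (b z2 z2) (b z2 z2)))) (d (b (d (b (d (b z2 z2) (b z2 z2)) (d (b z2 z2) (b z2 z2))) (b (d (b z2 z2) (b z2 z2)) (d (b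 z2 z2) (b z2 z2)))) (d (b (d (b z2 z2) (b z2 z2)) (d (b z2 z0) (b z2 z0))) (b (d (b z2 z2) (b z2 z2)) (d (b z2 z0) (b z2 z0))))) (b (d (b (d (b z2 z2) (b z2 z2)) (d (b z2 z2) (b z2 z2))) (b (d (b z2 z2) (b z2 z2)) (d (b z2 z2) (b z2 z2)))) (d (b (d (b z2 z2) (b z2 z2)) (d (b z2 z0) (b z2 z0))) (b (d (b z2 z2) (b z2 z2)) (d (b z2 z0) (b z2 z0))))))))) _ _ (by decide +kernel)

theorem okI1624 : CKI ⟨393216, 786432, 188416, 190464⟩ ⟨0, 0, 253952, 258048⟩ :=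
  ckI_sound z0 _ _ (by decide +kernel)

theorem okI1625 : CKI ⟨393216, 786432, 190464, 191488⟩ ⟨0, 0, 253952, 256000⟩ :=
  ckI_sound (d (b (d (b z0 (d (a z0 (b z4 z3)) z0)) z0) (d (b (d (a z2 (b z3 z3)) (a z0 (b z3 (d (a z2 (b z2 z2)) (a z0 (b z2 z2)))))) (d (a z2 (b (d (b z2 z2) (b z2 z2)) (d (a z2 (b z2 z2)) (a z2 (b z2 z2))))) (a z2 (b (d (b z2 z2) (b z2 z2)) (d (a z2 (b z2 z2)) (a z2 (b z2 z2))))))) (b (d (a z0 (b z0 (d (a z0 (b z0 z2)) z0))) z0) (d (a z2 (b (d (b z2 z2) (b z4 z2)) (d (a z2 (b z2 z2)) (a z2 (b z2 z2))))) (a z0 (b z0 (d (a z0 (b z2 z2)) z4))))))) z0) _ _ (by decide +kernel)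

theorem okI1626 : CKI ⟨393216, 786432, 191488, 192512⟩ ⟨0, 0, 253952, 254976⟩ :=
  ckI_sound (b (d (b (d (b (d (a z2 (b z2 z2)) (a z2 (b z2 z2))) (d (a z2 (b z2 z2)) (a z2 (b z2 z2)))) (b (d (a z2 (b z2 z2)) (a z2 (b z2 z2))) (d (a z2 (b z2 z2)) (a z2 (b z2 z2))))) (d (b (d (a z2 (b z2 z2)) (a z2 (b z2 z2))) (d (a z2 (b z2 z2)) (a z2 (b z2 z2)))) (b (d (a z2 (b z2 z2)) (a z2 (b z2 z2))) (d (a z2 (b z2 z2)) (a z2 (b z2 z2)))))) (b (d (b (d (a z2 (b z2 z2)) (a z2 (b z2 z2))) (d (a z2 (b z2 z2)) (a z2 (b z2 z2)))) (b (d (a z2 (b z2 z2)) (a z0 (b z2 z2))) (d (a z2 (b z2 z2)) (a z2 (b z2 z2))))) (d (b (d (a z2 (b z2 z2)) (a z2 (b z2 z2))) (d (a z2 (b z2 z2)) (a z2 (b z2 z2)))) (b (d (a z2 (b z2 z2)) (a z2 (b z2 z2))) (d (a z2 (b z2 z2)) (a z2 (b z2 z2))))))) (d (b (d (b (d (a z2 (b z2 z2))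 (a z2 (b z2 z2))) (d (a z2 (b z2 z2)) (a z2 (b z2 z2)))) (b (d (a z2 (b z2 z2)) (a z2 (b z2 z2))) (d (a z2 (b z2 z2)) (a z2 (b z2 z2))))) (d (b (d (a z2 (b z2 z2)) (a z2 (b z2 z2))) (d (a z2 (b z2 z2)) (a z2 (b z2 z2)))) (b (d (a z2 (b z2 z2)) (a z2 (b z2 z2))) (d (a z2 (b z2 z2)) (a z2 (b z2 z2)))))) (b (d (b (d (a z2 (b z2 z2)) (a z2 (b z2 z2))) (d (a z2 (b z2 z2)) (a z2 (b z2 z2)))) (b (d (a z2 (b z2 z2)) (a z2 (b z2 z2))) (d (a z2 (b z2 z2)) (a z2 (b z2 z2))))) (d (b (d (a z2 (b z2 z2)) (a z2 (b z2 z2))) (d (a z2 (b z2 z2)) (a z2 (b z2 z2)))) (b (d (a z2 (b z2 z2)) (a z2 (b z2 z2))) (d (a z2 (b z2 z2)) (a z2 (b z2 z2)))))))) _ _ (by decide +kernel)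

theorem okI1627 : CKI ⟨393216, 786432, 191488, 192512⟩ ⟨0, 0, 254976, 256000⟩ :=
  ckI_sound (b (d (b (d (b (d (a z0 (b z0 z2)) z0) (d (a z0 (b z2 z2)) (a z0 (b z4 z2)))) z0) (d (b (d (a z2 (b z2 z2)) (a z2 (b z2 z2))) (d (a z2 (b z2 z2)) (a z2 (b z2 z2)))) (b (d (a z0 (b z2 z2)) z4) (d (a z2 (b z2 z2)) (a z0 (b z2 z2)))))) (b z0 (d (b z0 (d (a z0 (b z4 z2)) z0)) z0))) (d (b (d (b (d (a z2 (b z2 z2)) (a z2 (b z2 z2))) (d (a z2 (b z2 z2)) (a z2 (b z2 z2)))) (b (d (a z2 (b z2 z2)) (a z2 (b z2 z2))) (d (a z2 (b z2 z2)) (a z2 (b z2 z2))))) (d (b (d (a z2 (b z2 z2)) (a z2 (b z2 z2))) (d (a z2 (b z2 z2)) (a z2 (b z2 z2)))) (b (d (a z2 (b z2 z2)) (a z2 (b z2 z2))) (d (a z2 (b z2 z2)) (a z2 (b z2 z2)))))) (b (d (b (d (a z4 (b z2 z2)) (a z0 (b z4 z2))) (d (a z2 (b z2 z2)) (a z2 (b z2 z2)))) (b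 z4 (d (a z0 (b z2 z2)) (a z0 (b z0 z2))))) (d (b (d (a z2 (b z2 z2)) (a z2 (b z2 z2))) (d (a z2 (b z2 z2)) (a z2 (b z2 z2)))) (b (d (a z2 (b z2 z2)) (a z0 (b z2 z2))) (d (a z2 (b z2 z2)) (a z2 (b z2 z2)))))))) _ _ (by decide +kernel)

theorem okI1628 : CKI ⟨393216, 786432, 190464, 192512⟩ ⟨0, 0, 256000, 258048⟩ :=
  ckI_sound (b z0 (d (b z0 (d (b z0 (d (b (d (a z0 (b z4 z2)) z0) (d (a z2 (b z2 z2)) (a z0 (b z2 z2)))) z4)) z0)) z0)) _ _ (by decide +kernel)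

theorem okI1629 : CKI ⟨393216, 786432, 188416, 192512⟩ ⟨0, 0, 258048, 262144⟩ :=
  ckI_sound z0 _ _ (by decide +kernel)

theorem okI1630 : CKI ⟨393216, 786432, 192512, 193536⟩ ⟨0, 0, 253952, 254976⟩ :=
  ckI_sound (b (d (b (d (b (d (a z2 (b z2 z2)) (a z2 (b z2 z2))) (d (a z2 (b z2 z2)) (a z2 (b z2 z2)))) (b (d (a z2 (b z2 z2)) (a z2 (b z2 z2))) (d (a z2 (b z2 z2)) (a z2 (b z2 z2))))) (d (b (d (a z2 (b z2 z2)) (a z2 (b z2 z2))) (d (b z2 z2) (b z2 z2))) (b (d (a z2 (b z2 z2)) (a z2 (b z2 z2))) (d (b z2 z2) (b z2 z2))))) (b (d (b (d (a z2 (b z2 z2)) (a z2 (b z2 z2))) (d (a z2 (b z2 z2)) (a z2 (b z2 z2)))) (b (d (a z2 (b z2 z2)) (a z2 (b z2 z2))) (d (a z2 (b z2 z2)) (a z2 (b z2 z2))))) (d (b (d (a z2 (b z2 z2)) (a z2 (b z2 z2))) (d (b z2 z2) (b z2 z2))) (b (d (a z2 (b z2 z2)) (a z2 (b z2 z2)))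 (d (b z2 z2) (b z2 z2)))))) (d (b (d (b (d (b z2 z2) (b z2 z2)) (d (b z2 z2) (b z2 z2))) (b (d (b z2 z2) (b z2 z2)) (d (b z2 z2) (b z2 z2)))) (d (b (d (b z2 z2) (b z2 z2)) (d (b z2 z2) (b z2 z2))) (b (d (b z2 z2) (b z2 z2)) (d (b z2 z2) (b z2 z2))))) (b (d (b (d (b z2 z2) (b z2 z2)) (d (b z2 z2) (b z2 z2))) (b (d (b z2 z2) (b z2 z2)) (d (b z2 z2) (b z2 z2)))) (d (b (d (b z2 z2) (b z2 z2)) (d (b z2 z2) (b z2 z2))) (b (d (b z2 z2) (b z2 z2)) (d (b z2 z2) (b z2 z2))))))) _ _ (by decide +kernel)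

theorem okI1631 : CKI ⟨393216, 786432, 192512, 193536⟩ ⟨0, 0, 254976, 256000⟩ :=
  ckI_sound (b (d (b (d (b (d (a z2 (b z2 z2)) (a z2 (b z2 z2))) (d (a z2 (b z2 z2)) (a z2 (b z2 z2)))) (b (d (a z2 (b z2 z2)) (a z2 (b z2 z2))) (d (a z2 (b z2 z2)) (a z2 (b z2 z2))))) (d (b (d (a z2 (b z2 z2)) (a z2 (b z2 z2))) (d (b z2 z2) (b z2 z2))) (b (d (a z2 (b z2 z2)) (a z2 (b z2 z2))) (d (b z2 z2) (b z2 z2))))) (b (d (b (d (a z2 (b z2 z2)) (a z2 (b z2 z2))) (d (a z2 (b z2 z2)) (a z2 (b z2 z2)))) (b (d (a z2 (b z2 z2)) (a z2 (b z2 z2))) (d (a z2 (b z2 z2)) (a z2 (b z2 z2))))) (d (b (d (a z2 (b z2 z2)) (a z2 (b z2 z2))) (d (b z2 z2) (b z2 z2))) (b (d (a z2 (b z2 z2)) (a z2 (b z2 z2))) (d (b z2 z2) (b z2 z2)))))) (d (b (d (b (d (b z2 z2) (b z2 z2)) (d (b z2 z2) (b z2 z2))) (b (d (b z2 z2) (b z2 z2))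 (d (b z2 z2) (b z2 z2)))) (d (b (d (b z2 z2) (b z2 z2)) (d (b z2 z2) (b z2 z2))) (b (d (b z2 z2) (b z2 z2)) (d (b z2 z2) (b z2 z2))))) (b (d (b (d (b z2 z2) (b z2 z2)) (d (b z2 z2) (b z2 z2))) (b (d (b z2 z2) (b z2 z2)) (d (b z2 z2) (b z2 z2)))) (d (b (d (b z2 z2) (b z2 z2)) (d (b z2 z2) (b z2 z2))) (b (d (b z2 z2) (b z2 z2)) (d (b z2 z2) (b z2 z2))))))) _ _ (by decide +kernel)

theorem okI1632 : CKI ⟨393216, 786432, 193536, 194560⟩ ⟨0, 0, 253952, 256000⟩ :=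
  ckI_sound (d (b (d (b (d (b (d (b z2 z2) (b z2 z2)) (d (b z2 z2) (b z2 z2))) (b (d (b z2 z2) (b z2 z2)) (d (b z2 z2) (b z2 z2)))) (d (b (d (b z2 z2) (b z2 z2)) (d (b z2 z2) (b z2 z2))) (b (d (b z2 z2) (b z2 z2)) (d (b z2 z2) (b z2 z2))))) (b (d (b (d (b z2 z2) (b z2 z2)) (d (b z2 z2) (b z2 z2))) (b (d (b z2 z2) (b z2 z2)) (d (b z2 z2) (b z2 z2)))) (d (b (d (b z2 z2) (b z2 z2)) (d (b z2 z2) (b z2 z2))) (b (d (b z2 z2) (b z2 z2)) (d (b z2 z2) (b z2 z2)))))) (d (b (d (b (d (b z2 z2) (b z2 z2)) (d (b z2 z2) (b z2 z2))) (b (d (b z2 z2) (b z2 z2)) (d (b z2 z2) (b z2 z2)))) (d (b (d (b z2 z2) (b z2 z2)) (d (b z2 z2) (b z2 z2))) (b (d (b z2 z2) (b z2 z2)) (d (b z2 z2) (b z2 z2))))) (b (d (b (d (b z2 z2) (b z2 z2)) (d (b z2 z2) (b z2 z2))) (b (d (b z2 z2) (b z2 z2)) (d (b z2 z2) (b z2 z2)))) (d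 (b (d (b z2 z2) (b z2 z2)) (d (b z2 z2) (b z2 z2))) (b (d (b z2 z2) (b z2 z2)) (d (b z2 z2) (b z2 z2))))))) (b (d (b (d (b (d (b z2 z2) (b z2 z2)) (d (b z2 z2) (b z2 z2))) (b (d (b z2 z2) (b z2 z2)) (d (b z2 z2) (b z2 z2)))) (d (b (d (b z2 z2) (b z2 z2)) (d (b z2 z2) (b z2 z2))) (b (d (b z2 z2) (b z2 z2)) (d (b z2 z2) (b z2 z2))))) (b (d (b (d (b z2 z2) (b z2 z2)) (d (b z2 z2) (b z2 z2))) (b (d (b z2 z2) (b z2 z2)) (d (b z2 z2) (b z2 z2)))) (d (b (d (b z2 z2) (b z2 z2)) (d (b z2 z2) (b z2 z2))) (b (d (b z2 z2) (b z2 z2)) (d (b z2 z2) (b z2 z2)))))) (d (b (d (b (d (b z2 z2) (b z2 z2)) (d (b z2 z2) (b z2 z2))) (b (d (b z2 z2) (b z2 z2)) (d (b z2 z2) (b z2 z2)))) (d (b (d (b z2 z2) (b z2 z2)) (d (b z2 z2) (b z2 z2))) (b (d (b z2 z2) (b z2 z2)) (d (b z2 z2) (b z2 z2))))) (b (d (b (d (b z2 z2)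 (b z2 z2)) (d (b z2 z2) (b z2 z2))) (b (d (b z2 z2) (b z2 z2)) (d (b z2 z2) (b z2 z2)))) (d (b (d (b z2 z2) (b z2 z2)) (d (b z2 z2) (b z2 z2))) (b (d (b z2 z2) (b z2 z2)) (d (b z2 z2) (b z2 z2)))))))) _ _ (by decide +kernel)

theorem okI1633 : CKI ⟨393216, 786432, 192512, 193536⟩ ⟨0, 0, 256000, 258048⟩ :=
  ckI_sound (d (b (d (b (d (b (d (a z2 (b z2 z2)) (a z2 (b z2 z2))) (d (a z2 (b z2 z2)) (a z2 (b z2 z2)))) (b (d (a z0 (b z2 z2)) (a z0 (b z0 z2))) (d (a z2 (b z2 z2)) (a z2 (b z2 z2))))) (d (b (d (a z2 (b z2 z2)) (a z2 (b z2 z2))) (d (b z2 z2) (b z2 z2))) (b (d (a z2 (b z2 z2)) (a z2 (b z2 z2))) (d (b z2 z2) (b z2 z2))))) (b (d (b z0 (d (a z0 (b z4 z2)) z0)) z0) (d (b (d (a z2 (b z2 z2)) (a z0 (b z2 z2))) (d (b z2 z2) (b z2 z2))) (b z4 (d (b z2 z2) (b z0 z2)))))) (d (b (d (b (d (b z2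 z2) (b z2 z2)) (d (b z2 z2) (b z2 z2))) (b (d (b z2 z2) (b z2 z2)) (d (b z2 z2) (b z2 z2)))) (d (b (d (b z2 z2) (b z2 z2)) (d (b z2 z2) (b z2 z2))) (b (d (b z2 z2) (b z2 z2)) (d (b z2 z2) (b z2 z2))))) (b (d (b (d (b z2 z2) (b z2 z2)) (d (b z2 z2) (b z2 z2))) (b (d (b z2 z2) (b z2 z2)) (d (b z2 z2) (b z2 z2)))) (d (b (d (b z2 z2) (b z2 z2)) (d (b z2 z2) (b z2 z2))) (b (d (b z2 z2) (b z2 z2)) (d (b z2 z2) (b z2 z2))))))) (b z0 (d (b (d (b (d (b z2 z2) z4) (d (b z2 z2) (b z2 z2))) (b z0 (d (b z0 z2) z0))) (d (b (d (b z2 z2) (b z2 z2)) (d (b z2 z2) (b z2 z2))) (b (d (b z2 z2) (b z4 z2)) (d (b z2 z2) (b z2 z2))))) (b z0 (d (b z0 (d (b z2 z2) (b z0 z2))) z0))))) _ _ (by decide +kernel)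

theorem okI1634 : CKI ⟨393216, 786432, 193536, 194560⟩ ⟨0, 0, 256000, 258048⟩ :=
  ckI_sound (d (b (d (b (d (b (d (b z2 z2) (b z2 z2)) (d (b z2 z2) (b z2 z2))) (b (d (b z2 z2) (b z2 z2)) (d (b z2 z2) (b z2 z2)))) (d (b (d (b z2 z2) (b z2 z2)) (d (b z2 z2) (b z2 z2))) (b (d (b z2 z2) (b z2 z2)) (d (b z2 z2) (b z2 z2))))) (b (d (b (d (b z2 z2) (b z2 z2)) (d (b z2 z2) (b z2 z2))) (b (d (b z2 z2) (b z2 z2)) (d (b z2 z2) (b z2 z2)))) (d (b (d (b z2 z2) (b z2 z2)) (d (b z2 z2) (b z2 z2))) (b (d (b z2 z2) (b z2 z2)) (d (b z2 z2) (b z2 z2)))))) (d (b (d (b (d (b z2 z2) (b z2 z2)) (d (b z2 z2) (b z2 z2))) (b (d (b z2 z2) (b z2 z2)) (d (b z2 z2) (b z2 z2)))) (d (b (d (b z2 z2) (b z2 z2)) (d (b z2 z2) (b z2 z2))) (b (d (b z2 z2) (b z2 z2)) (d (b z2 z2) (b z2 z2))))) (b (d (b (d (b z2 z2) (b z2 z2))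 (d (b z2 z2) (b z2 z2))) (b (d (b z2 z2) (b z2 z2)) (d (b z2 z2) (b z2 z2)))) (d (b (d (b z2 z2) (b z2 z2)) (d (b z2 z2) (b z2 z2))) (b (d (b z2 z2) (b z2 z2)) (d (b z2 z2) (b z2 z2))))))) (b (d (b (d (b (d (b z2 z2) (b z2 z2)) (d (b z2 z2) (b z2 z2))) (b (d (b z2 z2) (b z2 z2)) (d (b z2 z2) (b z2 z2)))) (d (b (d (b z2 z2) (b z2 z2)) (d (b z2 z2) (b z2 z2))) (b (d (b z2 z2) (b z2 z2)) (d (b z2 z2) (b z2 z2))))) (b (d (b (d (b z2 z2) (b z2 z2)) (d (b z2 z2) (b z2 z2))) (b (d (b z0 z2) z0) (d (b z2 z2) (b z2 z2)))) (d (b (d (b z2 z2) (b z2 z2)) (d (b z2 z2) (b z2 z2))) (b (d (b z2 z2) (b z2 z2)) (d (b z2 z2) (b z2 z2)))))) (d (b (d (b (d (b z2 z2) (b z2 z2)) (d (b z2 z2) (b z2 z2))) (b (d (b z2 z2) (b z2 z2)) (d (b z2 z2) (b z2 z2)))) (d (b (d (b z2 z2) (b z2 z2)) (d (b z2 z2) (b z2 z2)))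 (b (d (b z2 z2) (b z2 z2)) (d (b z2 z2) (b z2 z2))))) (b (d (b (d (b z2 z2) (b z2 z2)) (d (b z2 z2) (b z2 z2))) (b (d (b z2 z2) (b z2 z2)) (d (b z2 z2) (b z2 z2)))) (d (b (d (b z2 z2) (b z2 z2)) (d (b z2 z2) (b z2 z2))) (b (d (b z2 z2) (b z2 z2)) (d (b z2 z2) (b z2 z2)))))))) _ _ (by decide +kernel)

end Vale.Agent.Lib.P154Q5
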