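import Vale.Agent.Lib.P154Q5.FormI

namespace Vale.Agent.Lib.P154Q5

set_option maxRecDepth 100000
set_option exponentiation.threshold 1000

open Tr

theorem okI165 : CKI ⟨393216, 458753, 155648, 163840⟩ ⟨0, 0, 212992, 221184⟩ :=
  ckI_sound z2 _ _ (by decide +kernel)

theorem okI166 : CKI ⟨458753, 786432, 155648, 157696⟩ ⟨0, 0, 212992, 215040⟩ :=
  ckI_sound (a z2 (b (d (b (d (a z2 (b (d (b z2 z2) (b z2 z2)) (d (a z2 (b z2 z2)) (a z2 (b z2 z2))))) (a z2 (b (d (b z2 z2) (b z2 z2)) (d (a z2 (b z2 z2)) (a z2 (b z2 z2)))))) (d (a z2 (b (d (a z2 (b z2 z2)) (a z2 (b z2 z2))) (d (a z2 (b z2 z2)) (a z2 (b z2 z2))))) (a z2 (b (d (a z2 (b z2 z2)) (a z2 (b z2 z2))) (d (a z2 (b z2 z2)) (a z2 (b z2 z2))))))) (b (d (a z2 (b (d (b z2 z2) (b z3 z3)) (d (a z2 (b z2 z2)) (a z2 (b z3 z3))))) (a z2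 (b (d (b z3 z3) (b z3 z3)) (d (a z2 (b z3 z3)) (a z2 (b z3 z3)))))) (d (a z2 (b (d (a z2 (b z2 z2)) (a z2 (b z3 z2))) (d (a z2 (b z2 z2)) (a z2 (b z2 z2))))) (a z2 (b (d (a z2 (b z3 z3)) (a z2 (b z3 z3))) (d (a z2 (b z3 z3)) (a z2 (b z3 z3)))))))) (d (a z2 (b (d (b (d (a z2 (b z2 z2)) (a z2 (b z2 z2))) (d (a z2 (b z2 z2)) (a z2 (b z2 z2)))) (b (d (a z2 (b z2 z2)) (a z2 (b z2 z2))) (d (a z2 (b z2 z2)) (a z2 (b z2 z2))))) (d (a z2 (b (d (b z2 z2) (b z2 z2)) (d (a z2 (b z2 z2)) (a z2 (b z2 z2))))) (a z2 (b (d (b z2 z2) (b z2 z2)) (d (a z2 (b z2 z2)) (a z2 (b z2 z2)))))))) (a z2 (b (d (b (d (a z2 (b z2 z2)) (a z2 (b z2 z2))) (d (a z2 (b z2 z2)) (a z2 (b z2 z2)))) (b (d (a z2 (b z3 z3)) (a z2 (b z3 z3))) (d (a z2 (b z3 z3)) (a z2 (b z3 z3))))) (d (a z2 (b (d (b z2 z2) (b z2 z2)) (d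 (a z2 (b z2 z2)) (a z2 (b z2 z2))))) (a z2 (b (d (b z3 z2) (b z3 z3)) (d (a z2 (b z2 z2)) (a z2 (b z3 z3))))))))))) _ _ (by decide +kernel)

theorem okI167 : CKI ⟨458753, 476101, 155648, 157696⟩ ⟨0, 0, 215040, 217088⟩ :=
  ckI_sound z2 _ _ (by decide +kernel)

theorem okI168 : CKI ⟨476101, 786432, 155648, 156672⟩ ⟨0, 0, 215040, 216064⟩ :=
  ckI_sound (b (d (a z2 (b (d (b (d z3 (a z2 (b z2 z2))) z3) (b (d (a z2 (b z2 z2)) (a z2 (b z2 z2))) (d (a z2 (b z2 z2)) (a z2 (b z2 z2))))) (d (a z2 (b z3 z3)) (a z2 (b (d (b z2 z2) (b z2 z2)) (d (a z2 (b z2 z2)) (a z2 (b z2 z2)))))))) (a z2 (b (d (b (d (a z2 (b z2 z2)) (a z2 (b z2 z2))) (d (a z2 (b z2 z2)) (a z2 (b z2 z2)))) (b (d (a z2 (b z2 z2)) (a z2 (b z2 z2))) (d (a z2 (b z2 z2)) (a z2 (b z2 z2))))) (d (a z2 (b (d (b z2 z2) (b z2 z2))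 (d (a z2 (b z2 z2)) (a z2 (b z2 z2))))) (a z2 (b (d (b z2 z2) (b z2 z2)) (d (a z2 (b z2 z2)) (a z2 (b z2 z2))))))))) (d (a z2 (b (d (a z2 (b z3 z3)) (a z2 (b (d z3 (b z2 z2)) (d z3 (a z2 (b z2 z2)))))) (d (a z2 (b z3 z3)) (a z2 (b (d z3 (a z2 (b z2 z2))) (d z3 (a z2 (b z2 z2)))))))) (a z2 (b (d (a z2 (b (d (b z2 z2) (b z2 z2)) (d (a z2 (b z2 z2)) (a z2 (b z2 z2))))) (a z2 (b (d (b z2 z2) (b z2 z2)) (d (a z2 (b z2 z2)) (a z2 (b z2 z2)))))) (d (a z2 (b (d (a z2 (b z2 z2)) (a z2 (b z2 z2))) (d (a z2 (b z2 z2)) (a z2 (b z2 z2))))) (a z2 (b (d (a z2 (b z2 z2)) (a z2 (b z2 z2))) (d (a z2 (b z2 z2)) (a z2 (b z2 z2)))))))))) _ _ (by decide +kernel)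

theorem okI169 : CKI ⟨476101, 786432, 155648, 156672⟩ ⟨0, 0, 216064, 217088⟩ :=
  ckI_sound (b (d (a z2 (b (d (b (d (a z2 (b z2 z2)) (a z2 (b z2 z2))) (d (a z2 (b z2 z2)) (a z2 (b z2 z2)))) (b (d (a z4 (b z2 z2)) z4) (d (a z4 (b z2 z2)) (a z4 (b z2 z2))))) (d (a z2 (b (d (b z2 z2) (b z2 z2)) (d (a z2 (b z2 z2)) (a z2 (b z2 z2))))) (a z2 (b (d (b z2 z2) (b z2 z2)) (d (a z2 (b z2 z2)) (a z2 (b z2 z2)))))))) (a z4 (b z4 (d (a z4 (b (d (b z2 z2) z4) (d (a z2 (b z2 z2)) (a z4 (b z2 z2))))) z4)))) (d (a z2 (b (d (a z2 (b (d (b z2 z2) (b z2 z2)) (d (a z2 (b z2 z2)) (a z2 (b z2 z2))))) (a z2 (b (d (b z2 z2) (b z2 z2)) (d (a z2 (b z2 z2)) (a z2 (b z2 z2)))))) (d (a z2 (b (d (a z2 (b z2 z2)) (a z2 (b z2 z2))) (d (a z2 (b z2 z2)) (a z2 (b z2 z2))))) (a z2 (b (d (a z2 (b z2 z2)) (a z2 (b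 z2 z2))) (d (a z2 (b z2 z2)) (a z2 (b z2 z2)))))))) (a z4 (b (d (a z2 (b (d (b z2 z2) (b z2 z2)) (d (a z2 (b z2 z2)) (a z2 (b z2 z2))))) (a z4 (b (d (b z4 z2) z4) (d (a z2 (b z2 z2)) (a z4 (b z4 z2)))))) (d (a z2 (b (d (a z2 (b z2 z2)) (a z2 (b z2 z2))) (d (a z2 (b z2 z2)) (a z2 (b z2 z2))))) (a z4 (b (d (a z2 (b z2 z2)) (a z4 (b z2 z2))) (d (a z2 (b z2 z2)) (a z2 (b z2 z2)))))))))) _ _ (by decide +kernel)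

theorem okI170 : CKI ⟨476101, 786432, 156672, 157696⟩ ⟨0, 0, 215040, 217088⟩ :=
  ckI_sound (d (a z2 (b (d (b (d (a z2 (b z3 z3)) (a z2 (b z3 z3))) (d (a z2 (b z3 z3)) (a z2 (b z3 z3)))) (b (d (a z2 (b (d (b z2 z2) (b z2 z2)) (d (a z2 (b z2 z2)) (a z2 (b z2 z2))))) (a z2 (b (d (b z2 z2) (b z2 z2)) (d (a z2 (b z2 z2)) (a z2 (b z2 z2)))))) (d (a z2 (b (d (a z2 (b z2 z2)) (a z2 (b z2 z2))) (d z3 (a z2 (b z2 z2))))) (a z2 (b (d (a z2 (b z2 z2)) (a z2 (b z2 z2))) (d (a z2 (b z2 z2)) (a z2 (b z2 z2)))))))) (d (a z2 (b (d (b z3 z3) (b z3 z3)) (d (a z2 (b z3 z3)) (a z2 (b z3 z3))))) (a z2 (b (d (b (d z3 (a z2 (b z2 z2))) (d z3 (a z2 (b z2 z2)))) (b (d (a z2 (b z2 z2)) (a z2 (b z2 z2))) (d (a z2 (b z2 z2)) (a z2 (b z2 z2))))) (d (a z2 (b (d z3 (b z2 z2)) z3)) (a z2 (b (d (b z2 z2) (b z2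 z2)) (d (b z2 z2) (b z2 z2)))))))))) (a z2 (b (d (b (d (a z2 (b (d (b z2 z2) (b z2 z2)) (d (a z2 (b z2 z2)) (a z2 (b z2 z2))))) (a z2 (b (d (b z2 z2) (b z2 z2)) (d (a z2 (b z2 z2)) (a z2 (b z2 z2)))))) (d (a z2 (b (d (a z2 (b z2 z2)) (a z2 (b z2 z2))) (d (a z2 (b z2 z2)) (a z2 (b z2 z2))))) (a z2 (b (d (a z2 (b z2 z2)) (a z2 (b z2 z2))) (d (a z2 (b z2 z2)) (a z2 (b z2 z2))))))) (b (d (a z2 (b (d (b z2 z2) (b z2 z2)) (d (a z2 (b z2 z2)) (a z2 (b z2 z2))))) (a z2 (b (d (b z2 z2) (b z2 z2)) (d (a z2 (b z2 z2)) (a z2 (b z2 z2)))))) (d (a z2 (b (d (a z2 (b z2 z2)) (a z2 (b z2 z2))) (d (a z2 (b z2 z2)) (a z2 (b z2 z2))))) (a z2 (b (d (a z2 (b z2 z2)) (a z2 (b z2 z2))) (d (a z2 (b z2 z2)) (a z2 (b z2 z2)))))))) (d (a z2 (b (d (b (d (a z2 (b z2 z2)) (a z2 (b z2 z2))) (d (a z2 (b z2 z2))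 (a z2 (b z2 z2)))) (b (d (a z2 (b z2 z2)) (a z2 (b z2 z2))) (d (a z2 (b z2 z2)) (a z2 (b z2 z2))))) (d (a z2 (b (d (b z2 z2) (b z2 z2)) (d (b z2 z2) (b z2 z2)))) (a z2 (b (d (b z2 z2) (b z2 z2)) (d (b z2 z2) (b z2 z2))))))) (a z2 (b (d (b (d (a z2 (b z2 z2)) (a z2 (b z2 z2))) (d (a z2 (b z2 z2)) (a z2 (b z2 z2)))) (b (d (a z2 (b z2 z2)) (a z2 (b z2 z2))) (d (a z2 (b z2 z2)) (a z2 (b z2 z2))))) (d (a z2 (b (d (b z2 z2) (b z2 z2)) (d (b z2 z2) (b z2 z2)))) (a z2 (b (d (b z2 z2) (b z2 z2)) (d (b z2 z2) (b z2 z2))))))))))) _ _ (by decide +kernel)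

theorem okI171 : CKI ⟨458753, 786432, 157696, 159744⟩ ⟨0, 0, 212992, 215040⟩ :=
  ckI_sound (a z2 (b (d (a z2 (b (d (b (d (a z2 (b z2 z2)) (a z2 (b z2 z2))) (d (a z2 (b z2 z2)) (a z2 (b z2 z2)))) (b (d (a z2 (b z2 z2)) (a z2 (b z2 z2))) (d (a z2 (b z2 z2)) (a z2 (b z2 z2))))) (d (b (d (a z2 (b z2 z2)) (a z2 (b z2 z2))) (d (a z2 (b z2 z2)) (a z2 (b z2 z2)))) (b (d (a z2 (b z2 z2)) (a z2 (b z2 z2))) (d (a z2 (b z2 z2)) (a z2 (b z2 z2))))))) (a z2 (b (d (b (d (a z2 (b z2 z2)) (a z2 (b z2 z2))) (d (a z2 (b z2 z2)) (a z2 (b z2 z2)))) (b (d (a z2 (b z2 z2)) (a z2 (b z3 z3))) (d (a z2 (b z2 z2)) (a z2 (b z3 z3))))) (d (b (d (a z2 (b z2 z2)) (a z2 (b z2 z2))) (d (a z2 (b z2 z2)) (a z2 (b z2 z2)))) (b (d (a z2 (b z2 z2)) (a z2 (b z2 z2))) (d (a z2 (b z2 z2)) (a z2 (b z2 z2)))))))) (d (a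 z2 (b (d (b (d (a z2 (b z2 z2)) (a z2 (b z2 z2))) (d (a z2 (b z2 z2)) (a z2 (b z2 z2)))) (b (d (a z2 (b z2 z2)) (a z2 (b z2 z2))) (d (a z2 (b z2 z2)) (a z2 (b z2 z2))))) (d (a z2 (b (d (b z2 z2) (b z2 z2)) (d (a z2 (b z2 z2)) (a z2 (b z2 z2))))) (a z2 (b (d (b z2 z2) (b z2 z2)) (d (a z2 (b z2 z2)) (a z2 (b z2 z2)))))))) (a z2 (b (d (b (d (a z2 (b z2 z2)) (a z2 (b z2 z2))) (d (a z2 (b z2 z2)) (a z2 (b z2 z2)))) (b (d (a z2 (b z2 z2)) (a z2 (b z2 z2))) (d (a z2 (b z2 z2)) (a z2 (b z2 z2))))) (d (a z2 (b (d (b z2 z2) (b z2 z2)) (d (a z2 (b z2 z2)) (a z2 (b z2 z2))))) (a z2 (b (d (b z2 z2) (b z2 z2)) (d (a z2 (b z2 z2)) (a z2 (b z2 z2))))))))))) _ _ (by decide +kernel)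

theorem okI172 : CKI ⟨458753, 481035, 157696, 159744⟩ ⟨0, 0, 215040, 217088⟩ :=
  ckI_sound z2 _ _ (by decide +kernel)

theorem okI173 : CKI ⟨481035, 786432, 157696, 158720⟩ ⟨0, 0, 215040, 217088⟩ :=
  ckI_sound (d (a z2 (b (d (b (d (a z2 (b z3 z3)) (a z2 (b z3 z3))) (d (a z2 (b z3 z3)) (a z2 (b z3 z3)))) (b (d (a z2 (b z3 z3)) (a z2 (b (d (b z2 z2) (b z2 z2)) (d (a z2 (b z2 z2)) (a z2 (b z2 z2)))))) (d (a z2 (b z3 z3)) (a z2 (b (d z3 (a z2 (b z2 z2))) (d z3 (a z2 (b z2 z2)))))))) (d (b (d (a z2 (b z3 z3)) (a z2 (b z3 z3))) (d (a z2 (b z3 z3)) (a z2 (b z3 z3)))) (b (d (a z2 (b z3 z3)) (a z2 (b (d z3 (a z2 (b z2 z2))) z3))) (d (a z2 (b z3 z3)) (a z2 (b z3 z3))))))) (a z2 (b (d (b (d (a z2 (b (d (b z2 z2) (b z2 z2)) (d (a z2 (b z2 z2)) (a z2 (b z2 z2))))) (a z2 (b (d (b z2 z2) (b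 z2 z2)) (d (a z2 (b z2 z2)) (a z2 (b z2 z2)))))) (d (a z2 (b (d (a z2 (b z2 z2)) (a z2 (b z2 z2))) (d (a z2 (b z2 z2)) (a z2 (b z2 z2))))) (a z2 (b (d (a z2 (b z2 z2)) (a z2 (b z2 z2))) (d (a z2 (b z2 z2)) (a z2 (b z2 z2))))))) (b (d (a z2 (b (d (b z2 z2) (b z2 z2)) (d (a z2 (b z2 z2)) (a z2 (b z2 z2))))) (a z2 (b (d (b z2 z2) (b z2 z2)) (d (a z2 (b z2 z2)) (a z2 (b z2 z2)))))) (d (a z2 (b (d (a z2 (b z2 z2)) (a z2 (b z2 z2))) (d (a z2 (b z2 z2)) (a z2 (b z2 z2))))) (a z2 (b (d (a z2 (b z2 z2)) (a z2 (b z2 z2))) (d (a z2 (b z2 z2)) (a z2 (b z2 z2)))))))) (d (b (d (a z2 (b (d (a z2 (b z2 z2)) (a z2 (b z2 z2))) (d (a z2 (b z2 z2)) (a z2 (b z2 z2))))) (a z2 (b (d (a z2 (b z2 z2)) (a z2 (b z2 z2))) (d (a z2 (b z2 z2)) (a z2 (b z2 z2)))))) (d (a z2 (b (d (a z2 (b z2 z2)) (a z2 (b z2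 z2))) (d (a z2 (b z2 z2)) (a z2 (b z2 z2))))) (a z2 (b (d (a z2 (b z2 z2)) (a z2 (b z2 z2))) (d (a z2 (b z2 z2)) (a z2 (b z2 z2))))))) (b (d (a z2 (b (d (a z2 (b z2 z2)) (a z2 (b z2 z2))) (d (a z2 (b z2 z2)) (a z2 (b z2 z2))))) (a z2 (b (d (a z2 (b z2 z2)) (a z2 (b z2 z2))) (d (a z2 (b z2 z2)) (a z2 (b z2 z2)))))) (d (a z2 (b (d (a z2 (b z2 z2)) (a z2 (b z2 z2))) (d (a z2 (b z2 z2)) (a z2 (b z2 z2))))) (a z2 (b (d (a z2 (b z2 z2)) (a z2 (b z2 z2))) (d (a z2 (b z2 z2)) (a z2 (b z2 z2))))))))))) _ _ (by decide +kernel)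

theorem okI174 : CKI ⟨481035, 786432, 158720, 159744⟩ ⟨0, 0, 215040, 217088⟩ :=
  ckI_sound (d (a z2 (b (d (b (d (a z2 (b z3 z3)) (a z2 (b z3 z3))) (d (a z2 (b z3 z3)) (a z2 (b z3 z3)))) (b (d (a z2 (b z3 z3)) (a z2 (b z3 z3))) (d (a z2 (b z3 z3)) (a z2 (b z3 z3))))) (d (a z2 (b (d (b z2 z2) (b z3 z3)) (d (a z2 (b z2 z2)) (a z2 (b z3 z3))))) (a z2 (b (d (b z3 z3) (b z3 z3)) (d (a z2 (b z3 z3)) (a z2 (b z3 z3)))))))) (a z2 (b (d (b (d (a z2 (b (d z3 (a z2 (b z2 z2))) (d z3 (a z2 (b z2 z2))))) (a z2 (b (d (a z2 (b z2 z2)) (a z2 (b z2 z2))) (d (a z2 (b z2 z2)) (a z2 (b z2 z2)))))) (d (a z2 (b (d z3 (a z2 (b z2 z2))) z3)) (a z2 (b (d (a z2 (b z2 z2)) (a z2 (b z2 z2))) (d (a z2 (b z2 z2)) (a z2 (b z2 z2))))))) (b (d (a z2 (b (d (a z2 (b z2 z2)) (a z2 (b z2 z2))) (d (a z2 (b z2 z2))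 (a z2 (b z2 z2))))) (a z2 (b (d (a z2 (b z2 z2)) (a z2 (b z2 z2))) (d (a z2 (b z2 z2)) (a z2 (b z2 z2)))))) (d (a z2 (b (d (a z2 (b z2 z2)) (a z2 (b z2 z2))) (d (a z2 (b z2 z2)) (a z2 (b z2 z2))))) (a z2 (b (d (a z2 (b z2 z2)) (a z2 (b z2 z2))) (d (a z2 (b z2 z2)) (a z2 (b z2 z2)))))))) (d (a z2 (b (d (b z3 z3) (b (d (a z2 (b z2 z2)) (a z2 (b z2 z2))) (d (a z2 (b z2 z2)) (a z2 (b z2 z2))))) (d (a z2 (b z3 z3)) (a z2 (b (d z3 (b z2 z2)) (d z3 (a z2 (b z2 z2)))))))) (a z2 (b (d (b (d (a z2 (b z2 z2)) (a z2 (b z2 z2))) (d (a z2 (b z2 z2)) (a z2 (b z2 z2)))) (b (d (a z2 (b z2 z2)) (a z2 (b z2 z2))) (d (a z2 (b z2 z2)) (a z2 (b z2 z2))))) (d (a z2 (b (d (b z2 z2) (b z2 z2)) (d (a z2 (b z2 z2)) (a z2 (b z2 z2))))) (a z2 (b (d (b z2 z2) (b z2 z2)) (d (a z2 (b z2 z2)) (a z2 (b z2 z2))))))))))))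 _ _ (by decide +kernel)

theorem okI175 : CKI ⟨458753, 786432, 155648, 157696⟩ ⟨0, 0, 217088, 221184⟩ :=
  ckI_sound (d (a z4 (b (d (b z4 (d (a z4 (b z4 (d (a z4 (b (d (a z4 (b z4 z2)) z4) (d (a z4 (b z2 z2)) (a z4 (b z4 z3))))) z4))) z4)) z4) (d (a z4 (b (d (b (d (a z2 (b (d (b z2 z2) (b z3 z3)) (d (a z2 (b z2 z2)) (a z2 (b z2 z2))))) (a z4 (b z4 (d (a z4 (b z3 z3)) z4)))) (d (a z2 (b (d (a z2 (b z2 z2)) (a z2 (b z2 z2))) (d (a z2 (b z2 z2)) (a z2 (b z2 z2))))) (a z4 (b (d (a z2 (b z3 z3)) (a z4 (b z3 z3))) (d (a z2 (b z3 z2)) (a z2 (b z3 z3))))))) (b z4 (d (a z4 (b z4 (d (a z4 (b z3 z3)) z4))) z4))) (d (a z2 (b (d (b (d (a z2 (b z2 z2)) (a z2 (b z2 z2))) (d (a z2 (b z2 z2)) (a z2 (b z2 z2)))) (b (d (a z2 (b z2 z2)) (a z2 (b z3 z3))) (d (a z2 (b z2 z2)) (a z2 (b z3 z3))))) (d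 (a z2 (b (d (b z2 z2) (b z2 z2)) (d (b z2 z2) (b z2 z2)))) (a z2 (b (d (b z2 z2) (b z3 z2)) (d (b z2 z2) (b z2 z2))))))) (a z4 (b (d (b (d (a z2 (b z3 z3)) (a z4 (b z3 z3))) (d (a z2 (b z3 z3)) (a z4 (b z3 z3)))) (b z4 (d (a z4 (b z4 z3)) z4))) (d (a z2 (b (d (b z3 z3) (b z3 z3)) (d (b z3 z3) (b z3 z3)))) (a z4 (b (d (b z3 z3) (b z4 z3)) (d (b z3 z3) (b z3 z3)))))))))) (a z4 (b z4 (d (a z4 (b z4 (d (a z4 (b z4 (d (b z4 z3) z4))) z4))) z4)))))) z4) _ _ (by decide +kernel)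

theorem okI176 : CKI ⟨458753, 481035, 157696, 159744⟩ ⟨0, 0, 217088, 219136⟩ :=
  ckI_sound z2 _ _ (by decide +kernel)

theorem okI177 : CKI ⟨481035, 786432, 157696, 158720⟩ ⟨0, 0, 217088, 218112⟩ :=
  ckI_sound (a z2 (b (d (b (d (a z2 (b (d (b z2 z2) (b z2 z2)) (d (a z2 (b z2 z2)) (a z2 (b z2 z2))))) (a z2 (b (d (b z2 z2) (b z2 z2)) (d (a z2 (b z2 z2)) (a z2 (b z2 z2)))))) (d (a z2 (b (d (a z2 (b z2 z2)) (a z2 (b z2 z2))) (d (a z2 (b z2 z2)) (a z2 (b z2 z2))))) (a z2 (b (d (a z2 (b z2 z2)) (a z2 (b z2 z2))) (d (a z2 (b z2 z2)) (a z2 (b z2 z2))))))) (b (d (a z2 (b (d (b z3 z2) (b z3 z3)) (d (a z2 (b z2 z2)) (a z2 (b z3 z3))))) (a z2 (b (d (b z3 z3) (b z3 z3)) (d (a z2 (b z3 z3)) (a z2 (b z3 z3)))))) (d (a z2 (b (d (a z2 (b z2 z2)) (a z2 (b z3 z3))) (d (a z2 (b z2 z2)) (a z2 (b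 z3 z2))))) (a z2 (b (d (a z2 (b z3 z3)) (a z2 (b z3 z3))) (d (a z2 (b z3 z3)) (a z2 (b z3 z3)))))))) (d (b (d (a z2 (b (d (a z2 (b z2 z2)) (a z2 (b z2 z2))) (d (a z2 (b z2 z2)) (a z2 (b z2 z2))))) (a z2 (b (d (a z2 (b z2 z2)) (a z2 (b z2 z2))) (d (a z2 (b z2 z2)) (a z2 (b z2 z2)))))) (d (a z2 (b (d (a z2 (b z2 z2)) (a z2 (b z2 z2))) (d (a z2 (b z2 z2)) (a z2 (b z2 z2))))) (a z2 (b (d (a z2 (b z2 z2)) (a z2 (b z2 z2))) (d (a z2 (b z2 z2)) (a z2 (b z2 z2))))))) (b (d (a z2 (b (d (a z2 (b z2 z2)) (a z2 (b z2 z2))) (d (a z2 (b z2 z2)) (a z2 (b z2 z2))))) (a z2 (b (d (a z2 (b z3 z3)) (a z2 (b z3 z3))) (d (a z2 (b z3 z3)) (a z2 (b z3 z3)))))) (d (a z2 (b (d (a z2 (b z2 z2)) (a z2 (b z2 z2))) (d (a z2 (b z2 z2)) (a z2 (b z2 z2))))) (a z2 (b (d (a z2 (b z2 z2)) (a z2 (b z3 z3))) (d (a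 z2 (b z2 z2)) (a z2 (b z3 z3)))))))))) _ _ (by decide +kernel)

theorem okI178 : CKI ⟨481035, 786432, 157696, 158720⟩ ⟨0, 0, 218112, 219136⟩ :=
  ckI_sound (a z4 (b (d (b (d (a z4 (b (d (b z3 z3) (b z4 z3)) (d (a z2 (b z3 z3)) (a z4 (b z3 z3))))) z4) (d (a z2 (b (d (a z2 (b z3 z3)) (a z2 (b z3 z3))) (d (a z2 (b z3 z3)) (a z2 (b z3 z3))))) (a z4 (b (d (a z4 (b z3 z3)) z4) (d (a z2 (b z3 z3)) (a z4 (b z3 z3))))))) z4) (d (b (d (a z2 (b (d (a z2 (b z3 z3)) (a z2 (b z3 z3))) (d (a z2 (b z3 z3)) (a z2 (b z3 z3))))) (a z4 (b (d (a z2 (b z3 z3)) (a z2 (b z3 z3))) (d (a z2 (b z3 z3)) (a z2 (b z3 z3)))))) (d (a z2 (b (d (a z2 (b z3 z3)) (a z2 (b z3 z3))) (d (a z2 (b z3 z3)) (a z2 (b z3 z3))))) (a z2 (b (d (a z2 (b z3 z3)) (a z2 (b z3 z3))) (d (a z2 (b z3 z3)) (a z2 (b z3 z3))))))) (b (d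 (a z4 (b (d (a z4 (b z3 z3)) z4) (d (a z4 (b z3 z3)) (a z4 (b z3 z3))))) z4) (d (a z4 (b (d (a z2 (b z3 z3)) (a z4 (b z3 z3))) (d (a z2 (b z3 z3)) (a z2 (b z3 z3))))) (a z4 (b (d (a z4 (b z4 z3)) z4) (d (a z4 (b z3 z3)) (a z4 (b z4 z3)))))))))) _ _ (by decide +kernel)

theorem okI179 : CKI ⟨481035, 786432, 158720, 159744⟩ ⟨0, 0, 217088, 218112⟩ :=
  ckI_sound (a z2 (b (d (b (d (a z2 (b (d (a z2 (b z2 z2)) (a z2 (b z2 z2))) (d (a z2 (b z2 z2)) (a z2 (b z2 z2))))) (a z2 (b (d (a z2 (b z2 z2)) (a z2 (b z2 z2))) (d (a z2 (b z2 z2)) (a z2 (b z2 z2)))))) (d (a z2 (b (d (a z2 (b z2 z2)) (a z2 (b z2 z2))) (d (a z2 (b z2 z2)) (a z2 (b z2 z2))))) (a z2 (b (d (a z2 (b z2 z2)) (a z2 (b z2 z2))) (d (a z2 (b z2 z2)) (a z2 (b z2 z2))))))) (b (d (a z2 (b (d (a z2 (b z2 z2)) (a z2 (b z2 z2))) (d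 (a z2 (b z2 z2)) (a z2 (b z2 z2))))) (a z2 (b (d (a z2 (b z2 z2)) (a z2 (b z2 z2))) (d (a z2 (b z2 z2)) (a z2 (b z2 z2)))))) (d (a z2 (b (d (a z2 (b z2 z2)) (a z2 (b z2 z2))) (d (a z2 (b z2 z2)) (a z2 (b z2 z2))))) (a z2 (b (d (a z2 (b z2 z2)) (a z2 (b z2 z2))) (d (a z2 (b z2 z2)) (a z2 (b z2 z2)))))))) (d (a z2 (b (d (b (d (a z2 (b z2 z2)) (a z2 (b z2 z2))) (d (a z2 (b z2 z2)) (a z2 (b z2 z2)))) (b (d (a z2 (b z2 z2)) (a z2 (b z2 z2))) (d (a z2 (b z2 z2)) (a z2 (b z2 z2))))) (d (a z2 (b (d (b z2 z2) (b z2 z2)) (d (a z2 (b z2 z2)) (a z2 (b z2 z2))))) (a z2 (b (d (b z2 z2) (b z2 z2)) (d (a z2 (b z2 z2)) (a z2 (b z2 z2)))))))) (a z2 (b (d (b (d (a z2 (b z2 z2)) (a z2 (b z2 z2))) (d (a z2 (b z2 z2)) (a z2 (b z2 z2)))) (b (d (a z2 (b z2 z2)) (a z2 (b z2 z2))) (d (a z2 (b z2 z2)) (a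 z2 (b z2 z2))))) (d (a z2 (b (d (b z2 z2) (b z2 z2)) (d (a z2 (b z2 z2)) (a z2 (b z2 z2))))) (a z2 (b (d (b z2 z2) (b z2 z2)) (d (a z2 (b z2 z2)) (a z2 (b z2 z2))))))))))) _ _ (by decide +kernel)

end Vale.Agent.Lib.P154Q5
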