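import Vale.Agent.Lib.P154Q5.FormI

namespace Vale.Agent.Lib.P154Q5

set_option maxRecDepth 100000
set_option exponentiation.threshold 1000

open Tr

theorem okI180 : CKI ⟨481035, 786432, 158720, 159744⟩ ⟨0, 0, 218112, 219136⟩ :=
  ckI_sound (a z2 (b (d (b (d (a z2 (b (d (a z2 (b z3 z3)) (a z2 (b z3 z3))) (d (a z2 (b z3 z3)) (a z2 (b z3 z3))))) (a z2 (b (d (a z2 (b z3 z3)) (a z2 (b z3 z3))) (d (a z2 (b z3 z3)) (a z2 (b z3 z3)))))) (d (a z2 (b (d (a z2 (b z3 z2)) (a z2 (b z3 z3))) (d (a z2 (b z2 z2)) (a z2 (b z3 z3))))) (a z2 (b (d (a z2 (b z3 z3)) (a z2 (b z3 z3))) (d (a z2 (b z3 z3)) (a z2 (b z3 z3))))))) (b (d (a z2 (b (d (a z2 (b z3 z3)) (a z2 (b z3 z3))) (d (a z2 (b z3 z3)) (a z2 (b z3 z3))))) (a z4 (b (d (a z2 (b z3 z3)) (a z4 (b z3 z3))) (d (a z2 (b z3 z3)) (a z2 (b z3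 z3)))))) (d (a z2 (b (d (a z2 (b z3 z3)) (a z2 (b z3 z3))) (d (a z2 (b z3 z3)) (a z2 (b z3 z3))))) (a z2 (b (d (a z2 (b z3 z3)) (a z2 (b z3 z3))) (d (a z2 (b z3 z3)) (a z2 (b z3 z3)))))))) (d (a z2 (b (d (b (d (a z2 (b z2 z2)) (a z2 (b z3 z3))) (d (a z2 (b z2 z2)) (a z2 (b z2 z2)))) (b (d (a z2 (b z3 z3)) (a z2 (b z3 z3))) (d (a z2 (b z3 z3)) (a z2 (b z3 z3))))) (d (a z2 (b (d (b z2 z2) (b z2 z2)) (d (a z2 (b z2 z2)) (a z2 (b z2 z2))))) (a z2 (b (d (b z3 z3) (b z3 z3)) (d (a z2 (b z3 z2)) (a z2 (b z3 z3)))))))) (a z2 (b (d (b (d (a z2 (b z3 z3)) (a z2 (b z3 z3))) (d (a z2 (b z3 z3)) (a z2 (b z3 z3)))) (b (d (a z2 (b z3 z3)) (a z2 (b z3 z3))) (d (a z2 (b z3 z3)) (a z2 (b z3 z3))))) (d (a z2 (b (d (b z3 z3) (b z3 z3)) (d (a z2 (b z3 z3)) (a z2 (b z3 z3))))) (a z2 (b (d (b z3 z3)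 (b z3 z3)) (d (a z2 (b z3 z3)) (a z2 (b z3 z3))))))))))) _ _ (by decide +kernel)

theorem okI181 : CKI ⟨458753, 786432, 157696, 159744⟩ ⟨0, 0, 219136, 221184⟩ :=
  ckI_sound (a z4 (b z4 (d (a z4 (b (d (b (d (a z4 (b (d (a z4 (b z4 z3)) z4) (d (a z4 (b z3 z3)) (a z4 (b z4 z3))))) z4) (d (a z4 (b (d (a z2 (b z3 z3)) (a z4 (b z3 z3))) (d (a z2 (b z3 z3)) (a z4 (b z3 z3))))) (a z4 (b z4 (d (a z4 (b z3 z3)) z4))))) z4) (d (a z2 (b (d (b (d (a z2 (b z3 z3)) (a z2 (b z3 z3))) (d (a z2 (b z3 z3)) (a z2 (b z3 z3)))) (b (d (a z4 (b z3 z3)) (a z4 (b z3 z3))) (d (a z2 (b z3 z3)) (a z4 (b z3 z3))))) (d (a z2 (b (d (b z3 z3) (b z3 z3)) (d (a z2 (b z3 z3)) (a z2 (b z3 z3))))) (a z2 (b (d (b z3 z3) (b z3 z3)) (d (a z2 (b z3 z3)) (a z2 (b z3 z3)))))))) (a z4 (b (d (b z4 (d (a z4 (b z3 z3)) z4))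 z4) (d (a z4 (b (d (b z3 z3) (b z3 z3)) (d (a z2 (b z3 z3)) (a z2 (b z3 z3))))) (a z4 (b z4 (d (a z4 (b (d z3 z4) z3)) z4))))))))) z4))) _ _ (by decide +kernel)

theorem okI182 : CKI ⟨458753, 491521, 159744, 163840⟩ ⟨0, 0, 212992, 217088⟩ :=
  ckI_sound z2 _ _ (by decide +kernel)

theorem okI183 : CKI ⟨491521, 786432, 159744, 161792⟩ ⟨0, 0, 212992, 215040⟩ :=
  ckI_sound (b (d (b (d (a z2 (b (d (a z2 (b z2 z2)) (a z2 (b z2 z2))) (d (a z2 (b z2 z2)) (a z2 (b z2 z2))))) (a z2 (b (d (a z2 (b z2 z2)) (a z2 (b z2 z2))) (d (a z2 (b z2 z2)) (a z2 (b z2 z2)))))) (d (a z2 (b (d (a z2 (b z2 z2)) (a z2 (b z2 z2))) (d (a z2 (b z2 z2)) (a z2 (b z2 z2))))) (a z2 (b (d (a z2 (b z2 z2)) (a z2 (b z2 z2))) (d (a z2 (b z2 z2)) (a z2 (b z2 z2))))))) (b (d (a z2 (b (d (a z2 (b z2 z2)) (a z2 (b z2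 z2))) (d (a z2 (b z2 z2)) (a z2 (b z2 z2))))) (a z2 (b (d (a z2 (b z2 z2)) (a z2 (b z2 z2))) (d (a z2 (b z2 z2)) (a z2 (b z2 z2)))))) (d (a z2 (b (d (a z2 (b z2 z2)) (a z2 (b z2 z2))) (d (a z2 (b z2 z2)) (a z2 (b z2 z2))))) (a z2 (b (d (a z2 (b z2 z2)) (a z2 (b z2 z2))) (d (a z2 (b z2 z2)) (a z2 (b z2 z2)))))))) (d (a z2 (b (d (b (d (a z2 (b z2 z2)) (a z2 (b z2 z2))) (d (a z2 (b z2 z2)) (a z2 (b z2 z2)))) (b (d (a z2 (b z2 z2)) (a z2 (b z2 z2))) (d (a z2 (b z2 z2)) (a z2 (b z2 z2))))) (d (a z2 (b (d (b z2 z2) (b z2 z2)) (d (a z2 (b z2 z2)) (a z2 (b z2 z2))))) (a z2 (b (d (b z2 z2) (b z2 z2)) (d (a z2 (b z2 z2)) (a z2 (b z2 z2)))))))) (a z2 (b (d (b (d (a z2 (b z2 z2)) (a z2 (b z2 z2))) (d (a z2 (b z2 z2)) (a z2 (b z2 z2)))) (b (d (a z2 (b z2 z2)) (a z2 (b z2 z2))) (d (a z2 (b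 z2 z2)) (a z2 (b z2 z2))))) (d (a z2 (b (d (b z2 z2) (b z2 z2)) (d (a z2 (b z2 z2)) (a z2 (b z2 z2))))) (a z2 (b (d (b z2 z2) (b z2 z2)) (d (a z2 (b z2 z2)) (a z2 (b z2 z2)))))))))) _ _ (by decide +kernel)

theorem okI184 : CKI ⟨491521, 786432, 159744, 161792⟩ ⟨0, 0, 215040, 217088⟩ :=
  ckI_sound (b (d (b (d (a z2 (b (d (a z2 (b z2 z2)) (a z2 (b z3 z3))) (d (a z2 (b z2 z2)) (a z2 (b z2 z2))))) (a z2 (b (d (a z2 (b z3 z3)) (a z2 (b z3 z3))) (d (a z2 (b z3 z3)) (a z2 (b z3 z3)))))) (d (a z2 (b (d (a z2 (b z2 z2)) (a z2 (b z2 z2))) (d (a z2 (b z2 z2)) (a z2 (b z2 z2))))) (a z2 (b (d (a z2 (b z3 z3)) (a z2 (b z3 z3))) (d (a z2 (b z3 z3)) (a z2 (b z3 z3))))))) (b (d (a z2 (b (d (a z2 (b z3 z3)) (a z2 (b (d z3 (a z2 (b z2 z2))) z3))) (d (a z2 (b z3 z3)) (a z2 (b z3 z3))))) (a z2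 (b (d (a z2 (b (d (a z2 (b z2 z2)) (a z2 (b z2 z2))) (d (a z2 (b z2 z2)) (a z2 (b z2 z2))))) (a z2 (b (d (a z2 (b z2 z2)) (a z2 (b z2 z2))) (d (a z2 (b z2 z2)) (a z2 (b z2 z2)))))) (d (a z2 (b (d (a z2 (b z2 z2)) (a z2 (b z2 z2))) (d (a z2 (b z2 z2)) (a z2 (b z2 z2))))) (a z2 (b (d (a z2 (b z2 z2)) (a z2 (b z2 z2))) (d (a z2 (b z2 z2)) (a z2 (b z2 z2))))))))) (d (a z2 (b (d (a z2 (b z3 z3)) (a z2 (b z3 z3))) (d (a z2 (b z3 z3)) (a z2 (b z3 z3))))) (a z2 (b (d (a z2 (b (d z3 (a z2 (b z2 z2))) (d z3 (a z2 (b z2 z2))))) (a z2 (b (d (a z2 (b z2 z2)) (a z2 (b z2 z2))) (d (a z2 (b z2 z2)) (a z2 (b z2 z2)))))) (d (a z2 (b (d z3 (a z2 (b z2 z2))) z3)) (a z2 (b (d (a z2 (b z2 z2)) (a z2 (b z2 z2))) (d (a z2 (b z2 z2)) (a z2 (b z2 z2))))))))))) (d (a z2 (b (d (b (d (a z2 (b z2 z2)) (a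 z2 (b z2 z2))) (d (a z2 (b z2 z2)) (a z2 (b z2 z2)))) (b (d (a z2 (b z3 z2)) (a z2 (b z3 z3))) (d (a z2 (b z2 z2)) (a z2 (b z3 z3))))) (d (a z2 (b (d (b z2 z2) (b z2 z2)) (d (a z2 (b z2 z2)) (a z2 (b z2 z2))))) (a z2 (b (d (b z2 z2) (b z3 z3)) (d (a z2 (b z2 z2)) (a z2 (b z2 z2)))))))) (a z2 (b (d (b (d (a z2 (b z3 z3)) (a z2 (b z3 z3))) (d (a z2 (b z3 z3)) (a z2 (b z3 z3)))) (b (d (a z2 (b z3 z3)) (a z2 (b (d (a z2 (b z2 z2)) (a z2 (b z2 z2))) (d z3 (a z2 (b z2 z2)))))) (d (a z2 (b z3 z3)) (a z2 (b (d z3 (a z2 (b z2 z2))) (d z3 (a z2 (b z2 z2)))))))) (d (a z2 (b (d (b z3 z3) (b z3 z3)) (d (a z2 (b z3 z3)) (a z2 (b z3 z3))))) (a z2 (b (d (b z3 z3) (b z3 z3)) (d (a z2 (b z3 z3)) (a z2 (b z3 z3)))))))))) _ _ (by decide +kernel)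

theorem okI185 : CKI ⟨491521, 786432, 161792, 163840⟩ ⟨0, 0, 212992, 215040⟩ :=
  ckI_sound (b (d (a z2 (b (d (a z2 (b (d (b z2 z2) (b z2 z2)) (d (a z2 (b z2 z2)) (a z2 (b z2 z2))))) (a z2 (b (d (b z2 z2) (b z2 z2)) (d (a z2 (b z2 z2)) (a z2 (b z2 z2)))))) (d (a z2 (b (d (a z2 (b z2 z2)) (a z2 (b z2 z2))) (d (a z2 (b z2 z2)) (a z2 (b z2 z2))))) (a z2 (b (d (a z2 (b z2 z2)) (a z2 (b z2 z2))) (d (a z2 (b z2 z2)) (a z2 (b z2 z2)))))))) (a z2 (b (d (a z2 (b (d (b z2 z2) (b z2 z2)) (d (a z2 (b z2 z2)) (a z2 (b z2 z2))))) (a z2 (b (d (b z2 z2) (b z2 z2)) (d (a z2 (b z2 z2)) (a z2 (b z2 z2)))))) (d (a z2 (b (d (a z2 (b z2 z2)) (a z2 (b z2 z2))) (d (a z2 (b z2 z2)) (a z2 (b z2 z2))))) (a z2 (b (d (a z2 (b z2 z2)) (a z2 (b z2 z2))) (d (a z2 (b z2 z2)) (a z2 (b z2 z2))))))))) (d (a z2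 (b (d (a z2 (b (d (a z2 (b z2 z2)) (a z2 (b z2 z2))) (d (a z2 (b z2 z2)) (a z2 (b z2 z2))))) (a z2 (b (d (a z2 (b z2 z2)) (a z2 (b z2 z2))) (d (a z2 (b z2 z2)) (a z2 (b z2 z2)))))) (d (a z2 (b (d (a z2 (b z2 z2)) (a z2 (b z2 z2))) (d (a z2 (b z2 z2)) (a z2 (b z2 z2))))) (a z2 (b (d (a z2 (b z2 z2)) (a z2 (b z2 z2))) (d (a z2 (b z2 z2)) (a z2 (b z2 z2)))))))) (a z2 (b (d (a z2 (b (d (a z2 (b z2 z2)) (a z2 (b z2 z2))) (d (a z2 (b z2 z2)) (a z2 (b z2 z2))))) (a z2 (b (d (a z2 (b z2 z2)) (a z2 (b z2 z2))) (d (a z2 (b z2 z2)) (a z2 (b z2 z2)))))) (d (a z2 (b (d (a z2 (b z2 z2)) (a z2 (b z2 z2))) (d (a z2 (b z2 z2)) (a z2 (b z2 z2))))) (a z2 (b (d (a z2 (b z2 z2)) (a z2 (b z2 z2))) (d (a z2 (b z2 z2)) (a z2 (b z2 z2)))))))))) _ _ (by decide +kernel)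

theorem okI186 : CKI ⟨491521, 786432, 161792, 163840⟩ ⟨0, 0, 215040, 217088⟩ :=
  ckI_sound (b (d (a z2 (b (d (a z2 (b (d (b z2 z2) (b z2 z2)) (d (a z2 (b z2 z2)) (a z2 (b z2 z2))))) (a z2 (b (d (b z2 z2) (b z2 z2)) (d (a z2 (b z2 z2)) (a z2 (b z2 z2)))))) (d (a z2 (b (d (a z2 (b z2 z2)) (a z2 (b z2 z2))) (d (a z2 (b z2 z2)) (a z2 (b z2 z2))))) (a z2 (b (d (a z2 (b z2 z2)) (a z2 (b z2 z2))) (d (a z2 (b z2 z2)) (a z2 (b z2 z2)))))))) (a z2 (b (d (a z2 (b (d (b z3 z3) (b z3 z3)) (d (a z2 (b z3 z3)) (a z2 (b z3 z3))))) (a z2 (b (d (b z3 z3) (b z3 z3)) (d (a z2 (b z3 z3)) (a z2 (b z3 z3)))))) (d (a z2 (b (d (a z2 (b z2 z2)) (a z2 (b z3 z3))) (d (a z2 (b z2 z2)) (a z2 (b z3 z3))))) (a z2 (b (d (a z2 (b z3 z3)) (a z2 (b z3 z3))) (d (a z2 (b z3 z3)) (a z2 (b z3 z3))))))))) (d (a z2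 (b (d (a z2 (b (d (a z2 (b z2 z2)) (a z2 (b z2 z2))) (d (a z2 (b z2 z2)) (a z2 (b z2 z2))))) (a z2 (b (d (a z2 (b z2 z2)) (a z2 (b z2 z2))) (d (a z2 (b z2 z2)) (a z2 (b z2 z2)))))) (d (a z2 (b (d (a z2 (b z2 z2)) (a z2 (b z2 z2))) (d (a z2 (b z2 z2)) (a z2 (b z2 z2))))) (a z2 (b (d (a z2 (b z2 z2)) (a z2 (b z2 z2))) (d (a z2 (b z2 z2)) (a z2 (b z2 z2)))))))) (a z2 (b (d (a z2 (b (d (a z2 (b z2 z2)) (a z2 (b z3 z3))) (d (a z2 (b z2 z2)) (a z2 (b z2 z2))))) (a z2 (b (d (a z2 (b z3 z3)) (a z2 (b z3 z3))) (d (a z2 (b z3 z3)) (a z2 (b z3 z3)))))) (d (a z2 (b (d (a z2 (b z2 z2)) (a z2 (b z2 z2))) (d (a z2 (b z2 z2)) (a z2 (b z2 z2))))) (a z2 (b (d (a z2 (b z3 z3)) (a z2 (b z3 z3))) (d (a z2 (b z3 z2)) (a z2 (b z3 z3)))))))))) _ _ (by decide +kernel)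

theorem okI187 : CKI ⟨458753, 491521, 159744, 163840⟩ ⟨0, 0, 217088, 221184⟩ :=
  ckI_sound z2 _ _ (by decide +kernel)

theorem okI188 : CKI ⟨491521, 786432, 159744, 160768⟩ ⟨0, 0, 217088, 218112⟩ :=
  ckI_sound (b (d (a z2 (b (d (a z2 (b (d (a z2 (b z2 z2)) (a z2 (b z2 z2))) (d (a z2 (b z2 z2)) (a z2 (b z2 z2))))) (a z2 (b (d (a z2 (b z2 z2)) (a z2 (b z2 z2))) (d (a z2 (b z2 z2)) (a z2 (b z2 z2)))))) (d (a z2 (b (d (a z2 (b z2 z2)) (a z2 (b z2 z2))) (d (a z2 (b z2 z2)) (a z2 (b z2 z2))))) (a z2 (b (d (a z2 (b z2 z2)) (a z2 (b z2 z2))) (d (a z2 (b z2 z2)) (a z2 (b z2 z2)))))))) (a z2 (b (d (a z2 (b (d (a z2 (b z2 z2)) (a z2 (b z2 z2))) (d (a z2 (b z2 z2)) (a z2 (b z2 z2))))) (a z2 (b (d (a z2 (b z2 z2)) (a z2 (b z2 z2))) (d (a z2 (b z2 z2)) (a z2 (b z2 z2)))))) (d (a z2 (b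 (d (a z2 (b z2 z2)) (a z2 (b z2 z2))) (d (a z2 (b z2 z2)) (a z2 (b z2 z2))))) (a z2 (b (d (a z2 (b z2 z2)) (a z2 (b z2 z2))) (d (a z2 (b z2 z2)) (a z2 (b z2 z2))))))))) (d (a z2 (b (d (a z2 (b (d (a z2 (b z2 z2)) (a z2 (b z2 z2))) (d (a z2 (b z2 z2)) (a z2 (b z2 z2))))) (a z2 (b (d (a z2 (b z2 z2)) (a z2 (b z2 z2))) (d (a z2 (b z2 z2)) (a z2 (b z2 z2)))))) (d (a z2 (b (d (a z2 (b z2 z2)) (a z2 (b z2 z2))) (d (a z2 (b z2 z2)) (a z2 (b z2 z2))))) (a z2 (b (d (a z2 (b z2 z2)) (a z2 (b z2 z2))) (d (a z2 (b z2 z2)) (a z2 (b z2 z2)))))))) (a z2 (b (d (a z2 (b (d (a z2 (b z2 z2)) (a z2 (b z2 z2))) (d (a z2 (b z2 z2)) (a z2 (b z2 z2))))) (a z2 (b (d (a z2 (b z2 z2)) (a z2 (b z2 z2))) (d (a z2 (b z2 z2)) (a z2 (b z2 z2)))))) (d (a z2 (b (d (a z2 (b z2 z2)) (a z2 (b z2 z2))) (d (a z2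 (b z2 z2)) (a z2 (b z2 z2))))) (a z2 (b (d (a z2 (b z2 z2)) (a z2 (b z2 z2))) (d (a z2 (b z2 z2)) (a z2 (b z2 z2)))))))))) _ _ (by decide +kernel)

theorem okI189 : CKI ⟨491521, 786432, 159744, 160768⟩ ⟨0, 0, 218112, 219136⟩ :=
  ckI_sound (b (d (a z2 (b (d (a z2 (b (d (a z2 (b z2 z2)) (a z2 (b z2 z2))) (d (a z2 (b z2 z2)) (a z2 (b z2 z2))))) (a z2 (b (d (a z2 (b z2 z2)) (a z2 (b z3 z3))) (d (a z2 (b z2 z2)) (a z2 (b z3 z2)))))) (d (a z2 (b (d (a z2 (b z2 z2)) (a z2 (b z2 z2))) (d (a z2 (b z2 z2)) (a z2 (b z2 z2))))) (a z2 (b (d (a z2 (b z2 z2)) (a z2 (b z2 z2))) (d (a z2 (b z2 z2)) (a z2 (b z2 z2)))))))) (a z2 (b (d (a z2 (b (d (a z2 (b z3 z3)) (a z2 (b z3 z3))) (d (a z2 (b z3 z3)) (a z2 (b z3 z3))))) (a z2 (b (d (a z2 (b z3 z3)) (a z2 (b z3 z3))) (d (a z2 (b z3 z3)) (a z2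 (b z3 z3)))))) (d (a z2 (b (d (a z2 (b z3 z3)) (a z2 (b z3 z3))) (d (a z2 (b z3 z2)) (a z2 (b z3 z3))))) (a z2 (b (d (a z2 (b z3 z3)) (a z2 (b z3 z3))) (d (a z2 (b z3 z3)) (a z2 (b z3 z3))))))))) (d (a z2 (b (d (a z2 (b (d (a z2 (b z2 z2)) (a z2 (b z2 z2))) (d (a z2 (b z2 z2)) (a z2 (b z2 z2))))) (a z2 (b (d (a z2 (b z2 z2)) (a z2 (b z2 z2))) (d (a z2 (b z2 z2)) (a z2 (b z2 z2)))))) (d (a z2 (b (d (a z2 (b z2 z2)) (a z2 (b z2 z2))) (d (a z2 (b z2 z2)) (a z2 (b z2 z2))))) (a z2 (b (d (a z2 (b z2 z2)) (a z2 (b z2 z2))) (d (a z2 (b z2 z2)) (a z2 (b z2 z2)))))))) (a z2 (b (d (a z2 (b (d (a z2 (b z2 z2)) (a z2 (b z3 z3))) (d (a z2 (b z2 z2)) (a z2 (b z3 z3))))) (a z2 (b (d (a z2 (b z3 z3)) (a z2 (b z3 z3))) (d (a z2 (b z3 z3)) (a z2 (b z3 z3)))))) (d (a z2 (b (d (a z2 (b z2 z2))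 (a z2 (b z2 z2))) (d (a z2 (b z2 z2)) (a z2 (b z2 z2))))) (a z2 (b (d (a z2 (b z3 z3)) (a z2 (b z3 z3))) (d (a z2 (b z3 z3)) (a z2 (b z3 z3)))))))))) _ _ (by decide +kernel)

theorem okI190 : CKI ⟨491521, 786432, 160768, 161792⟩ ⟨0, 0, 217088, 218112⟩ :=
  ckI_sound (a z2 (b (d (b (d (a z2 (b (d (a z2 (b z2 z2)) (a z2 (b z2 z2))) (d (a z2 (b z2 z2)) (a z2 (b z2 z2))))) (a z2 (b (d (a z2 (b z2 z2)) (a z2 (b z2 z2))) (d (a z2 (b z2 z2)) (a z2 (b z2 z2)))))) (d (a z2 (b (d (a z2 (b z2 z2)) (a z2 (b z2 z2))) (d (a z2 (b z2 z2)) (a z2 (b z2 z2))))) (a z2 (b (d (a z2 (b z2 z2)) (a z2 (b z2 z2))) (d (a z2 (b z2 z2)) (a z2 (b z2 z2))))))) (b (d (a z2 (b (d (a z2 (b z2 z2)) (a z2 (b z2 z2))) (d (a z2 (b z2 z2)) (a z2 (b z2 z2))))) (a z2 (b (d (a z2 (b z2 z2)) (a z2 (b z2 z2))) (d (a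 z2 (b z2 z2)) (a z2 (b z2 z2)))))) (d (a z2 (b (d (a z2 (b z2 z2)) (a z2 (b z2 z2))) (d (a z2 (b z2 z2)) (a z2 (b z2 z2))))) (a z2 (b (d (a z2 (b z2 z2)) (a z2 (b z2 z2))) (d (a z2 (b z2 z2)) (a z2 (b z2 z2)))))))) (d (a z2 (b (d (b (d (a z2 (b z2 z2)) (a z2 (b z2 z2))) (d (a z2 (b z2 z2)) (a z2 (b z2 z2)))) (b (d (a z2 (b z2 z2)) (a z2 (b z2 z2))) (d (a z2 (b z2 z2)) (a z2 (b z2 z2))))) (d (a z2 (b (d z3 (b z2 z2)) (d z3 (a z2 (b z2 z2))))) (a z2 (b (d (b z2 z2) (b z2 z2)) (d (a z2 (b z2 z2)) (a z2 (b z2 z2)))))))) (a z2 (b (d (b (d (a z2 (b z2 z2)) (a z2 (b z2 z2))) (d (a z2 (b z2 z2)) (a z2 (b z2 z2)))) (b (d (a z2 (b z2 z2)) (a z2 (b z2 z2))) (d (a z2 (b z2 z2)) (a z2 (b z2 z2))))) (d (a z2 (b (d (b z2 z2) (b z2 z2)) (d (a z2 (b z2 z2)) (a z2 (b z2 z2))))) (a z2 (b (d (b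 z2 z2) (b z2 z2)) (d (a z2 (b z2 z2)) (a z2 (b z2 z2))))))))))) _ _ (by decide +kernel)

theorem okI191 : CKI ⟨491521, 786432, 160768, 161792⟩ ⟨0, 0, 218112, 219136⟩ :=
  ckI_sound (a z2 (b (d (b (d (a z2 (b (d (a z2 (b z2 z2)) (a z2 (b z2 z2))) (d (a z2 (b z2 z2)) (a z2 (b z2 z2))))) (a z2 (b (d (a z2 (b z2 z2)) (a z2 (b z2 z2))) (d (a z2 (b z2 z2)) (a z2 (b z2 z2)))))) (d (a z2 (b (d (a z2 (b z2 z2)) (a z2 (b z2 z2))) (d (a z2 (b z2 z2)) (a z2 (b z2 z2))))) (a z2 (b (d (a z2 (b z2 z2)) (a z2 (b z2 z2))) (d (a z2 (b z2 z2)) (a z2 (b z2 z2))))))) (b (d (a z2 (b (d (a z2 (b z2 z2)) (a z2 (b z2 z2))) (d (a z2 (b z2 z2)) (a z2 (b z2 z2))))) (a z2 (b (d (a z2 (b z2 z2)) (a z2 (b z3 z3))) (d (a z2 (b z2 z2)) (a z2 (b z3 z3)))))) (d (a z2 (b (d (a z2 (b z2 z2)) (a z2 (b z2 z2))) (d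 (a z2 (b z2 z2)) (a z2 (b z2 z2))))) (a z2 (b (d (a z2 (b z2 z2)) (a z2 (b z2 z2))) (d (a z2 (b z2 z2)) (a z2 (b z2 z2)))))))) (d (a z2 (b (d (b (d (a z2 (b z2 z2)) (a z2 (b z2 z2))) (d (a z2 (b z2 z2)) (a z2 (b z2 z2)))) (b (d (a z2 (b z2 z2)) (a z2 (b z2 z2))) (d (a z2 (b z2 z2)) (a z2 (b z2 z2))))) (d (a z2 (b (d (b z2 z2) (b z2 z2)) (d (a z2 (b z2 z2)) (a z2 (b z2 z2))))) (a z2 (b (d (b z2 z2) (b z2 z2)) (d (a z2 (b z2 z2)) (a z2 (b z2 z2)))))))) (a z2 (b (d (b (d (a z2 (b z2 z2)) (a z2 (b z2 z2))) (d (a z2 (b z2 z2)) (a z2 (b z2 z2)))) (b (d (a z2 (b z2 z2)) (a z2 (b z2 z2))) (d (a z2 (b z2 z2)) (a z2 (b z2 z2))))) (d (a z2 (b (d (b z2 z2) (b z2 z2)) (d (a z2 (b z2 z2)) (a z2 (b z2 z2))))) (a z2 (b (d (b z2 z2) (b z2 z2)) (d (a z2 (b z2 z2)) (a z2 (b z2 z2))))))))))) _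 _ (by decide +kernel)

theorem okI192 : CKI ⟨491521, 786432, 159744, 160768⟩ ⟨0, 0, 219136, 220160⟩ :=
  ckI_sound (b (d (a z2 (b (d (a z2 (b (d (a z2 (b z3 z3)) (a z2 (b z3 z3))) (d (a z2 (b z3 z3)) (a z2 (b z3 z3))))) (a z2 (b (d (a z2 (b z3 z3)) (a z2 (b z3 z3))) (d (a z2 (b z3 z3)) (a z2 (b z3 z3)))))) (d (a z2 (b (d (a z2 (b z3 z3)) (a z2 (b z3 z3))) (d (a z2 (b z3 z3)) (a z2 (b z3 z3))))) (a z2 (b (d (a z2 (b z3 z3)) (a z2 (b z3 z3))) (d (a z2 (b z3 z3)) (a z2 (b z3 z3)))))))) (a z4 (b (d (a z2 (b (d (a z2 (b z3 z3)) (a z2 (b z3 z3))) (d (a z2 (b z3 z3)) (a z2 (b z3 z3))))) (a z4 (b (d (a z2 (b z3 z3)) (a z4 (b z4 (d z3 z4)))) (d (a z2 (b z3 z3)) (a z4 (b (d z3 (a z4 (b z2 z2))) z3)))))) (d (a z2 (b (d (a z2 (b z3 z3)) (a z2 (b z3 z3))) (d (a z2 (b z3 z3)) (a z2 (b z3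 z3))))) (a z2 (b (d (a z2 (b z3 z3)) (a z2 (b z3 z3))) (d (a z2 (b z3 z3)) (a z2 (b z3 z3))))))))) (d (a z2 (b (d (a z2 (b (d (a z2 (b z3 z3)) (a z2 (b z3 z3))) (d (a z2 (b z3 z3)) (a z2 (b z3 z3))))) (a z2 (b (d (a z2 (b z3 z3)) (a z2 (b z3 z3))) (d (a z2 (b z3 z3)) (a z2 (b z3 z3)))))) (d (a z2 (b (d (a z2 (b z3 z3)) (a z2 (b z3 z3))) (d (a z2 (b z3 z3)) (a z2 (b z3 z3))))) (a z2 (b (d (a z2 (b z3 z3)) (a z2 (b z3 z3))) (d (a z2 (b z3 z3)) (a z2 (b z3 z3)))))))) (a z2 (b (d (a z2 (b (d (a z2 (b z3 z3)) (a z2 (b z3 z3))) (d (a z2 (b z3 z3)) (a z2 (b z3 z3))))) (a z2 (b (d (a z2 (b z3 z3)) (a z2 (b z3 z3))) (d (a z2 (b z3 z3)) (a z2 (b z3 z3)))))) (d (a z2 (b (d (a z2 (b z3 z3)) (a z2 (b z3 z3))) (d (a z2 (b z3 z3)) (a z2 (b z3 z3))))) (a z2 (b (d (a z2 (b z3 z3)) (a z2 (b z3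 z3))) (d (a z2 (b z3 z3)) (a z2 (b z3 z3)))))))))) _ _ (by decide +kernel)

theorem okI193 : CKI ⟨491521, 786432, 159744, 160768⟩ ⟨0, 0, 220160, 221184⟩ :=
  ckI_sound (b (d (a z4 (b (d (a z4 (b z4 (d (a z4 (b z4 (d (a z4 (b z2 z2)) z4))) z4))) z4) (d (a z4 (b (d (a z4 (b (d (a z2 (b z2 z2)) (a z4 (b z3 z2))) (d z3 (a z2 (b z2 z2))))) (a z4 (b z4 (d (a z4 (b z3 z3)) z4)))) (d (a z2 (b (d z3 (a z2 (b z2 z2))) z3)) (a z4 (b (d (a z4 (b z3 z2)) (a z4 (b z4 z3))) (d (a z2 (b z2 z2)) (a z4 (b z3 z3)))))))) (a z4 (b z4 (d (a z4 (b z4 (d (a z4 (b z4 z3)) z4))) z4)))))) z4) (d (a z4 (b (d (a z2 (b (d (a z2 (b z3 z3)) (a z2 (b (d z3 (a z2 (b z3 z2))) (d z3 (a z2 (b z2 z2)))))) (d (a z2 (b z3 z3)) (a z2 (b z3 z3))))) (a z4 (b (d (a z4 (b (d (a z2 (b z3 z3)) (a z4 (b z4 z3))) (d (a z2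 (b z3 z3)) (a z4 (b z3 z3))))) (a z4 (b z4 (d (a z4 (b z4 z3)) z4)))) (d (a z2 (b (d (a z2 (b z3 z2)) (a z2 (b z3 z3))) (d (a z2 (b z2 z2)) (a z2 (b z3 z3))))) (a z4 (b (d (a z4 (b z3 z3)) (a z4 (b z4 z3))) (d (a z2 (b z3 z3)) (a z4 (b z3 z3))))))))) (d (a z2 (b (d (a z2 (b z3 z3)) (a z2 (b z3 z3))) (d (a z2 (b z3 z3)) (a z2 (b z3 z3))))) (a z4 (b (d (a z2 (b (d z3 (a z2 (b z2 z2))) (d z3 (a z2 (b z2 z2))))) (a z2 (b (d (a z2 (b z3 z3)) (a z2 (b z3 z3))) (d (a z2 (b z3 z3)) (a z2 (b z3 z3)))))) (d (a z2 (b z3 z3)) (a z2 (b (d (a z2 (b z2 z2)) (a z2 (b z3 z3))) (d (a z2 (b z2 z2)) (a z2 (b z3 z2))))))))))) (a z4 (b z4 (d (a z4 (b (d (a z4 (b (d (a z4 (b z3 z3)) z4) (d (a z4 (b z3 z3)) (a z4 (b z3 z3))))) z4) (d (a z4 (b (d (a z2 (b z3 z3)) (a z4 (b z3 z3))) (d (a z2 (b z3 z3))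 (a z2 (b z3 z3))))) (a z4 (b (d (a z4 (b z3 z3)) z4) (d (a z4 (b z3 z3)) (a z4 (b z3 z3)))))))) z4))))) _ _ (by decide +kernel)

theorem okI194 : CKI ⟨491521, 786432, 160768, 161792⟩ ⟨0, 0, 219136, 220160⟩ :=
  ckI_sound (a z2 (b (d (b (d (a z2 (b (d (a z2 (b z3 z3)) (a z2 (b z3 z3))) (d (a z2 (b z3 z3)) (a z2 (b z3 z3))))) (a z2 (b (d (a z2 (b z3 z3)) (a z2 (b z3 z3))) (d (a z2 (b z3 z3)) (a z2 (b z3 z3)))))) (d (a z2 (b (d (a z2 (b z3 z3)) (a z2 (b z3 z3))) (d (a z2 (b z3 z3)) (a z2 (b z3 z3))))) (a z2 (b (d (a z2 (b z3 z3)) (a z2 (b z3 z3))) (d (a z2 (b z3 z3)) (a z2 (b z3 z3))))))) (b (d (a z2 (b (d (a z2 (b z3 z3)) (a z2 (b z3 z3))) (d (a z2 (b z3 z3)) (a z2 (b z3 z3))))) (a z2 (b (d (a z2 (b z3 z3)) (a z2 (b z3 z3))) (d (a z2 (b z3 z3)) (a z2 (b z3 z3)))))) (d (a z2 (b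 (d (a z2 (b z3 z3)) (a z2 (b z3 z3))) (d (a z2 (b z3 z3)) (a z2 (b z3 z3))))) (a z2 (b (d (a z2 (b z3 z3)) (a z2 (b z3 z3))) (d (a z2 (b z3 z3)) (a z2 (b z3 z3)))))))) (d (a z2 (b (d (b (d (a z2 (b z2 z2)) (a z2 (b z3 z3))) (d (a z2 (b z2 z2)) (a z2 (b z3 z3)))) (b (d (a z2 (b z3 z3)) (a z2 (b z3 z3))) (d (a z2 (b z3 z3)) (a z2 (b z3 z3))))) (d (a z2 (b (d (b z2 z2) (b z2 z2)) (d (a z2 (b z2 z2)) (a z2 (b z2 z2))))) (a z2 (b (d (b z3 z3) (b z3 z3)) (d (a z2 (b z3 z3)) (a z2 (b z3 z3)))))))) (a z2 (b (d (b (d (a z2 (b z3 z3)) (a z2 (b z3 z3))) (d (a z2 (b z3 z3)) (a z2 (b z3 z3)))) (b (d (a z2 (b z3 z3)) (a z2 (b z3 z3))) (d (a z2 (b z3 z3)) (a z2 (b z3 z3))))) (d (a z2 (b (d (b z3 z3) (b z3 z3)) (d (a z2 (b z3 z3)) (a z2 (b z3 z3))))) (a z2 (b (d (b z3 z3) (b z3 z3)) (d (a z2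 (b z3 z3)) (a z2 (b z3 z3))))))))))) _ _ (by decide +kernel)

end Vale.Agent.Lib.P154Q5
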