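import Vale.Agent.Lib.P154Q5.FormI

namespace Vale.Agent.Lib.P154Q5

set_option maxRecDepth 100000
set_option exponentiation.threshold 1000

open Tr

theorem okI195 : CKI ⟨491521, 502555, 160768, 161792⟩ ⟨0, 0, 220160, 221184⟩ :=
  ckI_sound z2 _ _ (by decide +kernel)

theorem okI196 : CKI ⟨502555, 786432, 160768, 161280⟩ ⟨0, 0, 220160, 221184⟩ :=
  ckI_sound (d (b (d (a z2 (b (d (a z2 (b z3 z3)) (a z2 (b z3 z3))) (d (a z2 (b z3 z3)) (a z2 (b z3 z3))))) (a z2 (b (d (a z2 (b z3 z3)) (a z2 (b (d z3 (a z2 (b z2 z2))) (d z3 (a z2 (b z2 z2)))))) (d (a z2 (b z3 z3)) (a z2 (b z3 z3)))))) (d (a z2 (b (d (a z2 (b z3 z3)) (a z2 (b z3 z3))) (d (a z2 (b z3 z3)) (a z2 (b z3 z3))))) (a z2 (b (d (a z2 (b z3 z3)) (a z2 (b z3 z3))) (d (a z2 (b z3 z3)) (a z2 (b z3 z3))))))) (b (d (a z2 (b (d (a z2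 (b (d (a z2 (b z3 z3)) (a z2 (b z3 z3))) (d (a z2 (b z3 z2)) (a z2 (b z3 z3))))) (a z2 (b (d (a z2 (b z3 z3)) (a z2 (b z3 z3))) (d (a z2 (b z3 z3)) (a z2 (b z3 z3)))))) (d (a z2 (b (d (a z2 (b z2 z2)) (a z2 (b z3 z3))) (d z3 (a z2 (b z2 z2))))) (a z2 (b (d (a z2 (b z3 z3)) (a z2 (b z3 z3))) (d (a z2 (b z3 z3)) (a z2 (b z3 z3)))))))) (a z4 (b (d (a z4 (b (d (a z4 (b z3 z3)) z4) (d (a z4 (b z3 z3)) (a z4 (b z4 z3))))) z4) (d (a z4 (b (d (a z2 (b z3 z3)) (a z4 (b z3 z3))) (d (a z2 (b z3 z3)) (a z2 (b z3 z3))))) (a z4 (b (d (a z4 (b z4 z3)) z4) (d (a z4 (b z3 z3)) (a z4 (b z4 z3))))))))) (d (a z2 (b (d (a z2 (b (d z3 (a z2 (b z2 z2))) z3)) (a z2 (b (d (a z2 (b z3 z3)) (a z2 (b z3 z3))) (d (a z2 (b z2 z2)) (a z2 (b z3 z3)))))) (d (a z2 (b z3 z3)) (a z2 (b (d (a z2 (b z2 z2)) (a z2 (b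 z3 z3))) (d z3 (a z2 (b z2 z2)))))))) (a z4 (b (d (a z2 (b (d (a z2 (b z3 z3)) (a z2 (b z3 z3))) (d (a z2 (b z3 z3)) (a z2 (b z3 z3))))) (a z4 (b (d (a z2 (b z3 z3)) (a z4 (b z3 z3))) (d (a z2 (b z3 z3)) (a z2 (b z3 z3)))))) (d (a z2 (b (d (a z2 (b z3 z3)) (a z2 (b z3 z3))) (d (a z2 (b z3 z3)) (a z2 (b z3 z3))))) (a z2 (b (d (a z2 (b z3 z3)) (a z2 (b z3 z3))) (d (a z2 (b z3 z3)) (a z2 (b z3 z3))))))))))) _ _ (by decide +kernel)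

theorem okI197 : CKI ⟨502555, 786432, 161280, 161792⟩ ⟨0, 0, 220160, 221184⟩ :=
  ckI_sound (d (a z2 (b (d (b (d (a z2 (b z3 z3)) (a z2 (b z3 z3))) (d (a z2 (b z3 z3)) (a z2 (b z3 z3)))) (b (d (a z2 (b z3 z3)) (a z2 (b z3 z3))) (d (a z2 (b z3 z3)) (a z2 (b z3 z3))))) (d (a z2 (b (d (b z3 z3) (b z3 z3)) (d (a z2 (b z3 z3)) (a z2 (b z3 z3))))) (a z2 (b (d (b z3 z3) (b z3 z3)) (d (a z2 (b z3 z3)) (a z2 (b z3 z3)))))))) (a z2 (b (d (b (d (a z2 (b z3 z3)) (a z2 (b (d z3 (a z2 (b z2 z2))) z3))) (d (a z2 (b z3 z3)) (a z2 (b z3 z3)))) (b (d (a z2 (b (d (a z2 (b z3 z2)) (a z2 (b z3 z3))) (d (a z2 (b z2 z2)) (a z2 (b z3 z3))))) (a z2 (b (d (a z2 (b z3 z3)) (a z2 (b z3 z3))) (d (a z2 (b z3 z3)) (a z2 (b z3 z3)))))) (d (a z2 (b (d z3 (a z2 (b z2 z2))) (d z3 (a z2 (b z2 z2))))) (a z2 (b (d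 (a z2 (b z3 z3)) (a z2 (b z3 z3))) (d (a z2 (b z3 z3)) (a z2 (b z3 z3)))))))) (d (a z2 (b (d (b z3 z3) (b z3 z3)) (d (a z2 (b z3 z3)) (a z2 (b z3 z3))))) (a z2 (b (d (b z3 z3) (b (d (a z2 (b z2 z2)) (a z2 (b z3 z3))) (d (a z2 (b z2 z2)) (a z2 (b z3 z2))))) (d (a z2 (b z3 z3)) (a z2 (b (d z3 (b z2 z2)) (d z3 (a z2 (b z2 z2)))))))))))) _ _ (by decide +kernel)

theorem okI198 : CKI ⟨491521, 786432, 161792, 162816⟩ ⟨0, 0, 217088, 218112⟩ :=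
  ckI_sound (a z2 (b (d (a z2 (b (d (b (d z3 (a z2 (b z2 z2))) z3) (b (d (a z2 (b z2 z2)) (a z2 (b z2 z2))) (d (a z2 (b z2 z2)) (a z2 (b z2 z2))))) (d (a z2 (b z3 z3)) (a z2 (b (d (b z2 z2) (b z2 z2)) (d (a z2 (b z2 z2)) (a z2 (b z2 z2)))))))) (a z2 (b (d (b (d (a z2 (b z2 z2)) (a z2 (b z2 z2))) (d (a z2 (b z2 z2)) (a z2 (b z2 z2)))) (b (d (a z2 (b z2 z2)) (a z2 (b z2 z2))) (d (a z2 (b z2 z2)) (a z2 (b z2 z2))))) (d (a z2 (b (d (b z2 z2) (b z2 z2)) (d (a z2 (b z2 z2)) (a z2 (b z2 z2))))) (a z2 (b (d (b z2 z2) (b z2 z2)) (d (a z2 (b z2 z2)) (a z2 (b z2 z2))))))))) (d (a z2 (b (d (a z2 (b z3 z3)) (a z2 (b (d z3 (b z2 z2)) (d z3 (a z2 (b z2 z2)))))) (d (a z2 (b z3 z3)) (a z2 (b z3 z3))))) (a z2 (b (d (a z2 (b (d (b z2 z2) (b z2 z2)) (d (a z2 (b z2 z2)) (a z2 (b z2 z2))))) (a z2 (b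 (d (b z2 z2) (b z2 z2)) (d (a z2 (b z2 z2)) (a z2 (b z2 z2)))))) (d (a z2 (b (d (a z2 (b z2 z2)) (a z2 (b z2 z2))) (d (a z2 (b z2 z2)) (a z2 (b z2 z2))))) (a z2 (b (d (a z2 (b z2 z2)) (a z2 (b z2 z2))) (d (a z2 (b z2 z2)) (a z2 (b z2 z2))))))))))) _ _ (by decide +kernel)

theorem okI199 : CKI ⟨491521, 786432, 161792, 162816⟩ ⟨0, 0, 218112, 219136⟩ :=
  ckI_sound (a z2 (b (d (a z2 (b (d (b (d (a z2 (b z2 z2)) (a z2 (b z2 z2))) (d (a z2 (b z2 z2)) (a z2 (b z2 z2)))) (b (d (a z2 (b z2 z2)) (a z2 (b z2 z2))) (d (a z2 (b z2 z2)) (a z2 (b z2 z2))))) (d (a z2 (b (d (b z2 z2) (b z2 z2)) (d (a z2 (b z2 z2)) (a z2 (b z2 z2))))) (a z2 (b (d (b z2 z2) (b z2 z2)) (d (a z2 (b z2 z2)) (a z2 (b z2 z2)))))))) (a z2 (b (d (b (d (a z2 (b z2 z2)) (a z2 (b z2 z2))) (d (a z2 (b z2 z2)) (a z2 (b z2 z2))))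 (b (d (a z2 (b z2 z2)) (a z2 (b z2 z2))) (d (a z2 (b z2 z2)) (a z2 (b z2 z2))))) (d (a z2 (b (d (b z2 z2) (b z2 z2)) (d (a z2 (b z2 z2)) (a z2 (b z2 z2))))) (a z2 (b (d (b z2 z2) (b z2 z2)) (d (a z2 (b z2 z2)) (a z2 (b z2 z2))))))))) (d (a z2 (b (d (a z2 (b (d (b z2 z2) (b z2 z2)) (d (a z2 (b z2 z2)) (a z2 (b z2 z2))))) (a z2 (b (d (b z2 z2) (b z2 z2)) (d (a z2 (b z2 z2)) (a z2 (b z2 z2)))))) (d (a z2 (b (d (a z2 (b z2 z2)) (a z2 (b z2 z2))) (d (a z2 (b z2 z2)) (a z2 (b z2 z2))))) (a z2 (b (d (a z2 (b z2 z2)) (a z2 (b z2 z2))) (d (a z2 (b z2 z2)) (a z2 (b z2 z2)))))))) (a z2 (b (d (a z2 (b (d (b z2 z2) (b z2 z2)) (d (a z2 (b z2 z2)) (a z2 (b z2 z2))))) (a z2 (b (d (b z2 z2) (b z2 z2)) (d (a z2 (b z2 z2)) (a z2 (b z2 z2)))))) (d (a z2 (b (d (a z2 (b z2 z2)) (a z2 (b z2 z2))) (d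 (a z2 (b z2 z2)) (a z2 (b z2 z2))))) (a z2 (b (d (a z2 (b z2 z2)) (a z2 (b z2 z2))) (d (a z2 (b z2 z2)) (a z2 (b z2 z2))))))))))) _ _ (by decide +kernel)

theorem okI200 : CKI ⟨491521, 786432, 162816, 163840⟩ ⟨0, 0, 217088, 219136⟩ :=
  ckI_sound (d (a z2 (b (d (a z2 (b (d (a z2 (b z3 z3)) (a z2 (b z3 z3))) (d (a z2 (b z3 z3)) (a z2 (b z3 z3))))) (a z2 (b (d (a z2 (b (d z3 (b z2 z2)) (d z3 (a z2 (b z2 z2))))) (a z2 (b (d (b z2 z2) (b z2 z2)) (d (a z2 (b z2 z2)) (a z2 (b z2 z2)))))) (d (a z2 (b (d z3 (a z2 (b z2 z2))) z3)) (a z2 (b (d (a z2 (b z2 z2)) (a z2 (b z2 z2))) (d (a z2 (b z2 z2)) (a z2 (b z2 z2))))))))) (d (a z2 (b (d (a z2 (b z3 z3)) (a z2 (b z3 z3))) (d (a z2 (b z3 z3)) (a z2 (b z3 z3))))) (a z2 (b (d (a z2 (b z3 z3)) (a z2 (b (d (a z2 (b z2 z2)) (a z2 (b z2 z2))) (d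 z3 (a z2 (b z2 z2)))))) (d (a z2 (b z3 z3)) (a z2 (b (d z3 (a z2 (b z2 z2))) z3)))))))) (a z2 (b (d (a z2 (b (d (a z2 (b (d (b z2 z2) (b z2 z2)) (d (a z2 (b z2 z2)) (a z2 (b z2 z2))))) (a z2 (b (d (b z2 z2) (b z2 z2)) (d (a z2 (b z2 z2)) (a z2 (b z2 z2)))))) (d (a z2 (b (d (a z2 (b z2 z2)) (a z2 (b z2 z2))) (d (a z2 (b z2 z2)) (a z2 (b z2 z2))))) (a z2 (b (d (a z2 (b z2 z2)) (a z2 (b z2 z2))) (d (a z2 (b z2 z2)) (a z2 (b z2 z2)))))))) (a z2 (b (d (a z2 (b (d (b z2 z2) (b z2 z2)) (d (a z2 (b z2 z2)) (a z2 (b z2 z2))))) (a z2 (b (d (b z2 z2) (b z2 z2)) (d (a z2 (b z2 z2)) (a z2 (b z2 z2)))))) (d (a z2 (b (d (a z2 (b z2 z2)) (a z2 (b z2 z2))) (d (a z2 (b z2 z2)) (a z2 (b z2 z2))))) (a z2 (b (d (a z2 (b z2 z2)) (a z2 (b z2 z2))) (d (a z2 (b z2 z2)) (a z2 (b z2 z2))))))))) (d (a z2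 (b (d (a z2 (b (d (a z2 (b z2 z2)) (a z2 (b z2 z2))) (d (a z2 (b z2 z2)) (a z2 (b z2 z2))))) (a z2 (b (d (a z2 (b z2 z2)) (a z2 (b z2 z2))) (d (a z2 (b z2 z2)) (a z2 (b z2 z2)))))) (d (a z2 (b (d (a z2 (b z2 z2)) (a z2 (b z2 z2))) (d (a z2 (b z2 z2)) (a z2 (b z2 z2))))) (a z2 (b (d (a z2 (b z2 z2)) (a z2 (b z2 z2))) (d (a z2 (b z2 z2)) (a z2 (b z2 z2)))))))) (a z2 (b (d (a z2 (b (d (a z2 (b z2 z2)) (a z2 (b z2 z2))) (d (a z2 (b z2 z2)) (a z2 (b z2 z2))))) (a z2 (b (d (a z2 (b z2 z2)) (a z2 (b z2 z2))) (d (a z2 (b z2 z2)) (a z2 (b z2 z2)))))) (d (a z2 (b (d (a z2 (b z2 z2)) (a z2 (b z2 z2))) (d (a z2 (b z2 z2)) (a z2 (b z2 z2))))) (a z2 (b (d (a z2 (b z2 z2)) (a z2 (b z2 z2))) (d (a z2 (b z2 z2)) (a z2 (b z2 z2)))))))))))) _ _ (by decide +kernel)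

theorem okI201 : CKI ⟨491521, 786432, 161792, 162816⟩ ⟨0, 0, 219136, 220160⟩ :=
  ckI_sound (a z2 (b (d (a z2 (b (d (b (d (a z2 (b z2 z2)) (a z2 (b z2 z2))) (d (a z2 (b z2 z2)) (a z2 (b z2 z2)))) (b (d (a z2 (b z2 z2)) (a z2 (b z3 z3))) (d (a z2 (b z2 z2)) (a z2 (b z3 z3))))) (d (a z2 (b (d (b z2 z2) (b z2 z2)) (d (a z2 (b z2 z2)) (a z2 (b z2 z2))))) (a z2 (b (d (b z2 z2) (b z2 z2)) (d (a z2 (b z2 z2)) (a z2 (b z2 z2)))))))) (a z2 (b (d (b (d (a z2 (b z3 z3)) (a z2 (b z3 z3))) (d (a z2 (b z3 z3)) (a z2 (b z3 z3)))) (b (d (a z2 (b z3 z3)) (a z2 (b z3 z3))) (d (a z2 (b z3 z3)) (a z2 (b z3 z3))))) (d (a z2 (b (d (b z3 z3) (b z3 z3)) (d (a z2 (b z3 z3)) (a z2 (b z3 z3))))) (a z2 (b (d (b z3 z3) (b z3 z3)) (d (a z2 (b z3 z3)) (a z2 (b z3 z3))))))))) (d (a z2 (b (d (a z2 (b (d (b z2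 z2) (b z2 z2)) (d (a z2 (b z2 z2)) (a z2 (b z2 z2))))) (a z2 (b (d (b z2 z2) (b z2 z2)) (d (a z2 (b z2 z2)) (a z2 (b z2 z2)))))) (d (a z2 (b (d (a z2 (b z2 z2)) (a z2 (b z2 z2))) (d (a z2 (b z2 z2)) (a z2 (b z2 z2))))) (a z2 (b (d (a z2 (b z2 z2)) (a z2 (b z2 z2))) (d (a z2 (b z2 z2)) (a z2 (b z2 z2)))))))) (a z2 (b (d (a z2 (b (d (b z2 z2) (b z3 z3)) (d (a z2 (b z2 z2)) (a z2 (b z3 z2))))) (a z2 (b (d (b z3 z3) (b z3 z3)) (d (a z2 (b z3 z3)) (a z2 (b z3 z3)))))) (d (a z2 (b (d (a z2 (b z2 z2)) (a z2 (b z2 z2))) (d (a z2 (b z2 z2)) (a z2 (b z2 z2))))) (a z2 (b (d (a z2 (b z3 z3)) (a z2 (b z3 z3))) (d (a z2 (b z3 z2)) (a z2 (b z3 z3))))))))))) _ _ (by decide +kernel)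

theorem okI202 : CKI ⟨491521, 786432, 161792, 162816⟩ ⟨0, 0, 220160, 221184⟩ :=
  ckI_sound (a z2 (b (d (a z2 (b (d (b (d (a z2 (b z3 z3)) (a z2 (b z3 z3))) (d (a z2 (b z3 z3)) (a z2 (b z3 z3)))) (b (d (a z2 (b z3 z3)) (a z2 (b z3 z3))) (d (a z2 (b z3 z3)) (a z2 (b z3 z3))))) (d (a z2 (b (d (b z3 z3) (b z3 z3)) (d (a z2 (b z3 z3)) (a z2 (b z3 z3))))) (a z2 (b (d (b z3 z3) (b z3 z3)) (d (a z2 (b z3 z3)) (a z2 (b z3 z3)))))))) (a z2 (b (d (b (d (a z2 (b z3 z3)) (a z2 (b z3 z3))) (d (a z2 (b z3 z3)) (a z2 (b z3 z3)))) (b (d (a z2 (b z3 z3)) (a z2 (b z3 z3))) (d (a z2 (b z3 z3)) (a z2 (b z3 z3))))) (d (a z2 (b (d (b z3 z3) (b z3 z3)) (d (a z2 (b z3 z3)) (a z2 (b z3 z3))))) (a z2 (b (d (b z3 z3) (b z3 z3)) (d (a z2 (b z3 z3)) (a z2 (b z3 z3))))))))) (d (a z2 (b (d (a z2 (b (d (b z3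 z3) (b z3 z3)) (d (a z2 (b z3 z3)) (a z2 (b z3 z3))))) (a z2 (b (d (b z3 z3) (b z3 z3)) (d (a z2 (b z3 z3)) (a z2 (b z3 z3)))))) (d (a z2 (b (d (a z2 (b z3 z3)) (a z2 (b z3 z3))) (d (a z2 (b z3 z3)) (a z2 (b z3 z3))))) (a z2 (b (d (a z2 (b z3 z3)) (a z2 (b z3 z3))) (d (a z2 (b z3 z3)) (a z2 (b z3 z3)))))))) (a z2 (b (d (a z2 (b (d (b z3 z3) (b z3 z3)) (d (a z2 (b z3 z3)) (a z2 (b z3 z3))))) (a z2 (b (d (b z3 z3) (b z3 z3)) (d (a z2 (b z3 z3)) (a z2 (b z3 z3)))))) (d (a z2 (b (d (a z2 (b z3 z3)) (a z2 (b z3 z3))) (d (a z2 (b z3 z3)) (a z2 (b z3 z3))))) (a z2 (b (d (a z2 (b z3 z3)) (a z2 (b z3 z3))) (d (a z2 (b z3 z3)) (a z2 (b z3 z3))))))))))) _ _ (by decide +kernel)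

theorem okI203 : CKI ⟨491521, 786432, 162816, 163840⟩ ⟨0, 0, 219136, 220160⟩ :=
  ckI_sound (a z2 (b (d (a z2 (b (d (a z2 (b (d (b z2 z2) (b z2 z2)) (d (a z2 (b z2 z2)) (a z2 (b z2 z2))))) (a z2 (b (d (b z2 z2) (b z2 z2)) (d (a z2 (b z2 z2)) (a z2 (b z2 z2)))))) (d (a z2 (b (d (a z2 (b z2 z2)) (a z2 (b z2 z2))) (d (a z2 (b z2 z2)) (a z2 (b z2 z2))))) (a z2 (b (d (a z2 (b z2 z2)) (a z2 (b z2 z2))) (d (a z2 (b z2 z2)) (a z2 (b z2 z2)))))))) (a z2 (b (d (a z2 (b (d (b z2 z2) (b z2 z2)) (d (a z2 (b z2 z2)) (a z2 (b z2 z2))))) (a z2 (b (d (b z2 z2) (b z3 z3)) (d (a z2 (b z2 z2)) (a z2 (b z2 z2)))))) (d (a z2 (b (d (a z2 (b z2 z2)) (a z2 (b z2 z2))) (d (a z2 (b z2 z2)) (a z2 (b z2 z2))))) (a z2 (b (d (a z2 (b z2 z2)) (a z2 (b z2 z2))) (d (a z2 (b z2 z2)) (a z2 (b z2 z2))))))))) (d (a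 z2 (b (d (a z2 (b (d (a z2 (b z2 z2)) (a z2 (b z2 z2))) (d (a z2 (b z2 z2)) (a z2 (b z2 z2))))) (a z2 (b (d (a z2 (b z2 z2)) (a z2 (b z2 z2))) (d (a z2 (b z2 z2)) (a z2 (b z2 z2)))))) (d (a z2 (b (d (a z2 (b z2 z2)) (a z2 (b z2 z2))) (d (a z2 (b z2 z2)) (a z2 (b z2 z2))))) (a z2 (b (d (a z2 (b z2 z2)) (a z2 (b z2 z2))) (d (a z2 (b z2 z2)) (a z2 (b z2 z2)))))))) (a z2 (b (d (a z2 (b (d (a z2 (b z2 z2)) (a z2 (b z2 z2))) (d (a z2 (b z2 z2)) (a z2 (b z2 z2))))) (a z2 (b (d (a z2 (b z2 z2)) (a z2 (b z2 z2))) (d (a z2 (b z2 z2)) (a z2 (b z2 z2)))))) (d (a z2 (b (d (a z2 (b z2 z2)) (a z2 (b z2 z2))) (d (a z2 (b z2 z2)) (a z2 (b z2 z2))))) (a z2 (b (d (a z2 (b z2 z2)) (a z2 (b z2 z2))) (d (a z2 (b z2 z2)) (a z2 (b z2 z2))))))))))) _ _ (by decide +kernel)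

theorem okI204 : CKI ⟨491521, 786432, 162816, 163840⟩ ⟨0, 0, 220160, 221184⟩ :=
  ckI_sound (a z2 (b (d (a z2 (b (d (a z2 (b (d (b z3 z3) (b z3 z3)) (d (a z2 (b z3 z3)) (a z2 (b z3 z3))))) (a z2 (b (d (b z3 z3) (b z3 z3)) (d (a z2 (b z3 z3)) (a z2 (b z3 z3)))))) (d (a z2 (b (d (a z2 (b z3 z3)) (a z2 (b z3 z3))) (d (a z2 (b z2 z2)) (a z2 (b z3 z3))))) (a z2 (b (d (a z2 (b z3 z3)) (a z2 (b z3 z3))) (d (a z2 (b z3 z3)) (a z2 (b z3 z3)))))))) (a z2 (b (d (a z2 (b (d (b z3 z3) (b z3 z3)) (d (a z2 (b z3 z3)) (a z2 (b z3 z3))))) (a z2 (b (d (b z3 z3) (b z3 z3)) (d (a z2 (b z3 z3)) (a z2 (b z3 z3)))))) (d (a z2 (b (d (a z2 (b z3 z3)) (a z2 (b z3 z3))) (d (a z2 (b z3 z3)) (a z2 (b z3 z3))))) (a z2 (b (d (a z2 (b z3 z3)) (a z2 (b z3 z3))) (d (a z2 (b z3 z3)) (a z2 (b z3 z3))))))))) (d (a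 z2 (b (d (a z2 (b (d (a z2 (b z2 z2)) (a z2 (b z3 z2))) (d (a z2 (b z2 z2)) (a z2 (b z2 z2))))) (a z2 (b (d (a z2 (b z3 z3)) (a z2 (b z3 z3))) (d (a z2 (b z3 z3)) (a z2 (b z3 z3)))))) (d (a z2 (b (d (a z2 (b z2 z2)) (a z2 (b z2 z2))) (d (a z2 (b z2 z2)) (a z2 (b z2 z2))))) (a z2 (b (d (a z2 (b z3 z2)) (a z2 (b z3 z3))) (d (a z2 (b z2 z2)) (a z2 (b z3 z3)))))))) (a z2 (b (d (a z2 (b (d (a z2 (b z3 z3)) (a z2 (b z3 z3))) (d (a z2 (b z3 z3)) (a z2 (b z3 z3))))) (a z2 (b (d (a z2 (b z3 z3)) (a z2 (b z3 z3))) (d (a z2 (b z3 z3)) (a z2 (b z3 z3)))))) (d (a z2 (b (d (a z2 (b z3 z3)) (a z2 (b z3 z3))) (d (a z2 (b z3 z3)) (a z2 (b z3 z3))))) (a z2 (b (d (a z2 (b z3 z3)) (a z2 (b z3 z3))) (d (a z2 (b z3 z3)) (a z2 (b z3 z3))))))))))) _ _ (by decide +kernel)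

theorem okI205 : CKI ⟨393216, 458753, 155648, 163840⟩ ⟨0, 0, 221184, 229376⟩ :=
  ckI_sound z0 _ _ (by decide +kernel)

theorem okI206 : CKI ⟨458753, 786432, 155648, 159744⟩ ⟨0, 0, 221184, 229376⟩ :=
  ckI_sound z4 _ _ (by decide +kernel)

theorem okI207 : CKI ⟨458753, 491521, 159744, 163840⟩ ⟨0, 0, 221184, 225280⟩ :=
  ckI_sound z0 _ _ (by decide +kernel)

theorem okI208 : CKI ⟨491521, 786432, 159744, 161792⟩ ⟨0, 0, 221184, 225280⟩ :=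
  ckI_sound (d (b z4 (d (a z4 (b (d (b z4 (d (a z4 (b (d (a z4 (b (d (a z4 (b z4 z3)) z4) (d (a z4 (b z3 z3)) (a z4 (b z4 z3))))) z4) (d (a z4 (b (d (a z2 (b z3 z3)) (a z4 (b z3 z3))) (d (a z2 (b z3 z3)) (a z4 (b z3 z3))))) (a z4 (b (d (a z4 (b z4 z3)) z4) (d (a z4 (b z3 z3)) z4)))))) z4)) z4) (d (a z4 (b (d (b (d (a z2 (b (d (a z2 (b z3 z3)) (a z2 (b z3 z3))) (d (a z2 (b z3 z3)) (a z2 (b z3 z3))))) (a z4 (b (d (a z2 (b z3 z3)) (a z4 (b z3 z3))) (d (a z2 (b z3 z3)) (a z2 (b z3 z3)))))) (d (a z2 (b (d (a z2 (b z3 z3)) (a z2 (b z3 z3))) (d (a z2 (b z3 z3)) (a z2 (b z3 z3))))) (a z2 (b (d (a z2 (b z3 z3)) (a z2 (b z3 z3))) (d (a z2 (b z3 z3)) (a z2 (b z3 z3))))))) (b (d (a z4 (b z4 (d (a z4 (b z3 z3)) z4))) z4) (d (a z4 (b (d (a z4 (b z3 z3)) (a z4 (b z3 z3))) (d (a z2 (b z3 z3))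 (a z4 (b z3 z3))))) (a z4 (b z4 (d (a z4 (b z3 z3)) z4)))))) (d (a z2 (b (d (b (d (a z2 (b z3 z3)) (a z2 (b z3 z3))) (d (a z2 (b z3 z3)) (a z2 (b z3 z3)))) (b (d (a z2 (b z3 z3)) (a z2 (b z3 z3))) (d (a z2 (b z3 z3)) (a z2 (b z3 z3))))) (d (a z2 (b (d (b z3 z3) (b z3 z3)) (d (a z2 (b z2 z2)) (a z2 (b z3 z3))))) (a z2 (b (d (b z3 z3) (b z3 z3)) (d (a z2 (b z3 z3)) (a z2 (b z3 z3)))))))) (a z2 (b (d (b (d (a z2 (b z3 z3)) (a z2 (b z3 z3))) (d (a z2 (b z3 z3)) (a z2 (b z3 z3)))) (b (d (a z4 (b z3 z3)) (a z4 (b z3 z3))) (d (a z2 (b z3 z3)) (a z4 (b z3 z3))))) (d (a z2 (b (d (b z3 z3) (b z3 z3)) (d (a z2 (b z3 z3)) (a z2 (b z3 z3))))) (a z2 (b (d (b z3 z3) (b z3 z3)) (d (a z2 (b z3 z3)) (a z2 (b z3 z3))))))))))) (a z4 (b z4 (d (a z4 (b (d (b z4 (d (a z4 (b z4 z3)) z4)) z4) (d (a z4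 (b (d (b z3 z3) (b z4 z3)) (d (a z2 (b z3 z3)) (a z4 (b z3 z3))))) (a z4 (b z4 (d (a z4 (b z4 z3)) z4)))))) z4)))))) z4)) z4) _ _ (by decide +kernel)

theorem okI209 : CKI ⟨491521, 505202, 161792, 162816⟩ ⟨0, 0, 221184, 222208⟩ :=
  ckI_sound z4 _ _ (by decide +kernel)

end Vale.Agent.Lib.P154Q5
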