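import Vale.Agent.Lib.P154Q5.FormI

namespace Vale.Agent.Lib.P154Q5

set_option maxRecDepth 100000
set_option exponentiation.threshold 1000

open Tr

theorem okI210 : CKI ⟨505202, 786432, 161792, 162304⟩ ⟨0, 0, 221184, 221696⟩ :=
  ckI_sound (a z2 (b (d (b (d (a z2 (b (d (a z2 (b z2 z2)) (a z2 (b z3 z2))) (d z3 (a z2 (b z2 z2))))) (a z2 (b (d (a z2 (b z3 z3)) (a z2 (b z3 z3))) (d (a z2 (b z3 z3)) (a z2 (b z3 z3)))))) (d (a z2 (b (d z3 (a z2 (b z2 z2))) z3)) (a z2 (b (d (a z2 (b z3 z2)) (a z2 (b z3 z3))) (d (a z2 (b z2 z2)) (a z2 (b z3 z3))))))) (b (d (a z2 (b (d (a z2 (b z3 z3)) (a z2 (b z3 z3))) (d (a z2 (b z3 z3)) (a z2 (b z3 z3))))) (a z2 (b (d (a z2 (b z3 z3)) (a z2 (b z3 z3))) (d (a z2 (b z3 z3)) (a z2 (b z3 z3)))))) (d (a z2 (b (d (a z2 (b z3 z3)) (a z2 (b z3 z3))) (d (a z2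 (b z3 z3)) (a z2 (b z3 z3))))) (a z2 (b (d (a z2 (b z3 z3)) (a z2 (b z3 z3))) (d (a z2 (b z3 z3)) (a z2 (b z3 z3)))))))) (d (a z2 (b (d (b z3 z3) (b (d (a z2 (b z2 z2)) (a z2 (b z2 z2))) (d z3 (a z2 (b z2 z2))))) (d (a z2 (b z3 z3)) (a z2 (b z3 z3))))) (a z2 (b (d (b (d (a z2 (b z3 z3)) (a z2 (b z3 z3))) (d (a z2 (b z3 z2)) (a z2 (b z3 z3)))) (b (d (a z2 (b z3 z3)) (a z2 (b z3 z3))) (d (a z2 (b z3 z3)) (a z2 (b z3 z3))))) (d (a z2 (b (d (b z2 z2) (b z3 z3)) (d (a z2 (b z2 z2)) (a z2 (b z2 z2))))) (a z2 (b (d (b z3 z3) (b z3 z3)) (d (a z2 (b z3 z3)) (a z2 (b z3 z3))))))))))) _ _ (by decide +kernel)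

theorem okI211 : CKI ⟨505202, 786432, 161792, 162304⟩ ⟨0, 0, 221696, 222208⟩ :=
  ckI_sound (a z4 (b (d (b (d (a z2 (b (d (a z2 (b z3 z3)) (a z2 (b z3 z3))) (d (a z2 (b z3 z3)) (a z2 (b z3 z3))))) (a z4 (b (d (a z4 (b z3 z3)) (a z4 (b z4 z3))) (d (a z2 (b z3 z3)) (a z4 (b z3 z3)))))) (d (a z2 (b (d (a z2 (b z3 z3)) (a z2 (b z3 z3))) (d (a z2 (b z3 z3)) (a z2 (b z3 z3))))) (a z4 (b (d (a z2 (b z3 z3)) (a z2 (b z3 z3))) (d (a z2 (b z3 z3)) (a z2 (b z3 z3))))))) (b (d (a z4 (b z4 (d (a z4 (b z4 z3)) z4))) z4) (d (a z4 (b (d (a z4 (b z3 z3)) (a z4 (b z4 z3))) (d (a z4 (b z3 z3)) (a z4 (b z3 z3))))) z4))) (d (a z2 (b (d (b (d (a z2 (b z3 z3)) (a z2 (b z3 z3))) (d (a z2 (b z3 z3)) (a z2 (b z3 z3)))) (b (d (a z2 (b z3 z3)) (a z2 (b z3 z3))) (d (a z2 (b z3 z3)) (a z2 (b z3 z3))))) (d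 (a z2 (b (d (b z3 z3) (b z3 z3)) (d (a z2 (b z3 z3)) (a z2 (b z3 z3))))) (a z2 (b (d (b z3 z3) (b z3 z3)) (d (a z2 (b z3 z3)) (a z2 (b z3 z3)))))))) (a z2 (b (d (b (d (a z2 (b z3 z3)) (a z2 (b z3 z3))) (d (a z2 (b z3 z3)) (a z2 (b z3 z3)))) (b (d (a z4 (b z3 z3)) z4) (d (a z4 (b z3 z3)) (a z4 (b z3 z3))))) (d (a z2 (b (d (b z3 z3) (b z3 z3)) (d (a z2 (b z3 z3)) (a z2 (b z3 z3))))) (a z2 (b (d (b z3 z3) (b z3 z3)) (d (a z2 (b z3 z3)) (a z2 (b z3 z3))))))))))) _ _ (by decide +kernel)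

theorem okI212 : CKI ⟨505202, 786432, 162304, 162816⟩ ⟨0, 0, 221184, 222208⟩ :=
  ckI_sound (d (a z2 (b (d (a z2 (b (d (b z3 z3) (b z3 z3)) (d (a z2 (b z3 z3)) (a z2 (b z3 z3))))) (a z2 (b (d (b (d z3 (a z2 (b z2 z2))) z3) (b (d (a z2 (b z3 z3)) (a z2 (b z3 z3))) (d (a z2 (b z2 z2)) (a z2 (b z3 z3))))) (d (a z2 (b z3 z3)) (a z2 (b (d (b z2 z2) (b z3 z2)) (d z3 (a z2 (b z2 z2))))))))) (d (a z2 (b (d (a z2 (b z3 z3)) (a z2 (b z3 z3))) (d (a z2 (b z3 z3)) (a z2 (b z3 z3))))) (a z2 (b (d (a z2 (b z3 z3)) (a z2 (b (d z3 (b z2 z2)) z3))) (d (a z2 (b z3 z3)) (a z2 (b z3 z3)))))))) (a z2 (b (d (a z2 (b (d (b (d (a z2 (b z3 z3)) (a z2 (b z3 z3))) (d (a z2 (b z3 z3)) (a z2 (b z3 z3)))) (b (d (a z2 (b z3 z3)) (a z2 (b z3 z3))) (d (a z2 (b z3 z3)) (a z2 (b z3 z3))))) (d (a z2 (b (d (b z3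 z3) (b z3 z3)) (d (a z2 (b z3 z3)) (a z2 (b z3 z3))))) (a z2 (b (d (b z3 z3) (b z3 z3)) (d (a z2 (b z3 z3)) (a z2 (b z3 z3)))))))) (a z2 (b (d (b (d (a z2 (b z3 z3)) (a z2 (b z3 z3))) (d (a z2 (b z3 z3)) (a z2 (b z3 z3)))) (b (d (a z2 (b z3 z3)) (a z2 (b z3 z3))) (d (a z2 (b z3 z3)) (a z2 (b z3 z3))))) (d (a z2 (b (d (b z3 z3) (b z3 z3)) (d (a z2 (b z3 z3)) (a z2 (b z3 z3))))) (a z2 (b (d (b z3 z3) (b z3 z3)) (d (a z2 (b z3 z3)) (a z2 (b z3 z3))))))))) (d (a z2 (b (d (a z2 (b (d (b z2 z2) (b z3 z3)) (d (a z2 (b z2 z2)) (a z2 (b z3 z2))))) (a z2 (b (d (b z3 z3) (b z3 z3)) (d (a z2 (b z3 z3)) (a z2 (b z3 z3)))))) (d (a z2 (b (d z3 (a z2 (b z2 z2))) (d z3 (a z2 (b z2 z2))))) (a z2 (b (d (a z2 (b z3 z3)) (a z2 (b z3 z3))) (d (a z2 (b z2 z2)) (a z2 (b z3 z3)))))))) (a z2 (b (d (a z2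 (b (d (b z3 z3) (b z3 z3)) (d (a z2 (b z3 z3)) (a z2 (b z3 z3))))) (a z2 (b (d (b z3 z3) (b z3 z3)) (d (a z2 (b z3 z3)) (a z2 (b z3 z3)))))) (d (a z2 (b (d (a z2 (b z3 z3)) (a z2 (b z3 z3))) (d (a z2 (b z3 z3)) (a z2 (b z3 z3))))) (a z2 (b (d (a z2 (b z3 z3)) (a z2 (b z3 z3))) (d (a z2 (b z3 z3)) (a z2 (b z3 z3)))))))))))) _ _ (by decide +kernel)

theorem okI213 : CKI ⟨491521, 786432, 161792, 162816⟩ ⟨0, 0, 222208, 223232⟩ :=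
  ckI_sound (a z4 (b (d (a z4 (b z4 (d (a z4 (b z4 (d (a z4 (b (d (b z3 z3) z4) (d (a z2 (b z3 z3)) (a z4 (b z3 z3))))) z4))) z4))) z4) (d (a z4 (b (d (a z2 (b (d (b (d (a z2 (b z3 z3)) (a z4 (b z3 z3))) (d (a z2 (b z3 z3)) (a z2 (b z3 z3)))) (b (d (a z4 (b z3 z3)) z4) (d (a z4 (b z3 z3)) (a z4 (b z3 z3))))) (d (a z2 (b (d (b z3 z3) (b z3 z3)) (d (a z2 (b z3 z3)) (a z2 (b z3 z3))))) (a z2 (b (d (b z3 z3) (b z3 z3)) (d (a z2 (b z3 z3)) (a z2 (b z3 z3)))))))) (a z4 (b z4 (d (a z4 (b (d (b z3 z3) z4) (d (a z2 (b z3 z3)) (a z4 (b z4 z3))))) z4)))) (d (a z2 (b (d (a z2 (b (d (b z3 z3) (b z3 z3)) (d (a z2 (b z3 z3)) (a z2 (b z3 z3))))) (a z2 (b (d (b z3 z3) (b z3 z3)) (d (a z2 (b z3 z3)) (a z2 (b z3 z3)))))) (d (a z2 (b (d (a z2 (b z3 z3)) (a z2 (b z3 z3))) (d (a z2 (b z3 z3)) (a z2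 (b z3 z3))))) (a z2 (b (d (a z2 (b z3 z3)) (a z2 (b z3 z3))) (d (a z2 (b z3 z3)) (a z2 (b z3 z3)))))))) (a z4 (b (d (a z2 (b (d (b z3 z3) (b z3 z3)) (d (a z2 (b z3 z3)) (a z2 (b z3 z3))))) (a z4 (b (d (b z4 z3) z4) (d (a z4 (b z3 z3)) (a z4 (b z4 z3)))))) (d (a z2 (b (d (a z2 (b z3 z3)) (a z2 (b z3 z3))) (d (a z2 (b z3 z3)) (a z2 (b z3 z3))))) (a z4 (b (d (a z2 (b z3 z3)) (a z4 (b z3 z3))) (d (a z2 (b z3 z3)) (a z2 (b z3 z3))))))))))) (a z4 (b z4 (d (a z4 (b z4 (d (a z4 (b (d (a z4 (b z4 z3)) z4) (d (a z4 (b z3 z3)) (a z4 (b z4 z3))))) z4))) z4)))))) _ _ (by decide +kernel)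

theorem okI214 : CKI ⟨491521, 786432, 162816, 163840⟩ ⟨0, 0, 221184, 222208⟩ :=
  ckI_sound (a z2 (b (d (a z2 (b (d (a z2 (b (d (b z3 z3) (b z3 z3)) (d (a z2 (b z3 z3)) (a z2 (b z3 z3))))) (a z2 (b (d (b z3 z3) (b z3 z3)) (d (a z2 (b z3 z3)) (a z2 (b z3 z3)))))) (d (a z2 (b (d (a z2 (b z3 z3)) (a z2 (b z3 z3))) (d (a z2 (b z3 z3)) (a z2 (b z3 z3))))) (a z2 (b (d (a z2 (b z3 z3)) (a z2 (b z3 z3))) (d (a z2 (b z3 z3)) (a z2 (b z3 z3)))))))) (a z2 (b (d (a z2 (b (d (b z3 z3) (b (d (a z2 (b z2 z2)) (a z2 (b z3 z2))) (d z3 (a z2 (b z2 z2))))) (d (a z2 (b z3 z3)) (a z2 (b (d z3 (b z2 z2)) z3))))) (a z2 (b (d (b (d (a z2 (b z3 z3)) (a z2 (b z3 z3))) (d (a z2 (b z3 z3)) (a z2 (b z3 z3)))) (b (d (a z2 (b z3 z3)) (a z2 (b z3 z3))) (d (a z2 (b z3 z3)) (a z2 (b z3 z3))))) (d (a z2 (b (d (b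 z2 z2) (b z3 z3)) (d (a z2 (b z2 z2)) (a z2 (b z3 z2))))) (a z2 (b (d (b z3 z3) (b z3 z3)) (d (a z2 (b z3 z3)) (a z2 (b z3 z3))))))))) (d (a z2 (b (d (a z2 (b z3 z3)) (a z2 (b z3 z3))) (d (a z2 (b z3 z3)) (a z2 (b z3 z3))))) (a z2 (b (d (a z2 (b (d (b z2 z2) (b z2 z2)) (d z3 (a z2 (b z2 z2))))) (a z2 (b (d (b z3 z3) (b z3 z3)) (d (a z2 (b z2 z2)) (a z2 (b z3 z3)))))) (d (a z2 (b z3 z3)) (a z2 (b (d (a z2 (b z2 z2)) (a z2 (b z3 z2))) (d z3 (a z2 (b z2 z2)))))))))))) (d (a z2 (b (d (a z2 (b (d (a z2 (b z3 z3)) (a z2 (b z3 z3))) (d (a z2 (b z3 z3)) (a z2 (b z3 z3))))) (a z2 (b (d (a z2 (b z3 z3)) (a z2 (b z3 z3))) (d (a z2 (b z3 z3)) (a z2 (b z3 z3)))))) (d (a z2 (b (d (a z2 (b z3 z3)) (a z2 (b z3 z3))) (d (a z2 (b z3 z3)) (a z2 (b z3 z3))))) (a z2 (b (d (a z2 (b z3 z3)) (a z2 (b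 z3 z3))) (d (a z2 (b z3 z3)) (a z2 (b z3 z3)))))))) (a z2 (b (d (a z2 (b (d (a z2 (b z3 z3)) (a z2 (b z3 z3))) (d (a z2 (b z3 z3)) (a z2 (b z3 z3))))) (a z2 (b (d (a z2 (b z3 z3)) (a z2 (b (d z3 (b z2 z2)) z3))) (d (a z2 (b z3 z3)) (a z2 (b z3 z3)))))) (d (a z2 (b (d (a z2 (b z3 z3)) (a z2 (b z3 z3))) (d (a z2 (b z3 z3)) (a z2 (b z3 z3))))) (a z2 (b (d (a z2 (b z3 z3)) (a z2 (b z3 z3))) (d (a z2 (b z3 z3)) (a z2 (b z3 z3))))))))))) _ _ (by decide +kernel)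

theorem okI215 : CKI ⟨491521, 507905, 162816, 163840⟩ ⟨0, 0, 222208, 223232⟩ :=
  ckI_sound z4 _ _ (by decide +kernel)

theorem okI216 : CKI ⟨507905, 786432, 162816, 163328⟩ ⟨0, 0, 222208, 222720⟩ :=
  ckI_sound (a z2 (b (d (a z2 (b (d (b (d (a z2 (b z3 z3)) (a z2 (b z3 z3))) (d (a z2 (b z3 z3)) (a z2 (b z3 z3)))) (b (d (a z2 (b z3 z3)) (a z2 (b z3 z3))) (d (a z2 (b z3 z3)) (a z2 (b z3 z3))))) (d (a z2 (b (d (b z3 z3) (b z3 z3)) (d (a z2 (b z3 z3)) (a z2 (b z3 z3))))) (a z2 (b (d (b z3 z3) (b z3 z3)) (d (a z2 (b z3 z3)) (a z2 (b z3 z3)))))))) (a z2 (b (d (b (d (a z2 (b z3 z3)) (a z2 (b z3 z3))) (d (a z2 (b z3 z3)) (a z2 (b z3 z3)))) (b (d (a z2 (b z3 z3)) (a z2 (b z3 z3))) (d (a z2 (b z3 z3)) (a z2 (b z3 z3))))) (d (a z2 (b (d (b z3 z3) (b z3 z3)) (d (a z2 (b z3 z3)) (a z2 (b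 z3 z3))))) (a z2 (b (d (b z3 z3) (b z3 z3)) (d (a z2 (b z3 z3)) (a z2 (b z3 z3))))))))) (d (a z2 (b (d (a z2 (b (d (b z3 z3) (b z3 z3)) (d (a z2 (b z3 z3)) (a z2 (b z3 z3))))) (a z2 (b (d (b z3 z3) (b z3 z3)) (d (a z2 (b z3 z3)) (a z2 (b z3 z3)))))) (d (a z2 (b (d (a z2 (b z3 z3)) (a z2 (b z3 z3))) (d (a z2 (b z3 z3)) (a z2 (b z3 z3))))) (a z2 (b (d (a z2 (b z3 z3)) (a z2 (b z3 z3))) (d (a z2 (b z3 z3)) (a z2 (b z3 z3)))))))) (a z2 (b (d (a z2 (b (d (b z3 z3) (b z3 z3)) (d (a z2 (b z3 z3)) (a z2 (b z3 z3))))) (a z2 (b (d (b z3 z3) (b z3 z3)) (d (a z2 (b z3 z3)) (a z2 (b z3 z3)))))) (d (a z2 (b (d (a z2 (b z3 z3)) (a z2 (b z3 z3))) (d (a z2 (b z3 z3)) (a z2 (b z3 z3))))) (a z2 (b (d (a z2 (b z3 z3)) (a z2 (b z3 z3))) (d (a z2 (b z3 z3)) (a z2 (b z3 z3))))))))))) _ _ (by decide +kernel)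

theorem okI217 : CKI ⟨507905, 786432, 162816, 163328⟩ ⟨0, 0, 222720, 223232⟩ :=
  ckI_sound (a z4 (b (d (a z4 (b (d (b (d (a z2 (b z3 z3)) (a z4 (b z3 z3))) (d (a z2 (b z3 z3)) (a z4 (b z3 z3)))) (b (d (a z4 (b z4 z3)) z4) (d (a z4 (b z3 z3)) (a z4 (b z4 z3))))) (d (a z2 (b (d (b z3 z3) (b z3 z3)) (d (a z2 (b z3 z3)) (a z2 (b z3 z3))))) (a z2 (b (d (b z3 z3) (b z3 z3)) (d (a z2 (b z3 z3)) (a z2 (b z3 z3)))))))) (a z4 (b z4 (d (a z4 (b z4 (d (a z4 (b z3 z3)) z4))) z4)))) (d (a z2 (b (d (a z2 (b (d (b z3 z3) (b z3 z3)) (d (a z2 (b z3 z3)) (a z2 (b z3 z3))))) (a z2 (b (d (b z3 z3) (b z3 z3)) (d (a z2 (b z3 z3)) (a z2 (b z3 z3)))))) (d (a z2 (b (d (a z2 (b z3 z3)) (a z2 (b z3 z3))) (d (a z2 (b z3 z3)) (a z2 (b z3 z3))))) (a z2 (b (d (a z2 (b z3 z3)) (a z2 (b z3 z3))) (d (a z2 (b z3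 z3)) (a z2 (b z3 z3)))))))) (a z4 (b (d (a z2 (b (d (b z3 z3) (b z3 z3)) (d (a z2 (b z3 z3)) (a z2 (b z3 z3))))) (a z4 (b z4 (d (a z4 (b z3 z3)) z4)))) (d (a z2 (b (d (a z2 (b z3 z3)) (a z2 (b z3 z3))) (d (a z2 (b z3 z3)) (a z2 (b z3 z3))))) (a z4 (b (d (a z2 (b z3 z3)) (a z4 (b z3 z3))) (d (a z2 (b z3 z3)) (a z4 (b z3 z3))))))))))) _ _ (by decide +kernel)

theorem okI218 : CKI ⟨507905, 786432, 163328, 163840⟩ ⟨0, 0, 222208, 222720⟩ :=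
  ckI_sound (a z2 (b (d (a z2 (b (d (a z2 (b (d (b z2 z2) (b z3 z3)) (d (a z2 (b z2 z2)) (a z2 (b z3 z2))))) (a z2 (b (d (b z3 z3) (b z3 z3)) (d (a z2 (b z3 z3)) (a z2 (b z3 z3)))))) (d (a z2 (b (d z3 (a z2 (b z2 z2))) (d z3 (a z2 (b z2 z2))))) (a z2 (b (d (a z2 (b z3 z2)) (a z2 (b z3 z3))) (d (a z2 (b z2 z2)) (a z2 (b z3 z3)))))))) (a z2 (b (d (a z2 (b (d (b z3 z3) (b z3 z3)) (d (a z2 (b z3 z3)) (a z2 (b z3 z3))))) (a z2 (b (d (b z3 z3) (b z3 z3)) (d (a z2 (b z3 z3)) (a z2 (b z3 z3)))))) (d (a z2 (b (d (a z2 (b z3 z3)) (a z2 (b z3 z3))) (d (a z2 (b z3 z3)) (a z2 (b z3 z3))))) (a z2 (b (d (a z2 (b z3 z3)) (a z2 (b z3 z3))) (d (a z2 (b z3 z3)) (a z2 (b z3 z3))))))))) (d (a z2 (b (d (a z2 (b z3 z3)) (a z2 (b (d (a z2 (b z2 z2)) (a z2 (b z3 z2))) (d z3 (a z2 (b z2 z2)))))) (d (a z2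 (b z3 z3)) (a z2 (b (d z3 (a z2 (b z2 z2))) z3))))) (a z2 (b (d (a z2 (b (d (a z2 (b z3 z3)) (a z2 (b z3 z3))) (d (a z2 (b z3 z2)) (a z2 (b z3 z3))))) (a z2 (b (d (a z2 (b z3 z3)) (a z2 (b z3 z3))) (d (a z2 (b z3 z3)) (a z2 (b z3 z3)))))) (d (a z2 (b (d (a z2 (b z2 z2)) (a z2 (b z3 z3))) (d (a z2 (b z2 z2)) (a z2 (b z2 z2))))) (a z2 (b (d (a z2 (b z3 z3)) (a z2 (b z3 z3))) (d (a z2 (b z3 z3)) (a z2 (b z3 z3))))))))))) _ _ (by decide +kernel)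

theorem okI219 : CKI ⟨507905, 786432, 163328, 163840⟩ ⟨0, 0, 222720, 223232⟩ :=
  ckI_sound (a z2 (b (d (a z2 (b (d (a z2 (b (d (b z3 z3) (b z3 z3)) (d (a z2 (b z3 z3)) (a z2 (b z3 z3))))) (a z2 (b (d (b z3 z3) (b z3 z3)) (d (a z2 (b z3 z3)) (a z2 (b z3 z3)))))) (d (a z2 (b (d (a z2 (b z3 z3)) (a z2 (b z3 z3))) (d (a z2 (b z3 z3)) (a z2 (b z3 z3))))) (a z2 (b (d (a z2 (b z3 z3)) (a z2 (b z3 z3))) (d (a z2 (b z3 z3)) (a z2 (b z3 z3)))))))) (a z2 (b (d (a z2 (b (d (b z3 z3) (b z3 z3)) (d (a z2 (b z3 z3)) (a z2 (b z3 z3))))) (a z2 (b (d (b z3 z3) (b z3 z3)) (d (a z2 (b z3 z3)) (a z2 (b z3 z3)))))) (d (a z2 (b (d (a z2 (b z3 z3)) (a z2 (b z3 z3))) (d (a z2 (b z3 z3)) (a z2 (b z3 z3))))) (a z2 (b (d (a z2 (b z3 z3)) (a z2 (b z3 z3))) (d (a z2 (b z3 z3)) (a z2 (b z3 z3))))))))) (d (a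 z2 (b (d (a z2 (b (d (a z2 (b z3 z3)) (a z2 (b z3 z3))) (d (a z2 (b z3 z3)) (a z2 (b z3 z3))))) (a z2 (b (d (a z2 (b z3 z3)) (a z2 (b z3 z3))) (d (a z2 (b z3 z3)) (a z2 (b z3 z3)))))) (d (a z2 (b (d (a z2 (b z3 z3)) (a z2 (b z3 z3))) (d (a z2 (b z3 z3)) (a z2 (b z3 z3))))) (a z2 (b (d (a z2 (b z3 z3)) (a z2 (b z3 z3))) (d (a z2 (b z3 z3)) (a z2 (b z3 z3)))))))) (a z2 (b (d (a z2 (b (d (a z2 (b z3 z3)) (a z2 (b z3 z3))) (d (a z2 (b z3 z3)) (a z2 (b z3 z3))))) (a z2 (b (d (a z2 (b z3 z3)) (a z2 (b z3 z3))) (d (a z2 (b z3 z3)) (a z2 (b z3 z3)))))) (d (a z2 (b (d (a z2 (b z3 z3)) (a z2 (b z3 z3))) (d (a z2 (b z3 z3)) (a z2 (b z3 z3))))) (a z2 (b (d (a z2 (b z3 z3)) (a z2 (b z3 z3))) (d (a z2 (b z3 z3)) (a z2 (b z3 z3))))))))))) _ _ (by decide +kernel)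

theorem okI220 : CKI ⟨491521, 786432, 161792, 163840⟩ ⟨0, 0, 223232, 225280⟩ :=
  ckI_sound (b z4 (d (a z4 (b (d (a z4 (b z4 (d (a z4 (b z4 (d (a z4 (b z4 (d (a z4 (b z3 z3)) z4))) z4))) z4))) z4) (d (a z4 (b (d (a z4 (b (d (a z4 (b (d (b z3 z3) (b z3 z3)) (d (a z2 (b z3 z3)) (a z2 (b z3 z3))))) (a z4 (b z4 (d (a z4 (b z3 z3)) z4)))) (d (a z2 (b (d (a z2 (b z3 z3)) (a z2 (b z3 z3))) (d (a z2 (b z3 z3)) (a z2 (b z3 z3))))) (a z4 (b (d (a z2 (b z3 z3)) (a z4 (b z4 z3))) (d (a z2 (b z3 z3)) (a z4 (b z3 z3)))))))) (a z4 (b z4 (d (a z4 (b z4 (d (a z4 (b z4 z3)) z4))) z4)))) (d (a z2 (b (d (a z2 (b (d (a z2 (b z3 z3)) (a z2 (b z3 z3))) (d (a z2 (b z3 z3)) (a z2 (b z3 z3))))) (a z2 (b (d (a z2 (b z3 z3)) (a z2 (b z3 z3))) (d (a z2 (b z3 z3)) (a z2 (b z3 z3)))))) (d (a z2 (b (d (a z2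 (b z3 z3)) (a z2 (b z3 z3))) (d (a z2 (b z3 z3)) (a z2 (b z3 z3))))) (a z2 (b (d (a z2 (b z3 z3)) (a z2 (b z3 z3))) (d (a z2 (b z3 z3)) (a z2 (b z3 z3)))))))) (a z4 (b (d (a z4 (b (d (a z4 (b z3 z3)) (a z4 (b z4 z3))) (d (a z2 (b z3 z3)) (a z4 (b z3 z3))))) (a z4 (b z4 (d (a z4 (b z4 z3)) z4)))) (d (a z2 (b (d (a z2 (b z3 z3)) (a z2 (b z3 z3))) (d (a z2 (b z3 z3)) (a z2 (b z3 z3))))) (a z4 (b (d (a z4 (b z3 z3)) (a z4 (b z4 z3))) (d (a z2 (b z3 z3)) (a z4 (b z3 z3))))))))))) (a z4 (b z4 (d (a z4 (b z4 (d (a z4 (b z4 (d (a z4 (b z4 z3)) z4))) z4))) z4)))))) z4)) _ _ (by decide +kernel)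

theorem okI221 : CKI ⟨458753, 786432, 159744, 163840⟩ ⟨0, 0, 225280, 229376⟩ :=
  ckI_sound z4 _ _ (by decide +kernel)

theorem okI222 : CKI ⟨393216, 786432, 131072, 163840⟩ ⟨0, 0, 229376, 262144⟩ :=
  ckI_sound z0 _ _ (by decide +kernel)

theorem okI223 : CKI ⟨393216, 507160, 163840, 172032⟩ ⟨0, 0, 196608, 204800⟩ :=
  ckI_sound z2 _ _ (by decide +kernel)

theorem okI224 : CKI ⟨507160, 786432, 163840, 167936⟩ ⟨0, 0, 196608, 200704⟩ :=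
  ckI_sound (b (d (b (d (a z2 (b (d (b z2 z2) (b z2 z2)) (d (a z2 (b z2 z2)) (a z2 (b z2 z2))))) (a z2 (b (d (b z2 z2) (b z2 z2)) (d (a z2 (b z2 z2)) (a z2 (b z2 z2)))))) (d (a z2 (b (d (a z2 (b z2 z2)) (a z2 (b z2 z2))) (d (a z2 (b z2 z2)) (a z2 (b z2 z2))))) (a z2 (b (d (a z2 (b z2 z2)) (a z2 (b z2 z2))) (d (a z2 (b z2 z2)) (a z2 (b z2 z2))))))) (b (d (a z2 (b (d (b z2 z2) (b z2 z2)) (d (a z2 (b z2 z2)) (a z2 (b z2 z2))))) (a z2 (b (d (b z2 z2) (b z2 z2)) (d (a z2 (b z2 z2)) (a z2 (b z2 z2)))))) (d (a z2 (b (d (a z2 (b z2 z2)) (a z2 (b z2 z2))) (d (a z2 (b z2 z2)) (a z2 (b z2 z2))))) (a z2 (b (d (a z2 (b z2 z2)) (a z2 (b z2 z2))) (d (a z2 (b z2 z2)) (a z2 (b z2 z2)))))))) (d (a z2 (b (d (b (d (a z2 (b z2 z2)) (a z2 (b z2 z2))) (d (a z2 (b z2 z2)) (a z2 (b z2 z2)))) (b (d (a z2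 (b z2 z2)) (a z2 (b z2 z2))) (d (a z2 (b z2 z2)) (a z2 (b z2 z2))))) (d (a z2 (b (d (b z2 z2) (b z2 z2)) (d (a z2 (b z2 z2)) (a z2 (b z2 z2))))) (a z2 (b (d (b z2 z2) (b z2 z2)) (d (a z2 (b z2 z2)) (a z2 (b z2 z2)))))))) (a z2 (b (d (b (d (a z2 (b z2 z2)) (a z2 (b z2 z2))) (d (a z2 (b z2 z2)) (a z2 (b z2 z2)))) (b (d (a z2 (b z2 z2)) (a z2 (b z2 z2))) (d (a z2 (b z2 z2)) (a z2 (b z2 z2))))) (d (a z2 (b (d (b z2 z2) (b z2 z2)) (d (a z2 (b z2 z2)) (a z2 (b z2 z2))))) (a z2 (b (d (b z2 z2) (b z2 z2)) (d (a z2 (b z2 z2)) (a z2 (b z2 z2)))))))))) _ _ (by decide +kernel)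

end Vale.Agent.Lib.P154Q5
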