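import Vale.Agent.Lib.P154Q5.FormI

namespace Vale.Agent.Lib.P154Q5

set_option maxRecDepth 100000
set_option exponentiation.threshold 1000

open Tr

theorem okI30 : CKI ⟨393216, 786432, 186368, 188416⟩ ⟨0, 0, 126976, 129024⟩ :=
  ckI_sound (b (d (b (d (a (b (d (a (b z2 z2) z2) (a (b z2 z2) z2)) (d (b z2 z2) (b z2 z2))) z2) (a (b (d (a (b z2 z2) z2) (a (b z2 z2) z2)) (d (b z2 z2) (b z2 z2))) z2)) (d (a (b (d (a (b z2 z2) z2) (a (b z2 z2) z2)) (d (b z2 z2) (b z2 z2))) z2) (a (b (d (a (b z2 z2) z2) (a (b z2 z2) z2)) (d (b z2 z2) (b z2 z2))) z2))) (b (d (a (b (d (a (b z2 z2) z2) (a (b z2 z2) z2)) (d (b z2 z2) (b z2 z2))) z2) (a (b (d (a (b z2 z2) z2) (a (b z2 z2) z2)) (d (b z2 z2) (b z2 z2))) z2)) (d (a (b (d (a (b z2 z2) z2) (a (b z2 z2) z2)) (d (b z2 z2) (b z2 z2))) z2) (a (b (d (a (b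 z2 z2) z2) (a (b z2 z2) z2)) (d (b z2 z2) (b z2 z2))) z2)))) (d (b (d (a (b (d (a (b z2 z2) z2) (a (b z2 z2) z2)) z1) z2) (a (b (d (a (b z2 z2) z2) (a (b z2 z2) z2)) (d z1 (b z2 z2))) z2)) (d (a (b z2 z2) z2) (a (b z3 z2) z2))) (b (d (a (b (d (a (b z2 z2) z2) (a (b z2 z2) z2)) (d (b z2 z2) (b z2 z2))) z2) (a (b (d (a (b z2 z2) z2) (a (b z2 z2) z2)) (d (b z2 z2) (b z2 z2))) z2)) (d (a (b z1 z3) z2) (a (b (d (a (b z2 z2) z2) (a (b z2 z2) z2)) z3) z2))))) _ _ (by decide +kernel)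

theorem okI31 : CKI ⟨393216, 786432, 186368, 188416⟩ ⟨0, 0, 129024, 131072⟩ :=
  ckI_sound (b (d (b (d (a (b (d (a (b z2 z2) z2) (a (b z2 z2) z2)) (d (b z2 z2) (b z2 z2))) z2) (a (b (d (a (b z2 z2) z2) (a (b z2 z2) z2)) (d (b z2 z2) (b z2 z2))) z2)) (d (a (b (d (a (b z2 z2) z2) (a (b z2 z2) z2)) (d (b z2 z2) (b z2 z2))) z2) (a (b (d (a (b z2 z2) z2) (a (b z2 z2) z2)) (d (b z2 z2) (b z2 z2))) z2))) (b (d (a (b (d (a (b z2 z2) z2) (a (b z2 z2) z2)) (d (b z2 z2) (b z2 z2))) z2) (a (b (d (a (b z2 z2) z2) (a (b z2 z2) z2)) (d (b z2 z2) (b z2 z2))) z2)) (d (a (b (d (a (b z2 z2) z2) (a (b z2 z2) z2)) (d (b z2 z2) (b z2 z2))) z2) (a (b (d (a (b z2 z2) z2) (a (b z2 z2) z2)) (d (b z2 z2) (b z2 z2))) z2)))) (d (b (d (a (b (d (a (b z2 z2) z2) (a (b z2 z2) z2)) (d (b z2 z2) (b z2 z2))) z2) (a (b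 (d (a (b z2 z2) z2) (a (b z2 z2) z2)) (d (b z2 z2) (b z2 z2))) z2)) (d (a (b (d (a (b z2 z2) z2) (a (b z2 z2) z2)) (d z1 (b z2 z2))) z2) (a (b (d (a (b z2 z2) z2) (a (b z2 z2) z2)) (d (b z2 z2) (b z2 z2))) z2))) (b (d (a (b (d (a (b z2 z2) z2) (a (b z2 z2) z2)) (d (b z2 z2) (b z2 z2))) z2) (a (b (d (a (b z2 z2) z2) (a (b z2 z2) z2)) (d (b z2 z2) (b z2 z2))) z2)) (d (a (b (d (a (b z2 z2) z2) (a (b z2 z2) z2)) (d (b z2 z2) (b z2 z2))) z2) (a (b (d (a (b z2 z2) z2) (a (b z2 z2) z2)) (d (b z2 z2) (b z2 z2))) z2))))) _ _ (by decide +kernel)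

theorem okI32 : CKI ⟨393216, 786432, 188416, 196608⟩ ⟨0, 0, 114688, 122880⟩ :=
  ckI_sound (b (d (b (d (b (d (b z2 z2) (b z2 z2)) (d (b z2 z2) (b z2 z2))) (b (d (b z2 z2) (b z2 z2)) (d (b z2 z2) (b z2 z2)))) (d (b (d (b z2 z2) (b z2 z2)) (d (b z2 z2) (b z2 z2))) (b (d (b z2 z2) (b z2 z2)) (d (b z2 z2) (b z2 z2))))) (b (d (b (d (b z2 z2) (b z3 z2)) (d (b z2 z2) (b z2 z2))) (b (d (b (d (a (b z2 z2) z2) (a (b z2 z2) z2)) z3) (b (d (a (b z2 z2) z2) (a (b z2 z2) z2)) (d (a (b z2 z2) z2) (a (b z2 z2) z2)))) (d (b z2 z2) (b z1 z2)))) (d (b (d (b z2 z2) (b z2 z2)) (d (b z2 z2) (b z2 z2))) (b (d (b z2 z2) (b z2 z2)) (d (b z2 z2) (b z2 z2)))))) (d (b (d (b (d (b z2 z2) (b z2 z2)) (d (b z2 z2) (b z2 z2))) (b (d (b z2 z2) (b z2 z2)) (d (b z2 z2) (b z2 z2)))) (d (b (d (b z2 z2) (b z2 z2)) (d (b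 z2 z0) (b z2 z0))) (b (d (b z2 z2) (b z2 z2)) (d (b z2 z0) (b z2 z0))))) (b (d (b (d (b z2 z2) (b z2 z2)) (d (b z2 z2) (b z2 z2))) (b (d (b z2 z2) (b z2 z2)) (d (b z2 z2) (b z2 z2)))) (d (b (d (b z2 z2) (b z2 z2)) (d (b z2 z0) (b z2 z0))) (b (d (b z2 z2) (b z2 z2)) (d (b z2 z0) (b z2 z0))))))) _ _ (by decide +kernel)

theorem okI33 : CKI ⟨393216, 786432, 188416, 192512⟩ ⟨0, 0, 122880, 131072⟩ :=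
  ckI_sound (d (b (d (b (d (b (d (a (b z2 z2) z2) (a (b z2 z2) z2)) (d (a (b z2 z2) z2) (a (b z2 z2) z2))) (b (d (a (b z2 z2) z2) (a (b z2 z2) z2)) (d (a (b z2 z2) z2) (a (b z2 z2) z2)))) (d (b (d (b z2 z2) (b z2 z2)) z1) (b (d (b z2 z2) (b z2 z2)) (d (b z2 z2) (b z2 z2))))) (b (d (b (d (a (b z2 z2) z2) (a (b z2 z2) z2)) (d (a (b z2 z2) z2) (a (b z2 z2) z2))) (b (d (a (b z2 z2) z2) (a (b z2 z2) z2)) (d (a (b z2 z2) z2) (a (b z2 z2) z2)))) (d (b (d (b z2 z2) (b z2 z2)) (d (b z2 z2) (b z2 z2))) (b (d (b z2 z2) (b z2 z2)) (d (b z2 z2) (b z2 z2)))))) (d (b (d (b z2 z2) (b z1 z2)) (d (b z2 z2) (b z2 z2))) (b (d (b (d (b z2 z2) (b z2 z2)) z1) (b (d (b z2 z2) (b z2 z2)) (d (b z2 z2) (b z2 z2)))) (d (b z2 z2) (b z1 z2))))) (b (d (b (d (b (d (a (b z2 z2) z2) (a (b z2 z2) z2)) (d (a (b z2 z2)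 z2) (a (b z2 z2) z2))) (b (d (a (b z2 z2) z2) (a (b z2 z2) z2)) (d (a (b z2 z2) z2) (a (b z2 z2) z2)))) (d (b (d (b z2 z2) (b z2 z2)) (d (b z2 z2) (b z2 z2))) (b (d (b z2 z2) (b z2 z2)) (d (b z2 z2) (b z2 z2))))) (b (d (b (d (a (b z3 z2) z2) (a (b z1 z3) z2)) (d (a (b z2 z2) z2) (a (b z2 z2) z2))) (b (d (a (b (d z1 (a (b z2 z2) z2)) z3) z2) (a (b (d (a (b z2 z2) z2) (a (b z2 z2) z2)) z1) z2)) (d (a (b z2 z2) z2) (a (b z3 z2) z2)))) (d (b (d (b z2 z2) (b z2 z2)) (d (b z2 z2) (b z2 z2))) (b (d (b z2 z2) (b z2 z2)) (d (b z2 z2) (b z2 z2)))))) (d (b (d (b (d (b z2 z2) (b z2 z2)) (d (b z2 z2) (b z2 z2))) (b (d (b z2 z2) (b z2 z2)) (d (b z2 z2) (b z2 z2)))) (d (b (d (b z2 z2) (b z2 z2)) z1) (b (d (b z2 z2) (b z2 z2)) (d (b z2 z2) (b z2 z2))))) (b (d (b (d (b z2 z2) (b z2 z2)) (d (b z2 z2)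 (b z2 z2))) (b (d (b z2 z2) (b z2 z2)) (d (b z2 z2) (b z2 z2)))) (d (b (d (b z2 z2) (b z2 z2)) (d (b z2 z2) (b z2 z2))) (b (d (b z2 z2) (b z2 z2)) (d (b z2 z2) (b z2 z2)))))))) _ _ (by decide +kernel)

theorem okI34 : CKI ⟨393216, 786432, 192512, 196608⟩ ⟨0, 0, 122880, 131072⟩ :=
  ckI_sound (d (b (d (b (d (b z2 z2) (b z2 z2)) (d (b z2 z2) (b z2 z2))) (b (d (b z2 z2) (b z2 z2)) (d (b z2 z2) (b z2 z2)))) (d (b (d (b z2 z2) (b z2 z2)) (d (b z2 z0) (b z2 z0))) (b (d (b z2 z2) (b z2 z2)) (d (b z2 z0) (b z2 z0))))) (b (d (b (d (b z2 z2) (b z3 z2)) (d (b z2 z2) (b z2 z2))) (b (d (b (d (b z2 z2) (b z2 z2)) z3) (b (d (b z2 z2) (b z2 z2)) (d (b z2 z2) (b z2 z2)))) (d (b z2 z2) (b z3 z2)))) (d (b (d (b z2 z2) (b z2 z2)) (d (b z2 z0) (b z2 z0))) (b (d (b z2 z2) (b z2 z2)) (d (b z2 z0) (b z2 z0))))))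 _ _ (by decide +kernel)

theorem okI35 : CKI ⟨393216, 786432, 65536, 131072⟩ ⟨0, 0, 131072, 262144⟩ :=
  ckI_sound (d (b z0 (d (b z0 (d (b z0 (d z2 (b z0 z2))) (b z0 (d (b z0 z2) (b z0 (d z2 (b z0 z2))))))) (b z0 (d (b z0 (d (b z0 (d (b z0 z2) (b z0 z2))) (b z0 (d (b z0 z2) (b z0 (d z2 (b z0 z2))))))) (b z0 (d (b z0 (d (b z0 (d (b z0 z2) (b z0 z2))) (b z0 (d (b z0 z2) (b z0 z2))))) (b z0 (d (b z0 (d (b z0 z2) (b z0 z2))) (b z0 (d (b z0 (d z2 (b z0 z2))) (b z0 (d (b z0 z2) (b z0 z2))))))))))))) (b z0 (d (b z0 (d (b z0 (d (b z0 (d (b z0 (d (b z0 (d (b z0 z2) z4)) z4)) z4)) z0)) z0)) z0))) _ _ (by decide +kernel)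

theorem okI36 : CKI ⟨393216, 786432, 131072, 163840⟩ ⟨0, 0, 131072, 163840⟩ :=
  ckI_sound (b (d (b (d z2 (b z2 z2)) (d z2 (b z2 z2))) (b (d (b z2 z2) (b (d (b z2 z2) (b z2 z2)) (d (b z2 z2) (b z2 z2)))) (d (b (d z2 (b z2 z2)) (d z2 (b z2 z2))) (b (d (b z2 z2) (b z2 z2)) (d (b z2 z2) (b z2 z2)))))) (d (b (d z2 (b z2 z2)) (d z2 (a z2 (b z2 z2)))) (b (d (b (d z2 (a z2 (b z2 z2))) (d (a z2 (b z2 z2)) (a z2 (b z2 z2)))) (b (d (a z2 (b z2 z2)) (a z2 (b z2 z2))) (d (a z2 (b z2 z2)) (a z2 (b z2 z2))))) (d (a z2 (b (d (b z2 z2) (b z2 z2)) (d (a z2 (b z2 z2)) (a z2 (b z2 z2))))) (a z2 (b (d (b z2 z2) (b z2 z2)) (d (a z2 (b z2 z2)) (a z2 (b (d z2 (b z2 z2)) (d z2 (b z2 z2))))))))))) _ _ (by decide +kernel)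

theorem okI37 : CKI ⟨393216, 786432, 131072, 147456⟩ ⟨0, 0, 163840, 180224⟩ :=
  ckI_sound (b (d (b (d (b z2 z2) (b z2 z2)) (d (b z2 z2) (b z2 z2))) (b (d (b z2 z2) (b (d z2 (b z2 z2)) (d (b z2 z2) (b z2 z2)))) (d (b z2 (d z2 (b z2 z2))) (b (d (b z2 z2) (b z2 z2)) (d (b z2 z2) (b z2 z2)))))) (d (b (d (b z2 z2) (b z2 z2)) (d (b z2 z2) (b z2 (d z2 (a z2 (b z2 z2)))))) (b (d (b (d z2 (a z2 (b z2 z2))) (d (a z2 (b z2 z2)) (a z2 (b z2 z2)))) (b (d (a z2 (b z2 z2)) (a z2 (b z2 z2))) (d (a z2 (b z2 z2)) (a z2 (b z2 z2))))) (d (b (d (a z2 (b z2 z2)) (a z2 (b z2 z2))) (d (a z2 (b z2 z2)) (a z2 (b z2 z2)))) (b (d (a z2 (b z2 z2)) (a z2 (b z2 z2))) (d (a z2 (b z2 z2)) (a z2 (b z2 z2)))))))) _ _ (by decide +kernel)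

theorem okI38 : CKI ⟨393216, 786432, 131072, 139264⟩ ⟨0, 0, 180224, 196608⟩ :=
  ckI_sound (d (b (d (b (d (b z2 z2) (b z2 z2)) (d (b z2 z2) (b z2 z2))) (b (d (b z2 z2) (b z2 z2)) (d (b z2 z2) (b z2 z2)))) (d (b (d (b z2 z2) (b z2 z2)) (d (b z2 z2) (b z2 z2))) (b (d (b z2 z2) (b z2 z2)) (d (b z2 z2) (b z2 z2))))) (b (d (b (d (b z2 z2) (b z2 z2)) (d (b z2 z2) (b z2 z2))) (b (d (b (d (b z2 z2) (b z2 z2)) (d (b z2 z2) (b z2 z2))) (b (d (b z2 z2) (b z2 z2)) (d (b z2 z2) (b z2 z2)))) (d (b (d (b z2 z2) (b z2 z2)) (d (b z2 z2) (b z2 z2))) (b (d (b z2 z2) (b z2 z2)) (d (b z2 z2) (b z2 z2)))))) (d (b (d (b z2 z2) (b z2 (d z2 (a z2 (b z2 z2))))) (d (b z2 z2) (b (d z2 (a z2 (b z2 z2))) (d z2 (a z2 (b z2 z2)))))) (b (d (b (d (a z2 (b z2 z2)) (a z2 (b z2 z2))) (d (a z2 (b z2 z2)) (a z2 (b z2 z2))))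 (b (d (a z2 (b z2 z2)) (a z2 (b z2 z2))) (d (a z2 (b z2 z2)) (a z2 (b z2 z2))))) (d (b (d (a z2 (b z2 z2)) (a z2 (b z2 z2))) (d (a z2 (b z2 z2)) (a z2 (b z2 z2)))) (b (d (a z2 (b z2 z2)) (a z2 (b z2 z2))) (d (a z2 (b z2 z2)) (a z2 (b z2 z2))))))))) _ _ (by decide +kernel)

theorem okI39 : CKI ⟨393216, 786432, 139264, 147456⟩ ⟨0, 0, 180224, 196608⟩ :=
  ckI_sound (d (b (d (b (d (a z2 (b z2 z2)) (a z2 (b z2 z2))) (d (a z2 (b z2 z2)) (a z2 (b z2 z2)))) (b (d (a z2 (b z2 z2)) (a z2 (b z2 z2))) (d (a z2 (b z2 z2)) (a z2 (b z2 z2))))) (d (b (d (a z2 (b z2 z2)) (a z2 (b z2 z2))) (d (a z2 (b z2 z2)) (a z2 (b z2 z2)))) (b (d (a z2 (b z2 z2)) (a z2 (b z2 z2))) (d (a z2 (b z2 z2)) (a z2 (b z2 z2)))))) (b (d (b (d (a z2 (b z2 z2)) (a z2 (b (d (b z2 z2) (b z2 z2)) (d (a z2 (b z2 z2)) (a z2 (b z2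 z2)))))) (d (a z2 (b z2 (d z2 (a z2 (b z2 z2))))) (a z2 (b (d (a z2 (b z2 z2)) (a z2 (b z2 z2))) (d (a z2 (b z2 z2)) (a z2 (b z2 z2))))))) (b (d (a z2 (b (d (b z2 z2) (b z2 z2)) (d (a z2 (b z2 z2)) (a z2 (b z2 z2))))) (a z2 (b (d (b z2 z2) (b z2 z2)) (d (a z2 (b z2 z2)) (a z2 (b z2 z2)))))) (d (a z2 (b (d (a z2 (b z2 z2)) (a z2 (b z2 z2))) (d (a z2 (b z2 z2)) (a z2 (b z2 z2))))) (a z2 (b (d (a z2 (b z2 z2)) (a z2 (b z2 z2))) (d (a z2 (b z2 z2)) (a z2 (b z2 z2)))))))) (d (b (d (a z2 (b (d z2 (a z2 (b z2 z2))) (d z2 (a z2 (b z2 z2))))) (a z2 (b (d (a z2 (b z2 z2)) (a z2 (b z2 z2))) (d (a z2 (b z2 z2)) (a z2 (b z2 z2)))))) (d (a z2 (b (d (a z2 (b z2 z2)) (a z2 (b z2 z2))) (d (a z2 (b z2 z2)) (a z2 (b z2 z2))))) (a z2 (b (d (a z2 (b z2 z2)) (a z2 (b z2 z2))) (d (a z2 (b z2 z2)) (a z2 (b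 z2 z2))))))) (b (d (a z2 (b (d (a z2 (b z2 z2)) (a z2 (b z2 z2))) (d (a z2 (b z2 z2)) (a z2 (b z2 z2))))) (a z2 (b (d (a z2 (b z2 z2)) (a z2 (b z2 z2))) (d (a z2 (b z2 z2)) (a z2 (b z2 z2)))))) (d (a z2 (b (d (a z2 (b z2 z2)) (a z2 (b z2 z2))) (d (a z2 (b z2 z2)) (a z2 (b z2 z2))))) (a z2 (b (d (a z2 (b z2 z2)) (a z2 (b z2 z2))) (d (a z2 (b z2 z2)) (a z2 (b z2 z2)))))))))) _ _ (by decide +kernel)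

theorem okI40 : CKI ⟨393216, 786432, 147456, 163840⟩ ⟨0, 0, 163840, 180224⟩ :=
  ckI_sound (b (d (b (d (a z2 (b z2 z2)) (a z2 (b (d z2 (b z2 z2)) (d (a z2 (b z2 z2)) (a z2 (b z2 z2)))))) (d (a z2 (b z2 (d z2 (a z2 (b z2 z2))))) (a z2 (b (d (a z2 (b z2 z2)) (a z2 (b z2 z2))) (d (a z2 (b z2 z2)) (a z2 (b z2 z2))))))) (b (d (a z2 (b (d (b z2 z2) (b z2 z2)) (d (a z2 (b z2 z2)) (a z2 (b z2 z2))))) (a z2 (b (d (b z2 z2) (b z2 z2)) (d (a z2 (b z2 z2)) (a z2 (b z2 z2)))))) (d (a z2 (b (d (a z2 (b z2 z2)) (a z2 (b z2 z2))) (d (a z2 (b z2 z2)) (a z2 (b z2 z2))))) (a z2 (b (d (a z2 (b z2 z2)) (a z2 (b z2 z2))) (d (a z2 (b z2 z2)) (a z2 (b z2 z2)))))))) (d (a z2 (b (d (b (d (a z2 (b z2 z2)) (a z2 (b z2 z2))) (d (a z2 (b z2 z2)) (a z2 (b z2 z2)))) (b (d (a z2 (b z2 z2)) (a z2 (b z2 z2))) (d (a z2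 (b z2 z2)) (a z2 (b z2 z2))))) (d (a z2 (b (d (b z2 z2) (b z2 z2)) (d (b z2 z2) (b z2 z2)))) (a z2 (b (d (b z2 z2) (b z2 z2)) (d (b z2 z2) (b z2 z2))))))) (a z2 (b (d (b (d (a z2 (b z2 z2)) (a z2 (b z2 z2))) (d (a z2 (b z2 z2)) (a z2 (b z2 z2)))) (b (d (a z2 (b z2 z2)) (a z2 (b z2 z2))) (d (a z2 (b z2 z2)) (a z2 (b z2 z2))))) (d (a z2 (b (d (b z2 z2) (b z2 z2)) (d (b z2 z2) (b z2 z2)))) (a z2 (b (d (b z2 z2) (b z2 z2)) (d (b z2 z2) (b z2 (d z2 (a z2 (b z2 z2)))))))))))) _ _ (by decide +kernel)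

theorem okI41 : CKI ⟨393216, 786432, 147456, 155648⟩ ⟨0, 0, 180224, 196608⟩ :=
  ckI_sound (d (b (d (a z2 (b (d (b z2 z2) (b z2 z2)) (d (a z2 (b z2 z2)) (a z2 (b z2 z2))))) (a z2 (b (d (b z2 z2) (b z2 (d z2 (a z2 (b z2 z2))))) (d (a z2 (b z2 z2)) (a z2 (b (d z2 (b z2 z2)) (d (a z2 (b z2 z2)) (a z2 (b z2 z2))))))))) (d (a z2 (b (d (a z2 (b z2 z2)) (a z2 (b z2 z2))) (d (a z2 (b z2 z2)) (a z2 (b z2 z2))))) (a z2 (b (d (a z2 (b z2 (d z2 (a z2 (b z2 z2))))) (a z2 (b (d (b z2 z2) (b z2 z2)) (d (a z2 (b z2 z2)) (a z2 (b z2 z2)))))) (d (a z2 (b (d z2 (a z2 (b z2 z2))) (d (a z2 (b z2 z2)) (a z2 (b z2 z2))))) (a z2 (b (d (a z2 (b z2 z2)) (a z2 (b z2 z2))) (d (a z2 (b z2 z2)) (a z2 (b z2 z2)))))))))) (b (d (a z2 (b (d (b (d (a z2 (b z2 z2)) (a z2 (b z2 z2))) (d (a z2 (b z2 z2)) (a z2 (b z2 z2))))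 (b (d (a z2 (b z2 z2)) (a z2 (b z2 z2))) (d (a z2 (b z2 z2)) (a z2 (b z2 z2))))) (d (a z2 (b (d (b z2 z2) (b z2 z2)) (d (a z2 (b z2 z2)) (a z2 (b z2 z2))))) (a z2 (b (d (b z2 z2) (b z2 z2)) (d (a z2 (b z2 z2)) (a z2 (b z2 z2)))))))) (a z2 (b (d (b (d (a z2 (b z2 z2)) (a z2 (b z2 z2))) (d (a z2 (b z2 z2)) (a z2 (b z2 z2)))) (b (d (a z2 (b z2 z2)) (a z2 (b z2 z2))) (d (a z2 (b z2 z2)) (a z2 (b z2 z2))))) (d (a z2 (b (d (b z2 z2) (b z2 z2)) (d (a z2 (b z2 z2)) (a z2 (b z2 z2))))) (a z2 (b (d (b z2 z2) (b z2 z2)) (d (a z2 (b z2 z2)) (a z2 (b z2 z2))))))))) (d (a z2 (b (d (a z2 (b (d (b z2 z2) (b z2 z2)) (d (a z2 (b z2 z2)) (a z2 (b z2 z2))))) (a z2 (b (d (b z2 z2) (b z2 z2)) (d (a z2 (b z2 z2)) (a z2 (b z2 z2)))))) (d (a z2 (b (d (a z2 (b z2 z2)) (a z2 (b z2 z2))) (d (a z2 (b z2 z2)) (a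 z2 (b z2 z2))))) (a z2 (b (d (a z2 (b z2 z2)) (a z2 (b z2 z2))) (d (a z2 (b z2 z2)) (a z2 (b z2 z2)))))))) (a z2 (b (d (a z2 (b (d (b z2 z2) (b z2 z2)) (d (a z2 (b z2 z2)) (a z2 (b z2 z2))))) (a z2 (b (d (b z2 z2) (b z2 z2)) (d (a z2 (b z2 z2)) (a z2 (b z2 z2)))))) (d (a z2 (b (d (a z2 (b z2 z2)) (a z2 (b z2 z2))) (d (a z2 (b z2 z2)) (a z2 (b z2 z2))))) (a z2 (b (d (a z2 (b z2 z2)) (a z2 (b z2 z2))) (d (a z2 (b z2 z2)) (a z2 (b z2 z2))))))))))) _ _ (by decide +kernel)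

theorem okI42 : CKI ⟨393216, 786432, 155648, 163840⟩ ⟨0, 0, 180224, 188416⟩ :=
  ckI_sound (a z2 (b (d (b (d (a z2 (b z2 z2)) (a z2 (b z2 (d z2 (a z2 (b z2 z2)))))) (d (a z2 (b z2 z2)) (a z2 (b (d (a z2 (b z2 z2)) (a z2 (b z2 z2))) (d (a z2 (b z2 z2)) (a z2 (b z2 z2))))))) (b (d (a z2 (b (d (b z2 z2) (b z2 z2)) (d (a z2 (b z2 z2)) (a z2 (b z2 z2))))) (a z2 (b (d (b z2 z2) (b z2 z2)) (d (a z2 (b z2 z2)) (a z2 (b z2 z2)))))) (d (a z2 (b (d (a z2 (b z2 z2)) (a z2 (b z2 z2))) (d (a z2 (b z2 z2)) (a z2 (b z2 z2))))) (a z2 (b (d (a z2 (b z2 z2)) (a z2 (b z2 z2))) (d (a z2 (b z2 z2)) (a z2 (b z2 z2)))))))) (d (a z2 (b (d (b (d z2 (b z2 z2)) (d (a z2 (b z2 z2)) (a z2 (b z2 z2)))) (b (d (b z2 z2) (b z2 z2)) (d (a z2 (b z2 z2)) (a z2 (b z2 z2))))) (d (b (d (a z2 (b z2 z2)) (a z2 (b z2 z2))) (d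 (a z2 (b z2 z2)) (a z2 (b z2 z2)))) (b (d (a z2 (b z2 z2)) (a z2 (b z2 z2))) (d (a z2 (b z2 z2)) (a z2 (b z2 z2))))))) (a z2 (b (d (b (d (b z2 z2) (b z2 z2)) (d (a z2 (b z2 z2)) (a z2 (b z2 z2)))) (b (d (b z2 z2) (b z2 z2)) (d (a z2 (b z2 z2)) (a z2 (b z2 z2))))) (d (b (d (a z2 (b z2 z2)) (a z2 (b z2 z2))) (d (a z2 (b z2 z2)) (a z2 (b z2 z2)))) (b (d (a z2 (b z2 z2)) (a z2 (b z2 z2))) (d (a z2 (b z2 z2)) (a z2 (b z2 z2)))))))))) _ _ (by decide +kernel)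

theorem okI43 : CKI ⟨393216, 786432, 155648, 163840⟩ ⟨0, 0, 188416, 196608⟩ :=
  ckI_sound (a z2 (b (d (b (d (a z2 (b (d (b z2 z2) (b z2 z2)) (d (a z2 (b z2 z2)) (a z2 (b z2 z2))))) (a z2 (b (d (b z2 z2) (b z2 z2)) (d (a z2 (b z2 z2)) (a z2 (b z2 z2)))))) (d (a z2 (b (d (a z2 (b z2 z2)) (a z2 (b z2 z2))) (d (a z2 (b z2 z2)) (a z2 (b z2 z2))))) (a z2 (b (d (a z2 (b z2 z2)) (a z2 (b z2 z2))) (d (a z2 (b z2 z2)) (a z2 (b z2 z2))))))) (b (d (a z2 (b (d (b z2 z2) (b z2 z2)) (d (a z2 (b z2 z2)) (a z2 (b z2 z2))))) (a z2 (b (d (b z2 z2) (b z2 z2)) (d (a z2 (b z2 z2)) (a z2 (b z2 z2)))))) (d (a z2 (b (d (a z2 (b z2 z2)) (a z2 (b z2 z2))) (d (a z2 (b z2 z2)) (a z2 (b z2 z2))))) (a z2 (b (d (a z2 (b z2 z2)) (a z2 (b z2 z2))) (d (a z2 (b z2 z2)) (a z2 (b z2 z2)))))))) (d (a z2 (b (d (b (d (b z2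 z2) (b z2 z2)) (d (a z2 (b z2 z2)) (a z2 (b z2 z2)))) (b (d (b z2 z2) (b z2 z2)) (d (a z2 (b z2 z2)) (a z2 (b z2 z2))))) (d (b (d (a z2 (b z2 z2)) (a z2 (b z2 z2))) (d (a z2 (b z2 z2)) (a z2 (b z2 z2)))) (b (d (a z2 (b z2 z2)) (a z2 (b z2 z2))) (d (a z2 (b z2 z2)) (a z2 (b z2 z2))))))) (a z2 (b (d (b (d (b z2 z2) (b z2 z2)) (d (a z2 (b z2 z2)) (a z2 (b z2 z2)))) (b (d (b z2 z2) (b z2 z2)) (d (a z2 (b z2 z2)) (a z2 (b z2 z2))))) (d (b (d (a z2 (b z2 z2)) (a z2 (b z2 z2))) (d (a z2 (b z2 z2)) (a z2 (b z2 z2)))) (b (d (a z2 (b z2 z2)) (a z2 (b z2 z2))) (d (a z2 (b z2 z2)) (a z2 (b z2 z2)))))))))) _ _ (by decide +kernel)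

theorem okI44 : CKI ⟨393216, 786432, 163840, 180224⟩ ⟨0, 0, 131072, 163840⟩ :=
  ckI_sound (d (b (d z2 (a z2 (b z2 z2))) (d (b z2 (d (b z2 z2) (b z2 z2))) (b z2 z2))) (b (d (a z2 (b (d (b z2 z2) (b z2 z2)) (d (b z2 z2) (b z2 z2)))) (a z2 (b (d (b z2 (d z2 (a z2 (b z2 z2)))) (b (d (b z2 z2) (b z2 z2)) (d (a z2 (b z2 z2)) (a z2 (b z2 z2))))) (d (b (d z2 (a z2 (b z2 z2))) (d z2 (a z2 (b z2 z2)))) (b (d (a z2 (b z2 z2)) (a z2 (b z2 z2))) (d (a z2 (b z2 z2)) (a z2 (b z2 z2)))))))) (d (b (d (a z2 (b z2 z2)) (a z2 (b z2 z2))) (d (b z2 z2) (b z2 z2))) (b (d (a z2 (b (d (b z2 z2) (b z2 z2)) (d (a z2 (b z2 z2)) (a z2 (b z2 z2))))) (a z2 (b (d (b z2 z2) (b z2 z2)) (d (a z2 (b z2 z2)) (a z2 (b z2 z2)))))) (d (b (d (a z2 (b z2 z2)) (a z2 (b z2 z2))) (d (a z2 (b z2 z2)) (a z2 (b z2 z2)))) (b (d (a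 z2 (b z2 z2)) (a z2 (b z2 z2))) (d (a z2 (b z2 z2)) (a z2 (b z2 z2))))))))) _ _ (by decide +kernel)

end Vale.Agent.Lib.P154Q5
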