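import Vale.Agent.Lib.P154Q5.FormI

namespace Vale.Agent.Lib.P154Q5

set_option maxRecDepth 100000
set_option exponentiation.threshold 1000

open Tr

theorem okI45 : CKI ⟨393216, 786432, 180224, 184320⟩ ⟨0, 0, 131072, 139264⟩ :=
  ckI_sound (d (b (d (a (b z2 (d (b z2 z2) z3)) z2) z1) (d (b (d (a (b z3 (d (b z2 z2) (b z2 z2))) z2) (a (b z2 z1) z2)) (d (a (b (d (a (b z2 z3) z2) (a (b z2 z2) z2)) (d (b z1 (d (b z2 z2) (b z2 z2))) (b z1 z1))) z2) (a (b (d (a (b z2 z2) z2) (a (b z2 z2) z2)) (d (b z2 z1) (b z2 z2))) z2))) (b (d (a (b z2 z2) z2) z1) (d (a (b z1 (d (b z2 z2) (b z2 z2))) z2) (a (b z2 (d (b z2 z2) z1)) z2))))) (b z2 (d (b z2 (d (a (b z2 z3) z2) (a (b z2 z2) z2))) (b z2 z3)))) _ _ (by decide +kernel)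

theorem okI46 : CKI ⟨393216, 786432, 184320, 186368⟩ ⟨0, 0, 131072, 135168⟩ :=
  ckI_sound (d (b (d (a (b (d (a (b (d (a (b z2 z2) z2) (a (b z2 z2) z2)) (d (b z2 z2) (b z2 z2))) z2) (a (b (d (a (b z2 z2) z2) (a (b z2 z2) z2)) (d (b z2 z2) (b z2 z2))) z2)) (d (b (d (a (b z2 z2) z2) (a (b z2 z2) z2)) (d (b z2 z2) (b z2 z2))) (b (d (a (b z2 z2) z2) (a (b z2 z2) z2)) (d (b z2 z2) (b z2 z2))))) z2) (a (b (d (a (b (d (a (b z2 z2) z2) z1) (d (b z2 z2) (b z2 z2))) z2) (a (b z1 (d (b z2 z2) z1)) z2)) (d (b (d (a (b z2 z2) z2) (a (b z2 z2) z2)) (d (b z2 z2) (b z2 z2))) (b (d (a (b z2 z2) z2) (a (b z2 z2) z2)) (d (b z2 z2) (b z2 z2))))) z2)) (d (a (b (d (a (b (d (a (b z2 z2) z2) (a (b z2 z2) z2)) (d (b z2 z2) (b z2 z2))) z2) (a (b (d (a (b z2 z2) z2) (a (b z2 z2) z2)) (d (b z2 z2) (b z2 z2))) z2)) (d (b (d (a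 (b z2 z2) z2) (a (b z2 z2) z2)) (d (b z2 z2) (b z2 z2))) (b (d (a (b z2 z2) z2) (a (b z2 z2) z2)) (d (b z2 z2) (b z2 z2))))) z2) (a (b (d (a (b (d (a (b z2 z2) z2) (a (b z2 z2) z2)) (d (b z2 z2) (b z2 z2))) z2) (a (b (d (a (b z2 z2) z2) (a (b z2 z2) z2)) (d (b z2 z2) (b z2 z2))) z2)) (d (b (d (a (b z2 z2) z2) (a (b z2 z2) z2)) (d (b z2 z2) (b z2 z2))) (b (d (a (b z2 z2) z2) (a (b z2 z2) z2)) (d (b z2 z2) (b z2 z2))))) z2))) (b (d (a (b (d (a (b z3 z1) z2) (a (b z2 z3) z2)) (d (b (d (a (b z2 z2) z2) (a (b z2 z2) z2)) (d (b z2 z2) (b z2 z2))) (b z1 (d (b z2 z2) (b z2 z2))))) z2) (a (b (d (a (b z2 z2) z2) (a (b z2 z2) z2)) (d (b z3 z1) (b z2 z3))) z2)) (d (a (b (d (a (b (d (a (b z2 z2) z2) (a (b z2 z2) z2)) (d (b z2 z2) (b z2 z2))) z2) (a (b (d (a (b z2 z2) z2) (a (b z2 z2) z2)) (d (b z2 z2) (b z2 z2)))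 z2)) (d (b (d (a (b z2 z2) z2) (a (b z2 z2) z2)) (d (b z2 z2) (b z2 z2))) (b (d (a (b z2 z2) z2) (a (b z2 z2) z2)) (d (b z2 z2) (b z2 z2))))) z2) (a (b (d (a (b (d (a (b z2 z2) z2) (a (b z2 z2) z2)) (d (b z2 z2) (b z2 z2))) z2) (a (b z1 (d (b z2 z2) (b z2 z2))) z2)) (d (b (d (a (b z2 z2) z2) (a (b z2 z2) z2)) (d (b z2 z2) (b z2 z2))) (b (d (a (b z2 z2) z2) (a (b z2 z2) z2)) (d (b z2 z2) (b z2 z2))))) z2)))) _ _ (by decide +kernel)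

theorem okI47 : CKI ⟨393216, 786432, 186368, 188416⟩ ⟨0, 0, 131072, 133120⟩ :=
  ckI_sound (b (d (b (d (a (b (d (a (b z2 z2) z2) (a (b z2 z2) z2)) (d (b z2 z2) (b z2 z2))) z2) (a (b (d (a (b z2 z2) z2) (a (b z2 z2) z2)) (d (b z2 z2) (b z2 z2))) z2)) (d (a (b (d (a (b z2 z2) z2) (a (b z2 z2) z2)) (d (b z2 z2) (b z2 z2))) z2) (a (b (d (a (b z2 z2) z2) (a (b z2 z2) z2)) (d (b z2 z2) (b z2 z2))) z2))) (b (d (a (b (d (a (b z2 z2) z2) (a (b z2 z2) z2)) (d (b z2 z2) (b z2 z2))) z2) (a (b (d (a (b z2 z2) z2) (a (b z2 z2) z2)) (d (b z2 z2) (b z2 z2))) z2)) (d (a (b (d (a (b z2 z2) z2) (a (b z2 z2) z2)) (d (b z2 z2) (b z2 z2))) z2) (a (b (d (a (b z2 z2) z2) (a (b z2 z2) z2)) (d (b z2 z2) (b z2 z2))) z2)))) (d (b (d (a (b (d (a (b z2 z2) z2) (a (b z2 z2) z2)) (d (b z2 z2) (b z2 z2))) z2) (a (b (d (a (b z2 z2)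 z2) (a (b z2 z2) z2)) (d (b z2 z2) (b z2 z2))) z2)) (d (a (b (d (a (b z2 z2) z2) (a (b z2 z2) z2)) (d (b z2 z2) (b z2 z2))) z2) (a (b (d (a (b z2 z2) z2) (a (b z2 z2) z2)) (d (b z2 z2) (b z2 z2))) z2))) (b (d (a (b (d (a (b z2 z2) z2) (a (b z2 z2) z2)) (d (b z2 z2) (b z2 z2))) z2) (a (b (d (a (b z2 z2) z2) (a (b z2 z2) z2)) (d (b z2 z2) (b z2 z2))) z2)) (d (a (b (d (a (b z2 z2) z2) (a (b z2 z2) z2)) (d (b z2 z2) (b z2 z2))) z2) (a (b (d (a (b z2 z2) z2) (a (b z2 z2) z2)) (d (b z2 z2) (b z2 z2))) z2))))) _ _ (by decide +kernel)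

theorem okI48 : CKI ⟨393216, 786432, 186368, 188416⟩ ⟨0, 0, 133120, 135168⟩ :=
  ckI_sound (b (d (b (d (a (b (d (a (b z2 z2) z2) (a (b z2 z2) z2)) (d (b z2 z2) (b z2 z2))) z2) (a (b (d (a (b z2 z2) z2) (a (b z2 z2) z2)) (d (b z2 z2) (b z2 z2))) z2)) (d (a (b (d (a (b z2 z2) z2) (a (b z2 z2) z2)) (d (b z2 z2) (b z2 z2))) z2) (a (b (d (a (b z2 z2) z2) (a (b z2 z2) z2)) (d (b z2 z2) (b z2 z2))) z2))) (b (d (a (b (d (a (b z2 z2) z2) (a (b z2 z2) z2)) (d (b z2 z2) (b z2 z2))) z2) (a (b (d (a (b z2 z2) z2) (a (b z2 z2) z2)) (d (b z2 z2) (b z2 z2))) z2)) (d (a (b (d (a (b z2 z2) z2) (a (b z2 z2) z2)) (d (b z2 z2) (b z2 z2))) z2) (a (b (d (a (b z2 z2) z2) (a (b z2 z2) z2)) (d (b z2 z2) (b z2 z2))) z2)))) (d (b (d (a (b (d (a (b z2 z2) z2) (a (b z2 z2) z2)) (d (b z2 z2) (b z2 z2))) z2) (a (b (d (a (b z2 z2)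 z2) (a (b z2 z2) z2)) (d (b z2 z2) (b z2 z2))) z2)) (d (a (b (d (a (b z2 z2) z2) (a (b z2 z2) z2)) (d (b z2 z2) (b z2 z2))) z2) (a (b (d (a (b z2 z2) z2) (a (b z2 z2) z2)) (d (b z2 z2) (b z2 z2))) z2))) (b (d (a (b (d (a (b z2 z2) z2) (a (b z2 z2) z2)) (d (b z2 z2) (b z2 z2))) z2) (a (b (d (a (b z2 z2) z2) (a (b z2 z2) z2)) (d (b z2 z2) (b z2 z2))) z2)) (d (a (b (d (a (b z2 z2) z2) (a (b z2 z2) z2)) (d (b z2 z2) (b z2 z2))) z2) (a (b (d (a (b z2 z2) z2) (a (b z2 z2) z2)) (d (b z2 z2) (b z2 z2))) z2))))) _ _ (by decide +kernel)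

theorem okI49 : CKI ⟨393216, 786432, 184320, 186368⟩ ⟨0, 0, 135168, 139264⟩ :=
  ckI_sound (d (b (d (a (b (d (a (b z2 z2) z2) (a (b z2 z2) z2)) (d (b z2 z2) (b z2 z2))) z2) (a (b z1 (d (b z2 z2) (b z2 z2))) z2)) (d (a (b (d (a (b z1 (d (b z2 z2) z1)) z2) (a (b z2 z1) z2)) (d (b (d (a (b z2 z2) z2) (a (b z2 z2) z2)) (d (b z2 z2) (b z2 z2))) (b (d (a (b z2 z2) z2) z1) (d (b z2 z2) (b z2 z2))))) z2) (a (b (d (a (b z2 z3) z2) (a (b z2 z2) z2)) (d (b z1 (d (b z2 z2) z1)) (b z3 z1))) z2))) (b (d (a (b z2 z1) z2) (a (b z2 z2) z2)) (d (a (b (d (a (b z2 z2) z2) (a (b z2 z2) z2)) (d (b z2 z3) (b z2 z2))) z2) (a (b (d (a (b z2 z2) z2) z1) (d (b z2 z2) (b z2 z2))) z2)))) _ _ (by decide +kernel)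

theorem okI50 : CKI ⟨393216, 786432, 186368, 188416⟩ ⟨0, 0, 135168, 137216⟩ :=
  ckI_sound (b (d (b (d (a (b (d (a (b z2 z2) z2) (a (b z2 z2) z2)) (d (b z2 z2) (b z2 z2))) z2) (a (b (d (a (b z2 z2) z2) (a (b z2 z2) z2)) (d (b z2 z2) (b z2 z2))) z2)) (d (a (b (d (a (b z2 z2) z2) (a (b z2 z2) z2)) (d (b z2 z2) (b z2 z2))) z2) (a (b (d (a (b z2 z2) z2) (a (b z2 z2) z2)) (d (b z2 z2) (b z2 z2))) z2))) (b (d (a (b (d (a (b z2 z2) z2) (a (b z2 z2) z2)) (d (b z2 z2) (b z2 z2))) z2) (a (b (d (a (b z2 z2) z2) (a (b z2 z2) z2)) (d (b z2 z2) (b z2 z2))) z2)) (d (a (b (d (a (b z2 z2) z2) (a (b z2 z2) z2)) (d (b z2 z2) (b z2 z2))) z2) (a (b (d (a (b z2 z2) z2) (a (b z2 z2) z2)) (d (b z2 z2) (b z2 z2))) z2)))) (d (b (d (a (b (d (a (b z2 z2) z2) (a (b z2 z2) z2)) (d (b z2 z2) (b z2 z2))) z2) (a (b (d (a (b z2 z2)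 z2) (a (b z2 z2) z2)) (d (b z2 z2) (b z2 z2))) z2)) (d (a (b (d (a (b z2 z2) z2) (a (b z2 z2) z2)) (d (b z2 z2) (b z2 z2))) z2) (a (b (d (a (b z2 z2) z2) (a (b z2 z2) z2)) (d (b z2 z2) (b z2 z2))) z2))) (b (d (a (b (d (a (b z2 z2) z2) (a (b z2 z2) z2)) (d (b z2 z2) (b z2 z2))) z2) (a (b (d (a (b z2 z2) z2) (a (b z2 z2) z2)) (d (b z2 z2) (b z2 z2))) z2)) (d (a (b (d (a (b z2 z2) z2) (a (b z2 z2) z2)) (d (b z2 z2) (b z2 z2))) z2) (a (b (d (a (b z2 z2) z2) (a (b z2 z2) z2)) (d (b z2 z2) (b z2 z2))) z2))))) _ _ (by decide +kernel)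

theorem okI51 : CKI ⟨393216, 786432, 186368, 188416⟩ ⟨0, 0, 137216, 139264⟩ :=
  ckI_sound (b (d (b (d (a (b z1 (d (b z2 z2) (b z2 z2))) z2) (a (b z3 z1) z2)) (d (a (b (d (a (b z2 z2) z2) (a (b z2 z2) z2)) (d (b z2 z2) (b z2 z2))) z2) (a (b (d (a (b z2 z2) z2) (a (b z2 z2) z2)) (d (b z2 z2) (b z2 z2))) z2))) (b (d (a (b z2 z3) z2) (a (b z2 z2) z2)) (d (a (b z1 (d (b z2 z2) (b z2 z2))) z2) (a (b z3 z1) z2)))) (d (b (d (a (b (d (a (b z2 z2) z2) (a (b z2 z2) z2)) (d (b z2 z2) (b z2 z2))) z2) (a (b (d (a (b z2 z2) z2) (a (b z2 z2) z2)) (d (b z2 z2) (b z2 z2))) z2)) (d (a (b (d (a (b z2 z2) z2) (a (b z2 z2) z2)) (d (b z2 z2) (b z2 z2))) z2) (a (b (d (a (b z2 z2) z2) (a (b z2 z2) z2)) (d (b z2 z2) (b z2 z2))) z2))) (b (d (a (b (d (a (b z2 z2) z2) (a (b z2 z2) z2)) (d (b z2 z2) (b z2 z2))) z2) (a (b (d (a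 (b z2 z2) z2) (a (b z2 z2) z2)) (d (b z2 z2) (b z2 z2))) z2)) (d (a (b (d (a (b z2 z2) z2) (a (b z2 z2) z2)) (d (b z2 z2) (b z2 z2))) z2) (a (b (d (a (b z2 z2) z2) (a (b z2 z2) z2)) (d (b z2 z2) (b z2 z2))) z2))))) _ _ (by decide +kernel)

theorem okI52 : CKI ⟨393216, 786432, 180224, 188416⟩ ⟨0, 0, 139264, 147456⟩ :=
  ckI_sound (b (d (b z2 z1) (b z2 z2)) (d (b (d (b z1 (d (a (b z3 (d (b z2 z2) z1)) z2) (a (b z2 z3) z2))) (b z2 (d (a (b z2 z2) z2) z3))) (d (b (d (b (d (a (b z2 z2) z2) (a (b z2 z2) z2)) (d (a (b z2 z3) z2) (a (b z2 z2) z2))) (b (d (a (b z2 z2) z2) (a (b z2 z2) z2)) (d (a (b z2 z2) z2) (a (b z2 z2) z2)))) (d (b (d (a (b z1 (d (b z2 z2) (b z2 z2))) z2) (a (b z3 z1) z2)) (d (a (b (d (a (b z2 z2) z2) (a (b z2 z2) z2)) (d (b z2 z2) (b z2 z2))) z2) (a (b (d (a (b z2 z2) z2) (a (b z2 z2) z2))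 (d (b z2 z2) (b z2 z2))) z2))) (b (d (a (b z2 z3) z2) (a (b z2 z3) z2)) (d (a (b z1 (d (b z2 z2) (b z2 z2))) z2) (a (b z3 z1) z2))))) (b (d (b z1 (d (a (b z2 z2) z2) (a (b z2 z2) z2))) (b z2 (d (a (b z2 z2) z2) z3))) (d (b (d (a (b z2 z2) z2) (a (b z2 z2) z2)) (d (a (b z3 z3) z2) (a (b z2 z3) z2))) (b (d (a (b z2 z2) z2) (a (b z2 z2) z2)) (d (a (b z2 z2) z2) (a (b z2 z2) z2))))))) (b (d (b z2 z2) z2) (d (b (d (b z2 z2) (b z2 z2)) (d (b (d (a (b z2 z2) z2) z1) (d (a (b z2 z2) z2) (a (b z2 z2) z2))) (b z3 (d (a (b z2 z2) z2) (a (b z2 z2) z2))))) (b z3 (d (b z2 z3) (b z2 z2))))))) _ _ (by decide +kernel)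

theorem okI53 : CKI ⟨393216, 786432, 188416, 192512⟩ ⟨0, 0, 131072, 135168⟩ :=
  ckI_sound (b (d (b (d (b (d (a (b (d (a (b z2 z2) z2) (a (b z2 z2) z2)) (d (b z2 z2) (b z2 z2))) z2) (a (b (d (a (b z2 z2) z2) (a (b z2 z2) z2)) (d (b z2 z2) (b z2 z2))) z2)) (d (a (b z3 z2) z2) (a (b z1 z3) z2))) (b (d (a (b (d (a (b z2 z2) z2) (a (b z2 z2) z2)) (d (b z2 z2) (b z2 z2))) z2) (a (b (d (a (b z2 z2) z2) (a (b z2 z2) z2)) (d (b z2 z2) (b z2 z2))) z2)) (d (a (b (d (a (b z2 z2) z2) (a (b z2 z2) z2)) z3) z2) (a (b (d (a (b z2 z2) z2) (a (b z2 z2) z2)) z1) z2)))) (d (b (d (b z2 z2) (b z2 z2)) (d (b z2 z2) (b z2 z2))) (b (d (b z2 z2) (b z3 z2)) (d (b z2 z2) (b z2 z2))))) (b (d (b (d (a (b (d (a (b z2 z2) z2) (a (b z2 z2) z2)) (d (b z2 z2) (b z2 z2))) z2) (a (b (d (a (b z2 z2) z2) (a (b z2 z2) z2)) (d (b z2 z2)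 (b z2 z2))) z2)) (d (a (b (d (a (b z2 z2) z2) (a (b z2 z2) z2)) (d (b z2 z2) (b z2 z2))) z2) (a (b (d (a (b z2 z2) z2) (a (b z2 z2) z2)) (d (b z2 z2) (b z2 z2))) z2))) (b (d (a (b (d (a (b z2 z2) z2) (a (b z2 z2) z2)) (d (b z2 z2) (b z2 z2))) z2) (a (b (d (a (b z2 z2) z2) (a (b z2 z2) z2)) (d (b z2 z2) (b z2 z2))) z2)) (d (a (b (d (a (b z2 z2) z2) (a (b z2 z2) z2)) (d (b z2 z2) (b z2 z2))) z2) (a (b (d (a (b z2 z2) z2) (a (b z2 z2) z2)) (d (b z2 z2) (b z2 z2))) z2)))) (d (b (d (b z3 z2) (b z1 z3)) (d (b z2 z2) (b z2 z2))) (b (d (b (d z1 (a (b z2 z2) z2)) z3) (b (d (a (b z2 z2) z2) (a (b z2 z2) z2)) z3)) (d (b z2 z2) (b z3 z2)))))) (d (b (d (b (d (b z2 z2) (b z2 z2)) (d (b z2 z2) (b z2 z2))) (b (d (b z2 z2) (b z2 z2)) (d (b z2 z2) (b z2 z2)))) (d (b (d (b z2 z2) (b z2 z2)) (d (b z2 z2) (b z2 z2))) (b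 (d (b z2 z2) (b z2 z2)) (d (b z2 z2) (b z2 z2))))) (b (d (b (d (b z2 z2) (b z2 z2)) (d (b z2 z2) (b z2 z2))) (b (d (b z2 z2) (b z2 z2)) (d (b z2 z2) (b z2 z2)))) (d (b (d (b z2 z2) (b z2 z2)) (d (b z2 z2) (b z2 z2))) (b (d (b z2 z2) (b z2 z2)) (d (b z2 z2) (b z2 z2))))))) _ _ (by decide +kernel)

theorem okI54 : CKI ⟨393216, 786432, 188416, 190464⟩ ⟨0, 0, 135168, 137216⟩ :=
  ckI_sound (b (d (b (d (a (b (d (a (b z2 z2) z2) (a (b z2 z2) z2)) (d (b z2 z2) (b z2 z2))) z2) (a (b (d (a (b z2 z2) z2) (a (b z2 z2) z2)) (d (b z2 z2) (b z2 z2))) z2)) (d (a (b (d (a (b z2 z2) z2) (a (b z2 z2) z2)) (d (b z2 z2) (b z2 z2))) z2) (a (b (d (a (b z2 z2) z2) (a (b z2 z2) z2)) (d (b z2 z2) (b z2 z2))) z2))) (b (d (a (b (d (a (b z2 z2) z2) (a (b z2 z2) z2)) (d (b z2 z2) (b z2 z2))) z2) (a (b (d (a (b z2 z2) z2) (a (b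 z2 z2) z2)) (d (b z2 z2) (b z2 z2))) z2)) (d (a (b (d (a (b z2 z2) z2) (a (b z2 z2) z2)) (d (b z2 z2) (b z2 z2))) z2) (a (b (d (a (b z2 z2) z2) (a (b z2 z2) z2)) (d (b z2 z2) (b z2 z2))) z2)))) (d (b (d (b (d (a (b z2 z2) z2) (a (b z2 z2) z2)) z1) (b (d (a (b z2 z2) z2) (a (b z2 z2) z2)) (d (a (b z2 z2) z2) (a (b z2 z2) z2)))) (d (b z3 z2) (b z3 z2))) (b (d (b (d (a (b z2 z2) z2) (a (b z2 z2) z2)) (d (a (b z2 z2) z2) (a (b z2 z2) z2))) (b (d (a (b z2 z2) z2) (a (b z2 z2) z2)) (d (a (b z2 z2) z2) (a (b z2 z2) z2)))) (d (b z1 z3) (b z1 z3))))) _ _ (by decide +kernel)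

theorem okI55 : CKI ⟨393216, 786432, 188416, 190464⟩ ⟨0, 0, 137216, 139264⟩ :=
  ckI_sound (b (d (b (d (a (b (d (a (b z2 z2) z2) (a (b z2 z2) z2)) (d (b z2 z2) (b z2 z2))) z2) (a (b (d (a (b z2 z2) z2) (a (b z2 z2) z2)) (d (b z2 z2) (b z2 z2))) z2)) (d (a (b (d (a (b z2 z2) z2) (a (b z2 z2) z2)) (d (b z2 z2) (b z2 z2))) z2) (a (b (d (a (b z2 z2) z2) (a (b z2 z2) z2)) (d (b z2 z2) (b z2 z2))) z2))) (b (d (a (b (d (a (b z2 z2) z2) (a (b z2 z2) z2)) (d (b z2 z2) (b z2 z2))) z2) (a (b (d (a (b z2 z2) z2) (a (b z2 z2) z2)) (d (b z2 z2) (b z2 z2))) z2)) (d (a (b (d (a (b z2 z2) z2) (a (b z2 z2) z2)) (d (b z2 z2) (b z2 z2))) z2) (a (b (d (a (b z2 z2) z2) (a (b z2 z2) z2)) (d (b z2 z2) (b z2 z2))) z2)))) (d (b (d (b (d (a (b z2 z2) z2) (a (b z2 z2) z2)) (d (a (b z2 z2) z2) (a (b z2 z2) z2))) (b (d (a (b z2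 z2) z2) (a (b z2 z2) z2)) (d (a (b z2 z2) z2) (a (b z2 z2) z2)))) (d (b (d z1 (a (b z2 z2) z2)) z3) (b (d (a (b z2 z2) z2) (a (b z2 z2) z2)) z3))) (b (d (b (d (a (b z2 z2) z2) (a (b z2 z2) z2)) (d (a (b z2 z2) z2) (a (b z2 z2) z2))) (b (d (a (b z2 z2) z2) (a (b z2 z2) z2)) (d (a (b z2 z2) z2) (a (b z2 z2) z2)))) (d (b (d (a (b z2 z2) z2) (a (b z2 z2) z2)) z1) (b (d (a (b z2 z2) z2) (a (b z2 z2) z2)) z1))))) _ _ (by decide +kernel)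

theorem okI56 : CKI ⟨393216, 786432, 190464, 192512⟩ ⟨0, 0, 135168, 139264⟩ :=
  ckI_sound (d (b (d (b (d (b z2 z2) (b z2 z2)) (d (b z2 z2) (b z2 z2))) (b (d (b z2 z2) (b z2 z2)) (d (b z2 z2) (b z2 z2)))) (d (b (d (b z2 z2) (b z2 z2)) (d (b z2 z2) (b z2 z2))) (b (d (b z2 z2) (b z2 z2)) (d (b z2 z2) (b z2 z2))))) (b (d (b (d (b z2 z2) (b z3 z2)) (d (b z2 z2) (b z2 z2))) (b (d (b z3 z2) (b z3 z2)) (d (b z2 z2) (b z2 z2)))) (d (b (d (b z2 z2) (b z2 z2)) (d (b z2 z2) (b z2 z2))) (b (d (b z2 z2) (b z2 z2)) (d (b z2 z2) (b z2 z2)))))) _ _ (by decide +kernel)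

theorem okI57 : CKI ⟨393216, 786432, 192512, 196608⟩ ⟨0, 0, 131072, 139264⟩ :=
  ckI_sound (d (b (d (b (d (b (d (b z2 z2) (b z2 z2)) (d (b z2 z2) (b z2 z2))) (b (d (b z2 z2) (b z2 z2)) (d (b z2 z2) (b z2 z2)))) (d (b (d (b z2 z2) (b z2 z2)) z3) (b (d (b z2 z2) (b z2 z2)) (d (b z2 z2) (b z2 z2))))) (b (d (b (d (b z2 z2) (b z2 z2)) (d (b z2 z2) (b z2 z2))) (b (d (b z2 z2) (b z2 z2)) (d (b z2 z2) (b z2 z2)))) (d (b (d (b z2 z2) (b z2 z2)) (d (b z2 z2) (b z2 z2))) (b (d (b z2 z2) (b z2 z2)) (d (b z2 z2) (b z2 z2)))))) (d (b (d (b z3 z2) (b z1 z3)) (d (b z2 z0) (b z2 z0))) (b (d (b (d (b z2 z2) (b z2 z2)) z1) (b (d (b z2 z2) (b z2 z2)) (d (b z2 z2) (b z2 z2)))) (d (b z3 z1) (b (d z1 (b z2 z2)) z1))))) (b (d (b (d (b (d (b z2 z2) (b z2 z2)) (d (b z2 z2) (b z2 z2))) (b (d (b z2 z2) (b z2 z2)) (d (b z2 z2)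 (b z2 z2)))) (d (b (d (b z2 z2) (b z2 z2)) (d (b z2 z2) (b z2 z2))) (b (d (b z2 z2) (b z2 z2)) (d (b z2 z2) (b z2 z2))))) (b (d (b (d (b z2 z2) (b z2 z2)) (d (b z2 z2) (b z2 z2))) (b (d (b z2 z2) (b z2 z2)) (d (b z2 z2) (b z2 z2)))) (d (b (d (b z2 z2) (b z2 z2)) (d (b z2 z2) (b z2 z2))) (b (d (b z2 z2) (b z2 z2)) (d (b z2 z2) (b z2 z2)))))) (d (b (d (b (d (b z2 z2) (b z2 z2)) (d (b z2 z2) (b z2 z2))) (b (d (b z2 z2) (b z2 z2)) (d (b z2 z2) (b z2 z2)))) (d (b (d (b z2 z2) (b z2 z2)) (d (b z2 z0) (b z2 z0))) (b (d (b z2 z2) (b z2 z2)) (d (b z2 z0) (b z2 z0))))) (b (d (b (d (b z2 z2) (b z2 z2)) (d (b z2 z2) (b z2 z2))) (b (d (b z2 z2) (b z2 z2)) (d (b z2 z2) (b z2 z2)))) (d (b (d (b z2 z2) (b z2 z2)) (d (b z2 z0) (b z2 z0))) (b (d (b z2 z2) (b z2 z2)) (d (b z2 z0) (b z2 z0)))))))) _ _ (by decide +kernel)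

theorem okI58 : CKI ⟨393216, 786432, 188416, 190464⟩ ⟨0, 0, 139264, 143360⟩ :=
  ckI_sound (d (b (d (b (d (a (b (d (a (b z2 z2) z2) (a (b z2 z2) z2)) (d (b z2 z2) (b z2 z2))) z2) (a (b (d (a (b z2 z2) z2) (a (b z2 z2) z2)) (d (b z2 z2) (b z2 z2))) z2)) (d (a (b (d (a (b z2 z2) z2) (a (b z2 z2) z2)) (d (b z2 z2) (b z2 z2))) z2) (a (b (d (a (b z2 z2) z2) (a (b z2 z2) z2)) (d (b z2 z2) (b z2 z2))) z2))) (b (d (a (b (d (a (b z2 z2) z2) (a (b z2 z2) z2)) (d (b z2 z2) (b z2 z2))) z2) (a (b (d (a (b z2 z2) z2) z1) (d (b z2 z2) (b z2 z2))) z2)) (d (a (b (d (a (b z2 z2) z2) (a (b z2 z2) z2)) (d (b z2 z2) (b z2 z2))) z2) (a (b (d (a (b z2 z2) z2) (a (b z2 z2) z2)) (d (b z2 z2) (b z2 z2))) z2)))) (d (b (d (b (d (a (b z2 z2) z2) (a (b z2 z2) z2)) (d (a (b z2 z2) z2) (a (b z2 z2) z2))) (b (d (a (b z2 z2) z2) (a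 (b z2 z2) z2)) (d (a (b z2 z2) z2) (a (b z2 z2) z2)))) (d (b (d (a (b z2 z2) z2) (a (b z2 z2) z2)) z1) (b (d (a (b z2 z2) z2) (a (b z2 z2) z2)) z1))) (b (d (b (d (a (b z2 z2) z2) (a (b z2 z2) z2)) (d (a (b z2 z2) z2) (a (b z2 z2) z2))) (b (d (a (b z2 z2) z2) (a (b z2 z2) z2)) (d (a (b z2 z2) z2) (a (b z2 z2) z2)))) (d (b (d (a (b z2 z2) z2) (a (b z2 z2) z2)) z1) (b (d (a (b z2 z2) z2) (a (b z2 z2) z2)) z1))))) (b (d (b (d (a (b z1 (d (b z2 z2) z1)) z2) (a (b z3 z1) z2)) (d (a (b (d (a (b z2 z2) z2) (a (b z2 z2) z2)) (d (b z2 z2) (b z2 z2))) z2) (a (b z1 (d (b z2 z2) z1)) z2))) (b (d (a (b z2 z3) z2) (a (b z2 z2) z2)) (d (a (b z3 z1) z2) (a (b z3 z3) z2)))) (d (b (d (b (d (a (b z2 z2) z2) (a (b z2 z2) z2)) (d (a (b z2 z2) z2) (a (b z2 z2) z2))) (b (d (a (b z2 z2) z2) (a (b z2 z2) z2)) (d (a (b z2 z2)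 z2) (a (b z2 z2) z2)))) (d (b (d (a (b z2 z2) z2) (a (b z2 z2) z2)) z1) (b (d (a (b z2 z2) z2) z1) z1))) (b (d (b z1 z1) (b z3 z1)) (d (b z1 z3) (b z3 z3)))))) _ _ (by decide +kernel)

theorem okI59 : CKI ⟨393216, 786432, 190464, 192512⟩ ⟨0, 0, 139264, 143360⟩ :=
  ckI_sound (d (b (d (b (d (b z3 z2) (b z3 z3)) (d (b z2 z2) (b z2 z2))) (b (d (b z3 z3) (b z3 z3)) (d (b z2 z2) (b z2 z2)))) (d (b (d (b z2 z2) (b z2 z2)) (d (b z2 z2) (b z2 z2))) (b (d (b z2 z2) (b z2 z2)) (d (b z2 z2) (b z2 z2))))) (b (d (b (d (b z3 z3) (b z3 z3)) (d (b z2 z2) (b z2 z2))) (b (d (b z3 z3) (b z3 z3)) (d (b z2 z2) (b z2 z2)))) (d (b (d (b z2 z2) (b z2 z2)) (d (b z2 z2) (b z2 z2))) (b (d (b z2 z2) (b z2 z2)) (d (b z2 z2) (b z2 z2)))))) _ _ (by decide +kernel)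

end Vale.Agent.Lib.P154Q5
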