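import Vale.Agent.Lib.P154Q5.CkI0
import Vale.Agent.Lib.P154Q5.CkI1
import Vale.Agent.Lib.P154Q5.CkI2
import Vale.Agent.Lib.P154Q5.CkI3
import Vale.Agent.Lib.P154Q5.CkI4
import Vale.Agent.Lib.P154Q5.CkI5
import Vale.Agent.Lib.P154Q5.CkI6
import Vale.Agent.Lib.P154Q5.CkI7
import Vale.Agent.Lib.P154Q5.CkI8
import Vale.Agent.Lib.P154Q5.CkI9
import Vale.Agent.Lib.P154Q5.CkI10
import Vale.Agent.Lib.P154Q5.CkI11
import Vale.Agent.Lib.P154Q5.CkI12
import Vale.Agent.Lib.P154Q5.CkI13
import Vale.Agent.Lib.P154Q5.CkI14
import Vale.Agent.Lib.P154Q5.CkI15
import Vale.Agent.Lib.P154Q5.CkI16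
import Vale.Agent.Lib.P154Q5.CkI17
import Vale.Agent.Lib.P154Q5.CkI18
import Vale.Agent.Lib.P154Q5.CkI19
import Vale.Agent.Lib.P154Q5.CkI20
import Vale.Agent.Lib.P154Q5.CkI21
import Vale.Agent.Lib.P154Q5.CkI22
import Vale.Agent.Lib.P154Q5.CkI23
import Vale.Agent.Lib.P154Q5.CkI24
import Vale.Agent.Lib.P154Q5.CkI25
import Vale.Agent.Lib.P154Q5.CkI26
import Vale.Agent.Lib.P154Q5.CkI27
import Vale.Agent.Lib.P154Q5.CkI28
import Vale.Agent.Lib.P154Q5.CkI29
import Vale.Agent.Lib.P154Q5.CkI30
import Vale.Agent.Lib.P154Q5.CkI31
import Vale.Agent.Lib.P154Q5.CkI32
import Vale.Agent.Lib.P154Q5.CkI33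
import Vale.Agent.Lib.P154Q5.CkI34
import Vale.Agent.Lib.P154Q5.CkI35
import Vale.Agent.Lib.P154Q5.CkI36
import Vale.Agent.Lib.P154Q5.CkI37
import Vale.Agent.Lib.P154Q5.CkI38
import Vale.Agent.Lib.P154Q5.CkI39
import Vale.Agent.Lib.P154Q5.CkI40
import Vale.Agent.Lib.P154Q5.CkI41
import Vale.Agent.Lib.P154Q5.CkI42
import Vale.Agent.Lib.P154Q5.CkI43
import Vale.Agent.Lib.P154Q5.CkI44
import Vale.Agent.Lib.P154Q5.CkI45
import Vale.Agent.Lib.P154Q5.CkI46
import Vale.Agent.Lib.P154Q5.CkI47
import Vale.Agent.Lib.P154Q5.CkI48
import Vale.Agent.Lib.P154Q5.CkI49
import Vale.Agent.Lib.P154Q5.CkI50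
import Vale.Agent.Lib.P154Q5.CkI51
import Vale.Agent.Lib.P154Q5.CkI52
import Vale.Agent.Lib.P154Q5.CkI53
import Vale.Agent.Lib.P154Q5.CkI54
import Vale.Agent.Lib.P154Q5.CkI55
import Vale.Agent.Lib.P154Q5.CkI56
import Vale.Agent.Lib.P154Q5.CkI57
import Vale.Agent.Lib.P154Q5.CkI58
import Vale.Agent.Lib.P154Q5.CkI59
import Vale.Agent.Lib.P154Q5.CkI60
import Vale.Agent.Lib.P154Q5.CkI61
import Vale.Agent.Lib.P154Q5.CkI62
import Vale.Agent.Lib.P154Q5.CkI63
import Vale.Agent.Lib.P154Q5.CkI64
import Vale.Agent.Lib.P154Q5.CkI65
import Vale.Agent.Lib.P154Q5.CkI66
import Vale.Agent.Lib.P154Q5.CkI67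
import Vale.Agent.Lib.P154Q5.CkI68
import Vale.Agent.Lib.P154Q5.CkI69
import Vale.Agent.Lib.P154Q5.CkI70
import Vale.Agent.Lib.P154Q5.CkI71
import Vale.Agent.Lib.P154Q5.CkI72
import Vale.Agent.Lib.P154Q5.CkI73
import Vale.Agent.Lib.P154Q5.CkI74
import Vale.Agent.Lib.P154Q5.CkI75
import Vale.Agent.Lib.P154Q5.CkI76
import Vale.Agent.Lib.P154Q5.CkI77
import Vale.Agent.Lib.P154Q5.CkI78
import Vale.Agent.Lib.P154Q5.CkI79
import Vale.Agent.Lib.P154Q5.CkI80
import Vale.Agent.Lib.P154Q5.CkI81
import Vale.Agent.Lib.P154Q5.CkI82
import Vale.Agent.Lib.P154Q5.CkI83
import Vale.Agent.Lib.P154Q5.CkI84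
import Vale.Agent.Lib.P154Q5.CkI85
import Vale.Agent.Lib.P154Q5.CkI86
import Vale.Agent.Lib.P154Q5.CkI87
import Vale.Agent.Lib.P154Q5.CkI88
import Vale.Agent.Lib.P154Q5.CkI89
import Vale.Agent.Lib.P154Q5.CkI90
import Vale.Agent.Lib.P154Q5.CkI91
import Vale.Agent.Lib.P154Q5.CkI92
import Vale.Agent.Lib.P154Q5.CkI93
import Vale.Agent.Lib.P154Q5.CkI94
import Vale.Agent.Lib.P154Q5.CkI95
import Vale.Agent.Lib.P154Q5.CkI96
import Vale.Agent.Lib.P154Q5.CkI97
import Vale.Agent.Lib.P154Q5.CkI98
import Vale.Agent.Lib.P154Q5.CkI99
import Vale.Agent.Lib.P154Q5.CkI100
import Vale.Agent.Lib.P154Q5.CkI101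
import Vale.Agent.Lib.P154Q5.CkI102
import Vale.Agent.Lib.P154Q5.CkI103
import Vale.Agent.Lib.P154Q5.CkI104
import Vale.Agent.Lib.P154Q5.CkI105
import Vale.Agent.Lib.P154Q5.CkI106
import Vale.Agent.Lib.P154Q5.CkI107
import Vale.Agent.Lib.P154Q5.CkI108
import Vale.Agent.Lib.P154Q5.CkI109
import Vale.Agent.Lib.P154Q5.CkI110
import Vale.Agent.Lib.P154Q5.CkI111
import Vale.Agent.Lib.P154Q5.CkI112
import Vale.Agent.Lib.P154Q5.CkI113
import Vale.Agent.Lib.P154Q5.CkI114
import Vale.Agent.Lib.P154Q5.CkI115
import Vale.Agent.Lib.P154Q5.CkI116
import Vale.Agent.Lib.P154Q5.CkI117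
import Vale.Agent.Lib.P154Q5.CkI118
import Vale.Agent.Lib.P154Q5.CkI119
import Vale.Agent.Lib.P154Q5.CkI120
import Vale.Agent.Lib.P154Q5.CkI121
import Vale.Agent.Lib.P154Q5.CkI122
import Vale.Agent.Lib.P154Q5.CkI123
import Vale.Agent.Lib.P154Q5.CkI124
import Vale.Agent.Lib.P154Q5.CkI125
import Vale.Agent.Lib.P154Q5.CkI126
import Vale.Agent.Lib.P154Q5.CkI127
import Vale.Agent.Lib.P154Q5.CkI128
import Vale.Agent.Lib.P154Q5.CkI129
import Vale.Agent.Lib.P154Q5.CkI130
import Vale.Agent.Lib.P154Q5.CkI131
import Vale.Agent.Lib.P154Q5.CkI132
import Vale.Agent.Lib.P154Q5.CkI133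

namespace Vale.Agent.Lib.P154Q5

set_option maxRecDepth 100000

theorem rootI0 : CKI ⟨0, 786432, 0, 65536⟩ ⟨0, 0, 0, 262144⟩ :=
  okI0

theorem rootI1 : CKI ⟨0, 786432, 65536, 196608⟩ ⟨0, 0, 0, 262144⟩ :=
  (split1S (split2T okI1 (split1S okI2 (split1T (split2T (split1T okI3 (split2T okI4 okI5)) okI6) okI7))) (split2T (split1T okI8 (split2T okI9 (split1T okI10 (split2T okI11 (split1T (split2T okI12 okI13) (split2T okI14 (split1T (split2T (split1T (split2T okI15 (split1T okI16 (split2T okI17 okI18))) (split2T okI19 okI20)) (split1T (split2T (split1T okI21 (split2T okI22 okI23)) okI24) (split2T (split1T (split2T okI25 okI26) okI27) (split1T (split2T okI28 okI29) (split2T okI30 okI31))))) (split2T okI32 (split1T okI33 okI34))))))))) (split1T okI35 (split2T (split1T (split2T okI36 (split1T (split2T okI37 (split1T okI38 okI39)) (split2T okI40 (split1T okI41 (split2T okI42 okI43))))) (split2T (split1T okI44 (split2T (split1T (split2T (split1T okI45 (split2T (split1T okI46 (split2T okI47 okI48)) (split1T okI49 (split2T okI50 okI51)))) okI52) (split2T (split1T (split2T okI53 (split1T (split2T okI54 okI55) okI56)) okI57) (split1T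 (split2T (split1T okI58 okI59) okI60) okI61))) (split1T okI62 (split2T (split1T okI63 okI64) okI65)))) (split1T (split2T (split1T okI66 okI67) (split1T (split2T okI68 (split1S okI69 (split1T okI70 okI71))) (split2T (split1T okI72 okI73) (split1T (split2T okI74 okI75) (split2T okI76 okI77))))) (split2T (split1T (split2T okI78 (split1T okI79 (split2T okI80 okI81))) (split2T okI82 (split1T okI83 okI84))) (split1T (split2T (split1T (split2T okI85 okI86) (split2T okI87 okI88)) (split1T (split2T okI89 okI90) (split2T okI91 (split1T okI92 okI93)))) (split2T (split1T (split2T okI94 (split1T okI95 (split2T okI96 okI97))) (split2T (split1T okI98 okI99) (split1T okI100 (split2T okI101 okI102)))) (split1T (split2T (split1T (split2T okI103 okI104) (split2T okI105 okI106)) (split1T (split2T okI107 okI108) (split2T okI109 okI110))) (split2T (split1T okI111 (split2T (split1T okI112 okI113) (split1T okI114 okI115))) (split1T (split2T okI116 okI117) (split2T (split1T okI118 (split2T okI119 okI120)) (split1T okI121 (split2T okI122 okI123)))))))))))) (split1T (split2T (split1T (split2T (split1T okI124 (split2T (split1T okI125 okI126) okI127))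 okI128) (split2T (split1T (split2T (split1T okI129 okI130) (split1T (split2T okI131 (split1S okI132 (split1T okI133 (split2T okI134 okI135)))) (split2T okI136 (split1S okI137 (split1T (split2T okI138 okI139) (split2T okI140 okI141)))))) (split2T (split1S okI142 (split1T okI143 (split2T okI144 okI145))) (split1S okI146 (split1T (split2T okI147 (split1T (split2T okI148 okI149) (split2T okI150 okI151))) (split2T okI152 (split1S okI153 (split1T (split2T okI154 okI155) (split2T okI156 okI157)))))))) (split1T (split2T (split1T okI158 (split2T (split1S okI159 (split1T okI160 (split2T okI161 okI162))) okI163)) okI164) (split2T (split1S okI165 (split1T (split2T (split1T (split2T okI166 (split1S okI167 (split1T (split2T okI168 okI169) okI170))) (split2T okI171 (split1S okI172 (split1T okI173 okI174)))) (split1T okI175 (split2T (split1S okI176 (split1T (split2T okI177 okI178) (split2T okI179 okI180))) okI181))) (split2T (split1S okI182 (split1T (split2T okI183 okI184) (split2T okI185 okI186))) (split1S okI187 (split1T (split2T (split1T (split2T okI188 okI189) (split2T okI190 okI191)) (split1T (split2T okI192 okI193) (split2T okI194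 (split1S okI195 (split1T okI196 okI197))))) (split2T (split1T (split2T okI198 okI199) okI200) (split1T (split2T okI201 okI202) (split2T okI203 okI204)))))))) (split1S okI205 (split1T okI206 (split2T (split1S okI207 (split1T okI208 (split2T (split1T (split2T (split1S okI209 (split1T (split2T okI210 okI211) okI212)) okI213) (split2T okI214 (split1S okI215 (split1T (split2T okI216 okI217) (split2T okI218 okI219))))) okI220))) okI221))))))) okI222) (split2T (split1T (split2T (split1T (split2T (split1S okI223 (split1T (split2T okI224 okI225) (split2T okI226 okI227))) (split1S okI228 (split1T (split2T okI229 (split1T okI230 okI231)) (split2T okI232 (split1T okI233 okI234))))) (split2T (split1T (split2T okI235 okI236) (split2T okI237 okI238)) (split1T (split2T okI239 (split1S okI240 (split1T okI241 okI242))) (split2T okI243 (split1T (split2T okI244 okI245) (split2T okI246 okI247)))))) (split1T (split2T (split1S okI248 (split1T (split2T (split1T (split2T okI249 okI250) (split2T okI251 okI252)) (split1T (split2T (split1T okI253 okI254) (split1T (split2T okI255 okI256) (split2T okI257 okI258))) (split2T okI259 (split1S okI260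 (split1T (split2T okI261 okI262) okI263))))) (split2T (split1T (split2T okI264 okI265) (split2T okI266 okI267)) (split1T (split2T okI268 okI269) (split2T okI270 okI271))))) (split1S okI272 (split1T (split2T (split1T (split2T (split1T (split2T okI273 (split1S okI274 (split1T okI275 okI276))) (split2T okI277 okI278)) (split1T (split2T (split1S okI279 (split1T (split2T okI280 okI281) (split2T okI282 okI283))) okI284) (split2T (split1S okI285 (split1T (split2T okI286 okI287) okI288)) (split1S okI289 (split1T (split2T okI290 okI291) (split2T okI292 okI293)))))) (split2T (split1S okI294 (split1T (split2T okI295 okI296) (split2T okI297 okI298))) (split1S okI299 (split1T (split2T okI300 (split1T (split2T okI301 okI302) okI303)) (split2T okI304 okI305))))) (split1T okI306 (split2T (split1S okI307 (split1T (split2T (split1T okI308 (split2T okI309 okI310)) okI311) (split2T (split1S okI312 (split1T (split2T okI313 okI314) okI315)) (split1S okI316 (split1T okI317 (split2T okI318 okI319)))))) okI320))) (split2T (split1T (split2T (split1S okI321 (split1T (split2T okI322 okI323) (split2T okI324 okI325))) (split1S okI326 (split1T (split2T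 okI327 okI328) (split2T okI329 okI330)))) (split2T (split1S okI331 (split1T okI332 okI333)) (split1S okI334 (split1T (split2T okI335 okI336) (split2T okI337 okI338))))) (split1T (split2T (split1S okI339 (split1T (split2T okI340 (split1S okI341 (split1T (split2T okI342 okI343) okI344))) (split2T okI345 okI346))) (split1S okI347 (split1T (split2T (split1S okI348 (split1T okI349 (split2T okI350 okI351))) okI352) (split2T (split1S okI353 (split1T (split2T okI354 okI355) okI356)) (split1S okI357 (split1T okI358 (split2T okI359 okI360))))))) (split2T (split1S okI361 (split1T (split2T okI362 okI363) (split2T okI364 okI365))) (split1S okI366 (split1T (split2T okI367 (split1S okI368 (split1T (split2T okI369 okI370) okI371))) (split2T okI372 okI373))))))))) (split2T (split1T (split2T (split1S okI374 (split1T (split2T okI375 okI376) (split2T okI377 okI378))) (split1S okI379 (split1T (split2T okI380 okI381) (split2T okI382 okI383)))) (split2T (split1T (split2T okI384 okI385) (split2T okI386 okI387)) (split1T (split2T okI388 okI389) (split2T okI390 okI391)))) (split1T (split2T (split1S okI392 (split1T (split2T okI393 (split1T okI394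 okI395)) (split2T okI396 okI397))) (split1S okI398 (split1T (split2T (split1T (split2T okI399 okI400) (split2T okI401 okI402)) (split1T (split2T okI403 okI404) (split2T okI405 okI406))) (split2T (split1S okI407 (split1T okI408 okI409)) (split1S okI410 (split1T (split2T okI411 okI412) (split2T okI413 okI414))))))) (split2T (split1T (split2T okI415 okI416) (split2T okI417 okI418)) (split1T (split2T okI419 okI420) (split2T okI421 okI422))))))) (split2T (split1T (split2T (split1T (split2T okI423 okI424) (split2T (split1T okI425 (split2T okI426 okI427)) (split1T okI428 (split2T okI429 okI430)))) (split1T (split2T (split1T okI431 (split2T okI432 okI433)) (split1T (split2T okI434 okI435) (split2T okI436 okI437))) (split2T (split1T (split2T okI438 okI439) (split2T okI440 okI441)) (split1T (split2T okI442 okI443) (split2T okI444 okI445))))) (split2T (split1T (split2T (split1T (split2T okI446 okI447) (split2T okI448 okI449)) (split1T (split2T okI450 okI451) (split2T okI452 okI453))) (split2T (split1T (split2T okI454 (split1T okI455 okI456)) (split2T (split1T okI457 (split2T (split1T okI458 okI459) (split1T okI460 okI461))) (split1T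 okI462 (split2T (split1T okI463 okI464) (split1T okI465 okI466))))) (split1T (split2T (split1T okI467 okI468) (split1T okI469 okI470)) (split2T (split1T okI471 (split2T (split1T okI472 okI473) (split1T okI474 (split2T okI475 okI476)))) (split1T okI477 (split2T (split1T okI478 (split2T okI479 okI480)) (split1T okI481 (split2T okI482 okI483)))))))) (split1T (split2T (split1T (split2T okI484 okI485) (split2T okI486 okI487)) (split1T (split2T okI488 okI489) (split2T okI490 okI491))) (split2T (split1T (split2T (split1T okI492 okI493) (split1T okI494 okI495)) (split2T (split1T (split2T okI496 okI497) (split2T (split1T okI498 (split2T okI499 okI500)) (split1T okI501 (split2T okI502 (split1T okI503 okI504))))) (split1T (split2T okI505 okI506) (split2T (split1T okI507 (split2T (split1T okI508 okI509) (split1T okI510 okI511))) (split1T okI512 (split2T (split1T okI513 okI514) (split1T okI515 okI516))))))) (split1T (split2T (split1T okI517 okI518) (split1T okI519 okI520)) (split2T (split1T (split2T okI521 okI522) (split2T (split1T okI523 (split2T (split1T okI524 okI525) (split1T okI526 okI527))) (split1T okI528 (split2T (split1T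 okI529 okI530) (split1T okI531 okI532))))) (split1T (split2T okI533 okI534) (split2T (split1T okI535 (split2T (split1T okI536 okI537) (split1T okI538 okI539))) (split1T okI540 (split2T (split1T okI541 (split2T okI542 okI543)) (split1T okI544 (split2T okI545 okI546)))))))))))) (split1T (split2T (split1T (split2T (split1T (split2T okI547 okI548) (split2T okI549 okI550)) (split1T (split2T okI551 okI552) (split2T okI553 okI554))) (split2T (split1T (split2T okI555 okI556) (split2T okI557 okI558)) (split1T (split2T okI559 okI560) (split2T okI561 okI562)))) (split1T (split2T (split1T (split2T okI563 okI564) (split2T okI565 okI566)) (split1T (split2T okI567 okI568) (split2T okI569 okI570))) (split2T (split1T (split2T okI571 okI572) (split2T okI573 okI574)) (split1T (split2T okI575 okI576) (split2T okI577 okI578))))) (split2T (split1T (split2T (split1T (split2T okI579 okI580) (split2T okI581 okI582)) (split1T (split2T okI583 okI584) (split2T okI585 okI586))) (split2T (split1T (split2T (split1T okI587 okI588) (split1T okI589 okI590)) (split2T (split1T (split2T okI591 okI592) (split2T (split1T okI593 (split2T (split1T okI594 (split2T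 okI595 okI596)) (split1T okI597 (split2T okI598 okI599)))) (split1T okI600 (split2T (split1T okI601 (split2T okI602 okI603)) (split1T okI604 (split2T okI605 okI606)))))) (split1T (split2T okI607 okI608) (split2T (split1T okI609 (split2T (split1T okI610 (split2T okI611 okI612)) (split1T okI613 (split2T okI614 okI615)))) (split1T okI616 (split2T (split1T okI617 (split2T okI618 okI619)) (split1T okI620 (split2T okI621 okI622)))))))) (split1T (split2T (split1T okI623 okI624) (split1T okI625 okI626)) (split2T (split1T (split2T okI627 okI628) (split2T (split1T okI629 (split2T (split1T okI630 (split2T okI631 okI632)) (split1T okI633 (split2T okI634 okI635)))) (split1T okI636 (split2T (split1T okI637 (split2T okI638 okI639)) (split1T okI640 (split2T (split1T okI641 okI642) (split1T okI643 okI644))))))) (split1T (split2T okI645 okI646) (split2T (split1T okI647 (split2T (split1T okI648 (split2T (split1T okI649 okI650) (split1T okI651 okI652))) (split1T okI653 (split2T (split1T okI654 okI655) (split1T okI656 okI657))))) (split1T (split2T okI658 okI659) (split2T (split1T okI660 (split2T (split1T okI661 okI662) (split1T okI663 okI664)))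 (split1T okI665 (split2T (split1T okI666 okI667) (split1T okI668 okI669))))))))))) (split1T (split2T (split1T (split2T okI670 okI671) (split2T okI672 okI673)) (split1T (split2T okI674 okI675) (split2T okI676 okI677))) (split2T (split1T (split2T (split1T okI678 okI679) (split1T (split2T okI680 okI681) okI682)) (split2T (split1T (split2T okI683 okI684) (split2T (split1T (split2T okI685 okI686) (split2T (split1T okI687 (split2T (split1T okI688 okI689) (split1T okI690 okI691))) (split1T okI692 (split2T (split1T okI693 okI694) (split1T okI695 okI696))))) (split1T (split2T okI697 okI698) (split2T (split1T okI699 (split2T (split1T okI700 okI701) (split1T okI702 okI703))) (split1T okI704 (split2T (split1T okI705 okI706) (split1T okI707 okI708))))))) (split1T (split2T okI709 (split1T okI710 okI711)) (split2T (split1T (split2T okI712 okI713) (split2T (split1T okI714 (split2T (split1T okI715 okI716) (split1T okI717 okI718))) (split1T okI719 (split2T (split1T okI720 okI721) (split1T okI722 okI723))))) (split1T (split2T okI724 okI725) (split2T (split1T okI726 (split2T (split1T okI727 okI728) (split1T okI729 okI730))) (split1T okI731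 (split2T (split1T okI732 okI733) (split1T okI734 okI735))))))))) (split1T (split2T (split1T (split2T okI736 okI737) okI738) (split1T (split2T okI739 okI740) okI741)) (split2T (split1T (split2T (split1T okI742 okI743) (split1T okI744 okI745)) (split2T (split1T (split2T okI746 okI747) (split2T (split1T okI748 (split2T (split1T okI749 okI750) (split1T okI751 okI752))) (split1T okI753 (split2T (split1T okI754 okI755) (split1T okI756 okI757))))) (split1T (split2T okI758 okI759) (split2T (split1T okI760 (split2T (split1T okI761 okI762) (split1T okI763 okI764))) (split1T okI765 (split2T (split1T okI766 (split2T okI767 okI768)) (split1T okI769 (split2T okI770 okI771)))))))) (split1T (split2T (split1T okI772 okI773) (split1T okI774 okI775)) (split2T (split1T (split2T okI776 okI777) (split2T (split1T okI778 (split2T (split1T okI779 (split2T okI780 okI781)) (split1T okI782 (split2T okI783 okI784)))) (split1T okI785 (split2T (split1T okI786 (split2T okI787 okI788)) (split1T okI789 (split2T okI790 okI791)))))) (split1T (split2T okI792 okI793) (split2T (split1T okI794 (split2T (split1T okI795 (split2T okI796 okI797)) (split1T okI798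 (split2T okI799 okI800)))) (split1T okI801 (split2T (split1T okI802 (split2T okI803 okI804)) (split1T okI805 (split2T okI806 okI807)))))))))))))))) (split1T (split2T (split1T (split2T (split1S okI808 (split1T okI809 (split2T (split1T okI810 (split2T (split1S okI811 (split1T (split2T (split1S okI812 (split1T okI813 (split2T okI814 okI815))) okI816) (split2T (split1S okI817 (split1T okI818 okI819)) (split1S okI820 (split1T okI821 (split2T okI822 okI823)))))) okI824)) okI825))) okI826) (split2T (split1T (split2T (split1S okI827 (split1T (split2T (split1T (split2T okI828 okI829) (split2T okI830 okI831)) (split1T (split2T (split1T okI832 okI833) okI834) (split2T okI835 okI836))) (split2T (split1S okI837 (split1T (split2T okI838 okI839) (split2T okI840 okI841))) (split1S okI842 (split1T (split2T okI843 okI844) (split2T okI845 okI846)))))) (split1S okI847 (split1T okI848 (split2T (split1S okI849 (split1T okI850 (split2T okI851 okI852))) okI853)))) (split2T (split1T (split2T (split1S okI854 (split1T (split2T okI855 okI856) okI857)) (split1S okI858 (split1T (split2T okI859 okI860) (split2T okI861 okI862)))) (split2T okI863 (split1S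 okI864 (split1T okI865 okI866)))) (split1T (split2T (split1S okI867 (split1T (split2T okI868 okI869) (split2T okI870 okI871))) (split1S okI872 (split1T okI873 (split2T okI874 okI875)))) (split2T (split1S okI876 (split1T (split2T okI877 okI878) okI879)) (split1S okI880 (split1T (split2T okI881 okI882) (split2T okI883 okI884))))))) (split1T okI885 (split2T (split1T okI886 (split2T (split1S okI887 (split1T (split2T okI888 okI889) (split2T okI890 okI891))) okI892)) okI893)))) okI894) (split2T (split1T (split2T (split1T (split2T (split1T (split2T okI895 okI896) (split2T okI897 okI898)) (split1T (split2T okI899 okI900) (split2T okI901 okI902))) (split2T (split1T (split2T okI903 okI904) (split2T okI905 okI906)) (split1T (split2T okI907 okI908) (split2T okI909 okI910)))) (split1T (split2T (split1T (split2T (split1S okI911 (split1T (split2T okI912 okI913) okI914)) (split1S okI915 (split1T (split2T okI916 okI917) okI918))) (split2T okI919 okI920)) (split1T okI921 (split2T okI922 okI923))) (split2T (split1T (split2T okI924 okI925) (split2T okI926 okI927)) (split1T (split2T okI928 okI929) (split2T okI930 okI931))))) (split2T (split1T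 (split2T (split1T (split2T okI932 okI933) (split2T okI934 okI935)) (split1T (split2T okI936 okI937) (split2T okI938 okI939))) (split2T (split1T (split2T (split1T (split2T okI940 okI941) okI942) (split1T (split2T okI943 okI944) okI945)) (split2T (split1T (split2T (split1T okI946 okI947) (split1T okI948 okI949)) (split2T (split1T (split2T okI950 okI951) (split2T (split1T okI952 (split2T (split1T okI953 (split2T okI954 okI955)) (split1T okI956 (split2T okI957 okI958)))) (split1T okI959 (split2T (split1T okI960 (split2T okI961 okI962)) (split1T okI963 (split2T okI964 okI965)))))) (split1T (split2T okI966 okI967) (split2T (split1T okI968 (split2T (split1T okI969 (split2T okI970 okI971)) (split1T okI972 (split2T okI973 okI974)))) (split1T okI975 (split2T (split1T okI976 (split2T okI977 okI978)) (split1T okI979 (split2T okI980 okI981)))))))) (split1T (split2T (split1T okI982 okI983) (split1T okI984 okI985)) (split2T (split1T (split2T okI986 okI987) (split2T (split1T okI988 (split2T (split1T okI989 (split2T okI990 okI991)) (split1T okI992 (split2T okI993 okI994)))) (split1T okI995 (split2T (split1T okI996 (split2T okI997 okI998))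 (split1T okI999 (split2T okI1000 okI1001)))))) (split1T (split2T okI1002 okI1003) (split2T (split1T okI1004 (split2T (split1T okI1005 (split2T okI1006 okI1007)) (split1T okI1008 (split2T okI1009 okI1010)))) (split1T okI1011 (split2T (split1T okI1012 (split2T okI1013 okI1014)) (split1T okI1015 (split2T okI1016 okI1017)))))))))) (split1T (split2T (split1T (split2T okI1018 okI1019) okI1020) (split1T (split2T okI1021 okI1022) okI1023)) (split2T (split1T (split2T (split1T okI1024 okI1025) (split1T okI1026 okI1027)) (split2T (split1T (split2T okI1028 okI1029) (split2T (split1T okI1030 (split2T (split1T okI1031 (split2T okI1032 okI1033)) (split1T okI1034 (split2T okI1035 okI1036)))) (split1T okI1037 (split2T (split1T okI1038 (split2T okI1039 okI1040)) (split1T okI1041 (split2T okI1042 okI1043)))))) (split1T (split2T okI1044 okI1045) (split2T (split1T okI1046 (split2T (split1T okI1047 (split2T okI1048 okI1049)) (split1T okI1050 (split2T okI1051 okI1052)))) (split1T okI1053 (split2T (split1T okI1054 (split2T okI1055 okI1056)) (split1T okI1057 (split2T okI1058 okI1059)))))))) (split1T (split2T (split1T okI1060 okI1061) (split1T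 okI1062 okI1063)) (split2T (split1T (split2T okI1064 okI1065) (split2T (split1T okI1066 (split2T (split1T okI1067 (split2T okI1068 okI1069)) (split1T okI1070 (split2T okI1071 okI1072)))) (split1T okI1073 (split2T (split1T okI1074 (split2T okI1075 okI1076)) (split1T okI1077 (split2T okI1078 okI1079)))))) (split1T (split2T okI1080 okI1081) (split2T (split1T okI1082 (split2T (split1T okI1083 (split2T okI1084 okI1085)) (split1T okI1086 (split2T okI1087 okI1088)))) (split1T okI1089 (split2T (split1T okI1090 (split2T okI1091 okI1092)) (split1T okI1093 (split2T okI1094 okI1095)))))))))))) (split1T (split2T (split1T (split2T okI1096 okI1097) (split2T (split1T okI1098 okI1099) (split1T okI1100 okI1101))) (split1T (split2T okI1102 okI1103) (split2T (split1T okI1104 okI1105) (split1T okI1106 (split2T okI1107 okI1108))))) (split2T (split1T (split2T (split1T (split2T okI1109 okI1110) okI1111) (split1T (split2T okI1112 okI1113) okI1114)) (split2T (split1T (split2T (split1T okI1115 okI1116) (split1T okI1117 okI1118)) (split2T (split1T (split2T okI1119 okI1120) (split2T (split1T okI1121 (split2T (split1T okI1122 (split2T okI1123 okI1124))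 (split1T okI1125 (split2T okI1126 okI1127)))) (split1T okI1128 (split2T (split1T okI1129 (split2T (split1T okI1130 okI1131) (split1T okI1132 okI1133))) (split1T okI1134 (split2T (split1T okI1135 okI1136) (split1T okI1137 okI1138))))))) (split1T (split2T okI1139 okI1140) (split2T (split1T okI1141 (split2T (split1T okI1142 (split2T (split1T okI1143 okI1144) (split1T okI1145 okI1146))) (split1T okI1147 (split2T (split1T okI1148 okI1149) (split1T okI1150 okI1151))))) (split1T okI1152 (split2T (split1T okI1153 (split2T (split1T okI1154 okI1155) (split1T okI1156 okI1157))) (split1T okI1158 (split2T (split1T okI1159 okI1160) (split1T okI1161 okI1162))))))))) (split1T (split2T (split1T okI1163 okI1164) (split1T okI1165 okI1166)) (split2T (split1T (split2T okI1167 okI1168) (split2T (split1T okI1169 (split2T (split1T okI1170 (split2T (split1T okI1171 okI1172) (split1T okI1173 okI1174))) (split1T okI1175 (split2T (split1T okI1176 okI1177) (split1T okI1178 okI1179))))) (split1T okI1180 (split2T (split1T okI1181 (split2T (split1T okI1182 okI1183) (split1T okI1184 okI1185))) (split1T okI1186 (split2T (split1T okI1187 okI1188) (split1T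 okI1189 okI1190))))))) (split1T (split2T okI1191 okI1192) (split2T (split1T (split2T okI1193 okI1194) (split2T (split1T okI1195 (split2T (split1T okI1196 okI1197) (split1T okI1198 okI1199))) (split1T okI1200 (split2T (split1T okI1201 okI1202) (split1T okI1203 okI1204))))) (split1T (split2T okI1205 okI1206) (split2T (split1T okI1207 (split2T (split1T okI1208 okI1209) (split1T okI1210 okI1211))) (split1T okI1212 (split2T (split1T okI1213 okI1214) (split1T okI1215 okI1216))))))))))) (split1T (split2T (split1T (split2T okI1217 okI1218) okI1219) (split1T (split2T okI1220 okI1221) okI1222)) (split2T (split1T (split2T (split1T okI1223 okI1224) (split1T okI1225 okI1226)) (split2T (split1T (split2T okI1227 okI1228) (split2T (split1T (split2T okI1229 okI1230) (split2T (split1T okI1231 (split2T (split1T okI1232 okI1233) (split1T okI1234 okI1235))) (split1T okI1236 (split2T (split1T okI1237 okI1238) (split1T okI1239 okI1240))))) (split1T (split2T okI1241 okI1242) (split2T (split1T okI1243 (split2T (split1T okI1244 okI1245) (split1T okI1246 okI1247))) (split1T okI1248 (split2T (split1T okI1249 okI1250) (split1T okI1251 okI1252)))))))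 (split1T (split2T okI1253 okI1254) (split2T (split1T (split2T okI1255 okI1256) (split2T (split1T okI1257 (split2T (split1T okI1258 okI1259) (split1T okI1260 okI1261))) (split1T okI1262 (split2T (split1T okI1263 okI1264) (split1T okI1265 okI1266))))) (split1T (split2T okI1267 okI1268) (split2T (split1T okI1269 (split2T (split1T okI1270 okI1271) (split1T okI1272 okI1273))) (split1T okI1274 (split2T (split1T okI1275 okI1276) (split1T okI1277 okI1278))))))))) (split1T (split2T (split1T okI1279 okI1280) (split1T okI1281 okI1282)) (split2T (split1T (split2T okI1283 okI1284) (split2T (split1T (split2T okI1285 okI1286) (split2T (split1T okI1287 (split2T (split1T okI1288 okI1289) (split1T okI1290 okI1291))) (split1T okI1292 (split2T (split1T okI1293 okI1294) (split1T okI1295 okI1296))))) (split1T (split2T okI1297 okI1298) (split2T (split1T okI1299 (split2T (split1T okI1300 okI1301) (split1T okI1302 okI1303))) (split1T okI1304 (split2T (split1T okI1305 okI1306) (split1T okI1307 okI1308))))))) (split1T (split2T okI1309 okI1310) (split2T (split1T (split2T okI1311 okI1312) (split2T (split1T okI1313 (split2T (split1T okI1314 okI1315)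 (split1T okI1316 okI1317))) (split1T okI1318 (split2T (split1T okI1319 okI1320) (split1T okI1321 okI1322))))) (split1T (split2T okI1323 okI1324) (split2T (split1T okI1325 (split2T (split1T okI1326 okI1327) (split1T okI1328 okI1329))) (split1T okI1330 (split2T (split1T okI1331 okI1332) (split1T okI1333 okI1334))))))))))))))) (split1T (split2T (split1T okI1335 (split2T (split1T okI1336 (split2T okI1337 okI1338)) okI1339)) okI1340) (split2T (split1T (split2T (split1T (split2T okI1341 okI1342) (split2T (split1T okI1343 (split2T okI1344 okI1345)) (split1T okI1346 (split2T okI1347 okI1348)))) (split1T okI1349 (split2T (split1T okI1350 (split2T okI1351 okI1352)) (split1T okI1353 (split2T okI1354 okI1355))))) (split2T (split1T (split2T (split1T (split2T okI1356 okI1357) okI1358) (split1T (split2T okI1359 okI1360) okI1361)) (split2T (split1T (split2T (split1T okI1362 okI1363) (split1T okI1364 okI1365)) (split2T (split1T (split2T okI1366 okI1367) (split2T (split1T (split2T okI1368 okI1369) (split2T (split1T okI1370 (split2T (split1T okI1371 okI1372) (split1T okI1373 okI1374))) (split1T okI1375 (split2T (split1T okI1376 okI1377)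 (split1T okI1378 okI1379))))) (split1T (split2T okI1380 okI1381) (split2T (split1T okI1382 (split2T (split1T okI1383 okI1384) (split1T okI1385 okI1386))) (split1T okI1387 (split2T (split1T okI1388 okI1389) (split1T okI1390 okI1391))))))) (split1T (split2T okI1392 okI1393) (split2T (split1T (split2T okI1394 okI1395) (split2T (split1T okI1396 (split2T (split1T okI1397 okI1398) (split1T okI1399 okI1400))) (split1T okI1401 (split2T (split1T okI1402 okI1403) (split1T okI1404 okI1405))))) (split1T (split2T okI1406 okI1407) (split2T (split1T okI1408 (split2T (split1T okI1409 okI1410) (split1T okI1411 okI1412))) (split1T okI1413 (split2T (split1T okI1414 okI1415) (split1T okI1416 okI1417))))))))) (split1T (split2T (split1T okI1418 okI1419) (split1T okI1420 okI1421)) (split2T (split1T (split2T okI1422 okI1423) (split2T (split1T (split2T okI1424 okI1425) (split2T (split1T okI1426 (split2T (split1T okI1427 okI1428) (split1T okI1429 okI1430))) (split1T okI1431 (split2T (split1T okI1432 okI1433) (split1T okI1434 okI1435))))) (split1T (split2T okI1436 okI1437) (split2T (split1T okI1438 (split2T (split1T okI1439 okI1440) (split1T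 okI1441 okI1442))) (split1T okI1443 (split2T (split1T okI1444 okI1445) (split1T okI1446 okI1447))))))) (split1T (split2T okI1448 okI1449) (split2T (split1T (split2T okI1450 okI1451) (split2T (split1T okI1452 (split2T (split1T okI1453 okI1454) (split1T okI1455 okI1456))) (split1T okI1457 (split2T (split1T okI1458 okI1459) (split1T okI1460 okI1461))))) (split1T (split2T okI1462 okI1463) (split2T (split1T okI1464 (split2T (split1T okI1465 okI1466) (split1T okI1467 okI1468))) (split1T okI1469 (split2T (split1T okI1470 okI1471) (split1T okI1472 okI1473))))))))))) (split1T (split2T (split1T (split2T okI1474 okI1475) okI1476) (split1T (split2T okI1477 okI1478) okI1479)) (split2T (split1T (split2T (split1T okI1480 okI1481) (split1T okI1482 okI1483)) (split2T (split1T (split2T okI1484 okI1485) (split2T (split1T (split2T okI1486 okI1487) (split2T (split1T okI1488 (split2T (split1T okI1489 (split2T okI1490 okI1491)) (split1T okI1492 (split2T okI1493 okI1494)))) (split1T okI1495 (split2T (split1T okI1496 (split2T okI1497 okI1498)) (split1T okI1499 (split2T okI1500 okI1501)))))) (split1T (split2T okI1502 okI1503) (split2T (split1T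 okI1504 (split2T (split1T okI1505 (split2T okI1506 okI1507)) (split1T okI1508 (split2T okI1509 okI1510)))) (split1T okI1511 (split2T (split1T okI1512 (split2T okI1513 okI1514)) (split1T okI1515 (split2T okI1516 okI1517)))))))) (split1T (split2T okI1518 okI1519) (split2T (split1T (split2T okI1520 okI1521) (split2T (split1T okI1522 (split2T (split1T okI1523 (split2T okI1524 okI1525)) (split1T okI1526 (split2T okI1527 okI1528)))) (split1T okI1529 (split2T (split1T okI1530 (split2T okI1531 okI1532)) (split1T okI1533 (split2T okI1534 okI1535)))))) (split1T (split2T okI1536 okI1537) (split2T (split1T okI1538 (split2T (split1T okI1539 (split2T okI1540 okI1541)) (split1T okI1542 (split2T okI1543 okI1544)))) (split1T okI1545 (split2T (split1T okI1546 (split2T okI1547 okI1548)) (split1T okI1549 (split2T okI1550 okI1551)))))))))) (split1T (split2T (split1T okI1552 okI1553) (split1T okI1554 okI1555)) (split2T (split1T (split2T okI1556 okI1557) (split2T (split1T (split2T okI1558 okI1559) (split2T (split1T okI1560 (split2T (split1T okI1561 (split2T okI1562 okI1563)) (split1T okI1564 (split2T okI1565 okI1566)))) (split1T okI1567 (split2T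 (split1T okI1568 (split2T okI1569 okI1570)) (split1T okI1571 (split2T okI1572 okI1573)))))) (split1T (split2T okI1574 okI1575) (split2T (split1T okI1576 (split2T (split1T okI1577 (split2T okI1578 okI1579)) (split1T okI1580 (split2T okI1581 okI1582)))) (split1T okI1583 (split2T (split1T okI1584 (split2T okI1585 okI1586)) (split1T okI1587 (split2T okI1588 okI1589)))))))) (split1T (split2T okI1590 okI1591) (split2T (split1T (split2T okI1592 okI1593) (split2T (split1T okI1594 (split2T (split1T okI1595 (split2T okI1596 okI1597)) (split1T okI1598 (split2T okI1599 okI1600)))) (split1T okI1601 (split2T (split1T okI1602 (split2T okI1603 okI1604)) (split1T okI1605 (split2T okI1606 okI1607)))))) (split1T (split2T okI1608 okI1609) (split2T (split1T okI1610 (split2T (split1T okI1611 (split2T okI1612 okI1613)) (split1T okI1614 (split2T okI1615 okI1616)))) (split1T okI1617 (split2T (split1T okI1618 (split2T okI1619 okI1620)) (split1T okI1621 (split2T okI1622 okI1623)))))))))))))) (split1T (split2T (split1T okI1624 (split2T (split1T okI1625 (split2T okI1626 okI1627)) okI1628)) okI1629) (split2T (split1T (split2T (split1T (split2T okI1630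 okI1631) okI1632) (split1T okI1633 okI1634)) (split2T (split1T (split2T (split1T okI1635 okI1636) (split1T okI1637 okI1638)) (split2T (split1T (split2T (split1T okI1639 okI1640) (split1T okI1641 okI1642)) (split2T (split1T (split2T okI1643 okI1644) (split2T (split1T okI1645 (split2T (split1T okI1646 (split2T okI1647 okI1648)) (split1T okI1649 (split2T okI1650 okI1651)))) (split1T okI1652 (split2T (split1T okI1653 (split2T okI1654 okI1655)) (split1T okI1656 (split2T okI1657 okI1658)))))) (split1T (split2T okI1659 okI1660) (split2T (split1T okI1661 (split2T (split1T okI1662 (split2T okI1663 okI1664)) (split1T okI1665 (split2T okI1666 okI1667)))) (split1T okI1668 (split2T (split1T okI1669 (split2T okI1670 okI1671)) (split1T okI1672 (split2T okI1673 okI1674)))))))) (split1T (split2T (split1T okI1675 okI1676) (split1T okI1677 okI1678)) (split2T (split1T (split2T okI1679 okI1680) (split2T (split1T okI1681 (split2T (split1T okI1682 (split2T okI1683 okI1684)) (split1T okI1685 (split2T okI1686 okI1687)))) (split1T okI1688 (split2T (split1T okI1689 (split2T okI1690 okI1691)) (split1T okI1692 (split2T okI1693 okI1694)))))) (split1T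 (split2T okI1695 okI1696) (split2T (split1T okI1697 (split2T (split1T okI1698 (split2T okI1699 okI1700)) (split1T okI1701 (split2T okI1702 okI1703)))) (split1T okI1704 (split2T (split1T okI1705 (split2T okI1706 okI1707)) (split1T okI1708 (split2T okI1709 okI1710)))))))))) (split1T (split2T (split1T okI1711 okI1712) (split1T okI1713 okI1714)) (split2T (split1T (split2T (split1T okI1715 okI1716) (split1T okI1717 okI1718)) (split2T (split1T (split2T okI1719 okI1720) (split2T (split1T okI1721 (split2T (split1T okI1722 (split2T okI1723 okI1724)) (split1T okI1725 (split2T okI1726 okI1727)))) (split1T okI1728 (split2T (split1T okI1729 (split2T okI1730 okI1731)) (split1T okI1732 (split2T okI1733 okI1734)))))) (split1T (split2T okI1735 okI1736) (split2T (split1T okI1737 (split2T (split1T okI1738 (split2T okI1739 okI1740)) (split1T okI1741 (split2T okI1742 okI1743)))) (split1T okI1744 (split2T (split1T okI1745 (split2T okI1746 okI1747)) (split1T okI1748 (split2T okI1749 okI1750)))))))) (split1T (split2T (split1T okI1751 okI1752) (split1T okI1753 okI1754)) (split2T (split1T (split2T okI1755 okI1756) (split2T (split1T okI1757 (split2T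 (split1T okI1758 (split2T okI1759 okI1760)) (split1T okI1761 (split2T okI1762 okI1763)))) (split1T okI1764 (split2T (split1T okI1765 (split2T okI1766 okI1767)) (split1T okI1768 (split2T okI1769 okI1770)))))) (split1T (split2T okI1771 okI1772) (split2T (split1T okI1773 (split2T (split1T okI1774 (split2T okI1775 okI1776)) (split1T okI1777 (split2T okI1778 okI1779)))) (split1T okI1780 (split2T (split1T okI1781 (split2T okI1782 okI1783)) (split1T okI1784 (split2T okI1785 okI1786)))))))))))) (split1T okI1787 (split2T (split1T (split2T (split1T okI1788 okI1789) (split1T okI1790 okI1791)) (split2T (split1T (split2T (split1T okI1792 okI1793) (split1T okI1794 okI1795)) (split2T (split1T (split2T okI1796 okI1797) (split2T (split1T okI1798 (split2T (split1T okI1799 (split2T okI1800 okI1801)) (split1T okI1802 (split2T okI1803 (split1T okI1804 okI1805))))) (split1T okI1806 (split2T (split1T okI1807 (split2T (split1T okI1808 okI1809) (split1T okI1810 okI1811))) (split1T okI1812 (split2T (split1T okI1813 okI1814) (split1T okI1815 okI1816))))))) (split1T (split2T okI1817 okI1818) (split2T (split1T okI1819 (split2T (split1T okI1820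 (split2T (split1T okI1821 okI1822) (split1T okI1823 okI1824))) (split1T okI1825 (split2T (split1T okI1826 okI1827) (split1T okI1828 okI1829))))) (split1T okI1830 (split2T (split1T okI1831 (split2T (split1T okI1832 okI1833) (split1T okI1834 okI1835))) (split1T okI1836 (split2T (split1T okI1837 okI1838) (split1T okI1839 okI1840))))))))) (split1T (split2T (split1T okI1841 okI1842) (split1T okI1843 okI1844)) (split2T (split1T (split2T okI1845 okI1846) (split2T (split1T okI1847 (split2T (split1T okI1848 (split2T (split1T okI1849 okI1850) (split1T okI1851 okI1852))) (split1T okI1853 (split2T (split1T okI1854 okI1855) (split1T okI1856 okI1857))))) (split1T okI1858 (split2T (split1T okI1859 (split2T (split1T okI1860 okI1861) (split1T okI1862 okI1863))) (split1T okI1864 (split2T (split1T okI1865 okI1866) (split1T okI1867 okI1868))))))) (split1T (split2T okI1869 okI1870) (split2T (split1T (split2T okI1871 okI1872) (split2T (split1T okI1873 (split2T (split1T okI1874 okI1875) (split1T okI1876 okI1877))) (split1T okI1878 (split2T (split1T okI1879 okI1880) (split1T okI1881 okI1882))))) (split1T (split2T okI1883 okI1884) (split2T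 (split1T okI1885 (split2T (split1T okI1886 okI1887) (split1T okI1888 okI1889))) (split1T okI1890 (split2T (split1T okI1891 okI1892) (split1T okI1893 okI1894))))))))))) (split1T okI1895 (split2T (split1T (split2T (split1T okI1896 okI1897) (split1T okI1898 okI1899)) (split2T (split1T (split2T okI1900 okI1901) (split2T (split1T (split2T okI1902 okI1903) (split2T (split1T okI1904 (split2T (split1T okI1905 okI1906) (split1T okI1907 okI1908))) (split1T okI1909 (split2T (split1T okI1910 okI1911) (split1T okI1912 okI1913))))) (split1T (split2T okI1914 okI1915) (split2T (split1T okI1916 (split2T (split1T okI1917 okI1918) (split1T okI1919 okI1920))) (split1T okI1921 (split2T (split1T okI1922 okI1923) (split1T okI1924 okI1925))))))) (split1T (split2T okI1926 okI1927) (split2T (split1T (split2T okI1928 okI1929) (split2T (split1T okI1930 (split2T (split1T okI1931 okI1932) (split1T okI1933 okI1934))) (split1T okI1935 (split2T (split1T okI1936 okI1937) (split1T okI1938 okI1939))))) (split1T (split2T okI1940 okI1941) (split2T (split1T okI1942 (split2T (split1T okI1943 okI1944) (split1T okI1945 okI1946))) (split1T okI1947 (split2T (split1T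 okI1948 okI1949) (split1T okI1950 okI1951))))))))) (split1T okI1952 (split2T (split1T (split2T okI1953 okI1954) (split2T (split1T (split2T okI1955 okI1956) (split2T (split1T okI1957 (split2T (split1T okI1958 okI1959) (split1T okI1960 okI1961))) (split1T okI1962 (split2T (split1T okI1963 okI1964) (split1T okI1965 okI1966))))) (split1T (split2T okI1967 okI1968) (split2T (split1T okI1969 (split2T (split1T okI1970 okI1971) (split1T okI1972 okI1973))) (split1T okI1974 (split2T (split1T okI1975 okI1976) (split1T okI1977 okI1978))))))) (split1T okI1979 (split2T (split1T (split2T okI1980 okI1981) (split2T (split1T okI1982 (split2T (split1T okI1983 okI1984) (split1T okI1985 okI1986))) (split1T okI1987 (split2T (split1T okI1988 okI1989) (split1T okI1990 okI1991))))) (split1T okI1992 (split2T (split1T okI1993 (split2T (split1T okI1994 okI1995) (split1T okI1996 okI1997))) (split1T okI1998 (split2T (split1T okI1999 okI2000) okI2001))))))))))))))))))))))))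

end Vale.Agent.Lib.P154Q5
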