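import Vale.Agent.Lib.P154Q5.Leaf

namespace Vale.Agent.Lib.P154Q5

set_option maxRecDepth 100000
set_option exponentiation.threshold 1000

/-- positive part of the contraction -/
def ctPA (v : V) : V :=
  ⟨Nat.add (Nat.mul 72065389910400 v.a0) (Nat.add (Nat.mul 86225937367680 v.a1) (Nat.add (Nat.mul 18478198833408 v.a2) (Nat.mul 480050982792 v.a7))),
   Nat.add (Nat.mul 86225937367680 v.a0) (Nat.add (Nat.mul 77527584473472 v.a1) (Nat.add (Nat.mul 11394442209024 v.a2) (Nat.add (Nat.mul 471416038128 v.a6) (Nat.mul 315033440184 v.a7)))),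
   Nat.add (Nat.mul 18478198833408 v.a0) (Nat.add (Nat.mul 11394442209024 v.a1) (Nat.add (Nat.mul 4659969539200 v.a2) (Nat.add (Nat.mul 4012616858048 v.a4) (Nat.add (Nat.mul 413792766144 v.a5) (Nat.add (Nat.mul 4603932659184 v.a6) (Nat.mul 628516454400 v.a8)))))),
   Nat.add (Nat.mul 86704303446 v.a3) (Nat.add (Nat.mul 531580936464 v.a4) (Nat.mul 67882405752 v.a5)),
   Nat.add (Nat.mul 4012616858048 v.a2) (Nat.add (Nat.mul 531580936464 v.a3) (Nat.add (Nat.mul 6140715233056 v.a4) (Nat.add (Nat.mul 1117244707488 v.a5) (Nat.mul 15938355200 v.a9)))),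
   Nat.add (Nat.mul 413792766144 v.a2) (Nat.add (Nat.mul 67882405752 v.a3) (Nat.add (Nat.mul 1117244707488 v.a4) (Nat.add (Nat.mul 81914757120 v.a5) (Nat.add (Nat.mul 658715443200 v.a6) (Nat.mul 148399718400 v.a8))))),
   Nat.add (Nat.mul 471416038128 v.a1) (Nat.add (Nat.mul 4603932659184 v.a2) (Nat.add (Nat.mul 658715443200 v.a5) (Nat.mul 76126617600 v.a9))),
   Nat.add (Nat.mul 480050982792 v.a0) (Nat.add (Nat.mul 315033440184 v.a1) (Nat.add (Nat.mul 3187671040 v.a7) (Nat.mul 3276800000 v.a9))),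
   Nat.add (Nat.mul 628516454400 v.a2) (Nat.add (Nat.mul 148399718400 v.a5) (Nat.mul 18166579200 v.a9)),
   Nat.add (Nat.mul 15938355200 v.a4) (Nat.add (Nat.mul 76126617600 v.a6) (Nat.add (Nat.mul 3276800000 v.a7) (Nat.mul 18166579200 v.a8)))⟩

/-- negative part of the contraction -/
def ctNA (v : V) : V :=
  ⟨Nat.add (Nat.mul 2634903442800 v.a3) (Nat.add (Nat.mul 21771905804928 v.a4) (Nat.add (Nat.mul 2537283807936 v.a5) (Nat.mul 244542746736 v.a6))),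
   Nat.add (Nat.mul 2655609651216 v.a3) (Nat.add (Nat.mul 13164275177856 v.a4) (Nat.mul 1807190160192 v.a5)),
   Nat.add (Nat.mul 450366964128 v.a3) (Nat.add (Nat.mul 55445554888 v.a7) (Nat.mul 122263961600 v.a9)),
   Nat.add (Nat.mul 2634903442800 v.a0) (Nat.add (Nat.mul 2655609651216 v.a1) (Nat.add (Nat.mul 450366964128 v.a2) (Nat.add (Nat.mul 3544895178 v.a6) (Nat.mul 12423194109 v.a7)))),
   Nat.add (Nat.mul 21771905804928 v.a0) (Nat.add (Nat.mul 13164275177856 v.a1) (Nat.add (Nat.mul 680018791992 v.a6) (Nat.add (Nat.mul 184882178876 v.a7) (Nat.mul 181193932800 v.a8)))),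
   Nat.add (Nat.mul 2537283807936 v.a0) (Nat.add (Nat.mul 1807190160192 v.a1) (Nat.add (Nat.mul 19629342720 v.a7) (Nat.mul 21469593600 v.a9))),
   Nat.add (Nat.mul 244542746736 v.a0) (Nat.add (Nat.mul 3544895178 v.a3) (Nat.add (Nat.mul 680018791992 v.a4) (Nat.add (Nat.mul 1848178114560 v.a6) (Nat.add (Nat.mul 109345505280 v.a7) (Nat.mul 477521510400 v.a8))))),
   Nat.add (Nat.mul 55445554888 v.a2) (Nat.add (Nat.mul 12423194109 v.a3) (Nat.add (Nat.mul 184882178876 v.a4) (Nat.add (Nat.mul 19629342720 v.a5) (Nat.add (Nat.mul 109345505280 v.a6) (Nat.mul 17694720000 v.a8))))),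
   Nat.add (Nat.mul 181193932800 v.a4) (Nat.add (Nat.mul 477521510400 v.a6) (Nat.add (Nat.mul 17694720000 v.a7) (Nat.mul 132828364800 v.a8))),
   Nat.add (Nat.mul 122263961600 v.a2) (Nat.add (Nat.mul 21469593600 v.a5) (Nat.mul 2804940800 v.a9))⟩

/-- the form over the reals -/
def bRA (x : VR) : VR :=
  ⟨(72065389910400 : ℝ) * x.a0 + (86225937367680 : ℝ) * x.a1 + (18478198833408 : ℝ) * x.a2 + (-2634903442800 : ℝ) * x.a3 + (-21771905804928 : ℝ) * x.a4 + (-2537283807936 : ℝ) * x.a5 + (-244542746736 : ℝ) * x.a6 + (480050982792 : ℝ) * x.a7,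
   (86225937367680 : ℝ) * x.a0 + (77527584473472 : ℝ) * x.a1 + (11394442209024 : ℝ) * x.a2 + (-2655609651216 : ℝ) * x.a3 + (-13164275177856 : ℝ) * x.a4 + (-1807190160192 : ℝ) * x.a5 + (471416038128 : ℝ) * x.a6 + (315033440184 : ℝ) * x.a7,
   (18478198833408 : ℝ) * x.a0 + (11394442209024 : ℝ) * x.a1 + (4659969539200 : ℝ) * x.a2 + (-450366964128 : ℝ) * x.a3 + (4012616858048 : ℝ) * x.a4 + (413792766144 : ℝ) * x.a5 + (4603932659184 : ℝ) * x.a6 + (-55445554888 : ℝ) * x.a7 + (628516454400 : ℝ) * x.a8 + (-122263961600 : ℝ) * x.a9,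
   (-2634903442800 : ℝ) * x.a0 + (-2655609651216 : ℝ) * x.a1 + (-450366964128 : ℝ) * x.a2 + (86704303446 : ℝ) * x.a3 + (531580936464 : ℝ) * x.a4 + (67882405752 : ℝ) * x.a5 + (-3544895178 : ℝ) * x.a6 + (-12423194109 : ℝ) * x.a7,
   (-21771905804928 : ℝ) * x.a0 + (-13164275177856 : ℝ) * x.a1 + (4012616858048 : ℝ) * x.a2 + (531580936464 : ℝ) * x.a3 + (6140715233056 : ℝ) * x.a4 + (1117244707488 : ℝ) * x.a5 + (-680018791992 : ℝ) * x.a6 + (-184882178876 : ℝ) * x.a7 + (-181193932800 : ℝ) * x.a8 + (15938355200 : ℝ) * x.a9,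
   (-2537283807936 : ℝ) * x.a0 + (-1807190160192 : ℝ) * x.a1 + (413792766144 : ℝ) * x.a2 + (67882405752 : ℝ) * x.a3 + (1117244707488 : ℝ) * x.a4 + (81914757120 : ℝ) * x.a5 + (658715443200 : ℝ) * x.a6 + (-19629342720 : ℝ) * x.a7 + (148399718400 : ℝ) * x.a8 + (-21469593600 : ℝ) * x.a9,
   (-244542746736 : ℝ) * x.a0 + (471416038128 : ℝ) * x.a1 + (4603932659184 : ℝ) * x.a2 + (-3544895178 : ℝ) * x.a3 + (-680018791992 : ℝ) * x.a4 + (658715443200 : ℝ) * x.a5 + (-1848178114560 : ℝ) * x.a6 + (-109345505280 : ℝ) * x.a7 + (-477521510400 : ℝ) * x.a8 + (76126617600 : ℝ) * x.a9,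
   (480050982792 : ℝ) * x.a0 + (315033440184 : ℝ) * x.a1 + (-55445554888 : ℝ) * x.a2 + (-12423194109 : ℝ) * x.a3 + (-184882178876 : ℝ) * x.a4 + (-19629342720 : ℝ) * x.a5 + (-109345505280 : ℝ) * x.a6 + (3187671040 : ℝ) * x.a7 + (-17694720000 : ℝ) * x.a8 + (3276800000 : ℝ) * x.a9,
   (628516454400 : ℝ) * x.a2 + (-181193932800 : ℝ) * x.a4 + (148399718400 : ℝ) * x.a5 + (-477521510400 : ℝ) * x.a6 + (-17694720000 : ℝ) * x.a7 + (-132828364800 : ℝ) * x.a8 + (18166579200 : ℝ) * x.a9,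
   (-122263961600 : ℝ) * x.a2 + (15938355200 : ℝ) * x.a4 + (-21469593600 : ℝ) * x.a5 + (76126617600 : ℝ) * x.a6 + (3276800000 : ℝ) * x.a7 + (18166579200 : ℝ) * x.a8 + (-2804940800 : ℝ) * x.a9⟩

/-- the transposed form over the reals -/
def bTA (x : VR) : VR :=
  ⟨(72065389910400 : ℝ) * x.a0 + (86225937367680 : ℝ) * x.a1 + (18478198833408 : ℝ) * x.a2 + (-2634903442800 : ℝ) * x.a3 + (-21771905804928 : ℝ) * x.a4 + (-2537283807936 : ℝ) * x.a5 + (-244542746736 : ℝ) * x.a6 + (480050982792 : ℝ) * x.a7,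
   (86225937367680 : ℝ) * x.a0 + (77527584473472 : ℝ) * x.a1 + (11394442209024 : ℝ) * x.a2 + (-2655609651216 : ℝ) * x.a3 + (-13164275177856 : ℝ) * x.a4 + (-1807190160192 : ℝ) * x.a5 + (471416038128 : ℝ) * x.a6 + (315033440184 : ℝ) * x.a7,
   (18478198833408 : ℝ) * x.a0 + (11394442209024 : ℝ) * x.a1 + (4659969539200 : ℝ) * x.a2 + (-450366964128 : ℝ) * x.a3 + (4012616858048 : ℝ) * x.a4 + (413792766144 : ℝ) * x.a5 + (4603932659184 : ℝ) * x.a6 + (-55445554888 : ℝ) * x.a7 + (628516454400 : ℝ) * x.a8 + (-122263961600 : ℝ) * x.a9,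
   (-2634903442800 : ℝ) * x.a0 + (-2655609651216 : ℝ) * x.a1 + (-450366964128 : ℝ) * x.a2 + (86704303446 : ℝ) * x.a3 + (531580936464 : ℝ) * x.a4 + (67882405752 : ℝ) * x.a5 + (-3544895178 : ℝ) * x.a6 + (-12423194109 : ℝ) * x.a7,
   (-21771905804928 : ℝ) * x.a0 + (-13164275177856 : ℝ) * x.a1 + (4012616858048 : ℝ) * x.a2 + (531580936464 : ℝ) * x.a3 + (6140715233056 : ℝ) * x.a4 + (1117244707488 : ℝ) * x.a5 + (-680018791992 : ℝ) * x.a6 + (-184882178876 : ℝ) * x.a7 + (-181193932800 : ℝ) * x.a8 + (15938355200 : ℝ) * x.a9,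
   (-2537283807936 : ℝ) * x.a0 + (-1807190160192 : ℝ) * x.a1 + (413792766144 : ℝ) * x.a2 + (67882405752 : ℝ) * x.a3 + (1117244707488 : ℝ) * x.a4 + (81914757120 : ℝ) * x.a5 + (658715443200 : ℝ) * x.a6 + (-19629342720 : ℝ) * x.a7 + (148399718400 : ℝ) * x.a8 + (-21469593600 : ℝ) * x.a9,
   (-244542746736 : ℝ) * x.a0 + (471416038128 : ℝ) * x.a1 + (4603932659184 : ℝ) * x.a2 + (-3544895178 : ℝ) * x.a3 + (-680018791992 : ℝ) * x.a4 + (658715443200 : ℝ) * x.a5 + (-1848178114560 : ℝ) * x.a6 + (-109345505280 : ℝ) * x.a7 + (-477521510400 : ℝ) * x.a8 + (76126617600 : ℝ) * x.a9,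
   (480050982792 : ℝ) * x.a0 + (315033440184 : ℝ) * x.a1 + (-55445554888 : ℝ) * x.a2 + (-12423194109 : ℝ) * x.a3 + (-184882178876 : ℝ) * x.a4 + (-19629342720 : ℝ) * x.a5 + (-109345505280 : ℝ) * x.a6 + (3187671040 : ℝ) * x.a7 + (-17694720000 : ℝ) * x.a8 + (3276800000 : ℝ) * x.a9,
   (628516454400 : ℝ) * x.a2 + (-181193932800 : ℝ) * x.a4 + (148399718400 : ℝ) * x.a5 + (-477521510400 : ℝ) * x.a6 + (-17694720000 : ℝ) * x.a7 + (-132828364800 : ℝ) * x.a8 + (18166579200 : ℝ) * x.a9,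
   (-122263961600 : ℝ) * x.a2 + (15938355200 : ℝ) * x.a4 + (-21469593600 : ℝ) * x.a5 + (76126617600 : ℝ) * x.a6 + (3276800000 : ℝ) * x.a7 + (18166579200 : ℝ) * x.a8 + (-2804940800 : ℝ) * x.a9⟩

theorem ctPA_lin : LinV ctPA := by
  constructor
  · simp only [ctPA, V.zero, Nat.add_eq, Nat.mul_eq, Nat.mul_zero, Nat.add_zero]
  · intro x y
    ext <;> simp only [ctPA, V.add, Nat.add_eq, Nat.mul_eq] <;> ring
  · intro c x
    ext <;> simp only [ctPA, V.smul, Nat.add_eq, Nat.mul_eq] <;> ring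

theorem ctNA_lin : LinV ctNA := by
  constructor
  · simp only [ctNA, V.zero, Nat.add_eq, Nat.mul_eq, Nat.mul_zero, Nat.add_zero]
  · intro x y
    ext <;> simp only [ctNA, V.add, Nat.add_eq, Nat.mul_eq] <;> ring
  · intro c x
    ext <;> simp only [ctNA, V.smul, Nat.add_eq, Nat.mul_eq] <;> ring

theorem bRA_tr (a y : VR) : dotR (bRA a) y = dotR (bTA y) a := by
  simp only [dotR, bRA, bTA]
  ring

theorem bRA_link (v w : V) : dotR (bRA v.r) w.r = (dot (ctPA v) w : ℝ) - (dot (ctNA v) w : ℝ) := by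
  simp only [dotR, bRA, V.r, dot_eq, ctPA, ctNA, Nat.add_eq, Nat.mul_eq]
  push_cast
  ring

theorem ctPA_mono {v w : V} {K : Nat} (h : Bd K v) (k : Bd K w) :
    dot (ctPA v) w ≤ dot (ctPA ⟨K, K, K, K, K, K, K, K, K, K⟩) ⟨K, K, K, K, K, K, K, K, K, K⟩ := by
  obtain ⟨h0, h1, h2, h3, h4, h5, h6, h7, h8, h9⟩ := h
  obtain ⟨k0, k1, k2, k3, k4, k5, k6, k7, k8, k9⟩ := k
  simp only [dot_eq, ctPA, Nat.add_eq, Nat.mul_eq]
  gcongr

theorem ctNA_mono {v w : V} {K : Nat} (h : Bd K v) (k : Bd K w) :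
    dot (ctNA v) w ≤ dot (ctNA ⟨K, K, K, K, K, K, K, K, K, K⟩) ⟨K, K, K, K, K, K, K, K, K, K⟩ := by
  obtain ⟨h0, h1, h2, h3, h4, h5, h6, h7, h8, h9⟩ := h
  obtain ⟨k0, k1, k2, k3, k4, k5, k6, k7, k8, k9⟩ := k
  simp only [dot_eq, ctNA, Nat.add_eq, Nat.mul_eq]
  gcongr

/-- the form -/
def fA : Form := ⟨267, fun _ v => ctPA v, fun _ v => ctNA v⟩

theorem vmA_P : dot (ctPA ⟨16777216 * 4096 ^ 7, 16777216 * 4096 ^ 7, 16777216 * 4096 ^ 7, 16777216 * 4096 ^ 7, 16777216 * 4096 ^ 7, 16777216 * 4096 ^ 7, 16777216 * 4096 ^ 7, 16777216 * 4096 ^ 7, 16777216 * 4096 ^ 7, 16777216 * 4096 ^ 7⟩) ⟨16777216 * 4096 ^ 7, 16777216 * 4096 ^ 7, 16777216 * 4096 ^ 7, 16777216 * 4096 ^ 7, 16777216 * 4096 ^ 7, 16777216 * 4096 ^ 7, 16777216 * 4096 ^ 7, 16777216 * 4096 ^ 7, 16777216 * 4096 ^ 7, 16777216 * 4096 ^ 7⟩ < 2 ^ (267 - 1) := by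
  decide +kernel

theorem vmA_N : dot (ctNA ⟨16777216 * 4096 ^ 7, 16777216 * 4096 ^ 7, 16777216 * 4096 ^ 7, 16777216 * 4096 ^ 7, 16777216 * 4096 ^ 7, 16777216 * 4096 ^ 7, 16777216 * 4096 ^ 7, 16777216 * 4096 ^ 7, 16777216 * 4096 ^ 7, 16777216 * 4096 ^ 7⟩) ⟨16777216 * 4096 ^ 7, 16777216 * 4096 ^ 7, 16777216 * 4096 ^ 7, 16777216 * 4096 ^ 7, 16777216 * 4096 ^ 7, 16777216 * 4096 ^ 7, 16777216 * 4096 ^ 7, 16777216 * 4096 ^ 7, 16777216 * 4096 ^ 7, 16777216 * 4096 ^ 7⟩ < 2 ^ (267 - 1) := by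
  decide +kernel

theorem fA_ok : fA.OK 4096 (fun _ => bRA) (fun _ => bTA) where
  hb := by decide
  linP := fun _ => ctPA_lin
  linN := fun _ => ctNA_lin
  tr := fun _ a y => bRA_tr a y
  link := fun _ v w => bRA_link v w
  bdP := fun _ _ _ _ h k => lt_of_le_of_lt (ctPA_mono h k) vmA_P
  bdN := fun _ _ _ _ h k => lt_of_le_of_lt (ctNA_mono h k) vmA_N

end Vale.Agent.Lib.P154Q5
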