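import Vale.Agent.Lib.P154Q5.Leaf

namespace Vale.Agent.Lib.P154Q5

set_option maxRecDepth 100000
set_option exponentiation.threshold 1000

/-- positive part of the contraction -/
def ctPB (v : V) : V :=
  ⟨Nat.add (Nat.mul 39161323568 v.a2) (Nat.add (Nat.mul 128964791166 v.a3) (Nat.add (Nat.mul 1581229827016 v.a4) (Nat.add (Nat.mul 360581431200 v.a5) (Nat.mul 16075372544 v.a9)))),
   Nat.add (Nat.mul 93356863020 v.a3) (Nat.add (Nat.mul 981837400560 v.a4) (Nat.add (Nat.mul 160749062496 v.a5) (Nat.mul 12084971520 v.a9))),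
   Nat.add (Nat.mul 39161323568 v.a0) (Nat.add (Nat.mul 1013620216 v.a3) (Nat.add (Nat.mul 83189063120 v.a6) (Nat.add (Nat.mul 15026690328 v.a7) (Nat.mul 7288769728 v.a8)))),
   Nat.add (Nat.mul 128964791166 v.a0) (Nat.add (Nat.mul 93356863020 v.a1) (Nat.add (Nat.mul 1013620216 v.a2) (Nat.add (Nat.mul 14389426434 v.a6) (Nat.add (Nat.mul 1371224591 v.a7) (Nat.mul 2651276544 v.a8))))),
   Nat.add (Nat.mul 1581229827016 v.a0) (Nat.add (Nat.mul 981837400560 v.a1) (Nat.add (Nat.mul 181131786712 v.a6) (Nat.add (Nat.mul 19963186004 v.a7) (Nat.mul 26583963776 v.a8)))),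
   Nat.add (Nat.mul 360581431200 v.a0) (Nat.add (Nat.mul 160749062496 v.a1) (Nat.add (Nat.mul 64034884608 v.a6) (Nat.add (Nat.mul 4113014728 v.a7) (Nat.mul 12049634088 v.a8)))),
   Nat.add (Nat.mul 83189063120 v.a2) (Nat.add (Nat.mul 14389426434 v.a3) (Nat.add (Nat.mul 181131786712 v.a4) (Nat.add (Nat.mul 64034884608 v.a5) (Nat.mul 7367408576 v.a9)))),
   Nat.add (Nat.mul 15026690328 v.a2) (Nat.add (Nat.mul 1371224591 v.a3) (Nat.add (Nat.mul 19963186004 v.a4) (Nat.add (Nat.mul 4113014728 v.a5) (Nat.mul 272357480 v.a9)))),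
   Nat.add (Nat.mul 7288769728 v.a2) (Nat.add (Nat.mul 2651276544 v.a3) (Nat.add (Nat.mul 26583963776 v.a4) (Nat.add (Nat.mul 12049634088 v.a5) (Nat.mul 1285580248 v.a9)))),
   Nat.add (Nat.mul 16075372544 v.a0) (Nat.add (Nat.mul 12084971520 v.a1) (Nat.add (Nat.mul 7367408576 v.a6) (Nat.add (Nat.mul 272357480 v.a7) (Nat.mul 1285580248 v.a8))))⟩

/-- negative part of the contraction -/
def ctNB (v : V) : V :=
  ⟨Nat.add (Nat.mul 3531599287584 v.a0) (Nat.add (Nat.mul 3020757754608 v.a1) (Nat.add (Nat.mul 515717146704 v.a6) (Nat.add (Nat.mul 57704413784 v.a7) (Nat.mul 99750746112 v.a8)))),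
   Nat.add (Nat.mul 3020757754608 v.a0) (Nat.add (Nat.mul 2405998619136 v.a1) (Nat.add (Nat.mul 59174140704 v.a2) (Nat.add (Nat.mul 420267890736 v.a6) (Nat.add (Nat.mul 32702140776 v.a7) (Nat.mul 65775790080 v.a8))))),
   Nat.add (Nat.mul 59174140704 v.a1) (Nat.add (Nat.mul 394932924736 v.a2) (Nat.add (Nat.mul 469746727936 v.a4) (Nat.add (Nat.mul 50983812256 v.a5) (Nat.mul 2645987136 v.a9)))),
   Nat.add (Nat.mul 3959762289 v.a3) (Nat.add (Nat.mul 36067157392 v.a4) (Nat.add (Nat.mul 8231350884 v.a5) (Nat.mul 440005376 v.a9))),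
   Nat.add (Nat.mul 469746727936 v.a2) (Nat.add (Nat.mul 36067157392 v.a3) (Nat.add (Nat.mul 490078175472 v.a4) (Nat.add (Nat.mul 83339329712 v.a5) (Nat.mul 5686890368 v.a9)))),
   Nat.add (Nat.mul 50983812256 v.a2) (Nat.add (Nat.mul 8231350884 v.a3) (Nat.add (Nat.mul 83339329712 v.a4) (Nat.add (Nat.mul 27626504760 v.a5) (Nat.mul 1907279128 v.a9)))),
   Nat.add (Nat.mul 515717146704 v.a0) (Nat.add (Nat.mul 420267890736 v.a1) (Nat.add (Nat.mul 266210662656 v.a6) (Nat.add (Nat.mul 8930217728 v.a7) (Nat.mul 46399944768 v.a8)))),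
   Nat.add (Nat.mul 57704413784 v.a0) (Nat.add (Nat.mul 32702140776 v.a1) (Nat.add (Nat.mul 8930217728 v.a6) (Nat.add (Nat.mul 819977336 v.a7) (Nat.mul 1458469144 v.a8)))),
   Nat.add (Nat.mul 99750746112 v.a0) (Nat.add (Nat.mul 65775790080 v.a1) (Nat.add (Nat.mul 46399944768 v.a6) (Nat.add (Nat.mul 1458469144 v.a7) (Nat.mul 8404962408 v.a8)))),
   Nat.add (Nat.mul 2645987136 v.a2) (Nat.add (Nat.mul 440005376 v.a3) (Nat.add (Nat.mul 5686890368 v.a4) (Nat.add (Nat.mul 1907279128 v.a5) (Nat.mul 204997544 v.a9))))⟩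

/-- the form over the reals -/
def bRB (x : VR) : VR :=
  ⟨(-3531599287584 : ℝ) * x.a0 + (-3020757754608 : ℝ) * x.a1 + (39161323568 : ℝ) * x.a2 + (128964791166 : ℝ) * x.a3 + (1581229827016 : ℝ) * x.a4 + (360581431200 : ℝ) * x.a5 + (-515717146704 : ℝ) * x.a6 + (-57704413784 : ℝ) * x.a7 + (-99750746112 : ℝ) * x.a8 + (16075372544 : ℝ) * x.a9,
   (-3020757754608 : ℝ) * x.a0 + (-2405998619136 : ℝ) * x.a1 + (-59174140704 : ℝ) * x.a2 + (93356863020 : ℝ) * x.a3 + (981837400560 : ℝ) * x.a4 + (160749062496 : ℝ) * x.a5 + (-420267890736 : ℝ) * x.a6 + (-32702140776 : ℝ) * x.a7 + (-65775790080 : ℝ) * x.a8 + (12084971520 : ℝ) * x.a9,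
   (39161323568 : ℝ) * x.a0 + (-59174140704 : ℝ) * x.a1 + (-394932924736 : ℝ) * x.a2 + (1013620216 : ℝ) * x.a3 + (-469746727936 : ℝ) * x.a4 + (-50983812256 : ℝ) * x.a5 + (83189063120 : ℝ) * x.a6 + (15026690328 : ℝ) * x.a7 + (7288769728 : ℝ) * x.a8 + (-2645987136 : ℝ) * x.a9,
   (128964791166 : ℝ) * x.a0 + (93356863020 : ℝ) * x.a1 + (1013620216 : ℝ) * x.a2 + (-3959762289 : ℝ) * x.a3 + (-36067157392 : ℝ) * x.a4 + (-8231350884 : ℝ) * x.a5 + (14389426434 : ℝ) * x.a6 + (1371224591 : ℝ) * x.a7 + (2651276544 : ℝ) * x.a8 + (-440005376 : ℝ) * x.a9,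
   (1581229827016 : ℝ) * x.a0 + (981837400560 : ℝ) * x.a1 + (-469746727936 : ℝ) * x.a2 + (-36067157392 : ℝ) * x.a3 + (-490078175472 : ℝ) * x.a4 + (-83339329712 : ℝ) * x.a5 + (181131786712 : ℝ) * x.a6 + (19963186004 : ℝ) * x.a7 + (26583963776 : ℝ) * x.a8 + (-5686890368 : ℝ) * x.a9,
   (360581431200 : ℝ) * x.a0 + (160749062496 : ℝ) * x.a1 + (-50983812256 : ℝ) * x.a2 + (-8231350884 : ℝ) * x.a3 + (-83339329712 : ℝ) * x.a4 + (-27626504760 : ℝ) * x.a5 + (64034884608 : ℝ) * x.a6 + (4113014728 : ℝ) * x.a7 + (12049634088 : ℝ) * x.a8 + (-1907279128 : ℝ) * x.a9,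
   (-515717146704 : ℝ) * x.a0 + (-420267890736 : ℝ) * x.a1 + (83189063120 : ℝ) * x.a2 + (14389426434 : ℝ) * x.a3 + (181131786712 : ℝ) * x.a4 + (64034884608 : ℝ) * x.a5 + (-266210662656 : ℝ) * x.a6 + (-8930217728 : ℝ) * x.a7 + (-46399944768 : ℝ) * x.a8 + (7367408576 : ℝ) * x.a9,
   (-57704413784 : ℝ) * x.a0 + (-32702140776 : ℝ) * x.a1 + (15026690328 : ℝ) * x.a2 + (1371224591 : ℝ) * x.a3 + (19963186004 : ℝ) * x.a4 + (4113014728 : ℝ) * x.a5 + (-8930217728 : ℝ) * x.a6 + (-819977336 : ℝ) * x.a7 + (-1458469144 : ℝ) * x.a8 + (272357480 : ℝ) * x.a9,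
   (-99750746112 : ℝ) * x.a0 + (-65775790080 : ℝ) * x.a1 + (7288769728 : ℝ) * x.a2 + (2651276544 : ℝ) * x.a3 + (26583963776 : ℝ) * x.a4 + (12049634088 : ℝ) * x.a5 + (-46399944768 : ℝ) * x.a6 + (-1458469144 : ℝ) * x.a7 + (-8404962408 : ℝ) * x.a8 + (1285580248 : ℝ) * x.a9,
   (16075372544 : ℝ) * x.a0 + (12084971520 : ℝ) * x.a1 + (-2645987136 : ℝ) * x.a2 + (-440005376 : ℝ) * x.a3 + (-5686890368 : ℝ) * x.a4 + (-1907279128 : ℝ) * x.a5 + (7367408576 : ℝ) * x.a6 + (272357480 : ℝ) * x.a7 + (1285580248 : ℝ) * x.a8 + (-204997544 : ℝ) * x.a9⟩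

/-- the transposed form over the reals -/
def bTB (x : VR) : VR :=
  ⟨(-3531599287584 : ℝ) * x.a0 + (-3020757754608 : ℝ) * x.a1 + (39161323568 : ℝ) * x.a2 + (128964791166 : ℝ) * x.a3 + (1581229827016 : ℝ) * x.a4 + (360581431200 : ℝ) * x.a5 + (-515717146704 : ℝ) * x.a6 + (-57704413784 : ℝ) * x.a7 + (-99750746112 : ℝ) * x.a8 + (16075372544 : ℝ) * x.a9,
   (-3020757754608 : ℝ) * x.a0 + (-2405998619136 : ℝ) * x.a1 + (-59174140704 : ℝ) * x.a2 + (93356863020 : ℝ) * x.a3 + (981837400560 : ℝ) * x.a4 + (160749062496 : ℝ) * x.a5 + (-420267890736 : ℝ) * x.a6 + (-32702140776 : ℝ) * x.a7 + (-65775790080 : ℝ) * x.a8 + (12084971520 : ℝ) * x.a9,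
   (39161323568 : ℝ) * x.a0 + (-59174140704 : ℝ) * x.a1 + (-394932924736 : ℝ) * x.a2 + (1013620216 : ℝ) * x.a3 + (-469746727936 : ℝ) * x.a4 + (-50983812256 : ℝ) * x.a5 + (83189063120 : ℝ) * x.a6 + (15026690328 : ℝ) * x.a7 + (7288769728 : ℝ) * x.a8 + (-2645987136 : ℝ) * x.a9,
   (128964791166 : ℝ) * x.a0 + (93356863020 : ℝ) * x.a1 + (1013620216 : ℝ) * x.a2 + (-3959762289 : ℝ) * x.a3 + (-36067157392 : ℝ) * x.a4 + (-8231350884 : ℝ) * x.a5 + (14389426434 : ℝ) * x.a6 + (1371224591 : ℝ) * x.a7 + (2651276544 : ℝ) * x.a8 + (-440005376 : ℝ) * x.a9,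
   (1581229827016 : ℝ) * x.a0 + (981837400560 : ℝ) * x.a1 + (-469746727936 : ℝ) * x.a2 + (-36067157392 : ℝ) * x.a3 + (-490078175472 : ℝ) * x.a4 + (-83339329712 : ℝ) * x.a5 + (181131786712 : ℝ) * x.a6 + (19963186004 : ℝ) * x.a7 + (26583963776 : ℝ) * x.a8 + (-5686890368 : ℝ) * x.a9,
   (360581431200 : ℝ) * x.a0 + (160749062496 : ℝ) * x.a1 + (-50983812256 : ℝ) * x.a2 + (-8231350884 : ℝ) * x.a3 + (-83339329712 : ℝ) * x.a4 + (-27626504760 : ℝ) * x.a5 + (64034884608 : ℝ) * x.a6 + (4113014728 : ℝ) * x.a7 + (12049634088 : ℝ) * x.a8 + (-1907279128 : ℝ) * x.a9,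
   (-515717146704 : ℝ) * x.a0 + (-420267890736 : ℝ) * x.a1 + (83189063120 : ℝ) * x.a2 + (14389426434 : ℝ) * x.a3 + (181131786712 : ℝ) * x.a4 + (64034884608 : ℝ) * x.a5 + (-266210662656 : ℝ) * x.a6 + (-8930217728 : ℝ) * x.a7 + (-46399944768 : ℝ) * x.a8 + (7367408576 : ℝ) * x.a9,
   (-57704413784 : ℝ) * x.a0 + (-32702140776 : ℝ) * x.a1 + (15026690328 : ℝ) * x.a2 + (1371224591 : ℝ) * x.a3 + (19963186004 : ℝ) * x.a4 + (4113014728 : ℝ) * x.a5 + (-8930217728 : ℝ) * x.a6 + (-819977336 : ℝ) * x.a7 + (-1458469144 : ℝ) * x.a8 + (272357480 : ℝ) * x.a9,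
   (-99750746112 : ℝ) * x.a0 + (-65775790080 : ℝ) * x.a1 + (7288769728 : ℝ) * x.a2 + (2651276544 : ℝ) * x.a3 + (26583963776 : ℝ) * x.a4 + (12049634088 : ℝ) * x.a5 + (-46399944768 : ℝ) * x.a6 + (-1458469144 : ℝ) * x.a7 + (-8404962408 : ℝ) * x.a8 + (1285580248 : ℝ) * x.a9,
   (16075372544 : ℝ) * x.a0 + (12084971520 : ℝ) * x.a1 + (-2645987136 : ℝ) * x.a2 + (-440005376 : ℝ) * x.a3 + (-5686890368 : ℝ) * x.a4 + (-1907279128 : ℝ) * x.a5 + (7367408576 : ℝ) * x.a6 + (272357480 : ℝ) * x.a7 + (1285580248 : ℝ) * x.a8 + (-204997544 : ℝ) * x.a9⟩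

theorem ctPB_lin : LinV ctPB := by
  constructor
  · simp only [ctPB, V.zero, Nat.add_eq, Nat.mul_eq, Nat.mul_zero, Nat.add_zero]
  · intro x y
    ext <;> simp only [ctPB, V.add, Nat.add_eq, Nat.mul_eq] <;> ring
  · intro c x
    ext <;> simp only [ctPB, V.smul, Nat.add_eq, Nat.mul_eq] <;> ring

theorem ctNB_lin : LinV ctNB := by
  constructor
  · simp only [ctNB, V.zero, Nat.add_eq, Nat.mul_eq, Nat.mul_zero, Nat.add_zero]
  · intro x y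
    ext <;> simp only [ctNB, V.add, Nat.add_eq, Nat.mul_eq] <;> ring
  · intro c x
    ext <;> simp only [ctNB, V.smul, Nat.add_eq, Nat.mul_eq] <;> ring

theorem bRB_tr (a y : VR) : dotR (bRB a) y = dotR (bTB y) a := by
  simp only [dotR, bRB, bTB]
  ring

theorem bRB_link (v w : V) : dotR (bRB v.r) w.r = (dot (ctPB v) w : ℝ) - (dot (ctNB v) w : ℝ) := by
  simp only [dotR, bRB, V.r, dot_eq, ctPB, ctNB, Nat.add_eq, Nat.mul_eq]
  push_cast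
  ring

theorem ctPB_mono {v w : V} {K : Nat} (h : Bd K v) (k : Bd K w) :
    dot (ctPB v) w ≤ dot (ctPB ⟨K, K, K, K, K, K, K, K, K, K⟩) ⟨K, K, K, K, K, K, K, K, K, K⟩ := by
  obtain ⟨h0, h1, h2, h3, h4, h5, h6, h7, h8, h9⟩ := h
  obtain ⟨k0, k1, k2, k3, k4, k5, k6, k7, k8, k9⟩ := k
  simp only [dot_eq, ctPB, Nat.add_eq, Nat.mul_eq]
  gcongr

theorem ctNB_mono {v w : V} {K : Nat} (h : Bd K v) (k : Bd K w) :
    dot (ctNB v) w ≤ dot (ctNB ⟨K, K, K, K, K, K, K, K, K, K⟩) ⟨K, K, K, K, K, K, K, K, K, K⟩ := by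
  obtain ⟨h0, h1, h2, h3, h4, h5, h6, h7, h8, h9⟩ := h
  obtain ⟨k0, k1, k2, k3, k4, k5, k6, k7, k8, k9⟩ := k
  simp only [dot_eq, ctNB, Nat.add_eq, Nat.mul_eq]
  gcongr

/-- the form -/
def fB : Form := ⟨262, fun _ v => ctPB v, fun _ v => ctNB v⟩

theorem vmB_P : dot (ctPB ⟨16777216 * 4096 ^ 7, 16777216 * 4096 ^ 7, 16777216 * 4096 ^ 7, 16777216 * 4096 ^ 7, 16777216 * 4096 ^ 7, 16777216 * 4096 ^ 7, 16777216 * 4096 ^ 7, 16777216 * 4096 ^ 7, 16777216 * 4096 ^ 7, 16777216 * 4096 ^ 7⟩) ⟨16777216 * 4096 ^ 7, 16777216 * 4096 ^ 7, 16777216 * 4096 ^ 7, 16777216 * 4096 ^ 7, 16777216 * 4096 ^ 7, 16777216 * 4096 ^ 7, 16777216 * 4096 ^ 7, 16777216 * 4096 ^ 7, 16777216 * 4096 ^ 7, 16777216 * 4096 ^ 7⟩ < 2 ^ (262 - 1) := by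
  decide +kernel

theorem vmB_N : dot (ctNB ⟨16777216 * 4096 ^ 7, 16777216 * 4096 ^ 7, 16777216 * 4096 ^ 7, 16777216 * 4096 ^ 7, 16777216 * 4096 ^ 7, 16777216 * 4096 ^ 7, 16777216 * 4096 ^ 7, 16777216 * 4096 ^ 7, 16777216 * 4096 ^ 7, 16777216 * 4096 ^ 7⟩) ⟨16777216 * 4096 ^ 7, 16777216 * 4096 ^ 7, 16777216 * 4096 ^ 7, 16777216 * 4096 ^ 7, 16777216 * 4096 ^ 7, 16777216 * 4096 ^ 7, 16777216 * 4096 ^ 7, 16777216 * 4096 ^ 7, 16777216 * 4096 ^ 7, 16777216 * 4096 ^ 7⟩ < 2 ^ (262 - 1) := by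
  decide +kernel

theorem fB_ok : fB.OK 4096 (fun _ => bRB) (fun _ => bTB) where
  hb := by decide
  linP := fun _ => ctPB_lin
  linN := fun _ => ctNB_lin
  tr := fun _ a y => bRB_tr a y
  link := fun _ v w => bRB_link v w
  bdP := fun _ _ _ _ h k => lt_of_le_of_lt (ctPB_mono h k) vmB_P
  bdN := fun _ _ _ _ h k => lt_of_le_of_lt (ctNB_mono h k) vmB_N

end Vale.Agent.Lib.P154Q5
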