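import Vale.Agent.Lib.P154Q5.Avg
import Vale.Agent.Lib.P154Q5.Roots
import Vale.Agent.Lib.P154Q5.SideGen

/-!
The two polynomials and the identities that connect them to the bilinear forms.
-/

namespace Vale.Agent.Lib.P154Q5

set_option maxRecDepth 100000

/-- second elementary symmetric polynomial -/
def eE2 (x0 x1 x2 x3 : ℝ) : ℝ := x0 * x1 + x0 * x2 + x0 * x3 + x1 * x2 + x1 * x3 + x2 * x3

/-- third elementary symmetric polynomial -/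
def eE3 (x0 x1 x2 x3 : ℝ) : ℝ := x0 * x1 * x2 + x0 * x1 * x3 + x0 * x2 * x3 + x1 * x2 * x3

/-- fourth elementary symmetric polynomial -/
def eE4 (x0 x1 x2 x3 : ℝ) : ℝ := x0 * x1 * x2 * x3

/-- the correction in the second polynomial -/
noncomputable def rBf (t e2 e3 e4 : ℝ) : ℝ :=
  (-27663 / 16384) + (41529 / 16384) * e4 + (57101 / 8192) * e3 + (-27745 / 8192) * e2 + (-28179 / 16384) * e2 * e3 + (-10725 / 8192) * e2 ^ 2 + (-10509 / 4096) * t + (-237 / 256) * t * e4 + (312195 / 16384) * t * e3 + (24163 / 4096) * t * e2 + (6973 / 16384) * t * e2 ^ 2 + (6471 / 8192) * t ^ 2 + (-208495 / 16384) * t ^ 2 * e3 + (-41125 / 16384) * t ^ 2 * e2 + (34593 / 16384) * t ^ 3 + (353 / 4096) * t ^ 3 * e2 + (-5131 / 4096) * t ^ 4 + (3117 / 16384) * t ^ 5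

/-- the first polynomial, in terms of `D` and `e₂` -/
noncomputable def paC (D e2 : ℝ) : ℝ :=
  12 * D - 2 * e2 * (1 - (D - 1) + (D - 1) ^ 2 - (D - 1) ^ 3 + (D - 1) ^ 4 * (65 - 25 * (D - 1)) / 81)

/-- the second polynomial, in terms of `D` and `e₂, e₃, e₄` -/
noncomputable def pbC (D e2 e3 e4 : ℝ) : ℝ :=
  (5493 / 1024) * D + (-581 / 1024) * e2 * (1 - (D - 1)) + (1909 / 512) * e3 * (1 - 2 * (D - 1)) + (-719 / 2048) * e2 ^ 2 * (1 - 3 * (D - 1))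
    + (451 / 1024) * e4 * (1 - 3 * (D - 1)) + (-399 / 2048) * e2 * e3 * (1 - 4 * (D - 1))
    + (D - 1) ^ 2 * rBf (D - 1) e2 e3 e4

/-- the first polynomial -/
noncomputable def polyA (x0 x1 x2 x3 : ℝ) : ℝ := paC ((x0 + x1 + x2 + x3) / 4) (eE2 x0 x1 x2 x3)

/-- the second polynomial -/
noncomputable def polyB (x0 x1 x2 x3 : ℝ) : ℝ := pbC ((x0 + x1 + x2 + x3) / 4) (eE2 x0 x1 x2 x3) (eE3 x0 x1 x2 x3) (eE4 x0 x1 x2 x3)

theorem polyA_eq (x0 x1 x2 x3 : ℝ) : polyA x0 x1 x2 x3 = 3 * mb1000 x0 x1 x2 x3 + (-92 / 9) * mb1100 x0 x1 x2 x3 + (871 / 162) * mb2100 x0 x1 x2 x3 + (871 / 54) * mb1110 x0 x1 x2 x3 + (-241 / 162) * mb3100 x0 x1 x2 x3 + (-241 / 81) * mb2200 x0 x1 x2 x3 + (-1205 / 162) * mb2110 x0 x1 x2 x3 + (-482 / 27) * mb1111 x0 x1 x2 x3 + (197 / 864) * mb4100 x0 x1 x2 x3 + (197 / 288) * mb3200 x0 x1 x2 x3 + (1379 / 864) * mb3110 x0 x1 x2 x3 + (197 / 72) * mb2210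 x0 x1 x2 x3 + (197 / 32) * mb2111 x0 x1 x2 x3 + (-95 / 5184) * mb5100 x0 x1 x2 x3 + (-95 / 1296) * mb4200 x0 x1 x2 x3 + (-95 / 576) * mb4110 x0 x1 x2 x3 + (-95 / 864) * mb3300 x0 x1 x2 x3 + (-1045 / 2592) * mb3210 x0 x1 x2 x3 + (-95 / 108) * mb3111 x0 x1 x2 x3 + (-95 / 144) * mb2220 x0 x1 x2 x3 + (-1235 / 864) * mb2211 x0 x1 x2 x3 + (25 / 41472) * mb6100 x0 x1 x2 x3 + (125 / 41472) * mb5200 x0 x1 x2 x3 + (275 / 41472) * mb5110 x0 x1 x2 x3 + (125 / 20736) * mb4300 x0 x1 x2 x3 + (875 / 41472) * mb4210 x0 x1 x2 x3 + (625 / 13824) * mb4111 x0 x1 x2 x3 + (625 / 20736) * mb3310 x0 x1 x2 x3 + (125 / 2592) * mb3220 x0 x1 x2 x3 + (2125 / 20736) * mb3211 x0 x1 x2 x3 + (125 / 768) * mb2221 x0 x1 x2 x3 := by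
  simp only [polyA, paC, eE2, mb1000, mb1100, mb2100, mb1110, mb3100, mb2200, mb2110, mb1111, mb4100, mb3200, mb3110, mb2210, mb2111, mb5100, mb4200, mb4110, mb3300, mb3210, mb3111, mb2220, mb2211, mb6100, mb5200, mb5110, mb4300, mb4210, mb4111, mb3310, mb3220, mb3211, mb2221]
  ring

theorem polyB_eq (x0 x1 x2 x3 : ℝ) : polyB x0 x1 x2 x3 = (-30919 / 16384) * mb0000 x0 x1 x2 x3 + (141633 / 32768) * mb1000 x0 x1 x2 x3 + (-271575 / 131072) * mb2000 x0 x1 x2 x3 + (-1124659 / 65536) * mb1100 x0 x1 x2 x3 + (771701 / 1048576) * mb3000 x0 x1 x2 x3 + (11623775 / 1048576) * mb2100 x0 x1 x2 x3 + (9134943 / 524288) * mb1110 x0 x1 x2 x3 + (-288489 / 2097152) * mb4000 x0 x1 x2 x3 + (-1501121 / 524288) * mb3100 x0 x1 x2 x3 + (-9007579 / 1048576) * mb2200 x0 x1 x2 x3 + (1139669 / 524288) * mb2110 x0 x1 x2 x3 + (11010101 / 262144) * mb1111 x0 x1 x2 x3 + (111597 / 8388608) *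 mb5000 x0 x1 x2 x3 + (2760161 / 8388608) * mb4100 x0 x1 x2 x3 + (9050049 / 4194304) * mb3200 x0 x1 x2 x3 + (-6986231 / 2097152) * mb3110 x0 x1 x2 x3 + (-36815869 / 4194304) * mb2210 x0 x1 x2 x3 + (-90192421 / 2097152) * mb2111 x0 x1 x2 x3 + (-42343 / 67108864) * mb6000 x0 x1 x2 x3 + (-512509 / 33554432) * mb5100 x0 x1 x2 x3 + (-14565449 / 67108864) * mb4200 x0 x1 x2 x3 + (21726671 / 33554432) * mb4110 x0 x1 x2 x3 + (-6791387 / 16777216) * mb3300 x0 x1 x2 x3 + (46144303 / 16777216) * mb3210 x0 x1 x2 x3 + (91357991 / 8388608) * mb3111 x0 x1 x2 x3 + (229111941 / 33554432) * mb2220 x0 x1 x2 x3 + (373674573 / 16777216) * mb2211 x0 x1 x2 x3 + (3117 / 268435456) * mb7000 x0 x1 x2 x3 + (44411 / 268435456) * mb6100 x0 x1 x2 x3 + (1963505 / 268435456) * mb5200 x0 x1 x2 x3 + (-4697039 / 134217728) * mb5110 x0 x1 x2 x3 + (5690279 / 268435456) * mb4300 x0 x1 x2 x3 + (-61476043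 / 268435456) * mb4210 x0 x1 x2 x3 + (-109362827 / 134217728) * mb4111 x0 x1 x2 x3 + (-26018777 / 67108864) * mb3310 x0 x1 x2 x3 + (-123300491 / 134217728) * mb3220 x0 x1 x2 x3 + (-178479307 / 67108864) * mb3211 x0 x1 x2 x3 + (-693046497 / 134217728) * mb2221 x0 x1 x2 x3 := by
  simp only [polyB, pbC, rBf, eE2, eE3, eE4, mb0000, mb1000, mb2000, mb1100, mb3000, mb2100, mb1110, mb4000, mb3100, mb2200, mb2110, mb1111, mb5000, mb4100, mb3200, mb3110, mb2210, mb2111, mb6000, mb5100, mb4200, mb4110, mb3300, mb3210, mb3111, mb2220, mb2211, mb7000, mb6100, mb5200, mb5110, mb4300, mb4210, mb4111, mb3310, mb3220, mb3211, mb2221]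
  ring

/-- the value of the average of the first polynomial in terms of the invariants -/
noncomputable def formKA (S T Q S' T' Q' : ℝ) : ℝ :=
    1 * (1) * (S') +
    1 * (S) * (1) +
    (-1 / 6) * (S) * (T') +
    (1 / 48) * (S) * (S' ^ 2) +
    (-1 / 6) * (T) * (S') +
    (1 / 24) * (T) * (T') +
    (-1 / 48) * (T) * (S' ^ 2) +
    (1 / 12) * (T) * (Q') +
    (-1 / 96) * (T) * (S' * T') +
    (1 / 48) * (S ^ 2) * (S') +
    (-1 / 48) * (S ^ 2) * (T') +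
    (-347 / 13824) * (S ^ 2) * (S' ^ 2) +
    (53 / 1152) * (S ^ 2) * (Q') +
    (455 / 165888) * (S ^ 2) * (S' ^ 3) +
    (-65 / 13824) * (S ^ 2) * (S' * Q') +
    (1 / 12) * (Q) * (T') +
    (53 / 1152) * (Q) * (S' ^ 2) +
    (-217 / 2592) * (Q) * (Q') +
    (-1 / 72) * (Q) * (S' * T') +
    (-65 / 13824) * (Q) * (S' ^ 3) +
    (325 / 31104) * (Q) * (S' * Q') +
    (-1 / 96) * (S * T) * (T') +
    (-1 / 72) * (S * T) * (Q') +
    (-473 / 279936) * (S * T) * (S' * T') +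
    (-65 / 93312) * (S * T) * (S' ^ 3) +
    (65 / 34992) * (S * T) * (T' ^ 2) +
    (65 / 23328) * (S * T) * (S' * Q') +
    (-125 / 559872) * (S * T) * (S' ^ 2 * T') +
    (455 / 165888) * (S ^ 3) * (S' ^ 2) +
    (-65 / 13824) * (S ^ 3) * (Q') +
    (-65 / 93312) * (S ^ 3) * (S' * T') +
    (-965 / 663552) * (S ^ 3) * (S' ^ 3) +
    (-25 / 41472) * (S ^ 3) * (T' ^ 2) +
    (1435 / 497664) * (S ^ 3) * (S' * Q') +
    (-275 / 2985984) * (S ^ 3) * (S' ^ 2 * T') +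
    (175 / 746496) * (S ^ 3) * (T' * Q') +
    (65 / 34992) * (T ^ 2) * (S' * T') +
    (-25 / 41472) * (T ^ 2) * (S' ^ 3) +
    (-35 / 31104) * (T ^ 2) * (T' ^ 2) +
    (145 / 93312) * (T ^ 2) * (S' * Q') +
    (275 / 1119744) * (T ^ 2) * (S' ^ 2 * T') +
    (-175 / 279936) * (T ^ 2) * (T' * Q') +
    (-65 / 13824) * (S * Q) * (S' ^ 2) +
    (325 / 31104) * (S * Q) * (Q') +
    (65 / 23328) * (S * Q) * (S' * T') +
    (1435 / 497664) * (S * Q) * (S' ^ 3) +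
    (145 / 93312) * (S * Q) * (T' ^ 2) +
    (-245 / 41472) * (S * Q) * (S' * Q') +
    (-25 / 746496) * (S * Q) * (S' ^ 2 * T') +
    (-25 / 62208) * (S * Q) * (T' * Q') +
    (-125 / 559872) * (S ^ 2 * T) * (S' * T') +
    (-275 / 2985984) * (S ^ 2 * T) * (S' ^ 3) +
    (275 / 1119744) * (S ^ 2 * T) * (T' ^ 2) +
    (-25 / 746496) * (S ^ 2 * T) * (S' * Q') +
    (14075 / 17915904) * (S ^ 2 * T) * (S' ^ 2 * T') +
    (-1925 / 1492992) * (S ^ 2 * T) * (T' * Q') +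
    (175 / 746496) * (T * Q) * (S' ^ 3) +
    (-175 / 279936) * (T * Q) * (T' ^ 2) +
    (-25 / 62208) * (T * Q) * (S' * Q') +
    (-1925 / 1492992) * (T * Q) * (S' ^ 2 * T') +
    (2675 / 1119744) * (T * Q) * (T' * Q')

/-- the value of the average of the second polynomial in terms of the invariants -/
noncomputable def formKB (S T Q S' T' Q' : ℝ) : ℝ :=
    1 * (1) * (T') +
    (-533 / 4096) * (1) * (S' ^ 2) +
    (-451 / 4096) * (1) * (Q') +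
    (133 / 4096) * (1) * (S' * T') +
    (146299 / 393216) * (S) * (S') +
    (-8845 / 12288) * (S) * (T') +
    (349117 / 1572864) * (S) * (S' ^ 2) +
    (-12007 / 24576) * (S) * (Q') +
    (512929 / 2359296) * (S) * (S' * T') +
    (-3981 / 2097152) * (S) * (S' ^ 3) +
    (-133 / 6144) * (S) * (T' ^ 2) +
    (-47891 / 1048576) * (S) * (S' * Q') +
    (3131 / 524288) * (S) * (S' ^ 2 * T') +
    1 * (T) * (1) +
    (-8845 / 12288) * (T) * (S') +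
    (-97687 / 393216) * (T) * (T') +
    (-27269 / 262144) * (T) * (S' ^ 2) +
    (48133 / 65536) * (T) * (Q') +
    (62317 / 4718592) * (T) * (S' * T') +
    (25455 / 1048576) * (T) * (S' ^ 3) +
    (7955 / 524288) * (T) * (T' ^ 2) +
    (-33967 / 262144) * (T) * (S' * Q') +
    (-19397 / 6291456) * (T) * (S' ^ 2 * T') +
    (3447 / 131072) * (T) * (T' * Q') +
    (-533 / 4096) * (S ^ 2) * (1) +
    (349117 / 1572864) * (S ^ 2) * (S') +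
    (-27269 / 262144) * (S ^ 2) * (T') +
    (-1213247 / 3145728) * (S ^ 2) * (S' ^ 2) +
    (473029 / 786432) * (S ^ 2) * (Q') +
    (222247 / 9437184) * (S ^ 2) * (S' * T') +
    (3860005 / 67108864) * (S ^ 2) * (S' ^ 3) +
    (-337299 / 8388608) * (S ^ 2) * (T' ^ 2) +
    (-1284553 / 16777216) * (S ^ 2) * (S' * Q') +
    (-3413209 / 100663296) * (S ^ 2) * (S' ^ 2 * T') +
    (484023 / 8388608) * (S ^ 2) * (T' * Q') +
    (-451 / 4096) * (Q) * (1) +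
    (-12007 / 24576) * (Q) * (S') +
    (48133 / 65536) * (Q) * (T') +
    (473029 / 786432) * (Q) * (S' ^ 2) +
    (-194287 / 196608) * (Q) * (Q') +
    (-73027 / 393216) * (Q) * (S' * T') +
    (-1762857 / 16777216) * (Q) * (S' ^ 3) +
    (122279 / 2097152) * (Q) * (T' ^ 2) +
    (2645959 / 12582912) * (Q) * (S' * Q') +
    (3452183 / 75497472) * (Q) * (S' ^ 2 * T') +
    (-1718771 / 18874368) * (Q) * (T' * Q') +
    (133 / 4096) * (S * T) * (1) +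
    (512929 / 2359296) * (S * T) * (S') +
    (62317 / 4718592) * (S * T) * (T') +
    (222247 / 9437184) * (S * T) * (S' ^ 2) +
    (-73027 / 393216) * (S * T) * (Q') +
    (-8575589 / 113246208) * (S * T) * (S' * T') +
    (-289517 / 18874368) * (S * T) * (S' ^ 3) +
    (2065249 / 56623104) * (S * T) * (T' ^ 2) +
    (9245 / 147456) * (S * T) * (S' * Q') +
    (969391 / 56623104) * (S * T) * (S' ^ 2 * T') +
    (-199811 / 4718592) * (S * T) * (T' * Q') +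
    (-3981 / 2097152) * (S ^ 3) * (S') +
    (25455 / 1048576) * (S ^ 3) * (T') +
    (3860005 / 67108864) * (S ^ 3) * (S' ^ 2) +
    (-1762857 / 16777216) * (S ^ 3) * (Q') +
    (-289517 / 18874368) * (S ^ 3) * (S' * T') +
    (-27620831 / 1610612736) * (S ^ 3) * (S' ^ 3) +
    (4712095 / 1207959552) * (S ^ 3) * (T' ^ 2) +
    (14116991 / 402653184) * (S ^ 3) * (S' * Q') +
    (2109185 / 402653184) * (S ^ 3) * (S' ^ 2 * T') +
    (-3238015 / 301989888) * (S ^ 3) * (T' * Q') +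
    (-133 / 6144) * (T ^ 2) * (S') +
    (7955 / 524288) * (T ^ 2) * (T') +
    (-337299 / 8388608) * (T ^ 2) * (S' ^ 2) +
    (122279 / 2097152) * (T ^ 2) * (Q') +
    (2065249 / 56623104) * (T ^ 2) * (S' * T') +
    (4712095 / 1207959552) * (T ^ 2) * (S' ^ 3) +
    (-39913589 / 905969664) * (T ^ 2) * (T' ^ 2) +
    (280361 / 301989888) * (T ^ 2) * (S' * Q') +
    (-1686851 / 75497472) * (T ^ 2) * (S' ^ 2 * T') +
    (2390105 / 56623104) * (T ^ 2) * (T' * Q') +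
    (-47891 / 1048576) * (S * Q) * (S') +
    (-33967 / 262144) * (S * Q) * (T') +
    (-1284553 / 16777216) * (S * Q) * (S' ^ 2) +
    (2645959 / 12582912) * (S * Q) * (Q') +
    (9245 / 147456) * (S * Q) * (S' * T') +
    (14116991 / 402653184) * (S * Q) * (S' ^ 3) +
    (280361 / 301989888) * (S * Q) * (T' ^ 2) +
    (-10005415 / 100663296) * (S * Q) * (S' * Q') +
    (-900463 / 301989888) * (S * Q) * (S' ^ 2 * T') +
    (350833 / 25165824) * (S * Q) * (T' * Q') +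
    (3131 / 524288) * (S ^ 2 * T) * (S') +
    (-19397 / 6291456) * (S ^ 2 * T) * (T') +
    (-3413209 / 100663296) * (S ^ 2 * T) * (S' ^ 2) +
    (3452183 / 75497472) * (S ^ 2 * T) * (Q') +
    (969391 / 56623104) * (S ^ 2 * T) * (S' * T') +
    (2109185 / 402653184) * (S ^ 2 * T) * (S' ^ 3) +
    (-1686851 / 75497472) * (S ^ 2 * T) * (T' ^ 2) +
    (-900463 / 301989888) * (S ^ 2 * T) * (S' * Q') +
    (-12970621 / 1073741824) * (S ^ 2 * T) * (S' ^ 2 * T') +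
    (160697531 / 7247757312) * (S ^ 2 * T) * (T' * Q') +
    (3447 / 131072) * (T * Q) * (T') +
    (484023 / 8388608) * (T * Q) * (S' ^ 2) +
    (-1718771 / 18874368) * (T * Q) * (Q') +
    (-199811 / 4718592) * (T * Q) * (S' * T') +
    (-3238015 / 301989888) * (T * Q) * (S' ^ 3) +
    (2390105 / 56623104) * (T * Q) * (T' ^ 2) +
    (350833 / 25165824) * (T * Q) * (S' * Q') +
    (160697531 / 7247757312) * (T * Q) * (S' ^ 2 * T') +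
    (-25624693 / 603979776) * (T * Q) * (T' * Q')

theorem avg24_add (F G : ℝ → ℝ → ℝ → ℝ → ℝ) (a0 a1 a2 a3 b0 b1 b2 b3 : ℝ) :
    avg24 (fun x0 x1 x2 x3 => F x0 x1 x2 x3 + G x0 x1 x2 x3) a0 a1 a2 a3 b0 b1 b2 b3
      = avg24 F a0 a1 a2 a3 b0 b1 b2 b3 + avg24 G a0 a1 a2 a3 b0 b1 b2 b3 := by
  unfold avg24
  ring

theorem avg24_smul (c : ℝ) (F : ℝ → ℝ → ℝ → ℝ → ℝ) (a0 a1 a2 a3 b0 b1 b2 b3 : ℝ) :
    avg24 (fun x0 x1 x2 x3 => c * F x0 x1 x2 x3) a0 a1 a2 a3 b0 b1 b2 b3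
      = c * avg24 F a0 a1 a2 a3 b0 b1 b2 b3 := by
  unfold avg24
  ring

theorem avg_polyA_lin (a0 a1 a2 a3 b0 b1 b2 b3 : ℝ) :
    avg24 polyA a0 a1 a2 a3 b0 b1 b2 b3 = 3 * avg24 mb1000 a0 a1 a2 a3 b0 b1 b2 b3 + (-92 / 9) * avg24 mb1100 a0 a1 a2 a3 b0 b1 b2 b3 + (871 / 162) * avg24 mb2100 a0 a1 a2 a3 b0 b1 b2 b3 + (871 / 54) * avg24 mb1110 a0 a1 a2 a3 b0 b1 b2 b3 + (-241 / 162) * avg24 mb3100 a0 a1 a2 a3 b0 b1 b2 b3 + (-241 / 81) * avg24 mb2200 a0 a1 a2 a3 b0 b1 b2 b3 + (-1205 / 162) * avg24 mb2110 a0 a1 a2 a3 b0 b1 b2 b3 + (-482 / 27) * avg24 mb1111 a0 a1 a2 a3 b0 b1 b2 b3 + (197 / 864) * avg24 mb4100 a0 a1 a2 a3 b0 b1 b2 b3 + (197 / 288) * avg24 mb3200 a0 a1 a2 a3 b0 b1 b2 b3 + (1379 / 864) * avg24 mb3110 a0 a1 a2 a3 b0 b1 b2 b3 + (197 / 72) * avg24 mb2210 a0 a1 a2 a3 b0 b1 b2 b3 + (197 / 32) * avg24 mb2111 a0 a1 a2 a3 b0 b1 b2 b3 + (-95 / 5184) * avg24 mb5100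 a0 a1 a2 a3 b0 b1 b2 b3 + (-95 / 1296) * avg24 mb4200 a0 a1 a2 a3 b0 b1 b2 b3 + (-95 / 576) * avg24 mb4110 a0 a1 a2 a3 b0 b1 b2 b3 + (-95 / 864) * avg24 mb3300 a0 a1 a2 a3 b0 b1 b2 b3 + (-1045 / 2592) * avg24 mb3210 a0 a1 a2 a3 b0 b1 b2 b3 + (-95 / 108) * avg24 mb3111 a0 a1 a2 a3 b0 b1 b2 b3 + (-95 / 144) * avg24 mb2220 a0 a1 a2 a3 b0 b1 b2 b3 + (-1235 / 864) * avg24 mb2211 a0 a1 a2 a3 b0 b1 b2 b3 + (25 / 41472) * avg24 mb6100 a0 a1 a2 a3 b0 b1 b2 b3 + (125 / 41472) * avg24 mb5200 a0 a1 a2 a3 b0 b1 b2 b3 + (275 / 41472) * avg24 mb5110 a0 a1 a2 a3 b0 b1 b2 b3 + (125 / 20736) * avg24 mb4300 a0 a1 a2 a3 b0 b1 b2 b3 + (875 / 41472) * avg24 mb4210 a0 a1 a2 a3 b0 b1 b2 b3 + (625 / 13824) * avg24 mb4111 a0 a1 a2 a3 b0 b1 b2 b3 + (625 / 20736) * avg24 mb3310 a0 a1 a2 a3 b0 b1 b2 b3 + (125 / 2592) * avg24 mb3220 a0 a1 a2 a3 b0 b1 b2 b3 + (2125 / 20736) * avg24 mb3211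 a0 a1 a2 a3 b0 b1 b2 b3 + (125 / 768) * avg24 mb2221 a0 a1 a2 a3 b0 b1 b2 b3 := by
  have e : polyA = fun x0 x1 x2 x3 => 3 * mb1000 x0 x1 x2 x3 + (-92 / 9) * mb1100 x0 x1 x2 x3 + (871 / 162) * mb2100 x0 x1 x2 x3 + (871 / 54) * mb1110 x0 x1 x2 x3 + (-241 / 162) * mb3100 x0 x1 x2 x3 + (-241 / 81) * mb2200 x0 x1 x2 x3 + (-1205 / 162) * mb2110 x0 x1 x2 x3 + (-482 / 27) * mb1111 x0 x1 x2 x3 + (197 / 864) * mb4100 x0 x1 x2 x3 + (197 / 288) * mb3200 x0 x1 x2 x3 + (1379 / 864) * mb3110 x0 x1 x2 x3 + (197 / 72) * mb2210 x0 x1 x2 x3 + (197 / 32) * mb2111 x0 x1 x2 x3 + (-95 / 5184) * mb5100 x0 x1 x2 x3 + (-95 / 1296) * mb4200 x0 x1 x2 x3 + (-95 / 576) * mb4110 x0 x1 x2 x3 + (-95 / 864) * mb3300 x0 x1 x2 x3 + (-1045 / 2592) * mb3210 x0 x1 x2 x3 + (-95 / 108) * mb3111 x0 x1 x2 x3 + (-95 / 144) * mb2220 x0 x1 x2 x3 + (-1235 / 864) * mb2211 x0 x1 x2 x3 + (25 / 41472) * mb6100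 x0 x1 x2 x3 + (125 / 41472) * mb5200 x0 x1 x2 x3 + (275 / 41472) * mb5110 x0 x1 x2 x3 + (125 / 20736) * mb4300 x0 x1 x2 x3 + (875 / 41472) * mb4210 x0 x1 x2 x3 + (625 / 13824) * mb4111 x0 x1 x2 x3 + (625 / 20736) * mb3310 x0 x1 x2 x3 + (125 / 2592) * mb3220 x0 x1 x2 x3 + (2125 / 20736) * mb3211 x0 x1 x2 x3 + (125 / 768) * mb2221 x0 x1 x2 x3 := by
    funext x0 x1 x2 x3
    exact polyA_eq x0 x1 x2 x3
  rw [e]
  simp only [avg24_add, avg24_smul]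

theorem avg_polyA {a0 a1 a2 a3 b0 b1 b2 b3 : ℝ} (ha : a0 + a1 + a2 + a3 = 4) (hb : b0 + b1 + b2 + b3 = 4) :
    avg24 polyA a0 a1 a2 a3 b0 b1 b2 b3 = formKA (sS a0 a1 a2 a3) (sT a0 a1 a2 a3) (sQ a0 a1 a2 a3) (sS b0 b1 b2 b3) (sT b0 b1 b2 b3) (sQ b0 b1 b2 b3) := by
  rw [avg_polyA_lin]
  simp only [avg_mb1000, avg_mb1100, avg_mb2100, avg_mb1110, avg_mb3100, avg_mb2200, avg_mb2110, avg_mb1111, avg_mb4100, avg_mb3200, avg_mb3110, avg_mb2210, avg_mb2111, avg_mb5100, avg_mb4200, avg_mb4110, avg_mb3300, avg_mb3210, avg_mb3111, avg_mb2220, avg_mb2211, avg_mb6100, avg_mb5200, avg_mb5110, avg_mb4300, avg_mb4210, avg_mb4111, avg_mb3310, avg_mb3220, avg_mb3211, avg_mb2221]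
  simp only [mb1000_eq ha, mb1000_eq hb, mb1100_eq ha, mb1100_eq hb, mb2100_eq ha, mb2100_eq hb, mb1110_eq ha, mb1110_eq hb, mb3100_eq ha, mb3100_eq hb, mb2200_eq ha, mb2200_eq hb, mb2110_eq ha, mb2110_eq hb, mb1111_eq ha, mb1111_eq hb, mb4100_eq ha, mb4100_eq hb, mb3200_eq ha, mb3200_eq hb, mb3110_eq ha, mb3110_eq hb, mb2210_eq ha, mb2210_eq hb, mb2111_eq ha, mb2111_eq hb, mb5100_eq ha, mb5100_eq hb, mb4200_eq ha, mb4200_eq hb, mb4110_eq ha, mb4110_eq hb, mb3300_eq ha, mb3300_eq hb, mb3210_eq ha, mb3210_eq hb, mb3111_eq ha, mb3111_eq hb, mb2220_eq ha, mb2220_eq hb, mb2211_eq ha, mb2211_eq hb, mb6100_eq ha, mb6100_eq hb, mb5200_eq ha, mb5200_eq hb, mb5110_eq ha, mb5110_eq hb, mb4300_eq ha, mb4300_eq hb, mb4210_eq ha, mb4210_eq hb, mb4111_eq ha, mb4111_eq hb, mb3310_eq ha, mb3310_eq hb, mb3220_eq ha, mb3220_eq hb, mb3211_eq ha, mb3211_eq hb, mb2221_eq ha, mb2221_eq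 hb]
  simp only [formKA]
  ring

theorem avg_polyB_lin (a0 a1 a2 a3 b0 b1 b2 b3 : ℝ) :
    avg24 polyB a0 a1 a2 a3 b0 b1 b2 b3 = (-30919 / 16384) * avg24 mb0000 a0 a1 a2 a3 b0 b1 b2 b3 + (141633 / 32768) * avg24 mb1000 a0 a1 a2 a3 b0 b1 b2 b3 + (-271575 / 131072) * avg24 mb2000 a0 a1 a2 a3 b0 b1 b2 b3 + (-1124659 / 65536) * avg24 mb1100 a0 a1 a2 a3 b0 b1 b2 b3 + (771701 / 1048576) * avg24 mb3000 a0 a1 a2 a3 b0 b1 b2 b3 + (11623775 / 1048576) * avg24 mb2100 a0 a1 a2 a3 b0 b1 b2 b3 + (9134943 / 524288) * avg24 mb1110 a0 a1 a2 a3 b0 b1 b2 b3 + (-288489 / 2097152) * avg24 mb4000 a0 a1 a2 a3 b0 b1 b2 b3 + (-1501121 / 524288) * avg24 mb3100 a0 a1 a2 a3 b0 b1 b2 b3 + (-9007579 / 1048576) * avg24 mb2200 a0 a1 a2 a3 b0 b1 b2 b3 + (1139669 / 524288) * avg24 mb2110 a0 a1 a2 a3 b0 b1 b2 b3 + (11010101 / 262144) * avg24 mb1111 a0 a1 a2 a3 b0 b1 b2 b3 + (111597 / 8388608)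 * avg24 mb5000 a0 a1 a2 a3 b0 b1 b2 b3 + (2760161 / 8388608) * avg24 mb4100 a0 a1 a2 a3 b0 b1 b2 b3 + (9050049 / 4194304) * avg24 mb3200 a0 a1 a2 a3 b0 b1 b2 b3 + (-6986231 / 2097152) * avg24 mb3110 a0 a1 a2 a3 b0 b1 b2 b3 + (-36815869 / 4194304) * avg24 mb2210 a0 a1 a2 a3 b0 b1 b2 b3 + (-90192421 / 2097152) * avg24 mb2111 a0 a1 a2 a3 b0 b1 b2 b3 + (-42343 / 67108864) * avg24 mb6000 a0 a1 a2 a3 b0 b1 b2 b3 + (-512509 / 33554432) * avg24 mb5100 a0 a1 a2 a3 b0 b1 b2 b3 + (-14565449 / 67108864) * avg24 mb4200 a0 a1 a2 a3 b0 b1 b2 b3 + (21726671 / 33554432) * avg24 mb4110 a0 a1 a2 a3 b0 b1 b2 b3 + (-6791387 / 16777216) * avg24 mb3300 a0 a1 a2 a3 b0 b1 b2 b3 + (46144303 / 16777216) * avg24 mb3210 a0 a1 a2 a3 b0 b1 b2 b3 + (91357991 / 8388608) * avg24 mb3111 a0 a1 a2 a3 b0 b1 b2 b3 + (229111941 / 33554432) * avg24 mb2220 a0 a1 a2 a3 b0 b1 b2 b3 + (373674573 / 16777216)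 * avg24 mb2211 a0 a1 a2 a3 b0 b1 b2 b3 + (3117 / 268435456) * avg24 mb7000 a0 a1 a2 a3 b0 b1 b2 b3 + (44411 / 268435456) * avg24 mb6100 a0 a1 a2 a3 b0 b1 b2 b3 + (1963505 / 268435456) * avg24 mb5200 a0 a1 a2 a3 b0 b1 b2 b3 + (-4697039 / 134217728) * avg24 mb5110 a0 a1 a2 a3 b0 b1 b2 b3 + (5690279 / 268435456) * avg24 mb4300 a0 a1 a2 a3 b0 b1 b2 b3 + (-61476043 / 268435456) * avg24 mb4210 a0 a1 a2 a3 b0 b1 b2 b3 + (-109362827 / 134217728) * avg24 mb4111 a0 a1 a2 a3 b0 b1 b2 b3 + (-26018777 / 67108864) * avg24 mb3310 a0 a1 a2 a3 b0 b1 b2 b3 + (-123300491 / 134217728) * avg24 mb3220 a0 a1 a2 a3 b0 b1 b2 b3 + (-178479307 / 67108864) * avg24 mb3211 a0 a1 a2 a3 b0 b1 b2 b3 + (-693046497 / 134217728) * avg24 mb2221 a0 a1 a2 a3 b0 b1 b2 b3 := by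
  have e : polyB = fun x0 x1 x2 x3 => (-30919 / 16384) * mb0000 x0 x1 x2 x3 + (141633 / 32768) * mb1000 x0 x1 x2 x3 + (-271575 / 131072) * mb2000 x0 x1 x2 x3 + (-1124659 / 65536) * mb1100 x0 x1 x2 x3 + (771701 / 1048576) * mb3000 x0 x1 x2 x3 + (11623775 / 1048576) * mb2100 x0 x1 x2 x3 + (9134943 / 524288) * mb1110 x0 x1 x2 x3 + (-288489 / 2097152) * mb4000 x0 x1 x2 x3 + (-1501121 / 524288) * mb3100 x0 x1 x2 x3 + (-9007579 / 1048576) * mb2200 x0 x1 x2 x3 + (1139669 / 524288) * mb2110 x0 x1 x2 x3 + (11010101 / 262144) * mb1111 x0 x1 x2 x3 + (111597 / 8388608) * mb5000 x0 x1 x2 x3 + (2760161 / 8388608) * mb4100 x0 x1 x2 x3 + (9050049 / 4194304) * mb3200 x0 x1 x2 x3 + (-6986231 / 2097152) * mb3110 x0 x1 x2 x3 + (-36815869 / 4194304) * mb2210 x0 x1 x2 x3 + (-90192421 / 2097152) * mb2111 x0 x1 x2 x3 + (-42343 / 67108864) * mb6000 x0 x1 x2 x3 + (-512509 / 33554432)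 * mb5100 x0 x1 x2 x3 + (-14565449 / 67108864) * mb4200 x0 x1 x2 x3 + (21726671 / 33554432) * mb4110 x0 x1 x2 x3 + (-6791387 / 16777216) * mb3300 x0 x1 x2 x3 + (46144303 / 16777216) * mb3210 x0 x1 x2 x3 + (91357991 / 8388608) * mb3111 x0 x1 x2 x3 + (229111941 / 33554432) * mb2220 x0 x1 x2 x3 + (373674573 / 16777216) * mb2211 x0 x1 x2 x3 + (3117 / 268435456) * mb7000 x0 x1 x2 x3 + (44411 / 268435456) * mb6100 x0 x1 x2 x3 + (1963505 / 268435456) * mb5200 x0 x1 x2 x3 + (-4697039 / 134217728) * mb5110 x0 x1 x2 x3 + (5690279 / 268435456) * mb4300 x0 x1 x2 x3 + (-61476043 / 268435456) * mb4210 x0 x1 x2 x3 + (-109362827 / 134217728) * mb4111 x0 x1 x2 x3 + (-26018777 / 67108864) * mb3310 x0 x1 x2 x3 + (-123300491 / 134217728) * mb3220 x0 x1 x2 x3 + (-178479307 / 67108864) * mb3211 x0 x1 x2 x3 + (-693046497 / 134217728) * mb2221 x0 x1 x2 x3 := by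
    funext x0 x1 x2 x3
    exact polyB_eq x0 x1 x2 x3
  rw [e]
  simp only [avg24_add, avg24_smul]

theorem avg_polyB {a0 a1 a2 a3 b0 b1 b2 b3 : ℝ} (ha : a0 + a1 + a2 + a3 = 4) (hb : b0 + b1 + b2 + b3 = 4) :
    avg24 polyB a0 a1 a2 a3 b0 b1 b2 b3 = formKB (sS a0 a1 a2 a3) (sT a0 a1 a2 a3) (sQ a0 a1 a2 a3) (sS b0 b1 b2 b3) (sT b0 b1 b2 b3) (sQ b0 b1 b2 b3) := by
  rw [avg_polyB_lin]
  simp only [avg_mb0000, avg_mb1000, avg_mb2000, avg_mb1100, avg_mb3000, avg_mb2100, avg_mb1110, avg_mb4000, avg_mb3100, avg_mb2200, avg_mb2110, avg_mb1111, avg_mb5000, avg_mb4100, avg_mb3200, avg_mb3110, avg_mb2210, avg_mb2111, avg_mb6000, avg_mb5100, avg_mb4200, avg_mb4110, avg_mb3300, avg_mb3210, avg_mb3111, avg_mb2220, avg_mb2211, avg_mb7000, avg_mb6100, avg_mb5200, avg_mb5110, avg_mb4300, avg_mb4210, avg_mb4111, avg_mb3310, avg_mb3220, avg_mb3211, avg_mb2221]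
  simp only [mb0000_eq ha, mb0000_eq hb, mb1000_eq ha, mb1000_eq hb, mb2000_eq ha, mb2000_eq hb, mb1100_eq ha, mb1100_eq hb, mb3000_eq ha, mb3000_eq hb, mb2100_eq ha, mb2100_eq hb, mb1110_eq ha, mb1110_eq hb, mb4000_eq ha, mb4000_eq hb, mb3100_eq ha, mb3100_eq hb, mb2200_eq ha, mb2200_eq hb, mb2110_eq ha, mb2110_eq hb, mb1111_eq ha, mb1111_eq hb, mb5000_eq ha, mb5000_eq hb, mb4100_eq ha, mb4100_eq hb, mb3200_eq ha, mb3200_eq hb, mb3110_eq ha, mb3110_eq hb, mb2210_eq ha, mb2210_eq hb, mb2111_eq ha, mb2111_eq hb, mb6000_eq ha, mb6000_eq hb, mb5100_eq ha, mb5100_eq hb, mb4200_eq ha, mb4200_eq hb, mb4110_eq ha, mb4110_eq hb, mb3300_eq ha, mb3300_eq hb, mb3210_eq ha, mb3210_eq hb, mb3111_eq ha, mb3111_eq hb, mb2220_eq ha, mb2220_eq hb, mb2211_eq ha, mb2211_eq hb, mb7000_eq ha, mb7000_eq hb, mb6100_eq ha, mb6100_eq hb, mb5200_eq ha, mb5200_eq hb, mb5110_eq ha, mb5110_eq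 hb, mb4300_eq ha, mb4300_eq hb, mb4210_eq ha, mb4210_eq hb, mb4111_eq ha, mb4111_eq hb, mb3310_eq ha, mb3310_eq hb, mb3220_eq ha, mb3220_eq hb, mb3211_eq ha, mb3211_eq hb, mb2221_eq ha, mb2221_eq hb]
  simp only [formKB]
  ring

/-- the weight in the first inequality -/
noncomputable def xiF (S T Q : ℝ) : ℝ := (1 / 6) * (S) + (-1 / 48) * (T) + (2199 / 262144) * (S ^ 2) + (-5877 / 131072) * (Q) + (107 / 16384) * (S * T) + (69 / 65536) * (S ^ 3) + (-599 / 262144) * (T ^ 2) + (-157 / 131072) * (S * Q)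

/-- the weight in the second inequality -/
noncomputable def afF (S T Q : ℝ) : ℝ := 1 - ((113947 / 262144) * (S) + (-3093 / 131072) * (T) + (35331 / 131072) * (S ^ 2) + (-200797 / 262144) * (Q) + (36503 / 262144) * (S * T) + (-10519 / 131072) * (S ^ 3) + (-18417 / 262144) * (T ^ 2) + (20899 / 131072) * (S * Q))

/-- the invariant -/
noncomputable def phF (S T Q : ℝ) : ℝ := T - (533 / 4096) * S ^ 2 - (451 / 4096) * Q + (133 / 4096) * S * T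

/-- the identity behind the first inequality -/
theorem bridgeA (S τ q S' τ' q' : ℝ) :
    formKA S (S * (τ - 1)) (S * ((q - 24 * τ - 40) / 12)) S' (S' * (τ' - 1)) (S' * ((q' - 24 * τ' - 40) / 12)) =
      S + S' - xiF S' (S' * (τ' - 1)) (S' * ((q' - 24 * τ' - 40) / 12)) * phF S (S * (τ - 1)) (S * ((q - 24 * τ - 40) / 12)) - xiF S (S * (τ - 1)) (S * ((q - 24 * τ - 40) / 12)) * phF S' (S' * (τ' - 1)) (S' * ((q' - 24 * τ' - 40) / 12))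
        - (1 / 16384) * (S ^ 2 * S' + S * S' ^ 2)
        - S * S' * (dotR (bRA (ptF S τ q)) (ptF S' τ' q') / 169075682574336) := by
  simp only [formKA, xiF, phF, dotR, bRA, ptF]
  ring

/-- the identity behind the second inequality -/
theorem bridgeB (S τ q S' τ' q' : ℝ) :
    formKB S (S * (τ - 1)) (S * ((q - 24 * τ - 40) / 12)) S' (S' * (τ' - 1)) (S' * ((q' - 24 * τ' - 40) / 12)) =
      afF S' (S' * (τ' - 1)) (S' * ((q' - 24 * τ' - 40) / 12)) * phF S (S * (τ - 1)) (S * ((q - 24 * τ - 40) / 12)) + afF S (S * (τ - 1)) (S * ((q - 24 * τ - 40) / 12)) * phF S' (S' * (τ' - 1)) (S' * ((q' - 24 * τ' - 40) / 12))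
        + S * S' * (dotR (bRB (ptF S τ q)) (ptF S' τ' q') / 695784701952) := by
  simp only [formKB, afF, phF, dotR, bRB, ptF]
  ring

/-- the identity behind the third inequality -/
theorem bridgeI (D S τ q : ℝ) :
    D * phF S (S * (τ - 1)) (S * ((q - 24 * τ - 40) / 12)) - pbC D (D ^ 2 * (6 - S / 2)) (D ^ 3 * (4 - S + S * (τ - 1) / 3))
      (D ^ 4 * (1 - S / 2 + S * (τ - 1) / 3 + S ^ 2 / 8 - S * ((q - 24 * τ - 40) / 12) / 4))
      = (D - 1) ^ 2 * (dotR (bRI (ptF S τ q)) (ptD D) / 786432) := by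
  simp only [phF, pbC, rBf, dotR, bRI, ptF, ptD]
  ring

end Vale.Agent.Lib.P154Q5
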